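import Vale.Agent.Snaky.Cert2.Lem

namespace Vale.Agent.Snaky.Cert2.R1003

open Vale.Agent.Snaky

noncomputable def n0 : Strat := .win 716 7 716
noncomputable def n1 : Strat := .win 718 3 717
noncomputable def n2 : Strat := .win 800 3 758
noncomputable def n3 : Strat := .win 798 7 757
noncomputable def n4 : Strat := .move 922 n2 (.cons 800 n3 .nil)
noncomputable def n5 : Strat := .move 759 n1 (.cons 718 n4 .nil)
noncomputable def n6 : Strat := .move 757 n0 (.cons 716 n5 .nil)
noncomputable def n7 : Strat := .win 880 1 757
noncomputable def n8 : Strat := .win 962 1 798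
noncomputable def n9 : Strat := .move 921 n7 (.cons 880 n8 .nil)
noncomputable def n10 : Strat := .move 922 n2 (.cons 800 n9 .nil)
noncomputable def n11 : Strat := .move 759 n1 (.cons 718 n10 .nil)
noncomputable def n12 : Strat := .win 882 6 758
noncomputable def n13 : Strat := .win 964 6 799
noncomputable def n14 : Strat := .move 923 n12 (.cons 882 n13 .nil)
noncomputable def n15 : Strat := .move 922 n3 (.cons 798 n14 .nil)
noncomputable def n16 : Strat := .move 757 n0 (.cons 716 n15 .nil)
noncomputable def n17 : Strat := .win 921 1 757
noncomputable def n18 : Strat := .win 717 1 716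
noncomputable def n19 : Strat := .win 923 6 758
noncomputable def n20 : Strat := .win 837 0 837
noncomputable def n21 : Strat := .win 883 2 838
noncomputable def n22 : Strat := .move 838 n20 (.cons 837 n21 .nil)
noncomputable def n23 : Strat := .move 882 n19 (.cons 923 n22 .nil)
noncomputable def n24 : Strat := .move 839 n18 (.cons 717 n23 .nil)
noncomputable def n25 : Strat := .move 880 n17 (.cons 921 n24 .nil)
noncomputable def n26 : Strat := .move 759 n1 (.cons 718 n25 .nil)
noncomputable def n27 : Strat := .move 757 n0 (.cons 716 n26 .nil)
noncomputable def n28 : Strat := .move 758 n6 (.cons 757 n11 (.cons 759 n16 (.cons 922 n27 .nil)))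
noncomputable def n29 : Strat := .win 757 7 757
noncomputable def n30 : Strat := .win 759 3 758
noncomputable def n31 : Strat := .win 963 7 798
noncomputable def n32 : Strat := .win 801 4 797
noncomputable def n33 : Strat := .win 837 5 796
noncomputable def n34 : Strat := .move 838 n32 (.cons 801 n33 .nil)
noncomputable def n35 : Strat := .move 839 n31 (.cons 963 n34 .nil)
noncomputable def n36 : Strat := .move 800 n30 (.cons 759 n35 .nil)
noncomputable def n37 : Strat := .move 798 n29 (.cons 757 n36 .nil)
noncomputable def n38 : Strat := .move 759 n1 (.cons 718 n2 .nil)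
noncomputable def n39 : Strat := .move 758 n12 (.cons 882 n38 .nil)
noncomputable def n40 : Strat := .move 923 n13 (.cons 964 n39 .nil)
noncomputable def n41 : Strat := .move 757 n0 (.cons 716 n3 .nil)
noncomputable def n42 : Strat := .move 758 n12 (.cons 882 n41 .nil)
noncomputable def n43 : Strat := .move 923 n13 (.cons 964 n42 .nil)
noncomputable def n44 : Strat := .move 922 n37 (.cons 798 n40 (.cons 800 n43 .nil))
noncomputable def n45 : Strat := .win 758 1 757
noncomputable def n46 : Strat := .win 878 0 878
noncomputable def n47 : Strat := .win 924 2 879
noncomputable def n48 : Strat := .move 879 n46 (.cons 878 n47 .nil)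
noncomputable def n49 : Strat := .move 880 n45 (.cons 758 n48 .nil)
noncomputable def n50 : Strat := .move 921 n8 (.cons 962 n49 .nil)
noncomputable def n51 : Strat := .move 923 n13 (.cons 964 n50 .nil)
noncomputable def n52 : Strat := .move 800 n30 (.cons 759 n34 .nil)
noncomputable def n53 : Strat := .move 839 n31 (.cons 963 n52 .nil)
noncomputable def n54 : Strat := .move 798 n29 (.cons 757 n53 .nil)
noncomputable def n55 : Strat := .move 922 n51 (.cons 962 n43 (.cons 758 n54 .nil))
noncomputable def n56 : Strat := .move 758 n7 (.cons 880 n12 .nil)
noncomputable def n57 : Strat := .move 921 n8 (.cons 962 n56 .nil)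
noncomputable def n58 : Strat := .move 923 n13 (.cons 964 n57 .nil)
noncomputable def n59 : Strat := .move 758 n7 (.cons 880 n41 .nil)
noncomputable def n60 : Strat := .move 921 n8 (.cons 962 n59 .nil)
noncomputable def n61 : Strat := .win 839 7 798
noncomputable def n62 : Strat := .win 923 6 799
noncomputable def n63 : Strat := .win 1005 6 840
noncomputable def n64 : Strat := .move 964 n62 (.cons 923 n63 .nil)
noncomputable def n65 : Strat := .move 963 n61 (.cons 839 n64 .nil)
noncomputable def n66 : Strat := .move 798 n29 (.cons 757 n65 .nil)
noncomputable def n67 : Strat := .move 922 n43 (.cons 716 n58 (.cons 964 n60 (.cons 758 n66 .nil)))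
noncomputable def n68 : Strat := .move 758 n7 (.cons 880 n38 .nil)
noncomputable def n69 : Strat := .move 921 n8 (.cons 962 n68 .nil)
noncomputable def n70 : Strat := .move 922 n51 (.cons 924 n69 (.cons 962 n40 (.cons 758 n54 .nil)))
noncomputable def n71 : Strat := .move 923 n13 (.cons 964 n48 .nil)
noncomputable def n72 : Strat := .move 880 n45 (.cons 758 n71 .nil)
noncomputable def n73 : Strat := .move 921 n8 (.cons 962 n72 .nil)
noncomputable def n74 : Strat := .move 839 n31 (.cons 963 n73 .nil)
noncomputable def n75 : Strat := .move 798 n29 (.cons 757 n74 .nil)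
noncomputable def n76 : Strat := .move 922 n54 (.cons 798 n69 (.cons 759 n75 .nil))
noncomputable def n77 : Strat := .win 839 1 716
noncomputable def n78 : Strat := .win 759 3 717
noncomputable def n79 : Strat := .win 677 3 676
noncomputable def n80 : Strat := .move 718 n78 (.cons 759 n79 .nil)
noncomputable def n81 : Strat := .move 717 n77 (.cons 839 n80 .nil)
noncomputable def n82 : Strat := .move 880 n17 (.cons 921 n81 .nil)
noncomputable def n83 : Strat := .win 757 7 716
noncomputable def n84 : Strat := .win 675 7 675
noncomputable def n85 : Strat := .move 716 n83 (.cons 757 n84 .nil)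
noncomputable def n86 : Strat := .move 717 n77 (.cons 839 n85 .nil)
noncomputable def n87 : Strat := .move 880 n17 (.cons 921 n86 .nil)
noncomputable def n88 : Strat := .win 755 0 755
noncomputable def n89 : Strat := .win 801 0 756
noncomputable def n90 : Strat := .move 800 n88 (.cons 755 n89 .nil)
noncomputable def n91 : Strat := .win 800 0 755
noncomputable def n92 : Strat := .win 797 4 755
noncomputable def n93 : Strat := .win 795 4 754
noncomputable def n94 : Strat := .move 796 n92 (.cons 797 n93 .nil)
noncomputable def n95 : Strat := .move 755 n91 (.cons 800 n94 .nil)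
noncomputable def n96 : Strat := .win 796 4 755
noncomputable def n97 : Strat := .win 760 4 756
noncomputable def n98 : Strat := .win 714 2 714
noncomputable def n99 : Strat := .win 839 6 674
noncomputable def n100 : Strat := .win 633 6 633
noncomputable def n101 : Strat := .move 674 n99 (.cons 839 n100 .nil)
noncomputable def n102 : Strat := .move 715 n98 (.cons 714 n101 .nil)
noncomputable def n103 : Strat := .move 798 n97 (.cons 760 n102 .nil)
noncomputable def n104 : Strat := .move 797 n96 (.cons 796 n103 .nil)
noncomputable def n105 : Strat := .move 756 n90 (.cons 801 n95 (.cons 800 n104 .nil))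
noncomputable def n106 : Strat := .move 759 n1 (.cons 718 n105 .nil)
noncomputable def n107 : Strat := .move 757 n0 (.cons 716 n106 .nil)
noncomputable def n108 : Strat := .win 798 4 756
noncomputable def n109 : Strat := .win 715 2 714
noncomputable def n110 : Strat := .win 803 0 758
noncomputable def n111 : Strat := .win 801 0 757
noncomputable def n112 : Strat := .move 802 n110 (.cons 803 n111 .nil)
noncomputable def n113 : Strat := .win 721 5 717
noncomputable def n114 : Strat := .win 719 5 716
noncomputable def n115 : Strat := .move 720 n113 (.cons 721 n114 .nil)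
noncomputable def n116 : Strat := .move 761 n112 (.cons 801 n115 .nil)
noncomputable def n117 : Strat := .move 714 n109 (.cons 715 n116 .nil)
noncomputable def n118 : Strat := .move 760 n108 (.cons 798 n117 .nil)
noncomputable def n119 : Strat := .move 797 n96 (.cons 796 n118 .nil)
noncomputable def n120 : Strat := .move 756 n90 (.cons 801 n95 (.cons 800 n119 .nil))
noncomputable def n121 : Strat := .move 759 n1 (.cons 718 n120 .nil)
noncomputable def n122 : Strat := .move 757 n0 (.cons 716 n121 .nil)
noncomputable def n123 : Strat := .move 758 n27 (.cons 757 n82 (.cons 759 n87 (.cons 717 n107 (.cons 839 n122 .nil))))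
noncomputable def n124 : Strat := .win 884 4 880
noncomputable def n125 : Strat := .win 920 5 879
noncomputable def n126 : Strat := .move 883 n124 (.cons 884 n125 .nil)
noncomputable def n127 : Strat := .move 921 n8 (.cons 962 n126 .nil)
noncomputable def n128 : Strat := .move 923 n13 (.cons 964 n127 .nil)
noncomputable def n129 : Strat := .move 800 n30 (.cons 759 n32 .nil)
noncomputable def n130 : Strat := .move 838 n20 (.cons 837 n129 .nil)
noncomputable def n131 : Strat := .move 839 n31 (.cons 963 n130 .nil)
noncomputable def n132 : Strat := .move 798 n29 (.cons 757 n131 .nil)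
noncomputable def n133 : Strat := .move 923 n13 (.cons 964 n132 .nil)
noncomputable def n134 : Strat := .win 919 5 878
noncomputable def n135 : Strat := .win 883 5 879
noncomputable def n136 : Strat := .move 920 n134 (.cons 919 n135 .nil)
noncomputable def n137 : Strat := .move 921 n8 (.cons 962 n136 .nil)
noncomputable def n138 : Strat := .move 923 n127 (.cons 884 n137 (.cons 921 n132 .nil))
noncomputable def n139 : Strat := .win 880 4 879
noncomputable def n140 : Strat := .move 920 n134 (.cons 919 n139 .nil)
noncomputable def n141 : Strat := .move 883 n124 (.cons 884 n140 .nil)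
noncomputable def n142 : Strat := .move 921 n8 (.cons 962 n141 .nil)
noncomputable def n143 : Strat := .move 882 n128 (.cons 921 n133 (.cons 964 n138 (.cons 923 n142 .nil)))
noncomputable def n144 : Strat := .move 882 n134 (.cons 919 n135 .nil)
noncomputable def n145 : Strat := .win 882 5 878
noncomputable def n146 : Strat := .win 879 2 878
noncomputable def n147 : Strat := .win 877 2 877
noncomputable def n148 : Strat := .move 878 n146 (.cons 879 n147 .nil)
noncomputable def n149 : Strat := .move 919 n145 (.cons 882 n148 .nil)
noncomputable def n150 : Strat := .win 878 2 878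
noncomputable def n151 : Strat := .win 880 2 879
noncomputable def n152 : Strat := .win 961 4 919
noncomputable def n153 : Strat := .win 967 0 922
noncomputable def n154 : Strat := .win 965 0 921
noncomputable def n155 : Strat := .move 966 n153 (.cons 967 n154 .nil)
noncomputable def n156 : Strat := .win 885 5 881
noncomputable def n157 : Strat := .win 883 5 880
noncomputable def n158 : Strat := .move 884 n156 (.cons 885 n157 .nil)
noncomputable def n159 : Strat := .move 925 n155 (.cons 965 n158 .nil)
noncomputable def n160 : Strat := .move 960 n152 (.cons 961 n159 .nil)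
noncomputable def n161 : Strat := .move 924 n151 (.cons 880 n160 .nil)
noncomputable def n162 : Strat := .move 879 n150 (.cons 878 n161 .nil)
noncomputable def n163 : Strat := .move 920 n144 (.cons 883 n149 (.cons 882 n162 .nil))
noncomputable def n164 : Strat := .move 921 n8 (.cons 962 n163 .nil)
noncomputable def n165 : Strat := .move 923 n13 (.cons 964 n164 .nil)
noncomputable def n166 : Strat := .move 922 n143 (.cons 923 n54 (.cons 838 n66 (.cons 798 n165 .nil)))
noncomputable def n167 : Strat := .move 922 n43 (.cons 758 n165 (.cons 882 n60 .nil))
noncomputable def n168 : Strat := .move 922 n54 (.cons 963 n60 (.cons 798 n69 .nil))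
noncomputable def n169 : Strat := .move 758 n12 (.cons 882 n9 .nil)
noncomputable def n170 : Strat := .move 923 n13 (.cons 964 n169 .nil)
noncomputable def n171 : Strat := .move 922 n170 (.cons 923 n69 (.cons 921 n40 (.cons 758 n165 .nil)))
noncomputable def n172 : Strat := .move 799 n28 (.cons 880 n44 (.cons 718 n55 (.cons 838 n67 (.cons 716 n70 (.cons 882 n76 (.cons 922 n123 (.cons 758 n166 (.cons 839 n167 (.cons 923 n168 (.cons 798 n171 .nil))))))))))

theorem ok : checkS n172 (pairBits 840 881) (pairBits 841 1003) ≠ 0 := by decide +kernel

theorem reply : MakerWins {cellOf 881, cellOf 840} {cellOf 841, cellOf 1003} :=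
  reply2 n172 840 881 841 1003 ok

end Vale.Agent.Snaky.Cert2.R1003
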