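import Vale.Agent.Snaky.Cert2.Lem

namespace Vale.Agent.Snaky.Cert2.R1004

open Vale.Agent.Snaky

noncomputable def n0 : Strat := .win 716 7 716
noncomputable def n1 : Strat := .win 798 7 757
noncomputable def n2 : Strat := .win 718 3 717
noncomputable def n3 : Strat := .win 800 3 758
noncomputable def n4 : Strat := .move 759 n2 (.cons 718 n3 .nil)
noncomputable def n5 : Strat := .move 922 n1 (.cons 798 n4 .nil)
noncomputable def n6 : Strat := .move 757 n0 (.cons 716 n5 .nil)
noncomputable def n7 : Strat := .win 921 1 757
noncomputable def n8 : Strat := .win 839 1 716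
noncomputable def n9 : Strat := .win 759 3 717
noncomputable def n10 : Strat := .win 677 3 676
noncomputable def n11 : Strat := .move 718 n9 (.cons 759 n10 .nil)
noncomputable def n12 : Strat := .move 717 n8 (.cons 839 n11 .nil)
noncomputable def n13 : Strat := .move 880 n7 (.cons 921 n12 .nil)
noncomputable def n14 : Strat := .win 880 1 757
noncomputable def n15 : Strat := .win 962 1 798
noncomputable def n16 : Strat := .move 921 n14 (.cons 880 n15 .nil)
noncomputable def n17 : Strat := .move 922 n1 (.cons 798 n16 .nil)
noncomputable def n18 : Strat := .move 757 n0 (.cons 716 n17 .nil)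
noncomputable def n19 : Strat := .move 758 n6 (.cons 757 n13 (.cons 759 n18 .nil))
noncomputable def n20 : Strat := .win 757 7 757
noncomputable def n21 : Strat := .win 963 7 798
noncomputable def n22 : Strat := .win 759 3 758
noncomputable def n23 : Strat := .win 801 4 797
noncomputable def n24 : Strat := .win 837 5 796
noncomputable def n25 : Strat := .move 838 n23 (.cons 801 n24 .nil)
noncomputable def n26 : Strat := .move 800 n22 (.cons 759 n25 .nil)
noncomputable def n27 : Strat := .move 839 n21 (.cons 963 n26 .nil)
noncomputable def n28 : Strat := .move 798 n20 (.cons 757 n27 .nil)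
noncomputable def n29 : Strat := .win 964 6 799
noncomputable def n30 : Strat := .win 882 6 758
noncomputable def n31 : Strat := .move 758 n30 (.cons 882 n4 .nil)
noncomputable def n32 : Strat := .move 923 n29 (.cons 964 n31 .nil)
noncomputable def n33 : Strat := .move 757 n0 (.cons 716 n1 .nil)
noncomputable def n34 : Strat := .move 758 n30 (.cons 882 n33 .nil)
noncomputable def n35 : Strat := .move 923 n29 (.cons 964 n34 .nil)
noncomputable def n36 : Strat := .move 922 n28 (.cons 798 n32 (.cons 800 n35 .nil))
noncomputable def n37 : Strat := .move 923 n30 (.cons 882 n29 .nil)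
noncomputable def n38 : Strat := .move 922 n3 (.cons 800 n37 .nil)
noncomputable def n39 : Strat := .move 759 n2 (.cons 718 n38 .nil)
noncomputable def n40 : Strat := .win 716 7 675
noncomputable def n41 : Strat := .win 634 7 634
noncomputable def n42 : Strat := .win 718 3 676
noncomputable def n43 : Strat := .win 636 3 635
noncomputable def n44 : Strat := .move 677 n42 (.cons 718 n43 .nil)
noncomputable def n45 : Strat := .move 676 n41 (.cons 634 n44 .nil)
noncomputable def n46 : Strat := .move 675 n40 (.cons 716 n45 .nil)
noncomputable def n47 : Strat := .move 922 n29 (.cons 964 n46 .nil)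
noncomputable def n48 : Strat := .move 923 n30 (.cons 882 n47 .nil)
noncomputable def n49 : Strat := .move 717 n8 (.cons 839 n48 .nil)
noncomputable def n50 : Strat := .move 880 n7 (.cons 921 n49 .nil)
noncomputable def n51 : Strat := .win 717 1 716
noncomputable def n52 : Strat := .win 923 6 758
noncomputable def n53 : Strat := .win 837 0 837
noncomputable def n54 : Strat := .win 883 2 838
noncomputable def n55 : Strat := .move 838 n53 (.cons 837 n54 .nil)
noncomputable def n56 : Strat := .move 882 n52 (.cons 923 n55 .nil)
noncomputable def n57 : Strat := .move 839 n51 (.cons 717 n56 .nil)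
noncomputable def n58 : Strat := .move 880 n7 (.cons 921 n57 .nil)
noncomputable def n59 : Strat := .move 758 n13 (.cons 880 n39 (.cons 759 n50 (.cons 718 n58 .nil)))
noncomputable def n60 : Strat := .move 922 n1 (.cons 798 n37 .nil)
noncomputable def n61 : Strat := .move 757 n0 (.cons 716 n60 .nil)
noncomputable def n62 : Strat := .move 757 n0 (.cons 716 n58 .nil)
noncomputable def n63 : Strat := .move 757 n17 (.cons 922 n58 (.cons 880 n60 .nil))
noncomputable def n64 : Strat := .move 758 n18 (.cons 757 n50 (.cons 880 n61 (.cons 922 n62 (.cons 716 n63 .nil))))
noncomputable def n65 : Strat := .move 922 n16 (.cons 880 n37 .nil)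
noncomputable def n66 : Strat := .move 757 n17 (.cons 798 n65 (.cons 880 n60 (.cons 922 n58 .nil)))
noncomputable def n67 : Strat := .move 758 n18 (.cons 880 n61 (.cons 716 n66 (.cons 922 n62 (.cons 757 n58 .nil))))
noncomputable def n68 : Strat := .move 758 n14 (.cons 880 n30 .nil)
noncomputable def n69 : Strat := .move 923 n29 (.cons 964 n68 .nil)
noncomputable def n70 : Strat := .move 921 n15 (.cons 962 n69 .nil)
noncomputable def n71 : Strat := .move 923 n29 (.cons 964 n28 .nil)
noncomputable def n72 : Strat := .win 758 1 757
noncomputable def n73 : Strat := .win 961 1 797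
noncomputable def n74 : Strat := .win 919 5 878
noncomputable def n75 : Strat := .win 883 4 879
noncomputable def n76 : Strat := .move 882 n74 (.cons 919 n75 .nil)
noncomputable def n77 : Strat := .move 920 n73 (.cons 961 n76 .nil)
noncomputable def n78 : Strat := .move 880 n72 (.cons 758 n77 .nil)
noncomputable def n79 : Strat := .move 839 n21 (.cons 963 n78 .nil)
noncomputable def n80 : Strat := .move 798 n20 (.cons 757 n79 .nil)
noncomputable def n81 : Strat := .move 921 n15 (.cons 962 n80 .nil)
noncomputable def n82 : Strat := .move 922 n70 (.cons 921 n71 (.cons 923 n81 .nil))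
noncomputable def n83 : Strat := .move 839 n51 (.cons 717 n55 .nil)
noncomputable def n84 : Strat := .move 880 n7 (.cons 921 n83 .nil)
noncomputable def n85 : Strat := .move 882 n52 (.cons 923 n84 .nil)
noncomputable def n86 : Strat := .win 757 7 716
noncomputable def n87 : Strat := .win 675 7 675
noncomputable def n88 : Strat := .move 716 n86 (.cons 757 n87 .nil)
noncomputable def n89 : Strat := .move 717 n8 (.cons 839 n88 .nil)
noncomputable def n90 : Strat := .move 880 n7 (.cons 921 n89 .nil)
noncomputable def n91 : Strat := .move 882 n52 (.cons 923 n90 .nil)
noncomputable def n92 : Strat := .win 760 4 756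
noncomputable def n93 : Strat := .win 796 5 755
noncomputable def n94 : Strat := .move 797 n92 (.cons 760 n93 .nil)
noncomputable def n95 : Strat := .win 715 7 715
noncomputable def n96 : Strat := .win 755 0 755
noncomputable def n97 : Strat := .win 801 0 756
noncomputable def n98 : Strat := .move 800 n96 (.cons 755 n97 .nil)
noncomputable def n99 : Strat := .move 756 n95 (.cons 715 n98 .nil)
noncomputable def n100 : Strat := .move 798 n94 (.cons 797 n99 .nil)
noncomputable def n101 : Strat := .move 839 n51 (.cons 717 n100 .nil)
noncomputable def n102 : Strat := .move 880 n7 (.cons 921 n101 .nil)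
noncomputable def n103 : Strat := .move 759 n2 (.cons 718 n102 .nil)
noncomputable def n104 : Strat := .move 757 n0 (.cons 716 n103 .nil)
noncomputable def n105 : Strat := .win 796 4 755
noncomputable def n106 : Strat := .win 798 4 756
noncomputable def n107 : Strat := .win 715 2 714
noncomputable def n108 : Strat := .win 803 0 758
noncomputable def n109 : Strat := .win 801 0 757
noncomputable def n110 : Strat := .move 802 n108 (.cons 803 n109 .nil)
noncomputable def n111 : Strat := .win 721 5 717
noncomputable def n112 : Strat := .win 719 5 716
noncomputable def n113 : Strat := .move 720 n111 (.cons 721 n112 .nil)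
noncomputable def n114 : Strat := .move 761 n110 (.cons 801 n113 .nil)
noncomputable def n115 : Strat := .move 714 n107 (.cons 715 n114 .nil)
noncomputable def n116 : Strat := .move 760 n106 (.cons 798 n115 .nil)
noncomputable def n117 : Strat := .move 797 n105 (.cons 796 n116 .nil)
noncomputable def n118 : Strat := .win 800 0 755
noncomputable def n119 : Strat := .win 754 0 754
noncomputable def n120 : Strat := .move 755 n118 (.cons 800 n119 .nil)
noncomputable def n121 : Strat := .move 798 n92 (.cons 760 n120 .nil)
noncomputable def n122 : Strat := .move 797 n105 (.cons 796 n121 .nil)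
noncomputable def n123 : Strat := .move 756 n98 (.cons 800 n117 (.cons 801 n122 .nil))
noncomputable def n124 : Strat := .move 759 n2 (.cons 718 n123 .nil)
noncomputable def n125 : Strat := .move 757 n0 (.cons 716 n124 .nil)
noncomputable def n126 : Strat := .move 882 n52 (.cons 923 n125 .nil)
noncomputable def n127 : Strat := .move 758 n85 (.cons 837 n91 (.cons 882 n104 (.cons 880 n126 .nil)))
noncomputable def n128 : Strat := .win 884 4 880
noncomputable def n129 : Strat := .win 920 5 879
noncomputable def n130 : Strat := .move 883 n128 (.cons 884 n129 .nil)
noncomputable def n131 : Strat := .move 921 n15 (.cons 962 n130 .nil)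
noncomputable def n132 : Strat := .move 923 n29 (.cons 964 n131 .nil)
noncomputable def n133 : Strat := .win 884 2 839
noncomputable def n134 : Strat := .win 880 2 838
noncomputable def n135 : Strat := .move 883 n133 (.cons 884 n134 .nil)
noncomputable def n136 : Strat := .move 838 n53 (.cons 837 n135 .nil)
noncomputable def n137 : Strat := .move 839 n21 (.cons 963 n136 .nil)
noncomputable def n138 : Strat := .move 798 n20 (.cons 757 n137 .nil)
noncomputable def n139 : Strat := .move 923 n29 (.cons 964 n138 .nil)
noncomputable def n140 : Strat := .move 800 n22 (.cons 759 n23 .nil)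
noncomputable def n141 : Strat := .move 838 n53 (.cons 837 n140 .nil)
noncomputable def n142 : Strat := .move 839 n21 (.cons 963 n141 .nil)
noncomputable def n143 : Strat := .move 921 n15 (.cons 962 n142 .nil)
noncomputable def n144 : Strat := .move 798 n20 (.cons 757 n143 .nil)
noncomputable def n145 : Strat := .move 923 n29 (.cons 964 n144 .nil)
noncomputable def n146 : Strat := .win 880 4 879
noncomputable def n147 : Strat := .move 920 n74 (.cons 919 n146 .nil)
noncomputable def n148 : Strat := .move 883 n128 (.cons 884 n147 .nil)
noncomputable def n149 : Strat := .move 921 n15 (.cons 962 n148 .nil)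
noncomputable def n150 : Strat := .move 882 n132 (.cons 921 n139 (.cons 883 n145 (.cons 923 n149 .nil)))
noncomputable def n151 : Strat := .move 839 n21 (.cons 963 n25 .nil)
noncomputable def n152 : Strat := .move 800 n22 (.cons 759 n151 .nil)
noncomputable def n153 : Strat := .move 798 n20 (.cons 757 n152 .nil)
noncomputable def n154 : Strat := .move 923 n29 (.cons 964 n130 .nil)
noncomputable def n155 : Strat := .move 921 n15 (.cons 962 n154 .nil)
noncomputable def n156 : Strat := .win 883 5 879
noncomputable def n157 : Strat := .move 920 n74 (.cons 919 n156 .nil)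
noncomputable def n158 : Strat := .move 923 n29 (.cons 964 n157 .nil)
noncomputable def n159 : Strat := .move 921 n15 (.cons 962 n158 .nil)
noncomputable def n160 : Strat := .win 878 2 878
noncomputable def n161 : Strat := .win 880 0 879
noncomputable def n162 : Strat := .win 926 2 881
noncomputable def n163 : Strat := .win 967 0 922
noncomputable def n164 : Strat := .win 965 0 921
noncomputable def n165 : Strat := .move 966 n163 (.cons 967 n164 .nil)
noncomputable def n166 : Strat := .move 925 n162 (.cons 926 n165 .nil)
noncomputable def n167 : Strat := .move 924 n161 (.cons 880 n166 .nil)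
noncomputable def n168 : Strat := .move 879 n160 (.cons 878 n167 .nil)
noncomputable def n169 : Strat := .move 920 n74 (.cons 919 n168 .nil)
noncomputable def n170 : Strat := .move 923 n29 (.cons 964 n169 .nil)
noncomputable def n171 : Strat := .move 921 n15 (.cons 962 n170 .nil)
noncomputable def n172 : Strat := .win 802 4 798
noncomputable def n173 : Strat := .win 798 4 797
noncomputable def n174 : Strat := .move 801 n172 (.cons 802 n173 .nil)
noncomputable def n175 : Strat := .move 838 n135 (.cons 884 n174 .nil)
noncomputable def n176 : Strat := .move 838 n53 (.cons 837 n174 .nil)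
noncomputable def n177 : Strat := .win 760 1 759
noncomputable def n178 : Strat := .win 843 0 798
noncomputable def n179 : Strat := .move 798 n178 (.cons 843 n21 .nil)
noncomputable def n180 : Strat := .move 842 n177 (.cons 760 n179 .nil)
noncomputable def n181 : Strat := .move 801 n172 (.cons 802 n180 .nil)
noncomputable def n182 : Strat := .move 883 n133 (.cons 884 n181 .nil)
noncomputable def n183 : Strat := .move 839 n136 (.cons 837 n175 (.cons 884 n176 (.cons 838 n182 .nil)))
noncomputable def n184 : Strat := .move 800 n22 (.cons 759 n183 .nil)
noncomputable def n185 : Strat := .move 923 n29 (.cons 964 n184 .nil)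
noncomputable def n186 : Strat := .move 882 n155 (.cons 923 n149 (.cons 884 n159 (.cons 883 n171 (.cons 921 n185 .nil))))
noncomputable def n187 : Strat := .move 882 n74 (.cons 919 n156 .nil)
noncomputable def n188 : Strat := .win 924 0 879
noncomputable def n189 : Strat := .win 839 1 797
noncomputable def n190 : Strat := .win 960 4 919
noncomputable def n191 : Strat := .move 961 n189 (.cons 839 n190 .nil)
noncomputable def n192 : Strat := .move 880 n188 (.cons 924 n191 .nil)
noncomputable def n193 : Strat := .move 879 n160 (.cons 878 n192 .nil)
noncomputable def n194 : Strat := .move 882 n74 (.cons 919 n193 .nil)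
noncomputable def n195 : Strat := .win 924 2 879
noncomputable def n196 : Strat := .move 880 n195 (.cons 924 n191 .nil)
noncomputable def n197 : Strat := .move 879 n160 (.cons 878 n196 .nil)
noncomputable def n198 : Strat := .move 920 n187 (.cons 883 n194 (.cons 882 n197 .nil))
noncomputable def n199 : Strat := .move 923 n29 (.cons 964 n198 .nil)
noncomputable def n200 : Strat := .move 921 n15 (.cons 962 n199 .nil)
noncomputable def n201 : Strat := .move 800 n22 (.cons 759 n200 .nil)
noncomputable def n202 : Strat := .move 798 n20 (.cons 757 n201 .nil)
noncomputable def n203 : Strat := .win 878 0 878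
noncomputable def n204 : Strat := .move 879 n203 (.cons 878 n195 .nil)
noncomputable def n205 : Strat := .win 919 4 878
noncomputable def n206 : Strat := .move 882 n75 (.cons 883 n205 .nil)
noncomputable def n207 : Strat := .move 920 n73 (.cons 961 n206 .nil)
noncomputable def n208 : Strat := .move 879 n203 (.cons 878 n207 .nil)
noncomputable def n209 : Strat := .move 880 n204 (.cons 924 n208 (.cons 879 n77 .nil))
noncomputable def n210 : Strat := .move 839 n21 (.cons 963 n209 .nil)
noncomputable def n211 : Strat := .move 798 n20 (.cons 757 n210 .nil)
noncomputable def n212 : Strat := .move 923 n29 (.cons 964 n211 .nil)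
noncomputable def n213 : Strat := .move 921 n15 (.cons 962 n212 .nil)
noncomputable def n214 : Strat := .win 880 2 879
noncomputable def n215 : Strat := .win 961 4 919
noncomputable def n216 : Strat := .win 959 4 918
noncomputable def n217 : Strat := .win 885 5 881
noncomputable def n218 : Strat := .win 883 5 880
noncomputable def n219 : Strat := .move 884 n217 (.cons 885 n218 .nil)
noncomputable def n220 : Strat := .move 925 n165 (.cons 965 n219 .nil)
noncomputable def n221 : Strat := .move 919 n216 (.cons 959 n220 .nil)
noncomputable def n222 : Strat := .move 960 n215 (.cons 961 n221 .nil)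
noncomputable def n223 : Strat := .move 924 n214 (.cons 880 n222 .nil)
noncomputable def n224 : Strat := .move 879 n160 (.cons 878 n223 .nil)
noncomputable def n225 : Strat := .move 882 n156 (.cons 883 n168 .nil)
noncomputable def n226 : Strat := .move 882 n74 (.cons 919 n168 .nil)
noncomputable def n227 : Strat := .move 920 n187 (.cons 882 n224 (.cons 919 n225 (.cons 883 n226 .nil)))
noncomputable def n228 : Strat := .move 923 n29 (.cons 964 n227 .nil)
noncomputable def n229 : Strat := .move 921 n15 (.cons 962 n228 .nil)
noncomputable def n230 : Strat := .move 922 n150 (.cons 921 n153 (.cons 757 n186 (.cons 963 n202 (.cons 759 n213 (.cons 798 n229 .nil)))))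
noncomputable def n231 : Strat := .move 922 n3 (.cons 800 n1 .nil)
noncomputable def n232 : Strat := .move 759 n2 (.cons 718 n231 .nil)
noncomputable def n233 : Strat := .move 757 n0 (.cons 716 n232 .nil)
noncomputable def n234 : Strat := .move 922 n3 (.cons 800 n16 .nil)
noncomputable def n235 : Strat := .move 759 n2 (.cons 718 n234 .nil)
noncomputable def n236 : Strat := .win 762 4 758
noncomputable def n237 : Strat := .move 761 n236 (.cons 762 n113 .nil)
noncomputable def n238 : Strat := .move 760 n106 (.cons 798 n237 .nil)
noncomputable def n239 : Strat := .move 797 n105 (.cons 796 n238 .nil)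
noncomputable def n240 : Strat := .move 800 n97 (.cons 801 n239 .nil)
noncomputable def n241 : Strat := .win 713 2 713
noncomputable def n242 : Strat := .move 755 n241 (.cons 713 n114 .nil)
noncomputable def n243 : Strat := .move 714 n107 (.cons 715 n242 .nil)
noncomputable def n244 : Strat := .move 760 n106 (.cons 798 n243 .nil)
noncomputable def n245 : Strat := .move 797 n105 (.cons 796 n244 .nil)
noncomputable def n246 : Strat := .move 756 n98 (.cons 755 n240 (.cons 800 n245 (.cons 801 n122 .nil)))
noncomputable def n247 : Strat := .move 759 n2 (.cons 718 n246 .nil)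
noncomputable def n248 : Strat := .move 757 n0 (.cons 716 n247 .nil)
noncomputable def n249 : Strat := .move 758 n233 (.cons 757 n235 (.cons 759 n61 (.cons 922 n248 .nil)))
noncomputable def n250 : Strat := .move 799 n19 (.cons 921 n36 (.cons 757 n59 (.cons 759 n64 (.cons 718 n67 (.cons 716 n82 (.cons 922 n127 (.cons 758 n230 (.cons 839 n249 .nil))))))))

theorem ok : checkS n250 (pairBits 840 881) (pairBits 841 1004) ≠ 0 := by decide +kernel

theorem reply : MakerWins {cellOf 881, cellOf 840} {cellOf 841, cellOf 1004} :=
  reply2 n250 840 881 841 1004 ok

end Vale.Agent.Snaky.Cert2.R1004
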