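import Vale.Agent.Snaky.Cert2.Lem

namespace Vale.Agent.Snaky.Cert2.R1005

open Vale.Agent.Snaky

noncomputable def n0 : Strat := .win 716 7 716
noncomputable def n1 : Strat := .win 718 3 717
noncomputable def n2 : Strat := .win 800 3 758
noncomputable def n3 : Strat := .win 798 7 757
noncomputable def n4 : Strat := .move 922 n2 (.cons 800 n3 .nil)
noncomputable def n5 : Strat := .move 759 n1 (.cons 718 n4 .nil)
noncomputable def n6 : Strat := .move 757 n0 (.cons 716 n5 .nil)
noncomputable def n7 : Strat := .win 921 1 757
noncomputable def n8 : Strat := .win 839 1 716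
noncomputable def n9 : Strat := .win 759 3 717
noncomputable def n10 : Strat := .win 677 3 676
noncomputable def n11 : Strat := .move 718 n9 (.cons 759 n10 .nil)
noncomputable def n12 : Strat := .move 717 n8 (.cons 839 n11 .nil)
noncomputable def n13 : Strat := .move 880 n7 (.cons 921 n12 .nil)
noncomputable def n14 : Strat := .win 880 1 757
noncomputable def n15 : Strat := .win 962 1 798
noncomputable def n16 : Strat := .move 921 n14 (.cons 880 n15 .nil)
noncomputable def n17 : Strat := .move 922 n3 (.cons 798 n16 .nil)
noncomputable def n18 : Strat := .move 757 n0 (.cons 716 n17 .nil)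
noncomputable def n19 : Strat := .move 758 n6 (.cons 757 n13 (.cons 718 n18 .nil))
noncomputable def n20 : Strat := .move 922 n2 (.cons 800 n16 .nil)
noncomputable def n21 : Strat := .move 759 n1 (.cons 718 n20 .nil)
noncomputable def n22 : Strat := .win 757 7 716
noncomputable def n23 : Strat := .win 675 7 675
noncomputable def n24 : Strat := .move 716 n22 (.cons 757 n23 .nil)
noncomputable def n25 : Strat := .move 717 n8 (.cons 839 n24 .nil)
noncomputable def n26 : Strat := .move 880 n7 (.cons 921 n25 .nil)
noncomputable def n27 : Strat := .win 882 6 758
noncomputable def n28 : Strat := .win 964 6 799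
noncomputable def n29 : Strat := .move 923 n27 (.cons 882 n28 .nil)
noncomputable def n30 : Strat := .move 922 n2 (.cons 800 n29 .nil)
noncomputable def n31 : Strat := .move 759 n1 (.cons 718 n30 .nil)
noncomputable def n32 : Strat := .move 758 n21 (.cons 800 n26 (.cons 880 n31 .nil))
noncomputable def n33 : Strat := .win 758 1 757
noncomputable def n34 : Strat := .win 878 0 878
noncomputable def n35 : Strat := .win 924 2 879
noncomputable def n36 : Strat := .move 879 n34 (.cons 878 n35 .nil)
noncomputable def n37 : Strat := .move 923 n28 (.cons 964 n36 .nil)
noncomputable def n38 : Strat := .move 880 n33 (.cons 758 n37 .nil)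
noncomputable def n39 : Strat := .move 921 n15 (.cons 962 n38 .nil)
noncomputable def n40 : Strat := .win 757 7 757
noncomputable def n41 : Strat := .win 963 7 798
noncomputable def n42 : Strat := .win 759 3 758
noncomputable def n43 : Strat := .win 801 4 797
noncomputable def n44 : Strat := .win 837 5 796
noncomputable def n45 : Strat := .move 838 n43 (.cons 801 n44 .nil)
noncomputable def n46 : Strat := .move 800 n42 (.cons 759 n45 .nil)
noncomputable def n47 : Strat := .move 839 n41 (.cons 963 n46 .nil)
noncomputable def n48 : Strat := .move 798 n40 (.cons 757 n47 .nil)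
noncomputable def n49 : Strat := .move 922 n39 (.cons 921 n48 .nil)
noncomputable def n50 : Strat := .win 717 1 716
noncomputable def n51 : Strat := .win 923 6 758
noncomputable def n52 : Strat := .win 837 0 837
noncomputable def n53 : Strat := .win 883 2 838
noncomputable def n54 : Strat := .move 838 n52 (.cons 837 n53 .nil)
noncomputable def n55 : Strat := .move 882 n51 (.cons 923 n54 .nil)
noncomputable def n56 : Strat := .move 839 n50 (.cons 717 n55 .nil)
noncomputable def n57 : Strat := .move 880 n7 (.cons 921 n56 .nil)
noncomputable def n58 : Strat := .move 758 n13 (.cons 880 n31 (.cons 718 n57 .nil))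
noncomputable def n59 : Strat := .win 919 5 878
noncomputable def n60 : Strat := .win 883 5 879
noncomputable def n61 : Strat := .move 882 n59 (.cons 919 n60 .nil)
noncomputable def n62 : Strat := .win 882 5 878
noncomputable def n63 : Strat := .win 879 2 878
noncomputable def n64 : Strat := .win 877 2 877
noncomputable def n65 : Strat := .move 878 n63 (.cons 879 n64 .nil)
noncomputable def n66 : Strat := .move 919 n62 (.cons 882 n65 .nil)
noncomputable def n67 : Strat := .win 878 2 878
noncomputable def n68 : Strat := .win 880 2 879
noncomputable def n69 : Strat := .win 961 4 919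
noncomputable def n70 : Strat := .win 967 0 922
noncomputable def n71 : Strat := .win 965 0 921
noncomputable def n72 : Strat := .move 966 n70 (.cons 967 n71 .nil)
noncomputable def n73 : Strat := .win 885 5 881
noncomputable def n74 : Strat := .win 883 5 880
noncomputable def n75 : Strat := .move 884 n73 (.cons 885 n74 .nil)
noncomputable def n76 : Strat := .move 925 n72 (.cons 965 n75 .nil)
noncomputable def n77 : Strat := .move 960 n69 (.cons 961 n76 .nil)
noncomputable def n78 : Strat := .move 924 n68 (.cons 880 n77 .nil)
noncomputable def n79 : Strat := .move 879 n67 (.cons 878 n78 .nil)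
noncomputable def n80 : Strat := .move 920 n61 (.cons 883 n66 (.cons 882 n79 .nil))
noncomputable def n81 : Strat := .move 923 n28 (.cons 964 n80 .nil)
noncomputable def n82 : Strat := .move 921 n15 (.cons 962 n81 .nil)
noncomputable def n83 : Strat := .move 922 n48 (.cons 798 n82 .nil)
noncomputable def n84 : Strat := .win 755 0 755
noncomputable def n85 : Strat := .win 801 0 756
noncomputable def n86 : Strat := .move 800 n84 (.cons 755 n85 .nil)
noncomputable def n87 : Strat := .win 800 0 755
noncomputable def n88 : Strat := .win 797 4 755
noncomputable def n89 : Strat := .win 795 4 754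
noncomputable def n90 : Strat := .move 796 n88 (.cons 797 n89 .nil)
noncomputable def n91 : Strat := .move 755 n87 (.cons 800 n90 .nil)
noncomputable def n92 : Strat := .win 796 4 755
noncomputable def n93 : Strat := .win 798 4 756
noncomputable def n94 : Strat := .win 715 2 714
noncomputable def n95 : Strat := .win 803 0 758
noncomputable def n96 : Strat := .win 801 0 757
noncomputable def n97 : Strat := .move 802 n95 (.cons 803 n96 .nil)
noncomputable def n98 : Strat := .win 721 5 717
noncomputable def n99 : Strat := .win 719 5 716
noncomputable def n100 : Strat := .move 720 n98 (.cons 721 n99 .nil)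
noncomputable def n101 : Strat := .move 761 n97 (.cons 801 n100 .nil)
noncomputable def n102 : Strat := .move 714 n94 (.cons 715 n101 .nil)
noncomputable def n103 : Strat := .move 760 n93 (.cons 798 n102 .nil)
noncomputable def n104 : Strat := .move 797 n92 (.cons 796 n103 .nil)
noncomputable def n105 : Strat := .move 756 n86 (.cons 801 n91 (.cons 800 n104 .nil))
noncomputable def n106 : Strat := .move 759 n1 (.cons 718 n105 .nil)
noncomputable def n107 : Strat := .move 757 n0 (.cons 716 n106 .nil)
noncomputable def n108 : Strat := .move 758 n26 (.cons 757 n13 (.cons 880 n107 .nil))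
noncomputable def n109 : Strat := .move 839 n41 (.cons 963 n45 .nil)
noncomputable def n110 : Strat := .move 800 n42 (.cons 759 n109 .nil)
noncomputable def n111 : Strat := .move 798 n40 (.cons 757 n110 .nil)
noncomputable def n112 : Strat := .move 759 n1 (.cons 718 n2 .nil)
noncomputable def n113 : Strat := .move 758 n27 (.cons 882 n112 .nil)
noncomputable def n114 : Strat := .move 923 n28 (.cons 964 n113 .nil)
noncomputable def n115 : Strat := .win 758 6 758
noncomputable def n116 : Strat := .win 884 2 839
noncomputable def n117 : Strat := .win 920 5 879
noncomputable def n118 : Strat := .move 883 n116 (.cons 884 n117 .nil)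
noncomputable def n119 : Strat := .move 921 n15 (.cons 962 n118 .nil)
noncomputable def n120 : Strat := .move 882 n115 (.cons 758 n119 .nil)
noncomputable def n121 : Strat := .move 923 n28 (.cons 964 n120 .nil)
noncomputable def n122 : Strat := .move 839 n41 (.cons 963 n121 .nil)
noncomputable def n123 : Strat := .move 798 n40 (.cons 757 n122 .nil)
noncomputable def n124 : Strat := .move 922 n111 (.cons 798 n114 (.cons 759 n123 .nil))
noncomputable def n125 : Strat := .move 758 n6 (.cons 757 n21 (.cons 800 n18 (.cons 922 n107 .nil)))
noncomputable def n126 : Strat := .win 922 7 757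
noncomputable def n127 : Strat := .win 760 4 756
noncomputable def n128 : Strat := .win 796 5 755
noncomputable def n129 : Strat := .move 797 n127 (.cons 760 n128 .nil)
noncomputable def n130 : Strat := .move 759 n1 (.cons 718 n129 .nil)
noncomputable def n131 : Strat := .move 839 n50 (.cons 717 n130 .nil)
noncomputable def n132 : Strat := .move 798 n126 (.cons 922 n131 .nil)
noncomputable def n133 : Strat := .move 880 n7 (.cons 921 n132 .nil)
noncomputable def n134 : Strat := .move 757 n0 (.cons 716 n133 .nil)
noncomputable def n135 : Strat := .move 922 n3 (.cons 798 n29 .nil)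
noncomputable def n136 : Strat := .move 757 n0 (.cons 716 n135 .nil)
noncomputable def n137 : Strat := .move 758 n134 (.cons 798 n26 (.cons 839 n18 (.cons 757 n13 (.cons 880 n136 .nil))))
noncomputable def n138 : Strat := .win 676 1 675
noncomputable def n139 : Strat := .win 880 1 716
noncomputable def n140 : Strat := .move 717 n138 (.cons 676 n139 .nil)
noncomputable def n141 : Strat := .move 758 n27 (.cons 882 n140 .nil)
noncomputable def n142 : Strat := .move 923 n28 (.cons 964 n141 .nil)
noncomputable def n143 : Strat := .move 839 n41 (.cons 963 n142 .nil)
noncomputable def n144 : Strat := .move 798 n40 (.cons 757 n143 .nil)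
noncomputable def n145 : Strat := .move 922 n48 (.cons 757 n114 (.cons 800 n144 .nil))
noncomputable def n146 : Strat := .move 880 n7 (.cons 921 n50 .nil)
noncomputable def n147 : Strat := .move 758 n27 (.cons 882 n146 .nil)
noncomputable def n148 : Strat := .move 923 n28 (.cons 964 n147 .nil)
noncomputable def n149 : Strat := .move 839 n41 (.cons 963 n148 .nil)
noncomputable def n150 : Strat := .move 798 n40 (.cons 757 n149 .nil)
noncomputable def n151 : Strat := .win 961 1 797
noncomputable def n152 : Strat := .win 883 4 879
noncomputable def n153 : Strat := .move 882 n152 (.cons 883 n59 .nil)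
noncomputable def n154 : Strat := .move 920 n151 (.cons 961 n153 .nil)
noncomputable def n155 : Strat := .move 880 n36 (.cons 879 n154 .nil)
noncomputable def n156 : Strat := .move 923 n28 (.cons 964 n155 .nil)
noncomputable def n157 : Strat := .move 921 n15 (.cons 962 n156 .nil)
noncomputable def n158 : Strat := .move 839 n41 (.cons 963 n157 .nil)
noncomputable def n159 : Strat := .move 798 n40 (.cons 757 n158 .nil)
noncomputable def n160 : Strat := .move 800 n43 (.cons 801 n44 .nil)
noncomputable def n161 : Strat := .win 882 0 837
noncomputable def n162 : Strat := .win 836 5 795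
noncomputable def n163 : Strat := .move 837 n161 (.cons 882 n162 .nil)
noncomputable def n164 : Strat := .win 880 2 838
noncomputable def n165 : Strat := .move 883 n164 (.cons 880 n116 .nil)
noncomputable def n166 : Strat := .move 882 n115 (.cons 758 n165 .nil)
noncomputable def n167 : Strat := .move 923 n28 (.cons 964 n166 .nil)
noncomputable def n168 : Strat := .move 800 n43 (.cons 801 n167 .nil)
noncomputable def n169 : Strat := .move 838 n160 (.cons 800 n163 (.cons 837 n168 .nil))
noncomputable def n170 : Strat := .move 839 n41 (.cons 963 n169 .nil)
noncomputable def n171 : Strat := .move 798 n40 (.cons 757 n170 .nil)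
noncomputable def n172 : Strat := .move 882 n59 (.cons 919 n152 .nil)
noncomputable def n173 : Strat := .move 920 n151 (.cons 961 n172 .nil)
noncomputable def n174 : Strat := .move 880 n33 (.cons 758 n173 .nil)
noncomputable def n175 : Strat := .move 839 n41 (.cons 963 n174 .nil)
noncomputable def n176 : Strat := .move 798 n40 (.cons 757 n175 .nil)
noncomputable def n177 : Strat := .move 921 n15 (.cons 962 n176 .nil)
noncomputable def n178 : Strat := .move 922 n39 (.cons 962 n150 (.cons 880 n123 (.cons 758 n159 (.cons 921 n171 (.cons 923 n177 .nil)))))
noncomputable def n179 : Strat := .move 799 n19 (.cons 798 n32 (.cons 718 n49 (.cons 757 n58 (.cons 758 n83 (.cons 922 n108 (.cons 880 n124 (.cons 839 n125 (.cons 800 n137 (.cons 921 n145 (.cons 759 n178 .nil))))))))))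

theorem ok : checkS n179 (pairBits 840 881) (pairBits 841 1005) ≠ 0 := by decide +kernel

theorem reply : MakerWins {cellOf 881, cellOf 840} {cellOf 841, cellOf 1005} :=
  reply2 n179 840 881 841 1005 ok

end Vale.Agent.Snaky.Cert2.R1005
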