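import Vale.Agent.Snaky.Cert2.Lem

namespace Vale.Agent.Snaky.Cert2.R716

open Vale.Agent.Snaky

noncomputable def n0 : Strat := .win 962 1 798
noncomputable def n1 : Strat := .win 964 6 799
noncomputable def n2 : Strat := .win 758 1 757
noncomputable def n3 : Strat := .win 878 0 878
noncomputable def n4 : Strat := .win 924 2 879
noncomputable def n5 : Strat := .move 879 n3 (.cons 878 n4 .nil)
noncomputable def n6 : Strat := .move 880 n2 (.cons 758 n5 .nil)
noncomputable def n7 : Strat := .move 923 n1 (.cons 964 n6 .nil)
noncomputable def n8 : Strat := .move 921 n0 (.cons 962 n7 .nil)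
noncomputable def n9 : Strat := .win 882 6 758
noncomputable def n10 : Strat := .win 800 3 758
noncomputable def n11 : Strat := .win 718 3 717
noncomputable def n12 : Strat := .move 759 n10 (.cons 800 n11 .nil)
noncomputable def n13 : Strat := .move 758 n9 (.cons 882 n12 .nil)
noncomputable def n14 : Strat := .move 923 n1 (.cons 964 n13 .nil)
noncomputable def n15 : Strat := .win 757 7 757
noncomputable def n16 : Strat := .win 963 6 798
noncomputable def n17 : Strat := .win 961 1 797
noncomputable def n18 : Strat := .win 919 5 878
noncomputable def n19 : Strat := .win 883 4 879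
noncomputable def n20 : Strat := .move 882 n18 (.cons 919 n19 .nil)
noncomputable def n21 : Strat := .move 920 n17 (.cons 961 n20 .nil)
noncomputable def n22 : Strat := .move 839 n16 (.cons 963 n21 .nil)
noncomputable def n23 : Strat := .move 798 n15 (.cons 757 n22 .nil)
noncomputable def n24 : Strat := .move 880 n2 (.cons 758 n23 .nil)
noncomputable def n25 : Strat := .move 921 n0 (.cons 962 n24 .nil)
noncomputable def n26 : Strat := .win 963 7 798
noncomputable def n27 : Strat := .win 759 3 758
noncomputable def n28 : Strat := .win 801 4 797
noncomputable def n29 : Strat := .win 837 5 796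
noncomputable def n30 : Strat := .move 838 n28 (.cons 801 n29 .nil)
noncomputable def n31 : Strat := .move 800 n27 (.cons 759 n30 .nil)
noncomputable def n32 : Strat := .move 839 n26 (.cons 963 n31 .nil)
noncomputable def n33 : Strat := .move 798 n15 (.cons 757 n32 .nil)
noncomputable def n34 : Strat := .move 923 n1 (.cons 964 n33 .nil)
noncomputable def n35 : Strat := .move 921 n0 (.cons 962 n34 .nil)
noncomputable def n36 : Strat := .move 799 n8 (.cons 962 n14 (.cons 923 n25 (.cons 758 n35 .nil)))
noncomputable def n37 : Strat := .win 839 7 798
noncomputable def n38 : Strat := .win 921 1 798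
noncomputable def n39 : Strat := .win 1003 1 839
noncomputable def n40 : Strat := .move 962 n38 (.cons 921 n39 .nil)
noncomputable def n41 : Strat := .move 963 n37 (.cons 839 n40 .nil)
noncomputable def n42 : Strat := .move 798 n15 (.cons 757 n41 .nil)
noncomputable def n43 : Strat := .win 880 1 757
noncomputable def n44 : Strat := .move 758 n43 (.cons 880 n12 .nil)
noncomputable def n45 : Strat := .move 921 n0 (.cons 962 n44 .nil)
noncomputable def n46 : Strat := .move 799 n25 (.cons 758 n42 (.cons 839 n45 (.cons 962 n33 .nil)))
noncomputable def n47 : Strat := .move 758 n43 (.cons 880 n9 .nil)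
noncomputable def n48 : Strat := .move 923 n1 (.cons 964 n47 .nil)
noncomputable def n49 : Strat := .move 921 n0 (.cons 962 n48 .nil)
noncomputable def n50 : Strat := .move 799 n49 (.cons 962 n14 (.cons 758 n42 .nil))
noncomputable def n51 : Strat := .win 757 6 757
noncomputable def n52 : Strat := .move 798 n51 (.cons 757 n21 .nil)
noncomputable def n53 : Strat := .move 880 n2 (.cons 758 n52 .nil)
noncomputable def n54 : Strat := .move 921 n0 (.cons 962 n53 .nil)
noncomputable def n55 : Strat := .move 838 n29 (.cons 837 n28 .nil)
noncomputable def n56 : Strat := .move 798 n15 (.cons 757 n55 .nil)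
noncomputable def n57 : Strat := .move 800 n27 (.cons 759 n56 .nil)
noncomputable def n58 : Strat := .move 923 n1 (.cons 964 n5 .nil)
noncomputable def n59 : Strat := .move 880 n2 (.cons 758 n58 .nil)
noncomputable def n60 : Strat := .move 921 n0 (.cons 962 n59 .nil)
noncomputable def n61 : Strat := .move 839 n54 (.cons 880 n57 (.cons 757 n60 .nil))
noncomputable def n62 : Strat := .win 883 5 879
noncomputable def n63 : Strat := .move 882 n18 (.cons 919 n62 .nil)
noncomputable def n64 : Strat := .win 882 5 878
noncomputable def n65 : Strat := .win 879 2 878
noncomputable def n66 : Strat := .win 877 2 877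
noncomputable def n67 : Strat := .move 878 n65 (.cons 879 n66 .nil)
noncomputable def n68 : Strat := .move 919 n64 (.cons 882 n67 .nil)
noncomputable def n69 : Strat := .win 878 2 878
noncomputable def n70 : Strat := .win 960 4 919
noncomputable def n71 : Strat := .win 839 1 797
noncomputable def n72 : Strat := .move 798 n71 (.cons 839 n15 .nil)
noncomputable def n73 : Strat := .move 961 n70 (.cons 960 n72 .nil)
noncomputable def n74 : Strat := .move 880 n4 (.cons 924 n73 .nil)
noncomputable def n75 : Strat := .move 879 n69 (.cons 878 n74 .nil)
noncomputable def n76 : Strat := .move 920 n63 (.cons 883 n68 (.cons 882 n75 .nil))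
noncomputable def n77 : Strat := .move 923 n1 (.cons 964 n76 .nil)
noncomputable def n78 : Strat := .move 921 n0 (.cons 962 n77 .nil)
noncomputable def n79 : Strat := .move 799 n61 (.cons 921 n14 (.cons 800 n49 (.cons 964 n45 (.cons 758 n78 .nil))))
noncomputable def n80 : Strat := .win 758 6 758
noncomputable def n81 : Strat := .win 839 2 839
noncomputable def n82 : Strat := .win 921 4 880
noncomputable def n83 : Strat := .move 884 n81 (.cons 839 n82 .nil)
noncomputable def n84 : Strat := .win 885 4 881
noncomputable def n85 : Strat := .move 884 n81 (.cons 839 n84 .nil)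
noncomputable def n86 : Strat := .move 884 n82 (.cons 921 n84 .nil)
noncomputable def n87 : Strat := .win 925 0 880
noncomputable def n88 : Strat := .win 879 0 879
noncomputable def n89 : Strat := .move 924 n87 (.cons 925 n88 .nil)
noncomputable def n90 : Strat := .win 924 0 879
noncomputable def n91 : Strat := .move 879 n3 (.cons 878 n90 .nil)
noncomputable def n92 : Strat := .win 920 4 879
noncomputable def n93 : Strat := .win 838 2 838
noncomputable def n94 : Strat := .move 798 n16 (.cons 963 n51 .nil)
noncomputable def n95 : Strat := .move 839 n93 (.cons 838 n94 .nil)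
noncomputable def n96 : Strat := .move 921 n92 (.cons 920 n95 .nil)
noncomputable def n97 : Strat := .move 924 n87 (.cons 925 n96 .nil)
noncomputable def n98 : Strat := .win 921 4 879
noncomputable def n99 : Strat := .win 919 4 878
noncomputable def n100 : Strat := .move 879 n3 (.cons 878 n99 .nil)
noncomputable def n101 : Strat := .move 920 n98 (.cons 921 n100 .nil)
noncomputable def n102 : Strat := .move 880 n89 (.cons 925 n91 (.cons 879 n97 (.cons 924 n101 .nil)))
noncomputable def n103 : Strat := .move 883 n83 (.cons 921 n85 (.cons 839 n86 (.cons 884 n102 .nil)))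
noncomputable def n104 : Strat := .move 882 n80 (.cons 758 n103 .nil)
noncomputable def n105 : Strat := .move 923 n1 (.cons 964 n104 .nil)
noncomputable def n106 : Strat := .move 799 n14 (.cons 923 n33 (.cons 759 n105 .nil))
noncomputable def n107 : Strat := .win 884 4 880
noncomputable def n108 : Strat := .win 920 5 879
noncomputable def n109 : Strat := .move 883 n107 (.cons 884 n108 .nil)
noncomputable def n110 : Strat := .move 882 n80 (.cons 758 n109 .nil)
noncomputable def n111 : Strat := .move 921 n0 (.cons 962 n110 .nil)
noncomputable def n112 : Strat := .move 923 n1 (.cons 964 n111 .nil)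
noncomputable def n113 : Strat := .move 799 n8 (.cons 880 n112 (.cons 921 n34 (.cons 923 n25 .nil)))
noncomputable def n114 : Strat := .win 1045 3 881
noncomputable def n115 : Strat := .win 962 1 839
noncomputable def n116 : Strat := .win 1044 1 880
noncomputable def n117 : Strat := .move 1003 n115 (.cons 962 n116 .nil)
noncomputable def n118 : Strat := .move 1004 n114 (.cons 1045 n117 .nil)
noncomputable def n119 : Strat := .move 963 n37 (.cons 839 n118 .nil)
noncomputable def n120 : Strat := .move 798 n15 (.cons 757 n119 .nil)
noncomputable def n121 : Strat := .move 882 n80 (.cons 758 n120 .nil)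
noncomputable def n122 : Strat := .move 923 n1 (.cons 964 n121 .nil)
noncomputable def n123 : Strat := .move 799 n34 (.cons 964 n33 (.cons 800 n122 (.cons 963 n14 .nil)))
noncomputable def n124 : Strat := .win 880 2 879
noncomputable def n125 : Strat := .win 961 4 919
noncomputable def n126 : Strat := .win 967 0 922
noncomputable def n127 : Strat := .win 965 0 921
noncomputable def n128 : Strat := .move 966 n126 (.cons 967 n127 .nil)
noncomputable def n129 : Strat := .win 885 5 881
noncomputable def n130 : Strat := .win 883 5 880
noncomputable def n131 : Strat := .move 884 n129 (.cons 885 n130 .nil)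
noncomputable def n132 : Strat := .move 925 n128 (.cons 965 n131 .nil)
noncomputable def n133 : Strat := .move 960 n125 (.cons 961 n132 .nil)
noncomputable def n134 : Strat := .move 924 n124 (.cons 880 n133 .nil)
noncomputable def n135 : Strat := .move 879 n69 (.cons 878 n134 .nil)
noncomputable def n136 : Strat := .move 920 n63 (.cons 883 n68 (.cons 882 n135 .nil))
noncomputable def n137 : Strat := .move 923 n1 (.cons 964 n136 .nil)
noncomputable def n138 : Strat := .move 921 n0 (.cons 962 n137 .nil)
noncomputable def n139 : Strat := .move 799 n49 (.cons 921 n14 (.cons 923 n45 (.cons 758 n138 .nil)))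
noncomputable def n140 : Strat := .win 879 2 879
noncomputable def n141 : Strat := .win 925 2 880
noncomputable def n142 : Strat := .move 924 n140 (.cons 879 n141 .nil)
noncomputable def n143 : Strat := .move 882 n19 (.cons 883 n18 .nil)
noncomputable def n144 : Strat := .move 920 n17 (.cons 961 n143 .nil)
noncomputable def n145 : Strat := .move 880 n5 (.cons 878 n142 (.cons 879 n144 .nil))
noncomputable def n146 : Strat := .move 839 n26 (.cons 963 n145 .nil)
noncomputable def n147 : Strat := .move 798 n15 (.cons 757 n146 .nil)
noncomputable def n148 : Strat := .move 923 n1 (.cons 964 n147 .nil)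
noncomputable def n149 : Strat := .move 921 n0 (.cons 962 n148 .nil)
noncomputable def n150 : Strat := .win 837 0 837
noncomputable def n151 : Strat := .win 884 2 839
noncomputable def n152 : Strat := .win 880 2 838
noncomputable def n153 : Strat := .move 883 n151 (.cons 884 n152 .nil)
noncomputable def n154 : Strat := .move 838 n150 (.cons 837 n153 .nil)
noncomputable def n155 : Strat := .move 839 n26 (.cons 963 n154 .nil)
noncomputable def n156 : Strat := .move 798 n15 (.cons 757 n155 .nil)
noncomputable def n157 : Strat := .move 882 n80 (.cons 758 n156 .nil)
noncomputable def n158 : Strat := .move 923 n1 (.cons 964 n157 .nil)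
noncomputable def n159 : Strat := .move 799 n8 (.cons 880 n112 (.cons 923 n25 (.cons 962 n105 (.cons 758 n149 (.cons 921 n158 .nil)))))
noncomputable def n160 : Strat := .win 798 7 798
noncomputable def n161 : Strat := .win 880 7 839
noncomputable def n162 : Strat := .win 964 6 840
noncomputable def n163 : Strat := .win 1046 6 881
noncomputable def n164 : Strat := .move 1005 n162 (.cons 964 n163 .nil)
noncomputable def n165 : Strat := .move 1004 n161 (.cons 880 n164 .nil)
noncomputable def n166 : Strat := .move 839 n160 (.cons 798 n165 .nil)
noncomputable def n167 : Strat := .win 1005 6 840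
noncomputable def n168 : Strat := .win 919 0 919
noncomputable def n169 : Strat := .win 965 2 920
noncomputable def n170 : Strat := .move 920 n168 (.cons 919 n169 .nil)
noncomputable def n171 : Strat := .win 920 2 920
noncomputable def n172 : Strat := .win 966 2 921
noncomputable def n173 : Strat := .move 965 n171 (.cons 920 n172 .nil)
noncomputable def n174 : Strat := .win 924 4 920
noncomputable def n175 : Strat := .move 961 n70 (.cons 960 n174 .nil)
noncomputable def n176 : Strat := .win 925 4 921
noncomputable def n177 : Strat := .win 961 4 920
noncomputable def n178 : Strat := .move 924 n176 (.cons 925 n177 .nil)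
noncomputable def n179 : Strat := .move 879 n124 (.cons 880 n69 .nil)
noncomputable def n180 : Strat := .move 924 n176 (.cons 925 n179 .nil)
noncomputable def n181 : Strat := .win 1001 4 960
noncomputable def n182 : Strat := .win 1084 3 920
noncomputable def n183 : Strat := .win 880 3 879
noncomputable def n184 : Strat := .move 1043 n182 (.cons 1084 n183 .nil)
noncomputable def n185 : Strat := .move 1002 n181 (.cons 1001 n184 .nil)
noncomputable def n186 : Strat := .move 961 n70 (.cons 960 n185 .nil)
noncomputable def n187 : Strat := .move 923 n175 (.cons 960 n178 (.cons 961 n180 (.cons 924 n186 .nil)))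
noncomputable def n188 : Strat := .move 920 n168 (.cons 919 n187 .nil)
noncomputable def n189 : Strat := .win 925 5 921
noncomputable def n190 : Strat := .win 1007 0 962
noncomputable def n191 : Strat := .win 1088 7 923
noncomputable def n192 : Strat := .win 882 7 882
noncomputable def n193 : Strat := .move 1047 n191 (.cons 1088 n192 .nil)
noncomputable def n194 : Strat := .move 1006 n190 (.cons 1007 n193 .nil)
noncomputable def n195 : Strat := .move 923 n177 (.cons 961 n194 .nil)
noncomputable def n196 : Strat := .move 924 n189 (.cons 925 n195 .nil)
noncomputable def n197 : Strat := .move 965 n172 (.cons 966 n196 .nil)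
noncomputable def n198 : Strat := .move 921 n170 (.cons 919 n173 (.cons 965 n188 (.cons 920 n197 .nil)))
noncomputable def n199 : Strat := .move 964 n167 (.cons 1005 n198 .nil)
noncomputable def n200 : Strat := .move 962 n39 (.cons 1003 n199 .nil)
noncomputable def n201 : Strat := .move 1004 n161 (.cons 880 n117 .nil)
noncomputable def n202 : Strat := .move 839 n160 (.cons 798 n201 .nil)
noncomputable def n203 : Strat := .win 960 5 919
noncomputable def n204 : Strat := .win 924 5 920
noncomputable def n205 : Strat := .move 923 n203 (.cons 960 n204 .nil)
noncomputable def n206 : Strat := .win 923 5 919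
noncomputable def n207 : Strat := .win 920 2 919
noncomputable def n208 : Strat := .win 918 2 918
noncomputable def n209 : Strat := .move 919 n207 (.cons 920 n208 .nil)
noncomputable def n210 : Strat := .move 960 n206 (.cons 923 n209 .nil)
noncomputable def n211 : Strat := .win 919 2 919
noncomputable def n212 : Strat := .win 921 2 920
noncomputable def n213 : Strat := .win 1002 4 960
noncomputable def n214 : Strat := .win 1008 0 963
noncomputable def n215 : Strat := .win 1006 0 962
noncomputable def n216 : Strat := .move 1007 n214 (.cons 1008 n215 .nil)
noncomputable def n217 : Strat := .win 926 5 922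
noncomputable def n218 : Strat := .win 924 5 921
noncomputable def n219 : Strat := .move 925 n217 (.cons 926 n218 .nil)
noncomputable def n220 : Strat := .move 966 n216 (.cons 1006 n219 .nil)
noncomputable def n221 : Strat := .move 1001 n213 (.cons 1002 n220 .nil)
noncomputable def n222 : Strat := .move 965 n212 (.cons 921 n221 .nil)
noncomputable def n223 : Strat := .move 920 n211 (.cons 919 n222 .nil)
noncomputable def n224 : Strat := .move 961 n205 (.cons 924 n210 (.cons 923 n223 .nil))
noncomputable def n225 : Strat := .move 962 n39 (.cons 1003 n224 .nil)
noncomputable def n226 : Strat := .move 964 n167 (.cons 1005 n225 .nil)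
noncomputable def n227 : Strat := .move 963 n166 (.cons 839 n200 (.cons 964 n202 (.cons 880 n226 .nil)))
noncomputable def n228 : Strat := .win 923 6 799
noncomputable def n229 : Strat := .move 964 n228 (.cons 923 n167 .nil)
noncomputable def n230 : Strat := .move 963 n37 (.cons 839 n229 .nil)
noncomputable def n231 : Strat := .move 798 n15 (.cons 757 n230 .nil)
noncomputable def n232 : Strat := .move 839 n16 (.cons 963 n31 .nil)
noncomputable def n233 : Strat := .move 798 n15 (.cons 757 n232 .nil)
noncomputable def n234 : Strat := .move 880 n2 (.cons 758 n233 .nil)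
noncomputable def n235 : Strat := .move 921 n0 (.cons 962 n234 .nil)
noncomputable def n236 : Strat := .move 799 n60 (.cons 921 n231 (.cons 964 n235 .nil))
noncomputable def n237 : Strat := .move 922 n36 (.cons 923 n46 (.cons 883 n50 (.cons 963 n79 (.cons 962 n106 (.cons 718 n113 (.cons 921 n123 (.cons 839 n139 (.cons 759 n159 (.cons 799 n227 (.cons 882 n236 .nil))))))))))

theorem ok : checkS n237 (pairBits 840 881) (pairBits 841 716) ≠ 0 := by decide +kernel

theorem reply : MakerWins {cellOf 881, cellOf 840} {cellOf 841, cellOf 716} :=
  reply2 n237 840 881 841 716 ok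

end Vale.Agent.Snaky.Cert2.R716
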