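import Vale.Agent.Snaky.Cert2.Lem

namespace Vale.Agent.Snaky.Cert2.R718

open Vale.Agent.Snaky

noncomputable def n0 : Strat := .win 962 1 798
noncomputable def n1 : Strat := .win 964 6 799
noncomputable def n2 : Strat := .win 758 1 757
noncomputable def n3 : Strat := .win 878 0 878
noncomputable def n4 : Strat := .win 924 2 879
noncomputable def n5 : Strat := .move 879 n3 (.cons 878 n4 .nil)
noncomputable def n6 : Strat := .move 880 n2 (.cons 758 n5 .nil)
noncomputable def n7 : Strat := .move 923 n1 (.cons 964 n6 .nil)
noncomputable def n8 : Strat := .move 921 n0 (.cons 962 n7 .nil)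
noncomputable def n9 : Strat := .win 880 1 757
noncomputable def n10 : Strat := .win 882 6 758
noncomputable def n11 : Strat := .move 758 n9 (.cons 880 n10 .nil)
noncomputable def n12 : Strat := .move 923 n1 (.cons 964 n11 .nil)
noncomputable def n13 : Strat := .move 921 n0 (.cons 962 n12 .nil)
noncomputable def n14 : Strat := .win 757 7 757
noncomputable def n15 : Strat := .win 839 7 798
noncomputable def n16 : Strat := .win 923 6 799
noncomputable def n17 : Strat := .win 1005 6 840
noncomputable def n18 : Strat := .move 964 n16 (.cons 923 n17 .nil)
noncomputable def n19 : Strat := .move 963 n15 (.cons 839 n18 .nil)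
noncomputable def n20 : Strat := .move 798 n14 (.cons 757 n19 .nil)
noncomputable def n21 : Strat := .win 963 6 798
noncomputable def n22 : Strat := .win 961 1 797
noncomputable def n23 : Strat := .win 919 5 878
noncomputable def n24 : Strat := .win 883 4 879
noncomputable def n25 : Strat := .move 882 n23 (.cons 919 n24 .nil)
noncomputable def n26 : Strat := .move 920 n22 (.cons 961 n25 .nil)
noncomputable def n27 : Strat := .move 839 n21 (.cons 963 n26 .nil)
noncomputable def n28 : Strat := .move 798 n14 (.cons 757 n27 .nil)
noncomputable def n29 : Strat := .move 880 n2 (.cons 758 n28 .nil)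
noncomputable def n30 : Strat := .move 921 n0 (.cons 962 n29 .nil)
noncomputable def n31 : Strat := .move 799 n8 (.cons 878 n13 (.cons 921 n20 (.cons 964 n30 .nil)))
noncomputable def n32 : Strat := .win 963 7 798
noncomputable def n33 : Strat := .win 759 3 758
noncomputable def n34 : Strat := .win 801 4 797
noncomputable def n35 : Strat := .win 837 5 796
noncomputable def n36 : Strat := .move 838 n34 (.cons 801 n35 .nil)
noncomputable def n37 : Strat := .move 800 n33 (.cons 759 n36 .nil)
noncomputable def n38 : Strat := .move 839 n32 (.cons 963 n37 .nil)
noncomputable def n39 : Strat := .move 798 n14 (.cons 757 n38 .nil)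
noncomputable def n40 : Strat := .win 758 6 758
noncomputable def n41 : Strat := .win 884 4 880
noncomputable def n42 : Strat := .win 920 5 879
noncomputable def n43 : Strat := .move 883 n41 (.cons 884 n42 .nil)
noncomputable def n44 : Strat := .move 882 n40 (.cons 758 n43 .nil)
noncomputable def n45 : Strat := .move 921 n0 (.cons 962 n44 .nil)
noncomputable def n46 : Strat := .move 923 n1 (.cons 964 n45 .nil)
noncomputable def n47 : Strat := .move 799 n20 (.cons 964 n39 (.cons 963 n46 .nil))
noncomputable def n48 : Strat := .win 921 1 798
noncomputable def n49 : Strat := .win 1003 1 839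
noncomputable def n50 : Strat := .move 962 n48 (.cons 921 n49 .nil)
noncomputable def n51 : Strat := .move 963 n15 (.cons 839 n50 .nil)
noncomputable def n52 : Strat := .move 798 n14 (.cons 757 n51 .nil)
noncomputable def n53 : Strat := .move 799 n52 (.cons 921 n20 (.cons 839 n8 .nil))
noncomputable def n54 : Strat := .move 923 n1 (.cons 964 n5 .nil)
noncomputable def n55 : Strat := .move 880 n2 (.cons 758 n54 .nil)
noncomputable def n56 : Strat := .move 921 n0 (.cons 962 n55 .nil)
noncomputable def n57 : Strat := .move 799 n56 (.cons 758 n39 .nil)
noncomputable def n58 : Strat := .win 798 7 757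
noncomputable def n59 : Strat := .win 716 7 716
noncomputable def n60 : Strat := .move 758 n10 (.cons 882 n59 .nil)
noncomputable def n61 : Strat := .move 757 n58 (.cons 798 n60 .nil)
noncomputable def n62 : Strat := .move 923 n1 (.cons 964 n61 .nil)
noncomputable def n63 : Strat := .move 757 n58 (.cons 798 n59 .nil)
noncomputable def n64 : Strat := .move 758 n9 (.cons 880 n63 .nil)
noncomputable def n65 : Strat := .move 921 n0 (.cons 962 n64 .nil)
noncomputable def n66 : Strat := .win 883 5 879
noncomputable def n67 : Strat := .move 882 n23 (.cons 919 n66 .nil)
noncomputable def n68 : Strat := .win 882 5 878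
noncomputable def n69 : Strat := .win 877 2 877
noncomputable def n70 : Strat := .win 879 2 878
noncomputable def n71 : Strat := .move 878 n69 (.cons 877 n70 .nil)
noncomputable def n72 : Strat := .move 919 n68 (.cons 882 n71 .nil)
noncomputable def n73 : Strat := .win 878 2 878
noncomputable def n74 : Strat := .win 839 1 797
noncomputable def n75 : Strat := .win 960 4 919
noncomputable def n76 : Strat := .move 961 n74 (.cons 839 n75 .nil)
noncomputable def n77 : Strat := .move 880 n4 (.cons 924 n76 .nil)
noncomputable def n78 : Strat := .move 879 n73 (.cons 878 n77 .nil)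
noncomputable def n79 : Strat := .move 920 n67 (.cons 883 n72 (.cons 882 n78 .nil))
noncomputable def n80 : Strat := .move 800 n33 (.cons 759 n79 .nil)
noncomputable def n81 : Strat := .move 798 n14 (.cons 757 n80 .nil)
noncomputable def n82 : Strat := .move 923 n1 (.cons 964 n81 .nil)
noncomputable def n83 : Strat := .move 921 n0 (.cons 962 n82 .nil)
noncomputable def n84 : Strat := .move 799 n13 (.cons 921 n62 (.cons 964 n65 (.cons 758 n83 .nil)))
noncomputable def n85 : Strat := .win 798 7 798
noncomputable def n86 : Strat := .win 880 7 839
noncomputable def n87 : Strat := .win 964 6 840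
noncomputable def n88 : Strat := .win 1046 6 881
noncomputable def n89 : Strat := .move 1005 n87 (.cons 964 n88 .nil)
noncomputable def n90 : Strat := .move 1004 n86 (.cons 880 n89 .nil)
noncomputable def n91 : Strat := .move 839 n85 (.cons 798 n90 .nil)
noncomputable def n92 : Strat := .win 962 1 839
noncomputable def n93 : Strat := .win 1044 1 880
noncomputable def n94 : Strat := .move 1003 n92 (.cons 962 n93 .nil)
noncomputable def n95 : Strat := .move 1004 n86 (.cons 880 n94 .nil)
noncomputable def n96 : Strat := .move 839 n85 (.cons 798 n95 .nil)
noncomputable def n97 : Strat := .win 919 0 919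
noncomputable def n98 : Strat := .win 965 2 920
noncomputable def n99 : Strat := .move 920 n97 (.cons 919 n98 .nil)
noncomputable def n100 : Strat := .win 920 2 920
noncomputable def n101 : Strat := .win 966 2 921
noncomputable def n102 : Strat := .move 965 n100 (.cons 920 n101 .nil)
noncomputable def n103 : Strat := .win 924 4 920
noncomputable def n104 : Strat := .move 961 n75 (.cons 960 n103 .nil)
noncomputable def n105 : Strat := .win 925 4 921
noncomputable def n106 : Strat := .win 961 4 920
noncomputable def n107 : Strat := .move 924 n105 (.cons 925 n106 .nil)
noncomputable def n108 : Strat := .win 880 2 879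
noncomputable def n109 : Strat := .move 879 n108 (.cons 880 n73 .nil)
noncomputable def n110 : Strat := .move 924 n105 (.cons 925 n109 .nil)
noncomputable def n111 : Strat := .win 1001 4 960
noncomputable def n112 : Strat := .win 1084 3 920
noncomputable def n113 : Strat := .win 880 3 879
noncomputable def n114 : Strat := .move 1043 n112 (.cons 1084 n113 .nil)
noncomputable def n115 : Strat := .move 1002 n111 (.cons 1001 n114 .nil)
noncomputable def n116 : Strat := .move 961 n75 (.cons 960 n115 .nil)
noncomputable def n117 : Strat := .move 923 n104 (.cons 960 n107 (.cons 961 n110 (.cons 924 n116 .nil)))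
noncomputable def n118 : Strat := .move 920 n97 (.cons 919 n117 .nil)
noncomputable def n119 : Strat := .win 925 5 921
noncomputable def n120 : Strat := .win 1007 0 962
noncomputable def n121 : Strat := .win 1088 7 923
noncomputable def n122 : Strat := .win 882 7 882
noncomputable def n123 : Strat := .move 1047 n121 (.cons 1088 n122 .nil)
noncomputable def n124 : Strat := .move 1006 n120 (.cons 1007 n123 .nil)
noncomputable def n125 : Strat := .move 923 n106 (.cons 961 n124 .nil)
noncomputable def n126 : Strat := .move 924 n119 (.cons 925 n125 .nil)
noncomputable def n127 : Strat := .move 965 n101 (.cons 966 n126 .nil)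
noncomputable def n128 : Strat := .move 921 n99 (.cons 919 n102 (.cons 965 n118 (.cons 920 n127 .nil)))
noncomputable def n129 : Strat := .move 964 n17 (.cons 1005 n128 .nil)
noncomputable def n130 : Strat := .move 962 n49 (.cons 1003 n129 .nil)
noncomputable def n131 : Strat := .win 960 5 919
noncomputable def n132 : Strat := .win 924 5 920
noncomputable def n133 : Strat := .move 923 n131 (.cons 960 n132 .nil)
noncomputable def n134 : Strat := .win 923 5 919
noncomputable def n135 : Strat := .win 920 2 919
noncomputable def n136 : Strat := .win 918 2 918
noncomputable def n137 : Strat := .move 919 n135 (.cons 920 n136 .nil)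
noncomputable def n138 : Strat := .move 960 n134 (.cons 923 n137 .nil)
noncomputable def n139 : Strat := .win 919 2 919
noncomputable def n140 : Strat := .win 921 2 920
noncomputable def n141 : Strat := .win 1002 4 960
noncomputable def n142 : Strat := .win 1008 0 963
noncomputable def n143 : Strat := .win 1006 0 962
noncomputable def n144 : Strat := .move 1007 n142 (.cons 1008 n143 .nil)
noncomputable def n145 : Strat := .win 926 5 922
noncomputable def n146 : Strat := .win 924 5 921
noncomputable def n147 : Strat := .move 925 n145 (.cons 926 n146 .nil)
noncomputable def n148 : Strat := .move 966 n144 (.cons 1006 n147 .nil)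
noncomputable def n149 : Strat := .move 1001 n141 (.cons 1002 n148 .nil)
noncomputable def n150 : Strat := .move 965 n140 (.cons 921 n149 .nil)
noncomputable def n151 : Strat := .move 920 n139 (.cons 919 n150 .nil)
noncomputable def n152 : Strat := .move 961 n133 (.cons 924 n138 (.cons 923 n151 .nil))
noncomputable def n153 : Strat := .move 962 n49 (.cons 1003 n152 .nil)
noncomputable def n154 : Strat := .move 964 n17 (.cons 1005 n153 .nil)
noncomputable def n155 : Strat := .move 963 n91 (.cons 964 n96 (.cons 839 n130 (.cons 880 n154 .nil)))
noncomputable def n156 : Strat := .move 758 n10 (.cons 882 n63 .nil)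
noncomputable def n157 : Strat := .move 923 n1 (.cons 964 n156 .nil)
noncomputable def n158 : Strat := .move 878 n70 (.cons 879 n69 .nil)
noncomputable def n159 : Strat := .move 919 n68 (.cons 882 n158 .nil)
noncomputable def n160 : Strat := .win 882 5 879
noncomputable def n161 : Strat := .win 884 5 880
noncomputable def n162 : Strat := .win 879 2 879
noncomputable def n163 : Strat := .win 925 2 880
noncomputable def n164 : Strat := .move 880 n162 (.cons 879 n163 .nil)
noncomputable def n165 : Strat := .move 924 n161 (.cons 884 n164 .nil)
noncomputable def n166 : Strat := .move 883 n160 (.cons 882 n165 .nil)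
noncomputable def n167 : Strat := .win 961 4 919
noncomputable def n168 : Strat := .win 967 0 922
noncomputable def n169 : Strat := .win 965 0 921
noncomputable def n170 : Strat := .move 966 n168 (.cons 967 n169 .nil)
noncomputable def n171 : Strat := .win 885 5 881
noncomputable def n172 : Strat := .win 883 5 880
noncomputable def n173 : Strat := .move 884 n171 (.cons 885 n172 .nil)
noncomputable def n174 : Strat := .move 925 n170 (.cons 965 n173 .nil)
noncomputable def n175 : Strat := .move 960 n167 (.cons 961 n174 .nil)
noncomputable def n176 : Strat := .move 924 n108 (.cons 880 n175 .nil)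
noncomputable def n177 : Strat := .move 879 n73 (.cons 878 n176 .nil)
noncomputable def n178 : Strat := .move 920 n67 (.cons 883 n159 (.cons 919 n166 (.cons 882 n177 .nil)))
noncomputable def n179 : Strat := .move 923 n1 (.cons 964 n178 .nil)
noncomputable def n180 : Strat := .move 921 n0 (.cons 962 n179 .nil)
noncomputable def n181 : Strat := .move 799 n13 (.cons 921 n157 (.cons 964 n65 (.cons 758 n180 .nil)))
noncomputable def n182 : Strat := .win 920 4 879
noncomputable def n183 : Strat := .move 883 n41 (.cons 884 n182 .nil)
noncomputable def n184 : Strat := .win 925 0 880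
noncomputable def n185 : Strat := .win 923 0 879
noncomputable def n186 : Strat := .win 839 2 838
noncomputable def n187 : Strat := .win 837 2 837
noncomputable def n188 : Strat := .move 838 n186 (.cons 839 n187 .nil)
noncomputable def n189 : Strat := .move 879 n185 (.cons 923 n188 .nil)
noncomputable def n190 : Strat := .move 924 n184 (.cons 925 n189 .nil)
noncomputable def n191 : Strat := .move 883 n41 (.cons 884 n190 .nil)
noncomputable def n192 : Strat := .move 920 n23 (.cons 919 n24 .nil)
noncomputable def n193 : Strat := .win 924 0 879
noncomputable def n194 : Strat := .move 923 n3 (.cons 878 n193 .nil)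
noncomputable def n195 : Strat := .win 919 4 878
noncomputable def n196 : Strat := .win 877 0 877
noncomputable def n197 : Strat := .win 836 2 836
noncomputable def n198 : Strat := .win 838 2 837
noncomputable def n199 : Strat := .move 837 n197 (.cons 836 n198 .nil)
noncomputable def n200 : Strat := .move 878 n196 (.cons 877 n199 .nil)
noncomputable def n201 : Strat := .move 920 n195 (.cons 919 n200 .nil)
noncomputable def n202 : Strat := .win 1043 3 879
noncomputable def n203 : Strat := .win 839 3 838
noncomputable def n204 : Strat := .move 1002 n202 (.cons 1043 n203 .nil)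
noncomputable def n205 : Strat := .move 961 n75 (.cons 960 n204 .nil)
noncomputable def n206 : Strat := .move 923 n193 (.cons 924 n205 .nil)
noncomputable def n207 : Strat := .move 920 n195 (.cons 919 n206 .nil)
noncomputable def n208 : Strat := .move 879 n194 (.cons 923 n201 (.cons 878 n207 .nil))
noncomputable def n209 : Strat := .move 882 n183 (.cons 920 n191 (.cons 884 n192 (.cons 883 n208 .nil)))
noncomputable def n210 : Strat := .move 880 n2 (.cons 758 n209 .nil)
noncomputable def n211 : Strat := .move 921 n0 (.cons 962 n210 .nil)
noncomputable def n212 : Strat := .move 799 n30 (.cons 839 n65 (.cons 880 n39 (.cons 798 n211 .nil)))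
noncomputable def n213 : Strat := .move 798 n14 (.cons 757 n15 .nil)
noncomputable def n214 : Strat := .move 799 n48 (.cons 921 n213 .nil)
noncomputable def n215 : Strat := .move 962 n49 (.cons 1003 n214 .nil)
noncomputable def n216 : Strat := .win 799 1 798
noncomputable def n217 : Strat := .move 964 n17 (.cons 1005 n99 .nil)
noncomputable def n218 : Strat := .move 921 n216 (.cons 799 n217 .nil)
noncomputable def n219 : Strat := .move 962 n49 (.cons 1003 n218 .nil)
noncomputable def n220 : Strat := .move 963 n96 (.cons 962 n91 (.cons 1004 n215 (.cons 839 n219 .nil)))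
noncomputable def n221 : Strat := .win 879 0 879
noncomputable def n222 : Strat := .move 924 n163 (.cons 925 n221 .nil)
noncomputable def n223 : Strat := .move 879 n3 (.cons 878 n193 .nil)
noncomputable def n224 : Strat := .win 839 2 839
noncomputable def n225 : Strat := .win 885 4 881
noncomputable def n226 : Strat := .move 884 n224 (.cons 839 n225 .nil)
noncomputable def n227 : Strat := .win 884 2 839
noncomputable def n228 : Strat := .win 838 2 838
noncomputable def n229 : Strat := .move 839 n227 (.cons 884 n228 .nil)
noncomputable def n230 : Strat := .win 760 1 759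
noncomputable def n231 : Strat := .win 843 5 839
noncomputable def n232 : Strat := .move 842 n230 (.cons 760 n231 .nil)
noncomputable def n233 : Strat := .win 802 4 798
noncomputable def n234 : Strat := .move 800 n233 (.cons 802 n33 .nil)
noncomputable def n235 : Strat := .move 801 n232 (.cons 843 n234 .nil)
noncomputable def n236 : Strat := .move 839 n228 (.cons 838 n235 .nil)
noncomputable def n237 : Strat := .win 844 5 840
noncomputable def n238 : Strat := .win 842 5 839
noncomputable def n239 : Strat := .move 843 n237 (.cons 844 n238 .nil)
noncomputable def n240 : Strat := .move 884 n225 (.cons 885 n239 .nil)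
noncomputable def n241 : Strat := .move 883 n226 (.cons 885 n229 (.cons 884 n236 (.cons 839 n240 .nil)))
noncomputable def n242 : Strat := .move 924 n163 (.cons 925 n241 .nil)
noncomputable def n243 : Strat := .move 883 n186 (.cons 839 n240 .nil)
noncomputable def n244 : Strat := .move 838 n187 (.cons 837 n243 .nil)
noncomputable def n245 : Strat := .move 879 n3 (.cons 878 n244 .nil)
noncomputable def n246 : Strat := .move 880 n222 (.cons 925 n223 (.cons 879 n242 (.cons 924 n245 .nil)))
noncomputable def n247 : Strat := .move 882 n40 (.cons 758 n246 .nil)
noncomputable def n248 : Strat := .move 923 n1 (.cons 964 n247 .nil)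
noncomputable def n249 : Strat := .move 1004 n93 (.cons 1044 n89 .nil)
noncomputable def n250 : Strat := .move 1003 n92 (.cons 962 n249 .nil)
noncomputable def n251 : Strat := .move 963 n15 (.cons 839 n250 .nil)
noncomputable def n252 : Strat := .move 798 n14 (.cons 757 n251 .nil)
noncomputable def n253 : Strat := .move 799 n20 (.cons 798 n248 (.cons 839 n157 (.cons 923 n252 (.cons 964 n39 .nil))))
noncomputable def n254 : Strat := .move 799 n0 (.cons 962 n12 .nil)
noncomputable def n255 : Strat := .move 799 n0 (.cons 962 n7 .nil)
noncomputable def n256 : Strat := .win 963 1 839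
noncomputable def n257 : Strat := .win 1044 3 880
noncomputable def n258 : Strat := .move 1003 n256 (.cons 963 n257 .nil)
noncomputable def n259 : Strat := .move 962 n216 (.cons 799 n258 .nil)
noncomputable def n260 : Strat := .win 880 3 839
noncomputable def n261 : Strat := .move 1003 n256 (.cons 963 n260 .nil)
noncomputable def n262 : Strat := .move 1003 n260 (.cons 880 n257 .nil)
noncomputable def n263 : Strat := .win 880 2 880
noncomputable def n264 : Strat := .win 963 4 921
noncomputable def n265 : Strat := .move 925 n263 (.cons 880 n264 .nil)
noncomputable def n266 : Strat := .move 924 n106 (.cons 961 n265 .nil)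
noncomputable def n267 : Strat := .win 959 5 918
noncomputable def n268 : Strat := .win 920 4 919
noncomputable def n269 : Strat := .move 960 n267 (.cons 959 n268 .nil)
noncomputable def n270 : Strat := .move 961 n103 (.cons 924 n269 .nil)
noncomputable def n271 : Strat := .win 918 0 918
noncomputable def n272 : Strat := .win 964 0 919
noncomputable def n273 : Strat := .move 963 n271 (.cons 918 n272 .nil)
noncomputable def n274 : Strat := .move 919 n68 (.cons 882 n273 .nil)
noncomputable def n275 : Strat := .win 965 0 920
noncomputable def n276 : Strat := .move 963 n17 (.cons 1005 n97 .nil)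
noncomputable def n277 : Strat := .move 964 n275 (.cons 965 n276 .nil)
noncomputable def n278 : Strat := .win 963 6 840
noncomputable def n279 : Strat := .win 882 7 840
noncomputable def n280 : Strat := .move 1005 n278 (.cons 963 n279 .nil)
noncomputable def n281 : Strat := .move 964 n275 (.cons 965 n280 .nil)
noncomputable def n282 : Strat := .move 920 n67 (.cons 883 n274 (.cons 882 n277 (.cons 919 n281 .nil)))
noncomputable def n283 : Strat := .move 923 n266 (.cons 925 n270 (.cons 924 n282 .nil))
noncomputable def n284 : Strat := .move 962 n261 (.cons 963 n262 (.cons 880 n258 (.cons 1003 n283 .nil)))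
noncomputable def n285 : Strat := .move 799 n1 (.cons 964 n11 .nil)
noncomputable def n286 : Strat := .win 1005 7 840
noncomputable def n287 : Strat := .move 964 n275 (.cons 965 n286 .nil)
noncomputable def n288 : Strat := .move 882 n66 (.cons 883 n287 .nil)
noncomputable def n289 : Strat := .move 920 n67 (.cons 882 n277 (.cons 919 n288 .nil))
noncomputable def n290 : Strat := .move 799 n1 (.cons 964 n6 .nil)
noncomputable def n291 : Strat := .move 920 n23 (.cons 919 n66 .nil)
noncomputable def n292 : Strat := .move 799 n2 (.cons 758 n205 .nil)
noncomputable def n293 : Strat := .move 880 n193 (.cons 924 n292 .nil)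
noncomputable def n294 : Strat := .move 879 n73 (.cons 878 n293 .nil)
noncomputable def n295 : Strat := .move 920 n23 (.cons 919 n294 .nil)
noncomputable def n296 : Strat := .move 924 n221 (.cons 879 n184 .nil)
noncomputable def n297 : Strat := .move 842 n231 (.cons 843 n230 .nil)
noncomputable def n298 : Strat := .move 801 n297 (.cons 760 n234 .nil)
noncomputable def n299 : Strat := .move 839 n228 (.cons 838 n298 .nil)
noncomputable def n300 : Strat := .move 799 n2 (.cons 758 n299 .nil)
noncomputable def n301 : Strat := .move 880 n296 (.cons 925 n223 (.cons 924 n300 .nil))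
noncomputable def n302 : Strat := .move 883 n41 (.cons 884 n301 .nil)
noncomputable def n303 : Strat := .move 882 n43 (.cons 884 n291 (.cons 883 n295 (.cons 920 n302 .nil)))
noncomputable def n304 : Strat := .move 923 n285 (.cons 799 n289 (.cons 882 n290 (.cons 964 n303 .nil)))
noncomputable def n305 : Strat := .move 921 n254 (.cons 882 n255 (.cons 880 n259 (.cons 799 n284 (.cons 962 n304 .nil))))
noncomputable def n306 : Strat := .win 921 4 880
noncomputable def n307 : Strat := .move 884 n224 (.cons 839 n306 .nil)
noncomputable def n308 : Strat := .move 884 n306 (.cons 921 n225 .nil)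
noncomputable def n309 : Strat := .move 924 n184 (.cons 925 n221 .nil)
noncomputable def n310 : Strat := .win 921 4 879
noncomputable def n311 : Strat := .move 879 n3 (.cons 878 n195 .nil)
noncomputable def n312 : Strat := .move 920 n310 (.cons 921 n311 .nil)
noncomputable def n313 : Strat := .win 1004 7 839
noncomputable def n314 : Strat := .win 798 6 798
noncomputable def n315 : Strat := .move 963 n313 (.cons 1004 n314 .nil)
noncomputable def n316 : Strat := .move 839 n228 (.cons 838 n315 .nil)
noncomputable def n317 : Strat := .move 921 n182 (.cons 920 n316 .nil)
noncomputable def n318 : Strat := .move 924 n184 (.cons 925 n317 .nil)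
noncomputable def n319 : Strat := .move 880 n309 (.cons 925 n223 (.cons 924 n312 (.cons 879 n318 .nil)))
noncomputable def n320 : Strat := .move 883 n307 (.cons 921 n226 (.cons 839 n308 (.cons 884 n319 .nil)))
noncomputable def n321 : Strat := .move 882 n40 (.cons 758 n320 .nil)
noncomputable def n322 : Strat := .move 923 n1 (.cons 964 n321 .nil)
noncomputable def n323 : Strat := .win 921 1 757
noncomputable def n324 : Strat := .win 839 1 716
noncomputable def n325 : Strat := .win 757 7 716
noncomputable def n326 : Strat := .win 675 7 675
noncomputable def n327 : Strat := .move 716 n325 (.cons 757 n326 .nil)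
noncomputable def n328 : Strat := .move 717 n324 (.cons 839 n327 .nil)
noncomputable def n329 : Strat := .move 880 n323 (.cons 921 n328 .nil)
noncomputable def n330 : Strat := .move 758 n10 (.cons 882 n329 .nil)
noncomputable def n331 : Strat := .move 923 n1 (.cons 964 n330 .nil)
noncomputable def n332 : Strat := .move 799 n157 (.cons 923 n39 (.cons 757 n322 (.cons 798 n331 .nil)))
noncomputable def n333 : Strat := .move 922 n31 (.cons 880 n47 (.cons 882 n53 (.cons 1005 n57 (.cons 963 n84 (.cons 799 n155 (.cons 839 n181 (.cons 964 n212 (.cons 923 n220 (.cons 921 n253 (.cons 798 n305 (.cons 962 n332 .nil)))))))))))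

theorem ok : checkS n333 (pairBits 840 881) (pairBits 841 718) ≠ 0 := by decide +kernel

theorem reply : MakerWins {cellOf 881, cellOf 840} {cellOf 841, cellOf 718} :=
  reply2 n333 840 881 841 718 ok

end Vale.Agent.Snaky.Cert2.R718
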