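import Vale.Agent.Snaky.Cert2.Lem

namespace Vale.Agent.Snaky.Cert2.R757

open Vale.Agent.Snaky

noncomputable def n0 : Strat := .win 1003 1 839
noncomputable def n1 : Strat := .win 799 1 798
noncomputable def n2 : Strat := .win 1005 6 840
noncomputable def n3 : Strat := .win 919 0 919
noncomputable def n4 : Strat := .win 965 2 920
noncomputable def n5 : Strat := .move 920 n3 (.cons 919 n4 .nil)
noncomputable def n6 : Strat := .move 964 n2 (.cons 1005 n5 .nil)
noncomputable def n7 : Strat := .move 921 n1 (.cons 799 n6 .nil)
noncomputable def n8 : Strat := .move 962 n0 (.cons 1003 n7 .nil)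
noncomputable def n9 : Strat := .win 921 1 798
noncomputable def n10 : Strat := .win 923 6 799
noncomputable def n11 : Strat := .move 799 n9 (.cons 921 n10 .nil)
noncomputable def n12 : Strat := .move 964 n2 (.cons 1005 n11 .nil)
noncomputable def n13 : Strat := .move 962 n0 (.cons 1003 n12 .nil)
noncomputable def n14 : Strat := .win 799 6 799
noncomputable def n15 : Strat := .win 798 7 798
noncomputable def n16 : Strat := .win 880 7 839
noncomputable def n17 : Strat := .win 882 3 881
noncomputable def n18 : Strat := .win 1086 3 922
noncomputable def n19 : Strat := .move 1045 n17 (.cons 882 n18 .nil)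
noncomputable def n20 : Strat := .move 1004 n16 (.cons 880 n19 .nil)
noncomputable def n21 : Strat := .move 839 n15 (.cons 798 n20 .nil)
noncomputable def n22 : Strat := .move 923 n14 (.cons 799 n21 .nil)
noncomputable def n23 : Strat := .move 964 n2 (.cons 1005 n22 .nil)
noncomputable def n24 : Strat := .win 1004 6 839
noncomputable def n25 : Strat := .win 797 7 797
noncomputable def n26 : Strat := .win 837 0 837
noncomputable def n27 : Strat := .win 883 2 838
noncomputable def n28 : Strat := .move 882 n26 (.cons 837 n27 .nil)
noncomputable def n29 : Strat := .move 838 n25 (.cons 797 n28 .nil)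
noncomputable def n30 : Strat := .move 880 n24 (.cons 1004 n29 .nil)
noncomputable def n31 : Strat := .move 839 n15 (.cons 798 n30 .nil)
noncomputable def n32 : Strat := .move 921 n1 (.cons 799 n31 .nil)
noncomputable def n33 : Strat := .move 962 n0 (.cons 1003 n32 .nil)
noncomputable def n34 : Strat := .win 1004 7 839
noncomputable def n35 : Strat := .win 1002 1 838
noncomputable def n36 : Strat := .win 924 4 920
noncomputable def n37 : Strat := .win 960 5 919
noncomputable def n38 : Strat := .move 923 n36 (.cons 924 n37 .nil)
noncomputable def n39 : Strat := .move 961 n35 (.cons 1002 n38 .nil)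
noncomputable def n40 : Strat := .move 921 n5 (.cons 920 n39 .nil)
noncomputable def n41 : Strat := .move 880 n34 (.cons 1004 n40 .nil)
noncomputable def n42 : Strat := .move 839 n15 (.cons 798 n41 .nil)
noncomputable def n43 : Strat := .move 964 n2 (.cons 1005 n42 .nil)
noncomputable def n44 : Strat := .move 962 n0 (.cons 1003 n43 .nil)
noncomputable def n45 : Strat := .move 963 n8 (.cons 920 n13 (.cons 962 n23 (.cons 964 n33 (.cons 799 n44 .nil))))
noncomputable def n46 : Strat := .win 964 6 840
noncomputable def n47 : Strat := .win 1046 6 881
noncomputable def n48 : Strat := .move 1005 n46 (.cons 964 n47 .nil)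
noncomputable def n49 : Strat := .move 1004 n16 (.cons 880 n48 .nil)
noncomputable def n50 : Strat := .move 839 n15 (.cons 798 n49 .nil)
noncomputable def n51 : Strat := .win 962 1 839
noncomputable def n52 : Strat := .win 1044 1 880
noncomputable def n53 : Strat := .move 1003 n51 (.cons 962 n52 .nil)
noncomputable def n54 : Strat := .move 1004 n16 (.cons 880 n53 .nil)
noncomputable def n55 : Strat := .move 839 n15 (.cons 798 n54 .nil)
noncomputable def n56 : Strat := .move 962 n0 (.cons 1003 n11 .nil)
noncomputable def n57 : Strat := .move 964 n2 (.cons 1005 n56 .nil)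
noncomputable def n58 : Strat := .move 963 n50 (.cons 964 n55 (.cons 839 n57 .nil))
noncomputable def n59 : Strat := .win 962 1 798
noncomputable def n60 : Strat := .win 758 1 757
noncomputable def n61 : Strat := .win 964 6 799
noncomputable def n62 : Strat := .win 878 0 878
noncomputable def n63 : Strat := .win 924 2 879
noncomputable def n64 : Strat := .move 879 n62 (.cons 878 n63 .nil)
noncomputable def n65 : Strat := .move 923 n61 (.cons 964 n64 .nil)
noncomputable def n66 : Strat := .move 880 n60 (.cons 758 n65 .nil)
noncomputable def n67 : Strat := .move 921 n59 (.cons 962 n66 .nil)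
noncomputable def n68 : Strat := .win 884 2 839
noncomputable def n69 : Strat := .win 838 2 838
noncomputable def n70 : Strat := .move 883 n68 (.cons 884 n69 .nil)
noncomputable def n71 : Strat := .move 838 n26 (.cons 837 n27 .nil)
noncomputable def n72 : Strat := .win 919 5 878
noncomputable def n73 : Strat := .win 961 1 797
noncomputable def n74 : Strat := .win 801 4 797
noncomputable def n75 : Strat := .win 759 3 758
noncomputable def n76 : Strat := .move 800 n74 (.cons 801 n75 .nil)
noncomputable def n77 : Strat := .move 798 n73 (.cons 961 n76 .nil)
noncomputable def n78 : Strat := .move 920 n72 (.cons 919 n77 .nil)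
noncomputable def n79 : Strat := .move 838 n26 (.cons 837 n78 .nil)
noncomputable def n80 : Strat := .win 920 4 879
noncomputable def n81 : Strat := .move 883 n68 (.cons 884 n80 .nil)
noncomputable def n82 : Strat := .move 882 n70 (.cons 884 n71 (.cons 883 n79 (.cons 838 n81 .nil)))
noncomputable def n83 : Strat := .move 880 n60 (.cons 758 n82 .nil)
noncomputable def n84 : Strat := .move 921 n59 (.cons 962 n83 .nil)
noncomputable def n85 : Strat := .win 837 5 796
noncomputable def n86 : Strat := .win 802 4 798
noncomputable def n87 : Strat := .win 798 4 797
noncomputable def n88 : Strat := .move 801 n86 (.cons 802 n87 .nil)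
noncomputable def n89 : Strat := .move 838 n85 (.cons 837 n88 .nil)
noncomputable def n90 : Strat := .move 800 n75 (.cons 759 n89 .nil)
noncomputable def n91 : Strat := .move 839 n67 (.cons 923 n84 (.cons 921 n90 .nil))
noncomputable def n92 : Strat := .win 882 6 758
noncomputable def n93 : Strat := .win 800 3 758
noncomputable def n94 : Strat := .win 718 3 717
noncomputable def n95 : Strat := .move 759 n93 (.cons 800 n94 .nil)
noncomputable def n96 : Strat := .move 758 n92 (.cons 882 n95 .nil)
noncomputable def n97 : Strat := .move 923 n61 (.cons 964 n96 .nil)
noncomputable def n98 : Strat := .win 880 1 757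
noncomputable def n99 : Strat := .move 758 n98 (.cons 880 n95 .nil)
noncomputable def n100 : Strat := .move 921 n59 (.cons 962 n99 .nil)
noncomputable def n101 : Strat := .move 758 n98 (.cons 880 n92 .nil)
noncomputable def n102 : Strat := .move 923 n61 (.cons 964 n101 .nil)
noncomputable def n103 : Strat := .move 921 n59 (.cons 962 n102 .nil)
noncomputable def n104 : Strat := .win 883 5 879
noncomputable def n105 : Strat := .move 882 n72 (.cons 919 n104 .nil)
noncomputable def n106 : Strat := .win 882 5 878
noncomputable def n107 : Strat := .win 879 2 878
noncomputable def n108 : Strat := .win 877 2 877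
noncomputable def n109 : Strat := .move 878 n107 (.cons 879 n108 .nil)
noncomputable def n110 : Strat := .move 919 n106 (.cons 882 n109 .nil)
noncomputable def n111 : Strat := .win 878 2 878
noncomputable def n112 : Strat := .win 880 2 879
noncomputable def n113 : Strat := .win 961 4 919
noncomputable def n114 : Strat := .win 967 0 922
noncomputable def n115 : Strat := .win 965 0 921
noncomputable def n116 : Strat := .move 966 n114 (.cons 967 n115 .nil)
noncomputable def n117 : Strat := .win 885 5 881
noncomputable def n118 : Strat := .win 883 5 880
noncomputable def n119 : Strat := .move 884 n117 (.cons 885 n118 .nil)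
noncomputable def n120 : Strat := .move 925 n116 (.cons 965 n119 .nil)
noncomputable def n121 : Strat := .move 960 n113 (.cons 961 n120 .nil)
noncomputable def n122 : Strat := .move 924 n112 (.cons 880 n121 .nil)
noncomputable def n123 : Strat := .move 879 n111 (.cons 878 n122 .nil)
noncomputable def n124 : Strat := .move 920 n105 (.cons 883 n110 (.cons 882 n123 .nil))
noncomputable def n125 : Strat := .move 923 n61 (.cons 964 n124 .nil)
noncomputable def n126 : Strat := .move 921 n59 (.cons 962 n125 .nil)
noncomputable def n127 : Strat := .move 799 n91 (.cons 921 n97 (.cons 923 n100 (.cons 800 n103 (.cons 758 n126 .nil))))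
noncomputable def n128 : Strat := .win 920 2 920
noncomputable def n129 : Strat := .win 966 2 921
noncomputable def n130 : Strat := .move 965 n128 (.cons 920 n129 .nil)
noncomputable def n131 : Strat := .win 960 4 919
noncomputable def n132 : Strat := .move 961 n131 (.cons 960 n36 .nil)
noncomputable def n133 : Strat := .win 925 4 921
noncomputable def n134 : Strat := .win 961 4 920
noncomputable def n135 : Strat := .move 924 n133 (.cons 925 n134 .nil)
noncomputable def n136 : Strat := .move 879 n112 (.cons 880 n111 .nil)
noncomputable def n137 : Strat := .move 924 n133 (.cons 925 n136 .nil)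
noncomputable def n138 : Strat := .win 1001 4 960
noncomputable def n139 : Strat := .win 1084 3 920
noncomputable def n140 : Strat := .win 880 3 879
noncomputable def n141 : Strat := .move 1043 n139 (.cons 1084 n140 .nil)
noncomputable def n142 : Strat := .move 1002 n138 (.cons 1001 n141 .nil)
noncomputable def n143 : Strat := .move 961 n131 (.cons 960 n142 .nil)
noncomputable def n144 : Strat := .move 923 n132 (.cons 960 n135 (.cons 961 n137 (.cons 924 n143 .nil)))
noncomputable def n145 : Strat := .move 920 n3 (.cons 919 n144 .nil)
noncomputable def n146 : Strat := .win 925 5 921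
noncomputable def n147 : Strat := .win 1007 0 962
noncomputable def n148 : Strat := .win 1088 7 923
noncomputable def n149 : Strat := .win 882 7 882
noncomputable def n150 : Strat := .move 1047 n148 (.cons 1088 n149 .nil)
noncomputable def n151 : Strat := .move 1006 n147 (.cons 1007 n150 .nil)
noncomputable def n152 : Strat := .move 923 n134 (.cons 961 n151 .nil)
noncomputable def n153 : Strat := .move 924 n146 (.cons 925 n152 .nil)
noncomputable def n154 : Strat := .move 965 n129 (.cons 966 n153 .nil)
noncomputable def n155 : Strat := .move 921 n5 (.cons 919 n130 (.cons 965 n145 (.cons 920 n154 .nil)))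
noncomputable def n156 : Strat := .move 964 n2 (.cons 1005 n155 .nil)
noncomputable def n157 : Strat := .move 962 n0 (.cons 1003 n156 .nil)
noncomputable def n158 : Strat := .win 924 5 920
noncomputable def n159 : Strat := .move 923 n37 (.cons 960 n158 .nil)
noncomputable def n160 : Strat := .win 923 5 919
noncomputable def n161 : Strat := .win 920 2 919
noncomputable def n162 : Strat := .win 918 2 918
noncomputable def n163 : Strat := .move 919 n161 (.cons 920 n162 .nil)
noncomputable def n164 : Strat := .move 960 n160 (.cons 923 n163 .nil)
noncomputable def n165 : Strat := .win 919 2 919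
noncomputable def n166 : Strat := .win 921 2 920
noncomputable def n167 : Strat := .win 1002 4 960
noncomputable def n168 : Strat := .win 1008 0 963
noncomputable def n169 : Strat := .win 1006 0 962
noncomputable def n170 : Strat := .move 1007 n168 (.cons 1008 n169 .nil)
noncomputable def n171 : Strat := .win 926 5 922
noncomputable def n172 : Strat := .win 924 5 921
noncomputable def n173 : Strat := .move 925 n171 (.cons 926 n172 .nil)
noncomputable def n174 : Strat := .move 966 n170 (.cons 1006 n173 .nil)
noncomputable def n175 : Strat := .move 1001 n167 (.cons 1002 n174 .nil)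
noncomputable def n176 : Strat := .move 965 n166 (.cons 921 n175 .nil)
noncomputable def n177 : Strat := .move 920 n165 (.cons 919 n176 .nil)
noncomputable def n178 : Strat := .move 961 n159 (.cons 924 n164 (.cons 923 n177 .nil))
noncomputable def n179 : Strat := .move 962 n0 (.cons 1003 n178 .nil)
noncomputable def n180 : Strat := .move 964 n2 (.cons 1005 n179 .nil)
noncomputable def n181 : Strat := .move 963 n44 (.cons 962 n50 (.cons 964 n55 (.cons 839 n157 (.cons 880 n180 .nil))))
noncomputable def n182 : Strat := .move 963 n8 (.cons 962 n50 (.cons 964 n55 .nil))
noncomputable def n183 : Strat := .move 799 n103 (.cons 921 n97 (.cons 923 n100 (.cons 758 n126 .nil)))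
noncomputable def n184 : Strat := .win 961 5 920
noncomputable def n185 : Strat := .move 924 n133 (.cons 925 n184 .nil)
noncomputable def n186 : Strat := .move 962 n0 (.cons 1003 n185 .nil)
noncomputable def n187 : Strat := .move 923 n14 (.cons 799 n186 .nil)
noncomputable def n188 : Strat := .move 964 n2 (.cons 1005 n187 .nil)
noncomputable def n189 : Strat := .move 963 n188 (.cons 1005 n55 (.cons 962 n23 .nil))
noncomputable def n190 : Strat := .win 963 1 839
noncomputable def n191 : Strat := .win 1044 3 880
noncomputable def n192 : Strat := .move 1003 n190 (.cons 963 n191 .nil)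
noncomputable def n193 : Strat := .move 962 n1 (.cons 799 n192 .nil)
noncomputable def n194 : Strat := .move 962 n0 (.cons 1003 n5 .nil)
noncomputable def n195 : Strat := .move 964 n2 (.cons 1005 n194 .nil)
noncomputable def n196 : Strat := .move 961 n36 (.cons 924 n37 .nil)
noncomputable def n197 : Strat := .win 884 5 880
noncomputable def n198 : Strat := .win 882 5 879
noncomputable def n199 : Strat := .win 918 0 918
noncomputable def n200 : Strat := .move 878 n108 (.cons 877 n107 .nil)
noncomputable def n201 : Strat := .move 919 n199 (.cons 918 n200 .nil)
noncomputable def n202 : Strat := .move 920 n198 (.cons 882 n201 .nil)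
noncomputable def n203 : Strat := .move 883 n197 (.cons 884 n202 .nil)
noncomputable def n204 : Strat := .move 924 n133 (.cons 925 n203 .nil)
noncomputable def n205 : Strat := .move 919 n106 (.cons 882 n199 .nil)
noncomputable def n206 : Strat := .win 797 6 797
noncomputable def n207 : Strat := .move 879 n206 (.cons 797 n111 .nil)
noncomputable def n208 : Strat := .move 839 n26 (.cons 837 n15 .nil)
noncomputable def n209 : Strat := .move 838 n207 (.cons 878 n208 .nil)
noncomputable def n210 : Strat := .move 882 n104 (.cons 883 n209 .nil)
noncomputable def n211 : Strat := .move 920 n205 (.cons 918 n105 (.cons 882 n201 (.cons 919 n210 .nil)))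
noncomputable def n212 : Strat := .move 961 n37 (.cons 960 n211 .nil)
noncomputable def n213 : Strat := .move 923 n196 (.cons 961 n204 (.cons 924 n212 .nil))
noncomputable def n214 : Strat := .move 962 n0 (.cons 1003 n213 .nil)
noncomputable def n215 : Strat := .win 923 0 920
noncomputable def n216 : Strat := .move 965 n129 (.cons 966 n215 .nil)
noncomputable def n217 : Strat := .move 920 n3 (.cons 919 n216 .nil)
noncomputable def n218 : Strat := .move 964 n2 (.cons 1005 n217 .nil)
noncomputable def n219 : Strat := .move 965 n129 (.cons 966 n128 .nil)
noncomputable def n220 : Strat := .move 964 n2 (.cons 1005 n219 .nil)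
noncomputable def n221 : Strat := .move 962 n0 (.cons 1003 n220 .nil)
noncomputable def n222 : Strat := .win 923 4 920
noncomputable def n223 : Strat := .win 959 5 918
noncomputable def n224 : Strat := .win 1000 4 959
noncomputable def n225 : Strat := .move 1001 n224 (.cons 1000 n167 .nil)
noncomputable def n226 : Strat := .move 960 n223 (.cons 959 n225 .nil)
noncomputable def n227 : Strat := .move 961 n222 (.cons 923 n226 .nil)
noncomputable def n228 : Strat := .move 924 n146 (.cons 925 n227 .nil)
noncomputable def n229 : Strat := .move 965 n129 (.cons 966 n228 .nil)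
noncomputable def n230 : Strat := .move 964 n2 (.cons 1005 n229 .nil)
noncomputable def n231 : Strat := .move 962 n0 (.cons 1003 n230 .nil)
noncomputable def n232 : Strat := .move 963 n195 (.cons 964 n214 (.cons 962 n218 (.cons 919 n221 (.cons 920 n231 .nil))))
noncomputable def n233 : Strat := .win 758 6 758
noncomputable def n234 : Strat := .win 884 4 880
noncomputable def n235 : Strat := .win 920 5 879
noncomputable def n236 : Strat := .move 883 n234 (.cons 884 n235 .nil)
noncomputable def n237 : Strat := .move 882 n233 (.cons 758 n236 .nil)
noncomputable def n238 : Strat := .move 923 n61 (.cons 964 n237 .nil)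
noncomputable def n239 : Strat := .move 799 n59 (.cons 962 n238 .nil)
noncomputable def n240 : Strat := .win 963 6 840
noncomputable def n241 : Strat := .win 882 7 840
noncomputable def n242 : Strat := .move 1005 n240 (.cons 963 n241 .nil)
noncomputable def n243 : Strat := .move 964 n14 (.cons 799 n242 .nil)
noncomputable def n244 : Strat := .win 1046 7 881
noncomputable def n245 : Strat := .move 1005 n240 (.cons 963 n244 .nil)
noncomputable def n246 : Strat := .move 964 n14 (.cons 799 n245 .nil)
noncomputable def n247 : Strat := .win 965 0 920
noncomputable def n248 : Strat := .move 964 n247 (.cons 965 n242 .nil)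
noncomputable def n249 : Strat := .move 963 n2 (.cons 1005 n3 .nil)
noncomputable def n250 : Strat := .move 964 n247 (.cons 965 n249 .nil)
noncomputable def n251 : Strat := .move 920 n105 (.cons 919 n248 (.cons 882 n250 .nil))
noncomputable def n252 : Strat := .move 799 n61 (.cons 964 n237 .nil)
noncomputable def n253 : Strat := .win 959 4 918
noncomputable def n254 : Strat := .move 960 n113 (.cons 961 n253 .nil)
noncomputable def n255 : Strat := .move 919 n108 (.cons 877 n254 .nil)
noncomputable def n256 : Strat := .move 878 n107 (.cons 879 n255 .nil)
noncomputable def n257 : Strat := .move 883 n198 (.cons 882 n197 .nil)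
noncomputable def n258 : Strat := .win 926 2 881
noncomputable def n259 : Strat := .move 925 n258 (.cons 926 n116 .nil)
noncomputable def n260 : Strat := .move 882 n104 (.cons 883 n259 .nil)
noncomputable def n261 : Strat := .move 925 n117 (.cons 885 n116 .nil)
noncomputable def n262 : Strat := .move 884 n118 (.cons 883 n261 .nil)
noncomputable def n263 : Strat := .win 882 2 881
noncomputable def n264 : Strat := .win 968 0 923
noncomputable def n265 : Strat := .win 966 0 922
noncomputable def n266 : Strat := .move 967 n264 (.cons 968 n265 .nil)
noncomputable def n267 : Strat := .move 926 n263 (.cons 882 n266 .nil)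
noncomputable def n268 : Strat := .win 884 5 881
noncomputable def n269 : Strat := .win 886 5 882
noncomputable def n270 : Strat := .move 926 n269 (.cons 886 n263 .nil)
noncomputable def n271 : Strat := .move 885 n268 (.cons 884 n270 .nil)
noncomputable def n272 : Strat := .move 925 n116 (.cons 965 n267 (.cons 967 n271 .nil))
noncomputable def n273 : Strat := .move 924 n257 (.cons 884 n260 (.cons 882 n262 (.cons 883 n272 .nil)))
noncomputable def n274 : Strat := .move 879 n111 (.cons 878 n273 .nil)
noncomputable def n275 : Strat := .move 961 n131 (.cons 960 n274 .nil)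
noncomputable def n276 : Strat := .move 920 n105 (.cons 882 n256 (.cons 919 n275 .nil))
noncomputable def n277 : Strat := .move 923 n243 (.cons 882 n246 (.cons 799 n251 (.cons 1005 n252 (.cons 964 n276 .nil))))
noncomputable def n278 : Strat := .move 921 n193 (.cons 799 n232 (.cons 963 n239 (.cons 962 n277 .nil)))
noncomputable def n279 : Strat := .win 921 1 757
noncomputable def n280 : Strat := .win 717 1 716
noncomputable def n281 : Strat := .move 963 n15 (.cons 798 n34 .nil)
noncomputable def n282 : Strat := .move 839 n280 (.cons 717 n281 .nil)
noncomputable def n283 : Strat := .move 880 n279 (.cons 921 n282 .nil)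
noncomputable def n284 : Strat := .move 758 n94 (.cons 718 n283 .nil)
noncomputable def n285 : Strat := .move 759 n93 (.cons 800 n284 .nil)
noncomputable def n286 : Strat := .win 839 2 839
noncomputable def n287 : Strat := .win 921 4 880
noncomputable def n288 : Strat := .move 884 n286 (.cons 839 n287 .nil)
noncomputable def n289 : Strat := .win 885 4 881
noncomputable def n290 : Strat := .move 884 n286 (.cons 839 n289 .nil)
noncomputable def n291 : Strat := .move 884 n287 (.cons 921 n289 .nil)
noncomputable def n292 : Strat := .win 925 0 880
noncomputable def n293 : Strat := .win 879 0 879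
noncomputable def n294 : Strat := .move 924 n292 (.cons 925 n293 .nil)
noncomputable def n295 : Strat := .win 924 0 879
noncomputable def n296 : Strat := .move 879 n62 (.cons 878 n295 .nil)
noncomputable def n297 : Strat := .win 921 4 879
noncomputable def n298 : Strat := .win 919 4 878
noncomputable def n299 : Strat := .move 879 n62 (.cons 878 n298 .nil)
noncomputable def n300 : Strat := .move 920 n297 (.cons 921 n299 .nil)
noncomputable def n301 : Strat := .win 798 6 798
noncomputable def n302 : Strat := .move 963 n34 (.cons 1004 n301 .nil)
noncomputable def n303 : Strat := .move 839 n69 (.cons 838 n302 .nil)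
noncomputable def n304 : Strat := .move 921 n80 (.cons 920 n303 .nil)
noncomputable def n305 : Strat := .move 924 n292 (.cons 925 n304 .nil)
noncomputable def n306 : Strat := .move 880 n294 (.cons 925 n296 (.cons 924 n300 (.cons 879 n305 .nil)))
noncomputable def n307 : Strat := .move 883 n288 (.cons 921 n290 (.cons 839 n291 (.cons 884 n306 .nil)))
noncomputable def n308 : Strat := .move 882 n233 (.cons 758 n307 .nil)
noncomputable def n309 : Strat := .move 923 n61 (.cons 964 n308 .nil)
noncomputable def n310 : Strat := .win 963 7 798
noncomputable def n311 : Strat := .move 798 n310 (.cons 963 n74 .nil)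
noncomputable def n312 : Strat := .move 838 n85 (.cons 837 n311 .nil)
noncomputable def n313 : Strat := .move 964 n10 (.cons 923 n2 .nil)
noncomputable def n314 : Strat := .move 963 n15 (.cons 798 n313 .nil)
noncomputable def n315 : Strat := .win 838 5 796
noncomputable def n316 : Strat := .move 1005 n47 (.cons 1046 n46 .nil)
noncomputable def n317 : Strat := .move 1004 n16 (.cons 880 n316 .nil)
noncomputable def n318 : Strat := .win 1085 1 921
noncomputable def n319 : Strat := .win 1003 1 880
noncomputable def n320 : Strat := .move 1044 n318 (.cons 1085 n319 .nil)
noncomputable def n321 : Strat := .win 1087 6 922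
noncomputable def n322 : Strat := .win 1005 6 881
noncomputable def n323 : Strat := .move 1046 n321 (.cons 1087 n322 .nil)
noncomputable def n324 : Strat := .move 1045 n320 (.cons 1003 n323 .nil)
noncomputable def n325 : Strat := .move 1004 n16 (.cons 880 n324 .nil)
noncomputable def n326 : Strat := .move 923 n17 (.cons 882 n61 .nil)
noncomputable def n327 : Strat := .move 1045 n320 (.cons 1003 n326 .nil)
noncomputable def n328 : Strat := .move 1004 n16 (.cons 880 n327 .nil)
noncomputable def n329 : Strat := .move 963 n313 (.cons 923 n317 (.cons 964 n325 (.cons 1005 n328 .nil)))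
noncomputable def n330 : Strat := .move 801 n86 (.cons 802 n329 .nil)
noncomputable def n331 : Strat := .move 837 n315 (.cons 838 n330 .nil)
noncomputable def n332 : Strat := .move 839 n312 (.cons 838 n314 (.cons 963 n89 (.cons 798 n331 .nil)))
noncomputable def n333 : Strat := .move 800 n75 (.cons 759 n332 .nil)
noncomputable def n334 : Strat := .move 799 n97 (.cons 923 n285 (.cons 759 n309 (.cons 758 n333 .nil)))
noncomputable def n335 : Strat := .move 1046 n322 (.cons 1005 n321 .nil)
noncomputable def n336 : Strat := .move 1045 n318 (.cons 1085 n335 .nil)
noncomputable def n337 : Strat := .move 1044 n319 (.cons 1003 n336 .nil)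
noncomputable def n338 : Strat := .move 1004 n16 (.cons 880 n337 .nil)
noncomputable def n339 : Strat := .move 839 n15 (.cons 798 n338 .nil)
noncomputable def n340 : Strat := .move 799 n59 (.cons 962 n60 .nil)
noncomputable def n341 : Strat := .win 883 4 879
noncomputable def n342 : Strat := .move 920 n341 (.cons 883 n72 .nil)
noncomputable def n343 : Strat := .win 923 0 878
noncomputable def n344 : Strat := .win 877 0 877
noncomputable def n345 : Strat := .move 878 n343 (.cons 923 n344 .nil)
noncomputable def n346 : Strat := .win 756 6 756
noncomputable def n347 : Strat := .win 962 7 797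
noncomputable def n348 : Strat := .move 797 n346 (.cons 756 n347 .nil)
noncomputable def n349 : Strat := .move 838 n26 (.cons 837 n348 .nil)
noncomputable def n350 : Strat := .move 879 n345 (.cons 923 n349 .nil)
noncomputable def n351 : Strat := .move 882 n70 (.cons 838 n81 (.cons 884 n342 (.cons 883 n350 .nil)))
noncomputable def n352 : Strat := .win 918 4 877
noncomputable def n353 : Strat := .win 920 4 878
noncomputable def n354 : Strat := .move 919 n352 (.cons 918 n353 .nil)
noncomputable def n355 : Strat := .move 878 n344 (.cons 877 n354 .nil)
noncomputable def n356 : Strat := .move 838 n26 (.cons 837 n355 .nil)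
noncomputable def n357 : Strat := .move 923 n62 (.cons 878 n295 .nil)
noncomputable def n358 : Strat := .win 1002 3 838
noncomputable def n359 : Strat := .move 961 n131 (.cons 960 n358 .nil)
noncomputable def n360 : Strat := .move 923 n295 (.cons 924 n359 .nil)
noncomputable def n361 : Strat := .move 920 n298 (.cons 919 n360 .nil)
noncomputable def n362 : Strat := .move 879 n345 (.cons 923 n356 (.cons 877 n357 (.cons 878 n361 .nil)))
noncomputable def n363 : Strat := .move 882 n70 (.cons 884 n342 (.cons 883 n362 .nil))
noncomputable def n364 : Strat := .move 921 n340 (.cons 799 n351 (.cons 962 n363 .nil))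
noncomputable def n365 : Strat := .move 880 n34 (.cons 1004 n364 .nil)
noncomputable def n366 : Strat := .move 839 n15 (.cons 798 n365 .nil)
noncomputable def n367 : Strat := .move 960 n160 (.cons 923 n223 .nil)
noncomputable def n368 : Strat := .move 923 n37 (.cons 960 n36 .nil)
noncomputable def n369 : Strat := .win 836 0 836
noncomputable def n370 : Strat := .win 882 0 837
noncomputable def n371 : Strat := .move 837 n369 (.cons 836 n370 .nil)
noncomputable def n372 : Strat := .move 838 n25 (.cons 797 n371 .nil)
noncomputable def n373 : Strat := .move 923 n36 (.cons 924 n372 .nil)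
noncomputable def n374 : Strat := .move 880 n35 (.cons 1002 n373 .nil)
noncomputable def n375 : Strat := .move 880 n35 (.cons 1002 n372 .nil)
noncomputable def n376 : Strat := .move 961 n367 (.cons 959 n368 (.cons 960 n374 (.cons 923 n375 .nil)))
noncomputable def n377 : Strat := .move 839 n15 (.cons 798 n376 .nil)
noncomputable def n378 : Strat := .move 921 n1 (.cons 799 n377 .nil)
noncomputable def n379 : Strat := .move 962 n0 (.cons 1003 n378 .nil)
noncomputable def n380 : Strat := .win 839 6 839
noncomputable def n381 : Strat := .win 1045 7 880
noncomputable def n382 : Strat := .move 1004 n380 (.cons 839 n381 .nil)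
noncomputable def n383 : Strat := .win 925 2 880
noncomputable def n384 : Strat := .move 924 n383 (.cons 925 n134 .nil)
noncomputable def n385 : Strat := .move 919 n199 (.cons 918 n106 .nil)
noncomputable def n386 : Strat := .win 879 0 878
noncomputable def n387 : Strat := .move 878 n108 (.cons 877 n386 .nil)
noncomputable def n388 : Strat := .move 919 n199 (.cons 918 n387 .nil)
noncomputable def n389 : Strat := .move 882 n72 (.cons 919 n341 .nil)
noncomputable def n390 : Strat := .win 837 2 837
noncomputable def n391 : Strat := .move 838 n390 (.cons 837 n206 .nil)
noncomputable def n392 : Strat := .move 882 n341 (.cons 883 n391 .nil)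
noncomputable def n393 : Strat := .move 879 n62 (.cons 878 n392 .nil)
noncomputable def n394 : Strat := .move 920 n385 (.cons 882 n388 (.cons 918 n389 (.cons 919 n393 .nil)))
noncomputable def n395 : Strat := .move 923 n384 (.cons 925 n64 (.cons 924 n394 .nil))
noncomputable def n396 : Strat := .move 880 n382 (.cons 839 n395 .nil)
noncomputable def n397 : Strat := .move 921 n1 (.cons 799 n396 .nil)
noncomputable def n398 : Strat := .move 962 n0 (.cons 1003 n397 .nil)
noncomputable def n399 : Strat := .move 921 n1 (.cons 799 n213 .nil)
noncomputable def n400 : Strat := .move 962 n0 (.cons 1003 n399 .nil)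
noncomputable def n401 : Strat := .win 880 7 880
noncomputable def n402 : Strat := .win 1086 7 921
noncomputable def n403 : Strat := .move 1045 n401 (.cons 880 n402 .nil)
noncomputable def n404 : Strat := .move 921 n1 (.cons 799 n403 .nil)
noncomputable def n405 : Strat := .move 962 n0 (.cons 1003 n404 .nil)
noncomputable def n406 : Strat := .move 962 n1 (.cons 799 n402 .nil)
noncomputable def n407 : Strat := .move 921 n401 (.cons 880 n406 .nil)
noncomputable def n408 : Strat := .move 1045 n321 (.cons 1087 n407 .nil)
noncomputable def n409 : Strat := .move 1046 n322 (.cons 1005 n408 .nil)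
noncomputable def n410 : Strat := .move 1004 n53 (.cons 1044 n405 (.cons 1003 n409 (.cons 962 n337 .nil)))
noncomputable def n411 : Strat := .move 963 n33 (.cons 962 n339 (.cons 1003 n366 (.cons 1004 n379 (.cons 798 n398 (.cons 880 n400 (.cons 839 n410 .nil))))))
noncomputable def n412 : Strat := .move 922 n45 (.cons 961 n58 (.cons 963 n127 (.cons 799 n181 (.cons 923 n182 (.cons 839 n183 (.cons 921 n189 (.cons 880 n278 (.cons 962 n334 (.cons 964 n411 .nil)))))))))

theorem ok : checkS n412 (pairBits 840 881) (pairBits 841 757) ≠ 0 := by decide +kernel

theorem reply : MakerWins {cellOf 881, cellOf 840} {cellOf 841, cellOf 757} :=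
  reply2 n412 840 881 841 757 ok

end Vale.Agent.Snaky.Cert2.R757
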