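import Vale.Agent.Snaky.Cert2.Lem

namespace Vale.Agent.Snaky.Cert2.R758

open Vale.Agent.Snaky

noncomputable def n0 : Strat := .win 1003 1 839
noncomputable def n1 : Strat := .win 1005 6 840
noncomputable def n2 : Strat := .win 799 1 798
noncomputable def n3 : Strat := .win 919 0 919
noncomputable def n4 : Strat := .win 965 2 920
noncomputable def n5 : Strat := .move 920 n3 (.cons 919 n4 .nil)
noncomputable def n6 : Strat := .move 921 n2 (.cons 799 n5 .nil)
noncomputable def n7 : Strat := .move 964 n1 (.cons 1005 n6 .nil)
noncomputable def n8 : Strat := .move 962 n0 (.cons 1003 n7 .nil)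
noncomputable def n9 : Strat := .win 798 7 798
noncomputable def n10 : Strat := .win 880 7 839
noncomputable def n11 : Strat := .win 964 6 840
noncomputable def n12 : Strat := .win 1046 6 881
noncomputable def n13 : Strat := .move 1005 n11 (.cons 964 n12 .nil)
noncomputable def n14 : Strat := .move 1004 n10 (.cons 880 n13 .nil)
noncomputable def n15 : Strat := .move 839 n9 (.cons 798 n14 .nil)
noncomputable def n16 : Strat := .win 1004 6 839
noncomputable def n17 : Strat := .win 1002 1 838
noncomputable def n18 : Strat := .win 960 5 919
noncomputable def n19 : Strat := .win 924 4 920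
noncomputable def n20 : Strat := .move 923 n18 (.cons 960 n19 .nil)
noncomputable def n21 : Strat := .move 961 n17 (.cons 1002 n20 .nil)
noncomputable def n22 : Strat := .move 880 n16 (.cons 1004 n21 .nil)
noncomputable def n23 : Strat := .move 839 n9 (.cons 798 n22 .nil)
noncomputable def n24 : Strat := .move 921 n2 (.cons 799 n23 .nil)
noncomputable def n25 : Strat := .move 962 n0 (.cons 1003 n24 .nil)
noncomputable def n26 : Strat := .move 963 n8 (.cons 799 n15 (.cons 1005 n25 .nil))
noncomputable def n27 : Strat := .win 921 1 798
noncomputable def n28 : Strat := .win 923 6 799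
noncomputable def n29 : Strat := .move 799 n27 (.cons 921 n28 .nil)
noncomputable def n30 : Strat := .move 964 n1 (.cons 1005 n29 .nil)
noncomputable def n31 : Strat := .move 962 n0 (.cons 1003 n30 .nil)
noncomputable def n32 : Strat := .win 962 1 839
noncomputable def n33 : Strat := .win 1044 1 880
noncomputable def n34 : Strat := .move 1003 n32 (.cons 962 n33 .nil)
noncomputable def n35 : Strat := .move 1004 n10 (.cons 880 n34 .nil)
noncomputable def n36 : Strat := .move 839 n9 (.cons 798 n35 .nil)
noncomputable def n37 : Strat := .move 963 n31 (.cons 962 n15 (.cons 964 n36 .nil))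
noncomputable def n38 : Strat := .win 799 6 799
noncomputable def n39 : Strat := .win 925 4 921
noncomputable def n40 : Strat := .win 961 5 920
noncomputable def n41 : Strat := .move 924 n39 (.cons 925 n40 .nil)
noncomputable def n42 : Strat := .move 962 n0 (.cons 1003 n41 .nil)
noncomputable def n43 : Strat := .move 923 n38 (.cons 799 n42 .nil)
noncomputable def n44 : Strat := .move 964 n1 (.cons 1005 n43 .nil)
noncomputable def n45 : Strat := .move 963 n44 (.cons 961 n15 (.cons 964 n36 .nil))
noncomputable def n46 : Strat := .win 757 7 757
noncomputable def n47 : Strat := .win 963 7 798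
noncomputable def n48 : Strat := .win 759 3 758
noncomputable def n49 : Strat := .win 801 4 797
noncomputable def n50 : Strat := .win 837 5 796
noncomputable def n51 : Strat := .move 838 n49 (.cons 801 n50 .nil)
noncomputable def n52 : Strat := .move 800 n48 (.cons 759 n51 .nil)
noncomputable def n53 : Strat := .move 839 n47 (.cons 963 n52 .nil)
noncomputable def n54 : Strat := .move 798 n46 (.cons 757 n53 .nil)
noncomputable def n55 : Strat := .win 839 7 798
noncomputable def n56 : Strat := .move 964 n28 (.cons 923 n1 .nil)
noncomputable def n57 : Strat := .move 963 n55 (.cons 839 n56 .nil)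
noncomputable def n58 : Strat := .move 798 n46 (.cons 757 n57 .nil)
noncomputable def n59 : Strat := .win 964 6 799
noncomputable def n60 : Strat := .win 962 1 798
noncomputable def n61 : Strat := .win 919 5 878
noncomputable def n62 : Strat := .win 883 5 879
noncomputable def n63 : Strat := .move 882 n61 (.cons 919 n62 .nil)
noncomputable def n64 : Strat := .win 882 5 878
noncomputable def n65 : Strat := .win 879 2 878
noncomputable def n66 : Strat := .win 877 2 877
noncomputable def n67 : Strat := .move 878 n65 (.cons 879 n66 .nil)
noncomputable def n68 : Strat := .move 919 n64 (.cons 882 n67 .nil)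
noncomputable def n69 : Strat := .win 878 2 878
noncomputable def n70 : Strat := .win 880 2 879
noncomputable def n71 : Strat := .win 961 4 919
noncomputable def n72 : Strat := .win 967 0 922
noncomputable def n73 : Strat := .win 965 0 921
noncomputable def n74 : Strat := .move 966 n72 (.cons 967 n73 .nil)
noncomputable def n75 : Strat := .win 885 5 881
noncomputable def n76 : Strat := .win 883 5 880
noncomputable def n77 : Strat := .move 884 n75 (.cons 885 n76 .nil)
noncomputable def n78 : Strat := .move 925 n74 (.cons 965 n77 .nil)
noncomputable def n79 : Strat := .move 960 n71 (.cons 961 n78 .nil)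
noncomputable def n80 : Strat := .move 924 n70 (.cons 880 n79 .nil)
noncomputable def n81 : Strat := .move 879 n69 (.cons 878 n80 .nil)
noncomputable def n82 : Strat := .move 920 n63 (.cons 883 n68 (.cons 882 n81 .nil))
noncomputable def n83 : Strat := .move 921 n60 (.cons 962 n82 .nil)
noncomputable def n84 : Strat := .move 923 n59 (.cons 964 n83 .nil)
noncomputable def n85 : Strat := .move 799 n54 (.cons 838 n58 (.cons 798 n84 .nil))
noncomputable def n86 : Strat := .move 964 n1 (.cons 1005 n5 .nil)
noncomputable def n87 : Strat := .move 921 n2 (.cons 799 n86 .nil)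
noncomputable def n88 : Strat := .move 962 n0 (.cons 1003 n87 .nil)
noncomputable def n89 : Strat := .move 963 n36 (.cons 962 n15 (.cons 839 n88 .nil))
noncomputable def n90 : Strat := .win 920 2 920
noncomputable def n91 : Strat := .win 966 2 921
noncomputable def n92 : Strat := .move 965 n90 (.cons 920 n91 .nil)
noncomputable def n93 : Strat := .win 960 4 919
noncomputable def n94 : Strat := .move 961 n93 (.cons 960 n19 .nil)
noncomputable def n95 : Strat := .win 961 4 920
noncomputable def n96 : Strat := .move 924 n39 (.cons 925 n95 .nil)
noncomputable def n97 : Strat := .move 879 n70 (.cons 880 n69 .nil)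
noncomputable def n98 : Strat := .move 924 n39 (.cons 925 n97 .nil)
noncomputable def n99 : Strat := .win 1045 7 880
noncomputable def n100 : Strat := .win 839 6 839
noncomputable def n101 : Strat := .move 1004 n99 (.cons 1045 n100 .nil)
noncomputable def n102 : Strat := .win 1043 3 879
noncomputable def n103 : Strat := .win 1001 4 960
noncomputable def n104 : Strat := .move 1002 n102 (.cons 1043 n103 .nil)
noncomputable def n105 : Strat := .move 880 n101 (.cons 839 n104 .nil)
noncomputable def n106 : Strat := .move 961 n93 (.cons 960 n105 .nil)
noncomputable def n107 : Strat := .move 923 n94 (.cons 960 n96 (.cons 961 n98 (.cons 924 n106 .nil)))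
noncomputable def n108 : Strat := .move 920 n3 (.cons 919 n107 .nil)
noncomputable def n109 : Strat := .win 925 5 921
noncomputable def n110 : Strat := .win 879 2 879
noncomputable def n111 : Strat := .move 880 n110 (.cons 879 n101 .nil)
noncomputable def n112 : Strat := .move 923 n95 (.cons 961 n111 .nil)
noncomputable def n113 : Strat := .move 924 n109 (.cons 925 n112 .nil)
noncomputable def n114 : Strat := .move 965 n91 (.cons 966 n113 .nil)
noncomputable def n115 : Strat := .move 921 n5 (.cons 919 n92 (.cons 965 n108 (.cons 920 n114 .nil)))
noncomputable def n116 : Strat := .move 964 n1 (.cons 1005 n115 .nil)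
noncomputable def n117 : Strat := .move 962 n0 (.cons 1003 n116 .nil)
noncomputable def n118 : Strat := .win 924 5 920
noncomputable def n119 : Strat := .move 923 n18 (.cons 960 n118 .nil)
noncomputable def n120 : Strat := .win 919 2 919
noncomputable def n121 : Strat := .win 921 0 920
noncomputable def n122 : Strat := .win 967 2 922
noncomputable def n123 : Strat := .win 1008 0 963
noncomputable def n124 : Strat := .win 1006 0 962
noncomputable def n125 : Strat := .move 1007 n123 (.cons 1008 n124 .nil)
noncomputable def n126 : Strat := .move 966 n122 (.cons 967 n125 .nil)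
noncomputable def n127 : Strat := .move 965 n121 (.cons 921 n126 .nil)
noncomputable def n128 : Strat := .move 920 n120 (.cons 919 n127 .nil)
noncomputable def n129 : Strat := .move 923 n118 (.cons 924 n128 .nil)
noncomputable def n130 : Strat := .win 923 5 919
noncomputable def n131 : Strat := .win 920 2 919
noncomputable def n132 : Strat := .win 918 2 918
noncomputable def n133 : Strat := .move 919 n131 (.cons 920 n132 .nil)
noncomputable def n134 : Strat := .move 960 n130 (.cons 923 n133 .nil)
noncomputable def n135 : Strat := .win 921 2 920
noncomputable def n136 : Strat := .win 1002 4 960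
noncomputable def n137 : Strat := .win 926 5 922
noncomputable def n138 : Strat := .win 924 5 921
noncomputable def n139 : Strat := .move 925 n137 (.cons 926 n138 .nil)
noncomputable def n140 : Strat := .move 966 n125 (.cons 1006 n139 .nil)
noncomputable def n141 : Strat := .move 1001 n136 (.cons 1002 n140 .nil)
noncomputable def n142 : Strat := .move 965 n135 (.cons 921 n141 .nil)
noncomputable def n143 : Strat := .move 920 n120 (.cons 919 n142 .nil)
noncomputable def n144 : Strat := .move 961 n119 (.cons 960 n129 (.cons 924 n134 (.cons 923 n143 .nil)))
noncomputable def n145 : Strat := .move 962 n0 (.cons 1003 n144 .nil)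
noncomputable def n146 : Strat := .move 964 n1 (.cons 1005 n145 .nil)
noncomputable def n147 : Strat := .move 963 n15 (.cons 964 n36 (.cons 798 n117 (.cons 880 n146 .nil)))
noncomputable def n148 : Strat := .win 882 5 879
noncomputable def n149 : Strat := .win 884 5 880
noncomputable def n150 : Strat := .win 925 2 880
noncomputable def n151 : Strat := .move 880 n110 (.cons 879 n150 .nil)
noncomputable def n152 : Strat := .move 924 n149 (.cons 884 n151 .nil)
noncomputable def n153 : Strat := .move 883 n148 (.cons 882 n152 .nil)
noncomputable def n154 : Strat := .move 920 n63 (.cons 883 n68 (.cons 919 n153 (.cons 882 n81 .nil)))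
noncomputable def n155 : Strat := .move 923 n59 (.cons 964 n154 .nil)
noncomputable def n156 : Strat := .move 921 n60 (.cons 962 n155 .nil)
noncomputable def n157 : Strat := .move 799 n54 (.cons 839 n156 .nil)
noncomputable def n158 : Strat := .win 965 0 920
noncomputable def n159 : Strat := .move 920 n3 (.cons 919 n158 .nil)
noncomputable def n160 : Strat := .win 920 0 920
noncomputable def n161 : Strat := .move 965 n91 (.cons 966 n160 .nil)
noncomputable def n162 : Strat := .move 880 n150 (.cons 925 n110 .nil)
noncomputable def n163 : Strat := .win 880 2 880
noncomputable def n164 : Strat := .win 926 4 922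
noncomputable def n165 : Strat := .move 925 n163 (.cons 880 n164 .nil)
noncomputable def n166 : Strat := .move 925 n164 (.cons 926 n77 .nil)
noncomputable def n167 : Strat := .win 839 7 839
noncomputable def n168 : Strat := .move 1004 n99 (.cons 1045 n167 .nil)
noncomputable def n169 : Strat := .move 880 n110 (.cons 879 n168 .nil)
noncomputable def n170 : Strat := .move 924 n162 (.cons 879 n165 (.cons 880 n166 (.cons 925 n169 .nil)))
noncomputable def n171 : Strat := .move 965 n91 (.cons 966 n170 .nil)
noncomputable def n172 : Strat := .win 1045 3 881
noncomputable def n173 : Strat := .win 879 0 879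
noncomputable def n174 : Strat := .move 924 n173 (.cons 879 n150 .nil)
noncomputable def n175 : Strat := .move 880 n167 (.cons 839 n174 .nil)
noncomputable def n176 : Strat := .move 1004 n172 (.cons 1045 n175 .nil)
noncomputable def n177 : Strat := .move 882 n62 (.cons 883 n176 .nil)
noncomputable def n178 : Strat := .move 920 n3 (.cons 919 n177 .nil)
noncomputable def n179 : Strat := .move 921 n159 (.cons 919 n161 (.cons 920 n171 (.cons 965 n178 .nil)))
noncomputable def n180 : Strat := .move 923 n38 (.cons 799 n179 .nil)
noncomputable def n181 : Strat := .move 964 n1 (.cons 1005 n180 .nil)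
noncomputable def n182 : Strat := .move 964 n5 (.cons 919 n92 (.cons 965 n108 (.cons 920 n114 .nil)))
noncomputable def n183 : Strat := .move 921 n2 (.cons 799 n182 .nil)
noncomputable def n184 : Strat := .move 962 n0 (.cons 1003 n183 .nil)
noncomputable def n185 : Strat := .move 1004 n100 (.cons 839 n99 .nil)
noncomputable def n186 : Strat := .move 924 n150 (.cons 925 n95 .nil)
noncomputable def n187 : Strat := .win 878 0 878
noncomputable def n188 : Strat := .win 924 2 879
noncomputable def n189 : Strat := .move 879 n187 (.cons 878 n188 .nil)
noncomputable def n190 : Strat := .win 918 0 918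
noncomputable def n191 : Strat := .move 919 n190 (.cons 918 n64 .nil)
noncomputable def n192 : Strat := .win 883 4 879
noncomputable def n193 : Strat := .move 882 n61 (.cons 919 n192 .nil)
noncomputable def n194 : Strat := .win 839 1 838
noncomputable def n195 : Strat := .move 1002 n102 (.cons 1043 n194 .nil)
noncomputable def n196 : Strat := .move 961 n93 (.cons 960 n195 .nil)
noncomputable def n197 : Strat := .move 920 n191 (.cons 918 n193 (.cons 919 n196 .nil))
noncomputable def n198 : Strat := .move 923 n186 (.cons 925 n189 (.cons 924 n197 .nil))
noncomputable def n199 : Strat := .win 879 0 878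
noncomputable def n200 : Strat := .move 878 n66 (.cons 877 n199 .nil)
noncomputable def n201 : Strat := .move 919 n190 (.cons 918 n200 .nil)
noncomputable def n202 : Strat := .win 837 2 837
noncomputable def n203 : Strat := .win 797 6 797
noncomputable def n204 : Strat := .move 838 n202 (.cons 837 n203 .nil)
noncomputable def n205 : Strat := .move 882 n192 (.cons 883 n204 .nil)
noncomputable def n206 : Strat := .move 879 n187 (.cons 878 n205 .nil)
noncomputable def n207 : Strat := .move 920 n191 (.cons 918 n193 (.cons 882 n201 (.cons 919 n206 .nil)))
noncomputable def n208 : Strat := .move 923 n186 (.cons 925 n189 (.cons 924 n207 .nil))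
noncomputable def n209 : Strat := .move 880 n185 (.cons 1004 n198 (.cons 839 n208 .nil))
noncomputable def n210 : Strat := .move 921 n2 (.cons 799 n209 .nil)
noncomputable def n211 : Strat := .move 962 n0 (.cons 1003 n210 .nil)
noncomputable def n212 : Strat := .move 963 n8 (.cons 962 n181 (.cons 1005 n184 (.cons 921 n44 (.cons 799 n117 (.cons 964 n211 .nil)))))
noncomputable def n213 : Strat := .move 962 n0 (.cons 1003 n29 .nil)
noncomputable def n214 : Strat := .move 964 n1 (.cons 1005 n213 .nil)
noncomputable def n215 : Strat := .move 798 n46 (.cons 757 n55 .nil)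
noncomputable def n216 : Strat := .move 799 n27 (.cons 921 n215 .nil)
noncomputable def n217 : Strat := .move 962 n0 (.cons 1003 n216 .nil)
noncomputable def n218 : Strat := .move 799 n28 (.cons 923 n215 .nil)
noncomputable def n219 : Strat := .move 964 n1 (.cons 1005 n218 .nil)
noncomputable def n220 : Strat := .move 963 n214 (.cons 964 n217 (.cons 962 n219 (.cons 799 n146 .nil)))
noncomputable def n221 : Strat := .move 799 n60 (.cons 962 n155 .nil)
noncomputable def n222 : Strat := .win 1003 3 839
noncomputable def n223 : Strat := .move 924 n95 (.cons 961 n110 .nil)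
noncomputable def n224 : Strat := .move 924 n95 (.cons 961 n150 .nil)
noncomputable def n225 : Strat := .win 918 5 877
noncomputable def n226 : Strat := .move 919 n64 (.cons 882 n225 .nil)
noncomputable def n227 : Strat := .win 1005 7 840
noncomputable def n228 : Strat := .move 964 n227 (.cons 1005 n158 .nil)
noncomputable def n229 : Strat := .move 882 n192 (.cons 883 n228 .nil)
noncomputable def n230 : Strat := .move 879 n187 (.cons 878 n229 .nil)
noncomputable def n231 : Strat := .win 963 0 919
noncomputable def n232 : Strat := .move 964 n231 (.cons 963 n158 .nil)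
noncomputable def n233 : Strat := .move 919 n225 (.cons 918 n232 .nil)
noncomputable def n234 : Strat := .move 879 n187 (.cons 878 n233 .nil)
noncomputable def n235 : Strat := .move 920 n193 (.cons 883 n226 (.cons 919 n230 (.cons 882 n234 .nil)))
noncomputable def n236 : Strat := .move 923 n223 (.cons 879 n224 (.cons 924 n235 .nil))
noncomputable def n237 : Strat := .move 880 n222 (.cons 1003 n236 .nil)
noncomputable def n238 : Strat := .win 963 1 839
noncomputable def n239 : Strat := .win 1044 3 880
noncomputable def n240 : Strat := .move 1003 n238 (.cons 963 n239 .nil)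
noncomputable def n241 : Strat := .win 880 3 839
noncomputable def n242 : Strat := .move 1003 n241 (.cons 880 n239 .nil)
noncomputable def n243 : Strat := .move 880 n223 (.cons 879 n224 (.cons 924 n235 .nil))
noncomputable def n244 : Strat := .win 963 4 921
noncomputable def n245 : Strat := .move 925 n163 (.cons 880 n244 .nil)
noncomputable def n246 : Strat := .move 924 n95 (.cons 961 n245 .nil)
noncomputable def n247 : Strat := .move 924 n95 (.cons 961 n151 .nil)
noncomputable def n248 : Strat := .win 959 5 918
noncomputable def n249 : Strat := .win 920 4 919
noncomputable def n250 : Strat := .move 960 n248 (.cons 959 n249 .nil)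
noncomputable def n251 : Strat := .move 961 n19 (.cons 924 n250 .nil)
noncomputable def n252 : Strat := .move 880 n193 (.cons 883 n226 (.cons 919 n230 (.cons 882 n234 .nil)))
noncomputable def n253 : Strat := .move 963 n1 (.cons 1005 n3 .nil)
noncomputable def n254 : Strat := .move 964 n158 (.cons 965 n253 .nil)
noncomputable def n255 : Strat := .win 963 6 840
noncomputable def n256 : Strat := .win 882 7 840
noncomputable def n257 : Strat := .move 1005 n255 (.cons 963 n256 .nil)
noncomputable def n258 : Strat := .move 964 n158 (.cons 965 n257 .nil)
noncomputable def n259 : Strat := .move 920 n252 (.cons 964 n63 (.cons 882 n254 (.cons 919 n258 .nil)))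
noncomputable def n260 : Strat := .move 923 n243 (.cons 918 n246 (.cons 963 n247 (.cons 925 n251 (.cons 924 n259 .nil))))
noncomputable def n261 : Strat := .move 962 n237 (.cons 880 n240 (.cons 963 n242 (.cons 1003 n260 .nil)))
noncomputable def n262 : Strat := .move 962 n2 (.cons 799 n240 .nil)
noncomputable def n263 : Strat := .move 799 n59 (.cons 964 n154 .nil)
noncomputable def n264 : Strat := .move 964 n38 (.cons 799 n257 .nil)
noncomputable def n265 : Strat := .move 964 n158 (.cons 965 n227 .nil)
noncomputable def n266 : Strat := .move 882 n62 (.cons 883 n265 .nil)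
noncomputable def n267 : Strat := .move 920 n63 (.cons 882 n254 (.cons 919 n266 .nil))
noncomputable def n268 : Strat := .move 920 n158 (.cons 965 n253 .nil)
noncomputable def n269 : Strat := .move 964 n38 (.cons 799 n268 .nil)
noncomputable def n270 : Strat := .move 799 n63 (.cons 883 n68 (.cons 919 n153 (.cons 882 n81 .nil)))
noncomputable def n271 : Strat := .move 879 n69 (.cons 878 n70 .nil)
noncomputable def n272 : Strat := .move 924 n149 (.cons 884 n271 .nil)
noncomputable def n273 : Strat := .move 883 n148 (.cons 882 n272 .nil)
noncomputable def n274 : Strat := .win 959 4 918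
noncomputable def n275 : Strat := .move 919 n274 (.cons 959 n78 .nil)
noncomputable def n276 : Strat := .move 960 n71 (.cons 961 n275 .nil)
noncomputable def n277 : Strat := .move 924 n70 (.cons 880 n276 .nil)
noncomputable def n278 : Strat := .move 879 n69 (.cons 878 n277 .nil)
noncomputable def n279 : Strat := .move 920 n270 (.cons 919 n273 (.cons 879 n63 (.cons 883 n68 (.cons 882 n278 .nil))))
noncomputable def n280 : Strat := .move 923 n263 (.cons 920 n264 (.cons 799 n267 (.cons 882 n269 (.cons 964 n279 .nil))))
noncomputable def n281 : Strat := .move 921 n221 (.cons 799 n261 (.cons 880 n262 (.cons 962 n280 .nil)))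
noncomputable def n282 : Strat := .move 878 n66 (.cons 877 n65 .nil)
noncomputable def n283 : Strat := .move 919 n64 (.cons 882 n282 .nil)
noncomputable def n284 : Strat := .win 839 1 797
noncomputable def n285 : Strat := .move 961 n284 (.cons 839 n93 .nil)
noncomputable def n286 : Strat := .move 880 n188 (.cons 924 n285 .nil)
noncomputable def n287 : Strat := .move 879 n69 (.cons 878 n286 .nil)
noncomputable def n288 : Strat := .move 920 n63 (.cons 883 n283 (.cons 882 n287 .nil))
noncomputable def n289 : Strat := .move 800 n48 (.cons 759 n288 .nil)
noncomputable def n290 : Strat := .move 798 n46 (.cons 757 n289 .nil)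
noncomputable def n291 : Strat := .move 921 n60 (.cons 962 n290 .nil)
noncomputable def n292 : Strat := .move 799 n59 (.cons 964 n291 .nil)
noncomputable def n293 : Strat := .win 882 0 879
noncomputable def n294 : Strat := .move 924 n150 (.cons 925 n293 .nil)
noncomputable def n295 : Strat := .move 879 n187 (.cons 878 n294 .nil)
noncomputable def n296 : Strat := .win 921 2 879
noncomputable def n297 : Strat := .move 924 n150 (.cons 925 n296 .nil)
noncomputable def n298 : Strat := .move 879 n187 (.cons 878 n297 .nil)
noncomputable def n299 : Strat := .move 962 n222 (.cons 1003 n95 .nil)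
noncomputable def n300 : Strat := .move 921 n110 (.cons 879 n299 .nil)
noncomputable def n301 : Strat := .move 924 n150 (.cons 925 n300 .nil)
noncomputable def n302 : Strat := .win 920 4 879
noncomputable def n303 : Strat := .win 843 5 839
noncomputable def n304 : Strat := .win 801 1 800
noncomputable def n305 : Strat := .move 842 n303 (.cons 843 n304 .nil)
noncomputable def n306 : Strat := .move 964 n227 (.cons 1005 n305 .nil)
noncomputable def n307 : Strat := .move 882 n302 (.cons 920 n306 .nil)
noncomputable def n308 : Strat := .move 883 n149 (.cons 884 n307 .nil)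
noncomputable def n309 : Strat := .move 921 n299 (.cons 961 n308 .nil)
noncomputable def n310 : Strat := .move 924 n150 (.cons 925 n309 .nil)
noncomputable def n311 : Strat := .win 919 4 878
noncomputable def n312 : Strat := .win 921 4 879
noncomputable def n313 : Strat := .win 838 2 838
noncomputable def n314 : Strat := .win 884 2 839
noncomputable def n315 : Strat := .move 839 n313 (.cons 838 n314 .nil)
noncomputable def n316 : Strat := .move 883 n312 (.cons 921 n315 .nil)
noncomputable def n317 : Strat := .move 920 n311 (.cons 919 n316 .nil)
noncomputable def n318 : Strat := .move 920 n312 (.cons 921 n315 .nil)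
noncomputable def n319 : Strat := .win 884 4 880
noncomputable def n320 : Strat := .move 921 n302 (.cons 920 n319 .nil)
noncomputable def n321 : Strat := .move 842 n303 (.cons 843 n320 .nil)
noncomputable def n322 : Strat := .win 839 2 838
noncomputable def n323 : Strat := .move 838 n202 (.cons 837 n322 .nil)
noncomputable def n324 : Strat := .move 883 n318 (.cons 839 n321 (.cons 884 n323 .nil))
noncomputable def n325 : Strat := .move 838 n202 (.cons 837 n265 .nil)
noncomputable def n326 : Strat := .move 921 n192 (.cons 883 n325 .nil)
noncomputable def n327 : Strat := .move 920 n311 (.cons 919 n326 .nil)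
noncomputable def n328 : Strat := .win 921 4 880
noncomputable def n329 : Strat := .win 885 4 881
noncomputable def n330 : Strat := .move 884 n328 (.cons 921 n329 .nil)
noncomputable def n331 : Strat := .move 883 n322 (.cons 839 n330 .nil)
noncomputable def n332 : Strat := .move 838 n202 (.cons 837 n331 .nil)
noncomputable def n333 : Strat := .win 962 6 797
noncomputable def n334 : Strat := .win 756 6 756
noncomputable def n335 : Strat := .move 797 n333 (.cons 962 n334 .nil)
noncomputable def n336 : Strat := .move 921 n265 (.cons 1005 n335 .nil)
noncomputable def n337 : Strat := .move 838 n202 (.cons 837 n336 .nil)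
noncomputable def n338 : Strat := .move 920 n311 (.cons 919 n337 .nil)
noncomputable def n339 : Strat := .move 921 n192 (.cons 883 n228 .nil)
noncomputable def n340 : Strat := .move 920 n311 (.cons 919 n339 .nil)
noncomputable def n341 : Strat := .win 844 5 840
noncomputable def n342 : Strat := .win 842 5 839
noncomputable def n343 : Strat := .move 843 n341 (.cons 844 n342 .nil)
noncomputable def n344 : Strat := .move 884 n329 (.cons 885 n343 .nil)
noncomputable def n345 : Strat := .move 964 n227 (.cons 1005 n344 .nil)
noncomputable def n346 : Strat := .move 883 n322 (.cons 839 n345 .nil)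
noncomputable def n347 : Strat := .move 838 n202 (.cons 837 n346 .nil)
noncomputable def n348 : Strat := .move 882 n317 (.cons 919 n324 (.cons 884 n327 (.cons 920 n332 (.cons 883 n338 (.cons 838 n340 (.cons 921 n347 .nil))))))
noncomputable def n349 : Strat := .move 879 n187 (.cons 878 n348 .nil)
noncomputable def n350 : Strat := .move 880 n295 (.cons 882 n298 (.cons 878 n301 (.cons 879 n310 (.cons 924 n349 .nil))))
noncomputable def n351 : Strat := .move 799 n60 (.cons 962 n290 .nil)
noncomputable def n352 : Strat := .move 924 n149 (.cons 884 n162 .nil)
noncomputable def n353 : Strat := .move 883 n148 (.cons 882 n352 .nil)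
noncomputable def n354 : Strat := .win 798 1 797
noncomputable def n355 : Strat := .win 1002 3 838
noncomputable def n356 : Strat := .move 839 n354 (.cons 798 n355 .nil)
noncomputable def n357 : Strat := .move 961 n93 (.cons 960 n356 .nil)
noncomputable def n358 : Strat := .move 880 n188 (.cons 924 n357 .nil)
noncomputable def n359 : Strat := .move 879 n69 (.cons 878 n358 .nil)
noncomputable def n360 : Strat := .move 920 n63 (.cons 883 n68 (.cons 919 n353 (.cons 882 n359 .nil)))
noncomputable def n361 : Strat := .move 962 n2 (.cons 799 n242 .nil)
noncomputable def n362 : Strat := .win 920 5 879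
noncomputable def n363 : Strat := .win 926 2 881
noncomputable def n364 : Strat := .move 925 n363 (.cons 926 n74 .nil)
noncomputable def n365 : Strat := .move 882 n362 (.cons 920 n364 .nil)
noncomputable def n366 : Strat := .move 883 n149 (.cons 884 n365 .nil)
noncomputable def n367 : Strat := .move 924 n95 (.cons 961 n366 .nil)
noncomputable def n368 : Strat := .move 962 n2 (.cons 799 n367 .nil)
noncomputable def n369 : Strat := .move 921 n351 (.cons 962 n360 (.cons 924 n361 (.cons 880 n368 .nil)))
noncomputable def n370 : Strat := .win 1046 7 881
noncomputable def n371 : Strat := .move 1005 n256 (.cons 882 n370 .nil)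
noncomputable def n372 : Strat := .move 964 n38 (.cons 799 n371 .nil)
noncomputable def n373 : Strat := .move 799 n60 (.cons 962 n59 .nil)
noncomputable def n374 : Strat := .move 839 n355 (.cons 1002 n354 .nil)
noncomputable def n375 : Strat := .move 961 n93 (.cons 960 n374 .nil)
noncomputable def n376 : Strat := .move 880 n188 (.cons 924 n375 .nil)
noncomputable def n377 : Strat := .move 879 n69 (.cons 878 n376 .nil)
noncomputable def n378 : Strat := .move 920 n158 (.cons 965 n377 .nil)
noncomputable def n379 : Strat := .move 964 n38 (.cons 799 n378 .nil)
noncomputable def n380 : Strat := .move 880 n110 (.cons 879 n299 .nil)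
noncomputable def n381 : Strat := .move 966 n73 (.cons 965 n72 .nil)
noncomputable def n382 : Strat := .move 925 n163 (.cons 880 n381 .nil)
noncomputable def n383 : Strat := .win 966 0 921
noncomputable def n384 : Strat := .win 964 0 920
noncomputable def n385 : Strat := .win 962 4 920
noncomputable def n386 : Strat := .move 961 n93 (.cons 960 n385 .nil)
noncomputable def n387 : Strat := .move 920 n384 (.cons 964 n386 .nil)
noncomputable def n388 : Strat := .move 965 n383 (.cons 966 n387 .nil)
noncomputable def n389 : Strat := .move 924 n162 (.cons 925 n380 (.cons 879 n382 (.cons 880 n388 .nil)))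
noncomputable def n390 : Strat := .move 921 n373 (.cons 962 n379 (.cons 799 n389 (.cons 964 n361 .nil)))
noncomputable def n391 : Strat := .move 923 n292 (.cons 799 n350 (.cons 964 n369 (.cons 921 n372 (.cons 882 n390 .nil))))
noncomputable def n392 : Strat := .move 1003 n238 (.cons 963 n241 .nil)
noncomputable def n393 : Strat := .move 962 n2 (.cons 799 n392 .nil)
noncomputable def n394 : Strat := .move 884 n76 (.cons 883 n75 .nil)
noncomputable def n395 : Strat := .move 925 n244 (.cons 963 n394 .nil)
noncomputable def n396 : Strat := .win 757 6 757
noncomputable def n397 : Strat := .win 963 6 798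
noncomputable def n398 : Strat := .move 798 n396 (.cons 757 n397 .nil)
noncomputable def n399 : Strat := .move 839 n313 (.cons 838 n398 .nil)
noncomputable def n400 : Strat := .move 882 n302 (.cons 920 n399 .nil)
noncomputable def n401 : Strat := .move 883 n149 (.cons 884 n400 .nil)
noncomputable def n402 : Strat := .move 880 n110 (.cons 879 n401 .nil)
noncomputable def n403 : Strat := .move 924 n151 (.cons 880 n395 (.cons 925 n402 .nil))
noncomputable def n404 : Strat := .win 963 0 918
noncomputable def n405 : Strat := .win 880 5 877
noncomputable def n406 : Strat := .move 918 n404 (.cons 963 n405 .nil)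
noncomputable def n407 : Strat := .move 919 n64 (.cons 882 n406 .nil)
noncomputable def n408 : Strat := .win 798 3 797
noncomputable def n409 : Strat := .win 882 0 837
noncomputable def n410 : Strat := .win 796 7 796
noncomputable def n411 : Strat := .move 837 n409 (.cons 882 n410 .nil)
noncomputable def n412 : Strat := .move 839 n408 (.cons 798 n411 .nil)
noncomputable def n413 : Strat := .move 838 n203 (.cons 797 n412 .nil)
noncomputable def n414 : Strat := .move 879 n69 (.cons 878 n413 .nil)
noncomputable def n415 : Strat := .move 961 n93 (.cons 960 n414 .nil)
noncomputable def n416 : Strat := .move 918 n405 (.cons 880 n404 .nil)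
noncomputable def n417 : Strat := .move 919 n66 (.cons 877 n416 .nil)
noncomputable def n418 : Strat := .move 878 n65 (.cons 879 n417 .nil)
noncomputable def n419 : Strat := .move 961 n93 (.cons 960 n418 .nil)
noncomputable def n420 : Strat := .move 920 n63 (.cons 883 n407 (.cons 919 n415 (.cons 882 n419 .nil)))
noncomputable def n421 : Strat := .move 923 n247 (.cons 879 n246 (.cons 925 n251 (.cons 961 n403 (.cons 924 n420 .nil))))
noncomputable def n422 : Strat := .move 962 n392 (.cons 880 n240 (.cons 963 n242 (.cons 1003 n421 .nil)))
noncomputable def n423 : Strat := .move 923 n351 (.cons 962 n360 (.cons 924 n361 (.cons 880 n368 .nil)))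
noncomputable def n424 : Strat := .move 799 n60 (.cons 962 n54 .nil)
noncomputable def n425 : Strat := .win 880 4 879
noncomputable def n426 : Strat := .move 883 n319 (.cons 884 n425 .nil)
noncomputable def n427 : Strat := .move 882 n61 (.cons 919 n426 .nil)
noncomputable def n428 : Strat := .win 923 2 878
noncomputable def n429 : Strat := .win 918 4 877
noncomputable def n430 : Strat := .win 836 2 836
noncomputable def n431 : Strat := .win 755 6 755
noncomputable def n432 : Strat := .win 961 6 796
noncomputable def n433 : Strat := .move 796 n431 (.cons 755 n432 .nil)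
noncomputable def n434 : Strat := .move 837 n430 (.cons 836 n433 .nil)
noncomputable def n435 : Strat := .move 880 n429 (.cons 918 n434 .nil)
noncomputable def n436 : Strat := .move 879 n428 (.cons 923 n435 .nil)
noncomputable def n437 : Strat := .move 878 n66 (.cons 877 n436 .nil)
noncomputable def n438 : Strat := .win 923 4 919
noncomputable def n439 : Strat := .win 1043 7 878
noncomputable def n440 : Strat := .win 837 6 837
noncomputable def n441 : Strat := .move 1002 n439 (.cons 1043 n440 .nil)
noncomputable def n442 : Strat := .move 961 n438 (.cons 923 n441 .nil)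
noncomputable def n443 : Strat := .move 960 n274 (.cons 959 n442 .nil)
noncomputable def n444 : Strat := .move 878 n66 (.cons 877 n443 .nil)
noncomputable def n445 : Strat := .win 878 2 877
noncomputable def n446 : Strat := .win 876 2 876
noncomputable def n447 : Strat := .move 877 n445 (.cons 878 n446 .nil)
noncomputable def n448 : Strat := .move 918 n405 (.cons 880 n447 .nil)
noncomputable def n449 : Strat := .win 960 4 918
noncomputable def n450 : Strat := .win 958 4 917
noncomputable def n451 : Strat := .move 959 n449 (.cons 960 n450 .nil)
noncomputable def n452 : Strat := .move 918 n405 (.cons 880 n451 .nil)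
noncomputable def n453 : Strat := .move 919 n437 (.cons 880 n444 (.cons 961 n448 (.cons 878 n452 .nil)))
noncomputable def n454 : Strat := .move 919 n64 (.cons 882 n444 .nil)
noncomputable def n455 : Strat := .win 924 0 879
noncomputable def n456 : Strat := .win 757 1 756
noncomputable def n457 : Strat := .move 798 n456 (.cons 757 n397 .nil)
noncomputable def n458 : Strat := .win 961 1 797
noncomputable def n459 : Strat := .move 798 n458 (.cons 961 n456 .nil)
noncomputable def n460 : Strat := .move 798 n458 (.cons 961 n397 .nil)
noncomputable def n461 : Strat := .move 961 n355 (.cons 1002 n93 .nil)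
noncomputable def n462 : Strat := .move 839 n457 (.cons 963 n459 (.cons 757 n460 (.cons 798 n461 .nil)))
noncomputable def n463 : Strat := .move 880 n455 (.cons 924 n462 .nil)
noncomputable def n464 : Strat := .move 879 n69 (.cons 878 n463 .nil)
noncomputable def n465 : Strat := .move 882 n62 (.cons 883 n464 .nil)
noncomputable def n466 : Strat := .move 925 n75 (.cons 885 n74 .nil)
noncomputable def n467 : Strat := .move 884 n76 (.cons 883 n466 .nil)
noncomputable def n468 : Strat := .move 961 n93 (.cons 960 n467 .nil)
noncomputable def n469 : Strat := .move 924 n70 (.cons 880 n468 .nil)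
noncomputable def n470 : Strat := .move 879 n69 (.cons 878 n469 .nil)
noncomputable def n471 : Strat := .move 882 n457 (.cons 963 n459 (.cons 757 n460 (.cons 798 n461 .nil)))
noncomputable def n472 : Strat := .move 798 n397 (.cons 963 n456 .nil)
noncomputable def n473 : Strat := .move 961 n93 (.cons 960 n355 .nil)
noncomputable def n474 : Strat := .move 839 n471 (.cons 1002 n472 (.cons 798 n473 .nil))
noncomputable def n475 : Strat := .move 880 n188 (.cons 924 n474 .nil)
noncomputable def n476 : Strat := .move 879 n69 (.cons 878 n475 .nil)
noncomputable def n477 : Strat := .move 924 n149 (.cons 884 n382 .nil)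
noncomputable def n478 : Strat := .move 883 n148 (.cons 882 n477 .nil)
noncomputable def n479 : Strat := .win 880 1 797
noncomputable def n480 : Strat := .move 839 n479 (.cons 880 n47 .nil)
noncomputable def n481 : Strat := .win 838 3 797
noncomputable def n482 : Strat := .move 839 n481 (.cons 838 n479 .nil)
noncomputable def n483 : Strat := .move 839 n481 (.cons 838 n47 .nil)
noncomputable def n484 : Strat := .win 880 2 837
noncomputable def n485 : Strat := .move 837 n410 (.cons 796 n484 .nil)
noncomputable def n486 : Strat := .win 797 3 756
noncomputable def n487 : Strat := .win 799 7 757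
noncomputable def n488 : Strat := .move 757 n486 (.cons 797 n487 .nil)
noncomputable def n489 : Strat := .move 838 n485 (.cons 880 n488 .nil)
noncomputable def n490 : Strat := .move 798 n480 (.cons 963 n482 (.cons 880 n483 (.cons 839 n489 .nil)))
noncomputable def n491 : Strat := .move 961 n93 (.cons 960 n490 .nil)
noncomputable def n492 : Strat := .move 879 n69 (.cons 878 n491 .nil)
noncomputable def n493 : Strat := .move 882 n62 (.cons 883 n492 .nil)
noncomputable def n494 : Strat := .move 883 n148 (.cons 882 n149 .nil)
noncomputable def n495 : Strat := .move 882 n62 (.cons 883 n364 .nil)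
noncomputable def n496 : Strat := .win 882 2 881
noncomputable def n497 : Strat := .win 968 0 923
noncomputable def n498 : Strat := .win 966 0 922
noncomputable def n499 : Strat := .move 967 n497 (.cons 968 n498 .nil)
noncomputable def n500 : Strat := .move 926 n496 (.cons 882 n499 .nil)
noncomputable def n501 : Strat := .win 884 5 881
noncomputable def n502 : Strat := .win 886 5 882
noncomputable def n503 : Strat := .move 926 n502 (.cons 886 n496 .nil)
noncomputable def n504 : Strat := .move 885 n501 (.cons 884 n503 .nil)
noncomputable def n505 : Strat := .move 925 n74 (.cons 965 n500 (.cons 967 n504 .nil))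
noncomputable def n506 : Strat := .move 924 n494 (.cons 884 n495 (.cons 883 n505 (.cons 882 n467 .nil)))
noncomputable def n507 : Strat := .move 960 n71 (.cons 961 n506 .nil)
noncomputable def n508 : Strat := .move 879 n69 (.cons 878 n507 .nil)
noncomputable def n509 : Strat := .move 923 n465 (.cons 882 n470 (.cons 883 n476 (.cons 879 n478 (.cons 924 n493 (.cons 880 n508 .nil)))))
noncomputable def n510 : Strat := .move 920 n427 (.cons 882 n453 (.cons 880 n454 (.cons 919 n509 .nil)))
noncomputable def n511 : Strat := .move 921 n393 (.cons 799 n422 (.cons 880 n262 (.cons 963 n423 (.cons 1003 n424 (.cons 962 n510 .nil)))))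
noncomputable def n512 : Strat := .win 882 3 881
noncomputable def n513 : Strat := .win 1086 3 922
noncomputable def n514 : Strat := .move 1045 n512 (.cons 882 n513 .nil)
noncomputable def n515 : Strat := .move 923 n38 (.cons 799 n514 .nil)
noncomputable def n516 : Strat := .move 1004 n10 (.cons 880 n515 .nil)
noncomputable def n517 : Strat := .move 839 n9 (.cons 798 n516 .nil)
noncomputable def n518 : Strat := .move 964 n1 (.cons 1005 n517 .nil)
noncomputable def n519 : Strat := .win 1003 1 880
noncomputable def n520 : Strat := .win 1085 1 921
noncomputable def n521 : Strat := .win 1005 6 881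
noncomputable def n522 : Strat := .win 1087 6 922
noncomputable def n523 : Strat := .move 1046 n521 (.cons 1005 n522 .nil)
noncomputable def n524 : Strat := .move 1045 n520 (.cons 1085 n523 .nil)
noncomputable def n525 : Strat := .move 1044 n519 (.cons 1003 n524 .nil)
noncomputable def n526 : Strat := .move 1004 n10 (.cons 880 n525 .nil)
noncomputable def n527 : Strat := .move 839 n9 (.cons 798 n526 .nil)
noncomputable def n528 : Strat := .move 964 n38 (.cons 799 n513 .nil)
noncomputable def n529 : Strat := .move 923 n512 (.cons 882 n528 .nil)
noncomputable def n530 : Strat := .move 1045 n520 (.cons 1085 n529 .nil)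
noncomputable def n531 : Strat := .move 1044 n519 (.cons 1003 n530 .nil)
noncomputable def n532 : Strat := .move 1004 n10 (.cons 880 n531 .nil)
noncomputable def n533 : Strat := .move 839 n9 (.cons 798 n532 .nil)
noncomputable def n534 : Strat := .move 1004 n13 (.cons 1005 n531 (.cons 964 n525 .nil))
noncomputable def n535 : Strat := .move 963 n518 (.cons 964 n527 (.cons 798 n181 (.cons 1005 n533 (.cons 880 n219 (.cons 839 n534 .nil)))))
noncomputable def n536 : Strat := .move 922 n26 (.cons 920 n37 (.cons 921 n45 (.cons 1003 n85 (.cons 923 n89 (.cons 799 n147 (.cons 1005 n157 (.cons 798 n212 (.cons 880 n220 (.cons 839 n281 (.cons 963 n391 (.cons 964 n511 (.cons 962 n535 .nil))))))))))))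

theorem ok : checkS n536 (pairBits 840 881) (pairBits 841 758) ≠ 0 := by decide +kernel

theorem reply : MakerWins {cellOf 881, cellOf 840} {cellOf 841, cellOf 758} :=
  reply2 n536 840 881 841 758 ok

end Vale.Agent.Snaky.Cert2.R758
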