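import Vale.Agent.Snaky.Cert2.Lem

namespace Vale.Agent.Snaky.Cert2.R759

open Vale.Agent.Snaky

noncomputable def n0 : Strat := .win 1003 1 839
noncomputable def n1 : Strat := .win 799 1 798
noncomputable def n2 : Strat := .win 1005 6 840
noncomputable def n3 : Strat := .win 919 0 919
noncomputable def n4 : Strat := .win 965 2 920
noncomputable def n5 : Strat := .move 920 n3 (.cons 919 n4 .nil)
noncomputable def n6 : Strat := .move 964 n2 (.cons 1005 n5 .nil)
noncomputable def n7 : Strat := .move 921 n1 (.cons 799 n6 .nil)
noncomputable def n8 : Strat := .move 962 n0 (.cons 1003 n7 .nil)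
noncomputable def n9 : Strat := .win 921 1 798
noncomputable def n10 : Strat := .win 923 6 799
noncomputable def n11 : Strat := .move 799 n9 (.cons 921 n10 .nil)
noncomputable def n12 : Strat := .move 964 n2 (.cons 1005 n11 .nil)
noncomputable def n13 : Strat := .move 962 n0 (.cons 1003 n12 .nil)
noncomputable def n14 : Strat := .win 798 7 798
noncomputable def n15 : Strat := .win 880 7 839
noncomputable def n16 : Strat := .win 964 6 840
noncomputable def n17 : Strat := .win 1046 6 881
noncomputable def n18 : Strat := .move 1005 n16 (.cons 964 n17 .nil)
noncomputable def n19 : Strat := .move 1004 n15 (.cons 880 n18 .nil)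
noncomputable def n20 : Strat := .move 839 n14 (.cons 798 n19 .nil)
noncomputable def n21 : Strat := .win 1004 6 839
noncomputable def n22 : Strat := .win 1002 1 838
noncomputable def n23 : Strat := .win 960 5 919
noncomputable def n24 : Strat := .win 924 4 920
noncomputable def n25 : Strat := .move 923 n23 (.cons 960 n24 .nil)
noncomputable def n26 : Strat := .move 961 n22 (.cons 1002 n25 .nil)
noncomputable def n27 : Strat := .move 880 n21 (.cons 1004 n26 .nil)
noncomputable def n28 : Strat := .move 839 n14 (.cons 798 n27 .nil)
noncomputable def n29 : Strat := .move 921 n1 (.cons 799 n28 .nil)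
noncomputable def n30 : Strat := .move 962 n0 (.cons 1003 n29 .nil)
noncomputable def n31 : Strat := .move 963 n8 (.cons 920 n13 (.cons 962 n20 (.cons 1005 n30 .nil)))
noncomputable def n32 : Strat := .win 962 1 798
noncomputable def n33 : Strat := .win 964 6 799
noncomputable def n34 : Strat := .win 880 1 757
noncomputable def n35 : Strat := .win 882 6 758
noncomputable def n36 : Strat := .move 758 n34 (.cons 880 n35 .nil)
noncomputable def n37 : Strat := .move 923 n33 (.cons 964 n36 .nil)
noncomputable def n38 : Strat := .move 921 n32 (.cons 962 n37 .nil)
noncomputable def n39 : Strat := .win 758 1 757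
noncomputable def n40 : Strat := .win 878 0 878
noncomputable def n41 : Strat := .win 924 2 879
noncomputable def n42 : Strat := .move 879 n40 (.cons 878 n41 .nil)
noncomputable def n43 : Strat := .move 923 n33 (.cons 964 n42 .nil)
noncomputable def n44 : Strat := .move 880 n39 (.cons 758 n43 .nil)
noncomputable def n45 : Strat := .move 921 n32 (.cons 962 n44 .nil)
noncomputable def n46 : Strat := .win 798 7 757
noncomputable def n47 : Strat := .win 716 7 716
noncomputable def n48 : Strat := .move 757 n46 (.cons 798 n47 .nil)
noncomputable def n49 : Strat := .move 758 n35 (.cons 882 n48 .nil)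
noncomputable def n50 : Strat := .move 923 n33 (.cons 964 n49 .nil)
noncomputable def n51 : Strat := .move 758 n34 (.cons 880 n48 .nil)
noncomputable def n52 : Strat := .move 921 n32 (.cons 962 n51 .nil)
noncomputable def n53 : Strat := .win 757 7 757
noncomputable def n54 : Strat := .win 919 5 878
noncomputable def n55 : Strat := .win 883 5 879
noncomputable def n56 : Strat := .move 882 n54 (.cons 919 n55 .nil)
noncomputable def n57 : Strat := .win 882 5 879
noncomputable def n58 : Strat := .win 884 5 880
noncomputable def n59 : Strat := .win 880 2 879
noncomputable def n60 : Strat := .win 878 2 878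
noncomputable def n61 : Strat := .move 879 n59 (.cons 880 n60 .nil)
noncomputable def n62 : Strat := .move 924 n58 (.cons 884 n61 .nil)
noncomputable def n63 : Strat := .move 883 n57 (.cons 882 n62 .nil)
noncomputable def n64 : Strat := .win 839 1 797
noncomputable def n65 : Strat := .win 960 4 919
noncomputable def n66 : Strat := .move 961 n64 (.cons 839 n65 .nil)
noncomputable def n67 : Strat := .move 880 n41 (.cons 924 n66 .nil)
noncomputable def n68 : Strat := .move 879 n60 (.cons 878 n67 .nil)
noncomputable def n69 : Strat := .move 920 n56 (.cons 919 n63 (.cons 882 n68 .nil))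
noncomputable def n70 : Strat := .move 798 n53 (.cons 757 n69 .nil)
noncomputable def n71 : Strat := .move 923 n33 (.cons 964 n70 .nil)
noncomputable def n72 : Strat := .move 921 n32 (.cons 962 n71 .nil)
noncomputable def n73 : Strat := .move 799 n38 (.cons 882 n45 (.cons 921 n50 (.cons 923 n52 (.cons 758 n72 .nil))))
noncomputable def n74 : Strat := .win 882 5 878
noncomputable def n75 : Strat := .win 879 2 878
noncomputable def n76 : Strat := .win 877 2 877
noncomputable def n77 : Strat := .move 878 n75 (.cons 879 n76 .nil)
noncomputable def n78 : Strat := .move 919 n74 (.cons 882 n77 .nil)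
noncomputable def n79 : Strat := .win 961 4 919
noncomputable def n80 : Strat := .win 967 0 922
noncomputable def n81 : Strat := .win 965 0 921
noncomputable def n82 : Strat := .move 966 n80 (.cons 967 n81 .nil)
noncomputable def n83 : Strat := .win 885 5 881
noncomputable def n84 : Strat := .win 883 5 880
noncomputable def n85 : Strat := .move 884 n83 (.cons 885 n84 .nil)
noncomputable def n86 : Strat := .move 925 n82 (.cons 965 n85 .nil)
noncomputable def n87 : Strat := .move 960 n79 (.cons 961 n86 .nil)
noncomputable def n88 : Strat := .move 924 n59 (.cons 880 n87 .nil)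
noncomputable def n89 : Strat := .move 879 n60 (.cons 878 n88 .nil)
noncomputable def n90 : Strat := .move 920 n56 (.cons 883 n78 (.cons 882 n89 .nil))
noncomputable def n91 : Strat := .move 923 n33 (.cons 964 n90 .nil)
noncomputable def n92 : Strat := .move 921 n32 (.cons 962 n91 .nil)
noncomputable def n93 : Strat := .move 799 n38 (.cons 921 n50 (.cons 923 n52 (.cons 758 n92 .nil)))
noncomputable def n94 : Strat := .win 962 1 839
noncomputable def n95 : Strat := .win 1044 1 880
noncomputable def n96 : Strat := .move 1003 n94 (.cons 962 n95 .nil)
noncomputable def n97 : Strat := .move 1004 n15 (.cons 880 n96 .nil)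
noncomputable def n98 : Strat := .move 839 n14 (.cons 798 n97 .nil)
noncomputable def n99 : Strat := .move 963 n13 (.cons 962 n20 (.cons 964 n98 .nil))
noncomputable def n100 : Strat := .win 758 6 758
noncomputable def n101 : Strat := .win 884 4 880
noncomputable def n102 : Strat := .win 920 5 879
noncomputable def n103 : Strat := .move 883 n101 (.cons 884 n102 .nil)
noncomputable def n104 : Strat := .move 882 n100 (.cons 758 n103 .nil)
noncomputable def n105 : Strat := .move 921 n32 (.cons 962 n104 .nil)
noncomputable def n106 : Strat := .move 923 n33 (.cons 964 n105 .nil)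
noncomputable def n107 : Strat := .win 839 7 798
noncomputable def n108 : Strat := .move 962 n9 (.cons 921 n0 .nil)
noncomputable def n109 : Strat := .move 963 n107 (.cons 839 n108 .nil)
noncomputable def n110 : Strat := .move 798 n53 (.cons 757 n109 .nil)
noncomputable def n111 : Strat := .move 964 n10 (.cons 923 n2 .nil)
noncomputable def n112 : Strat := .move 963 n107 (.cons 839 n111 .nil)
noncomputable def n113 : Strat := .move 798 n53 (.cons 757 n112 .nil)
noncomputable def n114 : Strat := .move 799 n106 (.cons 923 n110 (.cons 921 n113 .nil))
noncomputable def n115 : Strat := .win 920 2 920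
noncomputable def n116 : Strat := .win 966 2 921
noncomputable def n117 : Strat := .move 965 n115 (.cons 920 n116 .nil)
noncomputable def n118 : Strat := .move 961 n65 (.cons 960 n24 .nil)
noncomputable def n119 : Strat := .win 925 4 921
noncomputable def n120 : Strat := .win 961 4 920
noncomputable def n121 : Strat := .move 924 n119 (.cons 925 n120 .nil)
noncomputable def n122 : Strat := .move 924 n119 (.cons 925 n61 .nil)
noncomputable def n123 : Strat := .win 1001 4 960
noncomputable def n124 : Strat := .win 1084 3 920
noncomputable def n125 : Strat := .win 880 3 879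
noncomputable def n126 : Strat := .move 1043 n124 (.cons 1084 n125 .nil)
noncomputable def n127 : Strat := .move 1002 n123 (.cons 1001 n126 .nil)
noncomputable def n128 : Strat := .move 961 n65 (.cons 960 n127 .nil)
noncomputable def n129 : Strat := .move 923 n118 (.cons 960 n121 (.cons 961 n122 (.cons 924 n128 .nil)))
noncomputable def n130 : Strat := .move 920 n3 (.cons 919 n129 .nil)
noncomputable def n131 : Strat := .win 925 5 921
noncomputable def n132 : Strat := .win 1007 0 962
noncomputable def n133 : Strat := .win 1088 7 923
noncomputable def n134 : Strat := .win 882 7 882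
noncomputable def n135 : Strat := .move 1047 n133 (.cons 1088 n134 .nil)
noncomputable def n136 : Strat := .move 1006 n132 (.cons 1007 n135 .nil)
noncomputable def n137 : Strat := .move 923 n120 (.cons 961 n136 .nil)
noncomputable def n138 : Strat := .move 924 n131 (.cons 925 n137 .nil)
noncomputable def n139 : Strat := .move 965 n116 (.cons 966 n138 .nil)
noncomputable def n140 : Strat := .move 921 n5 (.cons 919 n117 (.cons 965 n130 (.cons 920 n139 .nil)))
noncomputable def n141 : Strat := .move 964 n2 (.cons 1005 n140 .nil)
noncomputable def n142 : Strat := .move 962 n0 (.cons 1003 n141 .nil)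
noncomputable def n143 : Strat := .win 924 5 920
noncomputable def n144 : Strat := .move 923 n23 (.cons 960 n143 .nil)
noncomputable def n145 : Strat := .win 923 5 919
noncomputable def n146 : Strat := .win 920 2 919
noncomputable def n147 : Strat := .win 918 2 918
noncomputable def n148 : Strat := .move 919 n146 (.cons 920 n147 .nil)
noncomputable def n149 : Strat := .move 960 n145 (.cons 923 n148 .nil)
noncomputable def n150 : Strat := .win 919 2 919
noncomputable def n151 : Strat := .win 921 2 920
noncomputable def n152 : Strat := .win 1002 4 960
noncomputable def n153 : Strat := .win 1008 0 963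
noncomputable def n154 : Strat := .win 1006 0 962
noncomputable def n155 : Strat := .move 1007 n153 (.cons 1008 n154 .nil)
noncomputable def n156 : Strat := .win 926 5 922
noncomputable def n157 : Strat := .win 924 5 921
noncomputable def n158 : Strat := .move 925 n156 (.cons 926 n157 .nil)
noncomputable def n159 : Strat := .move 966 n155 (.cons 1006 n158 .nil)
noncomputable def n160 : Strat := .move 1001 n152 (.cons 1002 n159 .nil)
noncomputable def n161 : Strat := .move 965 n151 (.cons 921 n160 .nil)
noncomputable def n162 : Strat := .move 920 n150 (.cons 919 n161 .nil)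
noncomputable def n163 : Strat := .move 961 n144 (.cons 924 n149 (.cons 923 n162 .nil))
noncomputable def n164 : Strat := .move 962 n0 (.cons 1003 n163 .nil)
noncomputable def n165 : Strat := .move 964 n2 (.cons 1005 n164 .nil)
noncomputable def n166 : Strat := .move 963 n20 (.cons 964 n98 (.cons 839 n142 (.cons 880 n165 .nil)))
noncomputable def n167 : Strat := .move 963 n98 (.cons 962 n20 (.cons 1004 n8 .nil))
noncomputable def n168 : Strat := .win 799 6 799
noncomputable def n169 : Strat := .win 961 5 920
noncomputable def n170 : Strat := .move 924 n119 (.cons 925 n169 .nil)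
noncomputable def n171 : Strat := .move 962 n0 (.cons 1003 n170 .nil)
noncomputable def n172 : Strat := .move 923 n168 (.cons 799 n171 .nil)
noncomputable def n173 : Strat := .move 964 n2 (.cons 1005 n172 .nil)
noncomputable def n174 : Strat := .move 963 n173 (.cons 961 n20 (.cons 964 n98 .nil))
noncomputable def n175 : Strat := .win 963 1 839
noncomputable def n176 : Strat := .win 880 3 839
noncomputable def n177 : Strat := .move 1003 n175 (.cons 963 n176 .nil)
noncomputable def n178 : Strat := .move 962 n1 (.cons 799 n177 .nil)
noncomputable def n179 : Strat := .win 1044 3 880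
noncomputable def n180 : Strat := .move 1003 n175 (.cons 963 n179 .nil)
noncomputable def n181 : Strat := .move 1003 n176 (.cons 880 n179 .nil)
noncomputable def n182 : Strat := .win 879 2 879
noncomputable def n183 : Strat := .win 925 2 880
noncomputable def n184 : Strat := .move 880 n182 (.cons 879 n183 .nil)
noncomputable def n185 : Strat := .move 924 n120 (.cons 961 n184 .nil)
noncomputable def n186 : Strat := .win 880 2 880
noncomputable def n187 : Strat := .win 963 4 921
noncomputable def n188 : Strat := .move 925 n186 (.cons 880 n187 .nil)
noncomputable def n189 : Strat := .move 924 n120 (.cons 961 n188 .nil)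
noncomputable def n190 : Strat := .win 959 5 918
noncomputable def n191 : Strat := .win 920 4 919
noncomputable def n192 : Strat := .move 960 n190 (.cons 959 n191 .nil)
noncomputable def n193 : Strat := .move 961 n24 (.cons 924 n192 .nil)
noncomputable def n194 : Strat := .win 963 0 918
noncomputable def n195 : Strat := .win 880 5 877
noncomputable def n196 : Strat := .move 918 n194 (.cons 963 n195 .nil)
noncomputable def n197 : Strat := .move 919 n74 (.cons 882 n196 .nil)
noncomputable def n198 : Strat := .win 797 6 797
noncomputable def n199 : Strat := .win 798 3 797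
noncomputable def n200 : Strat := .win 882 0 837
noncomputable def n201 : Strat := .win 796 7 796
noncomputable def n202 : Strat := .move 837 n200 (.cons 882 n201 .nil)
noncomputable def n203 : Strat := .move 839 n199 (.cons 798 n202 .nil)
noncomputable def n204 : Strat := .move 838 n198 (.cons 797 n203 .nil)
noncomputable def n205 : Strat := .move 879 n60 (.cons 878 n204 .nil)
noncomputable def n206 : Strat := .move 961 n65 (.cons 960 n205 .nil)
noncomputable def n207 : Strat := .move 918 n195 (.cons 880 n194 .nil)
noncomputable def n208 : Strat := .move 919 n76 (.cons 877 n207 .nil)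
noncomputable def n209 : Strat := .move 878 n75 (.cons 879 n208 .nil)
noncomputable def n210 : Strat := .move 961 n65 (.cons 960 n209 .nil)
noncomputable def n211 : Strat := .move 920 n56 (.cons 883 n197 (.cons 919 n206 (.cons 882 n210 .nil)))
noncomputable def n212 : Strat := .move 884 n84 (.cons 883 n83 .nil)
noncomputable def n213 : Strat := .move 925 n187 (.cons 963 n212 .nil)
noncomputable def n214 : Strat := .win 920 4 879
noncomputable def n215 : Strat := .win 838 2 838
noncomputable def n216 : Strat := .win 757 6 757
noncomputable def n217 : Strat := .win 963 6 798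
noncomputable def n218 : Strat := .move 798 n216 (.cons 757 n217 .nil)
noncomputable def n219 : Strat := .move 839 n215 (.cons 838 n218 .nil)
noncomputable def n220 : Strat := .move 882 n214 (.cons 920 n219 .nil)
noncomputable def n221 : Strat := .move 883 n58 (.cons 884 n220 .nil)
noncomputable def n222 : Strat := .move 880 n182 (.cons 879 n221 .nil)
noncomputable def n223 : Strat := .move 924 n184 (.cons 880 n213 (.cons 925 n222 .nil))
noncomputable def n224 : Strat := .move 923 n185 (.cons 879 n189 (.cons 925 n193 (.cons 924 n211 (.cons 961 n223 .nil))))
noncomputable def n225 : Strat := .move 962 n177 (.cons 880 n180 (.cons 963 n181 (.cons 1003 n224 .nil)))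
noncomputable def n226 : Strat := .move 962 n1 (.cons 799 n180 .nil)
noncomputable def n227 : Strat := .move 962 n1 (.cons 799 n181 .nil)
noncomputable def n228 : Strat := .move 924 n182 (.cons 879 n183 .nil)
noncomputable def n229 : Strat := .win 961 1 797
noncomputable def n230 : Strat := .win 883 4 879
noncomputable def n231 : Strat := .move 882 n230 (.cons 883 n54 .nil)
noncomputable def n232 : Strat := .move 920 n229 (.cons 961 n231 .nil)
noncomputable def n233 : Strat := .move 923 n42 (.cons 878 n228 (.cons 879 n232 .nil))
noncomputable def n234 : Strat := .move 839 n217 (.cons 963 n233 .nil)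
noncomputable def n235 : Strat := .move 798 n53 (.cons 757 n234 .nil)
noncomputable def n236 : Strat := .move 880 n39 (.cons 758 n235 .nil)
noncomputable def n237 : Strat := .move 799 n32 (.cons 962 n236 .nil)
noncomputable def n238 : Strat := .win 880 4 879
noncomputable def n239 : Strat := .move 920 n54 (.cons 919 n238 .nil)
noncomputable def n240 : Strat := .move 883 n101 (.cons 884 n239 .nil)
noncomputable def n241 : Strat := .win 924 0 879
noncomputable def n242 : Strat := .move 839 n229 (.cons 961 n217 .nil)
noncomputable def n243 : Strat := .move 798 n53 (.cons 757 n242 .nil)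
noncomputable def n244 : Strat := .move 799 n39 (.cons 758 n243 .nil)
noncomputable def n245 : Strat := .move 880 n241 (.cons 924 n244 .nil)
noncomputable def n246 : Strat := .move 879 n60 (.cons 878 n245 .nil)
noncomputable def n247 : Strat := .win 799 1 757
noncomputable def n248 : Strat := .win 1043 3 879
noncomputable def n249 : Strat := .win 839 3 838
noncomputable def n250 : Strat := .move 1002 n248 (.cons 1043 n249 .nil)
noncomputable def n251 : Strat := .move 961 n65 (.cons 960 n250 .nil)
noncomputable def n252 : Strat := .move 758 n247 (.cons 799 n251 .nil)
noncomputable def n253 : Strat := .move 880 n241 (.cons 924 n252 .nil)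
noncomputable def n254 : Strat := .move 879 n60 (.cons 878 n253 .nil)
noncomputable def n255 : Strat := .win 880 0 879
noncomputable def n256 : Strat := .win 926 2 881
noncomputable def n257 : Strat := .move 925 n256 (.cons 926 n82 .nil)
noncomputable def n258 : Strat := .move 924 n255 (.cons 880 n257 .nil)
noncomputable def n259 : Strat := .move 879 n60 (.cons 878 n258 .nil)
noncomputable def n260 : Strat := .win 963 7 798
noncomputable def n261 : Strat := .win 880 1 797
noncomputable def n262 : Strat := .move 961 n261 (.cons 880 n65 .nil)
noncomputable def n263 : Strat := .move 839 n260 (.cons 963 n262 .nil)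
noncomputable def n264 : Strat := .move 798 n53 (.cons 757 n263 .nil)
noncomputable def n265 : Strat := .move 799 n100 (.cons 758 n264 .nil)
noncomputable def n266 : Strat := .win 837 0 837
noncomputable def n267 : Strat := .win 879 3 797
noncomputable def n268 : Strat := .move 961 n267 (.cons 879 n65 .nil)
noncomputable def n269 : Strat := .move 838 n266 (.cons 837 n268 .nil)
noncomputable def n270 : Strat := .move 839 n260 (.cons 963 n269 .nil)
noncomputable def n271 : Strat := .move 798 n53 (.cons 757 n270 .nil)
noncomputable def n272 : Strat := .move 799 n100 (.cons 758 n271 .nil)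
noncomputable def n273 : Strat := .move 923 n246 (.cons 798 n254 (.cons 839 n259 (.cons 879 n265 (.cons 880 n272 .nil))))
noncomputable def n274 : Strat := .move 920 n54 (.cons 919 n273 .nil)
noncomputable def n275 : Strat := .win 923 5 879
noncomputable def n276 : Strat := .move 920 n54 (.cons 919 n275 .nil)
noncomputable def n277 : Strat := .move 883 n101 (.cons 884 n276 .nil)
noncomputable def n278 : Strat := .move 798 n217 (.cons 963 n216 .nil)
noncomputable def n279 : Strat := .move 839 n215 (.cons 838 n278 .nil)
noncomputable def n280 : Strat := .move 880 n214 (.cons 920 n279 .nil)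
noncomputable def n281 : Strat := .move 883 n101 (.cons 884 n280 .nil)
noncomputable def n282 : Strat := .move 880 n215 (.cons 838 n278 .nil)
noncomputable def n283 : Strat := .win 799 7 757
noncomputable def n284 : Strat := .win 716 6 716
noncomputable def n285 : Strat := .move 757 n283 (.cons 799 n284 .nil)
noncomputable def n286 : Strat := .move 798 n260 (.cons 963 n285 .nil)
noncomputable def n287 : Strat := .win 798 6 798
noncomputable def n288 : Strat := .win 1004 7 839
noncomputable def n289 : Strat := .move 963 n287 (.cons 798 n288 .nil)
noncomputable def n290 : Strat := .move 880 n215 (.cons 838 n289 .nil)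
noncomputable def n291 : Strat := .win 880 2 838
noncomputable def n292 : Strat := .move 838 n266 (.cons 837 n291 .nil)
noncomputable def n293 : Strat := .move 839 n282 (.cons 880 n286 (.cons 757 n290 (.cons 963 n292 .nil)))
noncomputable def n294 : Strat := .move 883 n101 (.cons 884 n293 .nil)
noncomputable def n295 : Strat := .move 882 n240 (.cons 883 n274 (.cons 880 n277 (.cons 919 n281 (.cons 920 n294 .nil))))
noncomputable def n296 : Strat := .move 921 n178 (.cons 799 n225 (.cons 880 n226 (.cons 963 n227 (.cons 1003 n237 (.cons 962 n295 .nil)))))
noncomputable def n297 : Strat := .move 799 n32 (.cons 962 n37 .nil)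
noncomputable def n298 : Strat := .win 965 0 920
noncomputable def n299 : Strat := .move 963 n2 (.cons 1005 n3 .nil)
noncomputable def n300 : Strat := .move 964 n298 (.cons 965 n299 .nil)
noncomputable def n301 : Strat := .win 963 6 840
noncomputable def n302 : Strat := .win 882 7 840
noncomputable def n303 : Strat := .move 1005 n301 (.cons 963 n302 .nil)
noncomputable def n304 : Strat := .move 964 n298 (.cons 965 n303 .nil)
noncomputable def n305 : Strat := .move 920 n56 (.cons 882 n300 (.cons 919 n304 .nil))
noncomputable def n306 : Strat := .move 923 n189 (.cons 963 n185 (.cons 925 n193 (.cons 924 n305 .nil)))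
noncomputable def n307 : Strat := .move 962 n177 (.cons 963 n181 (.cons 880 n180 (.cons 1003 n306 .nil)))
noncomputable def n308 : Strat := .move 799 n33 (.cons 964 n36 .nil)
noncomputable def n309 : Strat := .move 880 n39 (.cons 758 n42 .nil)
noncomputable def n310 : Strat := .move 799 n33 (.cons 964 n309 .nil)
noncomputable def n311 : Strat := .win 1005 7 840
noncomputable def n312 : Strat := .move 964 n298 (.cons 965 n311 .nil)
noncomputable def n313 : Strat := .move 882 n55 (.cons 883 n312 .nil)
noncomputable def n314 : Strat := .move 920 n56 (.cons 919 n313 (.cons 882 n300 .nil))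
noncomputable def n315 : Strat := .win 882 4 879
noncomputable def n316 : Strat := .win 918 5 877
noncomputable def n317 : Strat := .win 959 4 918
noncomputable def n318 : Strat := .move 960 n317 (.cons 959 n79 .nil)
noncomputable def n319 : Strat := .move 919 n316 (.cons 918 n318 .nil)
noncomputable def n320 : Strat := .move 920 n315 (.cons 882 n319 .nil)
noncomputable def n321 : Strat := .move 883 n58 (.cons 884 n320 .nil)
noncomputable def n322 : Strat := .move 924 n183 (.cons 925 n321 .nil)
noncomputable def n323 : Strat := .win 919 4 878
noncomputable def n324 : Strat := .move 920 n323 (.cons 919 n230 .nil)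
noncomputable def n325 : Strat := .move 920 n323 (.cons 919 n252 .nil)
noncomputable def n326 : Strat := .move 883 n101 (.cons 884 n214 .nil)
noncomputable def n327 : Strat := .win 837 2 837
noncomputable def n328 : Strat := .win 839 2 838
noncomputable def n329 : Strat := .move 838 n327 (.cons 837 n328 .nil)
noncomputable def n330 : Strat := .move 883 n101 (.cons 884 n329 .nil)
noncomputable def n331 : Strat := .move 882 n324 (.cons 883 n325 (.cons 919 n326 (.cons 920 n330 .nil)))
noncomputable def n332 : Strat := .move 879 n40 (.cons 878 n331 .nil)
noncomputable def n333 : Strat := .move 880 n42 (.cons 878 n228 (.cons 879 n322 (.cons 924 n332 .nil)))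
noncomputable def n334 : Strat := .move 923 n308 (.cons 882 n310 (.cons 799 n314 (.cons 964 n333 .nil)))
noncomputable def n335 : Strat := .move 921 n297 (.cons 799 n307 (.cons 880 n226 (.cons 962 n334 .nil)))
noncomputable def n336 : Strat := .win 921 1 757
noncomputable def n337 : Strat := .win 839 1 716
noncomputable def n338 : Strat := .win 757 7 716
noncomputable def n339 : Strat := .win 675 7 675
noncomputable def n340 : Strat := .move 716 n338 (.cons 757 n339 .nil)
noncomputable def n341 : Strat := .move 717 n337 (.cons 839 n340 .nil)
noncomputable def n342 : Strat := .move 880 n336 (.cons 921 n341 .nil)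
noncomputable def n343 : Strat := .move 758 n35 (.cons 882 n342 .nil)
noncomputable def n344 : Strat := .move 923 n33 (.cons 964 n343 .nil)
noncomputable def n345 : Strat := .win 839 2 839
noncomputable def n346 : Strat := .win 921 4 880
noncomputable def n347 : Strat := .move 884 n345 (.cons 839 n346 .nil)
noncomputable def n348 : Strat := .win 885 4 881
noncomputable def n349 : Strat := .move 884 n345 (.cons 839 n348 .nil)
noncomputable def n350 : Strat := .move 884 n346 (.cons 921 n348 .nil)
noncomputable def n351 : Strat := .win 925 0 880
noncomputable def n352 : Strat := .win 879 0 879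
noncomputable def n353 : Strat := .move 924 n351 (.cons 925 n352 .nil)
noncomputable def n354 : Strat := .move 879 n40 (.cons 878 n241 .nil)
noncomputable def n355 : Strat := .win 921 4 879
noncomputable def n356 : Strat := .move 879 n40 (.cons 878 n323 .nil)
noncomputable def n357 : Strat := .move 920 n355 (.cons 921 n356 .nil)
noncomputable def n358 : Strat := .move 963 n288 (.cons 1004 n287 .nil)
noncomputable def n359 : Strat := .move 839 n215 (.cons 838 n358 .nil)
noncomputable def n360 : Strat := .move 921 n214 (.cons 920 n359 .nil)
noncomputable def n361 : Strat := .move 924 n351 (.cons 925 n360 .nil)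
noncomputable def n362 : Strat := .move 880 n353 (.cons 925 n354 (.cons 924 n357 (.cons 879 n361 .nil)))
noncomputable def n363 : Strat := .move 883 n347 (.cons 921 n349 (.cons 839 n350 (.cons 884 n362 .nil)))
noncomputable def n364 : Strat := .move 882 n100 (.cons 758 n363 .nil)
noncomputable def n365 : Strat := .move 923 n33 (.cons 964 n364 .nil)
noncomputable def n366 : Strat := .win 836 5 795
noncomputable def n367 : Strat := .move 837 n200 (.cons 882 n366 .nil)
noncomputable def n368 : Strat := .win 801 4 797
noncomputable def n369 : Strat := .win 837 5 796
noncomputable def n370 : Strat := .move 800 n368 (.cons 801 n369 .nil)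
noncomputable def n371 : Strat := .win 717 1 716
noncomputable def n372 : Strat := .move 758 n336 (.cons 921 n371 .nil)
noncomputable def n373 : Strat := .win 883 2 838
noncomputable def n374 : Strat := .win 877 5 836
noncomputable def n375 : Strat := .win 923 0 878
noncomputable def n376 : Strat := .move 878 n374 (.cons 877 n375 .nil)
noncomputable def n377 : Strat := .win 961 3 797
noncomputable def n378 : Strat := .move 920 n323 (.cons 919 n377 .nil)
noncomputable def n379 : Strat := .move 879 n376 (.cons 923 n378 .nil)
noncomputable def n380 : Strat := .move 882 n373 (.cons 883 n379 .nil)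
noncomputable def n381 : Strat := .move 880 n372 (.cons 758 n380 .nil)
noncomputable def n382 : Strat := .move 838 n367 (.cons 882 n370 (.cons 837 n381 .nil))
noncomputable def n383 : Strat := .move 839 n260 (.cons 963 n382 .nil)
noncomputable def n384 : Strat := .move 798 n53 (.cons 757 n383 .nil)
noncomputable def n385 : Strat := .move 963 n14 (.cons 798 n288 .nil)
noncomputable def n386 : Strat := .move 839 n371 (.cons 717 n385 .nil)
noncomputable def n387 : Strat := .move 880 n336 (.cons 921 n386 .nil)
noncomputable def n388 : Strat := .move 758 n48 (.cons 757 n387 (.cons 798 n342 .nil))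
noncomputable def n389 : Strat := .move 799 n50 (.cons 798 n344 (.cons 757 n365 (.cons 964 n384 (.cons 758 n113 (.cons 923 n388 .nil)))))
noncomputable def n390 : Strat := .move 922 n31 (.cons 963 n73 (.cons 839 n93 (.cons 920 n99 (.cons 880 n114 (.cons 799 n166 (.cons 923 n167 (.cons 921 n174 (.cons 964 n296 (.cons 798 n335 (.cons 962 n389 .nil))))))))))

theorem ok : checkS n390 (pairBits 840 881) (pairBits 841 759) ≠ 0 := by decide +kernel

theorem reply : MakerWins {cellOf 881, cellOf 840} {cellOf 841, cellOf 759} :=
  reply2 n390 840 881 841 759 ok

end Vale.Agent.Snaky.Cert2.R759
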