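import Vale.Agent.Snaky.Cert2.Lem

namespace Vale.Agent.Snaky.Cert2.R798

open Vale.Agent.Snaky

noncomputable def n0 : Strat := .win 921 1 757
noncomputable def n1 : Strat := .win 839 1 716
noncomputable def n2 : Strat := .win 759 3 717
noncomputable def n3 : Strat := .win 677 3 676
noncomputable def n4 : Strat := .move 718 n2 (.cons 759 n3 .nil)
noncomputable def n5 : Strat := .move 717 n1 (.cons 839 n4 .nil)
noncomputable def n6 : Strat := .move 758 n0 (.cons 921 n5 .nil)
noncomputable def n7 : Strat := .win 757 7 716
noncomputable def n8 : Strat := .win 675 7 675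
noncomputable def n9 : Strat := .move 716 n7 (.cons 757 n8 .nil)
noncomputable def n10 : Strat := .move 717 n1 (.cons 839 n9 .nil)
noncomputable def n11 : Strat := .move 758 n0 (.cons 921 n10 .nil)
noncomputable def n12 : Strat := .win 758 1 757
noncomputable def n13 : Strat := .win 1003 3 839
noncomputable def n14 : Strat := .win 922 1 798
noncomputable def n15 : Strat := .move 962 n13 (.cons 1003 n14 .nil)
noncomputable def n16 : Strat := .move 921 n12 (.cons 758 n15 .nil)
noncomputable def n17 : Strat := .win 923 6 758
noncomputable def n18 : Strat := .win 718 3 717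
noncomputable def n19 : Strat := .win 716 7 716
noncomputable def n20 : Strat := .win 922 3 758
noncomputable def n21 : Strat := .win 756 0 756
noncomputable def n22 : Strat := .win 802 2 757
noncomputable def n23 : Strat := .move 801 n21 (.cons 756 n22 .nil)
noncomputable def n24 : Strat := .move 800 n20 (.cons 922 n23 .nil)
noncomputable def n25 : Strat := .move 757 n19 (.cons 716 n24 .nil)
noncomputable def n26 : Strat := .move 759 n18 (.cons 718 n25 .nil)
noncomputable def n27 : Strat := .move 882 n17 (.cons 923 n26 .nil)
noncomputable def n28 : Strat := .move 758 n5 (.cons 759 n10 (.cons 717 n27 .nil))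
noncomputable def n29 : Strat := .win 962 1 798
noncomputable def n30 : Strat := .win 964 6 799
noncomputable def n31 : Strat := .win 878 0 878
noncomputable def n32 : Strat := .win 924 2 879
noncomputable def n33 : Strat := .move 879 n31 (.cons 878 n32 .nil)
noncomputable def n34 : Strat := .move 923 n30 (.cons 964 n33 .nil)
noncomputable def n35 : Strat := .move 922 n29 (.cons 962 n34 .nil)
noncomputable def n36 : Strat := .win 879 2 879
noncomputable def n37 : Strat := .win 925 2 880
noncomputable def n38 : Strat := .move 924 n36 (.cons 879 n37 .nil)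
noncomputable def n39 : Strat := .move 923 n30 (.cons 964 n38 .nil)
noncomputable def n40 : Strat := .move 922 n29 (.cons 962 n39 .nil)
noncomputable def n41 : Strat := .win 839 3 798
noncomputable def n42 : Strat := .move 962 n13 (.cons 1003 n41 .nil)
noncomputable def n43 : Strat := .win 920 4 879
noncomputable def n44 : Strat := .win 839 2 839
noncomputable def n45 : Strat := .win 922 4 880
noncomputable def n46 : Strat := .move 884 n44 (.cons 839 n45 .nil)
noncomputable def n47 : Strat := .move 883 n43 (.cons 920 n46 .nil)
noncomputable def n48 : Strat := .win 838 2 838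
noncomputable def n49 : Strat := .win 884 2 839
noncomputable def n50 : Strat := .move 839 n48 (.cons 838 n49 .nil)
noncomputable def n51 : Strat := .win 839 2 838
noncomputable def n52 : Strat := .win 837 2 837
noncomputable def n53 : Strat := .win 923 0 879
noncomputable def n54 : Strat := .win 925 0 880
noncomputable def n55 : Strat := .move 924 n53 (.cons 923 n54 .nil)
noncomputable def n56 : Strat := .move 879 n52 (.cons 837 n55 .nil)
noncomputable def n57 : Strat := .move 838 n51 (.cons 839 n56 .nil)
noncomputable def n58 : Strat := .win 884 4 880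
noncomputable def n59 : Strat := .win 879 0 879
noncomputable def n60 : Strat := .move 924 n59 (.cons 879 n54 .nil)
noncomputable def n61 : Strat := .move 923 n30 (.cons 964 n60 .nil)
noncomputable def n62 : Strat := .move 922 n58 (.cons 884 n61 .nil)
noncomputable def n63 : Strat := .move 883 n46 (.cons 922 n50 (.cons 884 n57 (.cons 839 n62 .nil)))
noncomputable def n64 : Strat := .move 883 n43 (.cons 920 n50 .nil)
noncomputable def n65 : Strat := .win 883 4 879
noncomputable def n66 : Strat := .win 918 5 877
noncomputable def n67 : Strat := .win 879 4 878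
noncomputable def n68 : Strat := .move 919 n66 (.cons 918 n67 .nil)
noncomputable def n69 : Strat := .move 920 n65 (.cons 883 n68 .nil)
noncomputable def n70 : Strat := .win 924 0 879
noncomputable def n71 : Strat := .move 922 n30 (.cons 964 n31 .nil)
noncomputable def n72 : Strat := .move 923 n70 (.cons 924 n71 .nil)
noncomputable def n73 : Strat := .win 922 6 799
noncomputable def n74 : Strat := .win 1005 7 840
noncomputable def n75 : Strat := .move 964 n73 (.cons 922 n74 .nil)
noncomputable def n76 : Strat := .move 923 n70 (.cons 924 n75 .nil)
noncomputable def n77 : Strat := .move 923 n70 (.cons 924 n31 .nil)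
noncomputable def n78 : Strat := .win 877 0 877
noncomputable def n79 : Strat := .win 923 0 878
noncomputable def n80 : Strat := .move 878 n78 (.cons 877 n79 .nil)
noncomputable def n81 : Strat := .win 919 4 878
noncomputable def n82 : Strat := .win 836 2 836
noncomputable def n83 : Strat := .win 838 2 837
noncomputable def n84 : Strat := .move 837 n82 (.cons 836 n83 .nil)
noncomputable def n85 : Strat := .move 878 n78 (.cons 877 n84 .nil)
noncomputable def n86 : Strat := .move 920 n81 (.cons 919 n85 .nil)
noncomputable def n87 : Strat := .win 960 4 919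
noncomputable def n88 : Strat := .win 1043 3 879
noncomputable def n89 : Strat := .win 839 3 838
noncomputable def n90 : Strat := .move 1002 n88 (.cons 1043 n89 .nil)
noncomputable def n91 : Strat := .move 961 n87 (.cons 960 n90 .nil)
noncomputable def n92 : Strat := .move 923 n70 (.cons 924 n91 .nil)
noncomputable def n93 : Strat := .move 920 n81 (.cons 919 n92 .nil)
noncomputable def n94 : Strat := .move 922 n77 (.cons 924 n80 (.cons 923 n86 (.cons 878 n93 .nil)))
noncomputable def n95 : Strat := .move 922 n79 (.cons 923 n78 .nil)
noncomputable def n96 : Strat := .move 878 n82 (.cons 836 n95 .nil)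
noncomputable def n97 : Strat := .move 837 n83 (.cons 838 n96 .nil)
noncomputable def n98 : Strat := .move 920 n81 (.cons 919 n97 .nil)
noncomputable def n99 : Strat := .win 839 5 836
noncomputable def n100 : Strat := .win 922 0 877
noncomputable def n101 : Strat := .move 877 n99 (.cons 839 n100 .nil)
noncomputable def n102 : Strat := .move 878 n82 (.cons 836 n101 .nil)
noncomputable def n103 : Strat := .move 837 n83 (.cons 838 n102 .nil)
noncomputable def n104 : Strat := .move 920 n81 (.cons 919 n103 .nil)
noncomputable def n105 : Strat := .win 920 4 878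
noncomputable def n106 : Strat := .win 918 4 877
noncomputable def n107 : Strat := .move 919 n105 (.cons 920 n106 .nil)
noncomputable def n108 : Strat := .move 878 n82 (.cons 836 n107 .nil)
noncomputable def n109 : Strat := .move 837 n83 (.cons 838 n108 .nil)
noncomputable def n110 : Strat := .move 879 n72 (.cons 878 n76 (.cons 964 n94 (.cons 924 n98 (.cons 923 n104 (.cons 922 n109 .nil)))))
noncomputable def n111 : Strat := .move 882 n47 (.cons 920 n63 (.cons 922 n64 (.cons 884 n69 (.cons 883 n110 .nil))))
noncomputable def n112 : Strat := .move 921 n35 (.cons 878 n40 (.cons 922 n42 (.cons 962 n111 .nil)))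
noncomputable def n113 : Strat := .move 799 n6 (.cons 759 n11 (.cons 717 n16 (.cons 921 n28 (.cons 758 n112 .nil))))
noncomputable def n114 : Strat := .win 922 0 878
noncomputable def n115 : Strat := .move 837 n83 (.cons 838 n82 .nil)
noncomputable def n116 : Strat := .move 878 n114 (.cons 922 n115 .nil)
noncomputable def n117 : Strat := .move 923 n70 (.cons 924 n116 .nil)
noncomputable def n118 : Strat := .win 758 6 758
noncomputable def n119 : Strat := .move 799 n118 (.cons 758 n30 .nil)
noncomputable def n120 : Strat := .move 922 n31 (.cons 878 n119 .nil)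
noncomputable def n121 : Strat := .move 923 n70 (.cons 924 n120 .nil)
noncomputable def n122 : Strat := .move 964 n74 (.cons 1005 n73 .nil)
noncomputable def n123 : Strat := .move 799 n118 (.cons 758 n122 .nil)
noncomputable def n124 : Strat := .move 923 n70 (.cons 924 n123 .nil)
noncomputable def n125 : Strat := .win 797 6 797
noncomputable def n126 : Strat := .move 921 n13 (.cons 1003 n125 .nil)
noncomputable def n127 : Strat := .win 921 3 839
noncomputable def n128 : Strat := .win 961 6 838
noncomputable def n129 : Strat := .move 1003 n127 (.cons 921 n128 .nil)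
noncomputable def n130 : Strat := .win 1003 6 838
noncomputable def n131 : Strat := .win 960 1 837
noncomputable def n132 : Strat := .win 1042 1 878
noncomputable def n133 : Strat := .move 1002 n132 (.cons 1042 n89 .nil)
noncomputable def n134 : Strat := .move 1001 n131 (.cons 960 n133 .nil)
noncomputable def n135 : Strat := .move 961 n130 (.cons 1003 n134 .nil)
noncomputable def n136 : Strat := .move 799 n12 (.cons 758 n14 .nil)
noncomputable def n137 : Strat := .move 921 n125 (.cons 797 n136 .nil)
noncomputable def n138 : Strat := .move 962 n126 (.cons 797 n129 (.cons 921 n135 (.cons 1003 n137 .nil)))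
noncomputable def n139 : Strat := .move 920 n81 (.cons 919 n138 .nil)
noncomputable def n140 : Strat := .move 838 n52 (.cons 837 n139 .nil)
noncomputable def n141 : Strat := .win 877 5 836
noncomputable def n142 : Strat := .move 839 n141 (.cons 877 n107 .nil)
noncomputable def n143 : Strat := .move 878 n82 (.cons 836 n142 .nil)
noncomputable def n144 : Strat := .move 837 n83 (.cons 838 n143 .nil)
noncomputable def n145 : Strat := .move 879 n117 (.cons 836 n121 (.cons 878 n124 (.cons 924 n140 (.cons 922 n144 .nil))))
noncomputable def n146 : Strat := .move 758 n0 (.cons 921 n17 .nil)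
noncomputable def n147 : Strat := .move 758 n17 (.cons 923 n5 .nil)
noncomputable def n148 : Strat := .move 921 n13 (.cons 1003 n14 .nil)
noncomputable def n149 : Strat := .move 921 n13 (.cons 1003 n41 .nil)
noncomputable def n150 : Strat := .move 921 n14 (.cons 922 n41 .nil)
noncomputable def n151 : Strat := .win 1003 1 839
noncomputable def n152 : Strat := .win 923 6 799
noncomputable def n153 : Strat := .win 1005 6 840
noncomputable def n154 : Strat := .move 964 n152 (.cons 923 n153 .nil)
noncomputable def n155 : Strat := .move 922 n151 (.cons 1003 n154 .nil)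
noncomputable def n156 : Strat := .win 839 7 839
noncomputable def n157 : Strat := .win 923 3 881
noncomputable def n158 : Strat := .win 1087 6 922
noncomputable def n159 : Strat := .win 1005 6 881
noncomputable def n160 : Strat := .move 1046 n158 (.cons 1087 n159 .nil)
noncomputable def n161 : Strat := .move 1045 n157 (.cons 923 n160 .nil)
noncomputable def n162 : Strat := .move 1004 n156 (.cons 839 n161 .nil)
noncomputable def n163 : Strat := .move 922 n151 (.cons 1003 n162 .nil)
noncomputable def n164 : Strat := .win 964 6 840
noncomputable def n165 : Strat := .win 1046 6 881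
noncomputable def n166 : Strat := .move 1005 n164 (.cons 964 n165 .nil)
noncomputable def n167 : Strat := .move 1004 n156 (.cons 839 n166 .nil)
noncomputable def n168 : Strat := .move 922 n151 (.cons 1003 n167 .nil)
noncomputable def n169 : Strat := .win 1045 3 881
noncomputable def n170 : Strat := .move 1004 n169 (.cons 1045 n156 .nil)
noncomputable def n171 : Strat := .move 924 n37 (.cons 925 n170 .nil)
noncomputable def n172 : Strat := .move 923 n30 (.cons 964 n171 .nil)
noncomputable def n173 : Strat := .move 922 n151 (.cons 1003 n172 .nil)
noncomputable def n174 : Strat := .move 922 n154 (.cons 964 n162 (.cons 923 n167 (.cons 1005 n172 .nil)))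
noncomputable def n175 : Strat := .win 923 7 840
noncomputable def n176 : Strat := .win 1006 0 961
noncomputable def n177 : Strat := .win 1004 0 960
noncomputable def n178 : Strat := .win 918 2 918
noncomputable def n179 : Strat := .win 920 2 919
noncomputable def n180 : Strat := .move 919 n178 (.cons 918 n179 .nil)
noncomputable def n181 : Strat := .move 960 n177 (.cons 1004 n180 .nil)
noncomputable def n182 : Strat := .move 961 n176 (.cons 1006 n181 .nil)
noncomputable def n183 : Strat := .move 1005 n175 (.cons 923 n182 .nil)
noncomputable def n184 : Strat := .move 1005 n176 (.cons 1006 n181 .nil)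
noncomputable def n185 : Strat := .win 1000 4 959
noncomputable def n186 : Strat := .win 1002 4 960
noncomputable def n187 : Strat := .move 1001 n185 (.cons 1000 n186 .nil)
noncomputable def n188 : Strat := .move 960 n177 (.cons 1004 n187 .nil)
noncomputable def n189 : Strat := .move 1005 n176 (.cons 1006 n188 .nil)
noncomputable def n190 : Strat := .move 960 n185 (.cons 1000 n178 .nil)
noncomputable def n191 : Strat := .move 919 n179 (.cons 920 n190 .nil)
noncomputable def n192 : Strat := .move 1001 n186 (.cons 1002 n191 .nil)
noncomputable def n193 : Strat := .win 1001 4 960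
noncomputable def n194 : Strat := .win 1003 4 961
noncomputable def n195 : Strat := .win 1007 0 962
noncomputable def n196 : Strat := .win 1005 0 961
noncomputable def n197 : Strat := .move 1006 n195 (.cons 1007 n196 .nil)
noncomputable def n198 : Strat := .move 965 n194 (.cons 1003 n197 .nil)
noncomputable def n199 : Strat := .move 1002 n193 (.cons 1001 n198 .nil)
noncomputable def n200 : Strat := .move 961 n184 (.cons 918 n189 (.cons 1005 n192 (.cons 960 n199 .nil)))
noncomputable def n201 : Strat := .win 961 0 961
noncomputable def n202 : Strat := .win 1004 2 962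
noncomputable def n203 : Strat := .win 965 0 962
noncomputable def n204 : Strat := .move 1007 n202 (.cons 1004 n203 .nil)
noncomputable def n205 : Strat := .move 1006 n201 (.cons 961 n204 .nil)
noncomputable def n206 : Strat := .move 1005 n175 (.cons 923 n205 .nil)
noncomputable def n207 : Strat := .win 961 5 920
noncomputable def n208 : Strat := .win 926 2 881
noncomputable def n209 : Strat := .win 965 5 921
noncomputable def n210 : Strat := .move 925 n208 (.cons 926 n209 .nil)
noncomputable def n211 : Strat := .move 924 n207 (.cons 961 n210 .nil)
noncomputable def n212 : Strat := .move 923 n74 (.cons 1005 n211 .nil)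
noncomputable def n213 : Strat := .win 925 5 921
noncomputable def n214 : Strat := .win 1047 7 882
noncomputable def n215 : Strat := .move 1006 n214 (.cons 1047 n195 .nil)
noncomputable def n216 : Strat := .move 924 n213 (.cons 925 n215 .nil)
noncomputable def n217 : Strat := .win 1008 0 963
noncomputable def n218 : Strat := .win 1006 0 962
noncomputable def n219 : Strat := .move 1007 n217 (.cons 1008 n218 .nil)
noncomputable def n220 : Strat := .win 1004 4 962
noncomputable def n221 : Strat := .win 1002 4 961
noncomputable def n222 : Strat := .move 1003 n220 (.cons 1004 n221 .nil)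
noncomputable def n223 : Strat := .move 966 n219 (.cons 1006 n222 .nil)
noncomputable def n224 : Strat := .win 926 5 922
noncomputable def n225 : Strat := .win 924 5 921
noncomputable def n226 : Strat := .move 925 n224 (.cons 926 n225 .nil)
noncomputable def n227 : Strat := .move 966 n222 (.cons 1002 n226 .nil)
noncomputable def n228 : Strat := .move 965 n216 (.cons 924 n223 (.cons 1007 n227 .nil))
noncomputable def n229 : Strat := .move 923 n74 (.cons 1005 n228 .nil)
noncomputable def n230 : Strat := .win 923 5 920
noncomputable def n231 : Strat := .move 1002 n194 (.cons 1003 n193 .nil)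
noncomputable def n232 : Strat := .move 961 n230 (.cons 923 n231 .nil)
noncomputable def n233 : Strat := .move 924 n213 (.cons 925 n232 .nil)
noncomputable def n234 : Strat := .move 923 n216 (.cons 924 n223 (.cons 1007 n227 .nil))
noncomputable def n235 : Strat := .move 966 n220 (.cons 1004 n219 .nil)
noncomputable def n236 : Strat := .move 1003 n221 (.cons 1002 n235 .nil)
noncomputable def n237 : Strat := .move 923 n207 (.cons 961 n215 .nil)
noncomputable def n238 : Strat := .move 924 n213 (.cons 925 n237 .nil)
noncomputable def n239 : Strat := .move 965 n233 (.cons 961 n234 (.cons 923 n236 (.cons 1002 n238 .nil)))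
noncomputable def n240 : Strat := .move 964 n183 (.cons 923 n200 (.cons 960 n206 (.cons 1006 n212 (.cons 961 n229 (.cons 1005 n239 .nil)))))
noncomputable def n241 : Strat := .move 963 n155 (.cons 964 n163 (.cons 923 n168 (.cons 1005 n173 (.cons 1003 n174 (.cons 922 n240 .nil)))))
noncomputable def n242 : Strat := .move 962 n148 (.cons 922 n149 (.cons 1003 n150 (.cons 921 n241 .nil)))
noncomputable def n243 : Strat := .move 799 n146 (.cons 921 n147 (.cons 923 n16 (.cons 758 n242 .nil)))
noncomputable def n244 : Strat := .move 962 n13 (.cons 1003 n136 .nil)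
noncomputable def n245 : Strat := .win 799 3 798
noncomputable def n246 : Strat := .win 797 7 797
noncomputable def n247 : Strat := .move 839 n245 (.cons 799 n246 .nil)
noncomputable def n248 : Strat := .move 962 n13 (.cons 1003 n247 .nil)
noncomputable def n249 : Strat := .move 878 n106 (.cons 918 n101 .nil)
noncomputable def n250 : Strat := .move 921 n244 (.cons 758 n248 (.cons 962 n249 .nil))
noncomputable def n251 : Strat := .move 919 n105 (.cons 920 n250 .nil)
noncomputable def n252 : Strat := .move 838 n52 (.cons 837 n251 .nil)
noncomputable def n253 : Strat := .win 837 2 836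
noncomputable def n254 : Strat := .win 835 2 835
noncomputable def n255 : Strat := .move 836 n253 (.cons 837 n254 .nil)
noncomputable def n256 : Strat := .move 877 n99 (.cons 839 n255 .nil)
noncomputable def n257 : Strat := .move 878 n106 (.cons 918 n256 .nil)
noncomputable def n258 : Strat := .move 919 n105 (.cons 920 n257 .nil)
noncomputable def n259 : Strat := .win 920 0 876
noncomputable def n260 : Strat := .win 916 4 875
noncomputable def n261 : Strat := .win 918 4 876
noncomputable def n262 : Strat := .move 917 n260 (.cons 916 n261 .nil)
noncomputable def n263 : Strat := .move 876 n259 (.cons 920 n262 .nil)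
noncomputable def n264 : Strat := .move 921 n100 (.cons 922 n263 .nil)
noncomputable def n265 : Strat := .move 877 n99 (.cons 839 n264 .nil)
noncomputable def n266 : Strat := .move 878 n82 (.cons 836 n265 .nil)
noncomputable def n267 : Strat := .move 837 n83 (.cons 838 n266 .nil)
noncomputable def n268 : Strat := .win 919 4 877
noncomputable def n269 : Strat := .win 917 4 876
noncomputable def n270 : Strat := .move 918 n268 (.cons 919 n269 .nil)
noncomputable def n271 : Strat := .move 877 n99 (.cons 839 n270 .nil)
noncomputable def n272 : Strat := .move 878 n82 (.cons 836 n271 .nil)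
noncomputable def n273 : Strat := .move 837 n83 (.cons 838 n272 .nil)
noncomputable def n274 : Strat := .move 962 n126 (.cons 1003 n137 (.cons 921 n135 .nil))
noncomputable def n275 : Strat := .move 920 n81 (.cons 919 n274 .nil)
noncomputable def n276 : Strat := .move 838 n52 (.cons 837 n275 .nil)
noncomputable def n277 : Strat := .move 839 n141 (.cons 877 n245 .nil)
noncomputable def n278 : Strat := .move 962 n13 (.cons 1003 n277 .nil)
noncomputable def n279 : Strat := .win 799 1 798
noncomputable def n280 : Strat := .move 922 n78 (.cons 877 n279 .nil)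
noncomputable def n281 : Strat := .move 962 n13 (.cons 1003 n280 .nil)
noncomputable def n282 : Strat := .move 921 n101 (.cons 922 n278 (.cons 839 n281 (.cons 877 n244 .nil)))
noncomputable def n283 : Strat := .move 878 n106 (.cons 918 n282 .nil)
noncomputable def n284 : Strat := .move 919 n105 (.cons 920 n283 .nil)
noncomputable def n285 : Strat := .move 879 n252 (.cons 797 n109 (.cons 838 n258 (.cons 919 n267 (.cons 920 n273 (.cons 878 n276 (.cons 837 n284 .nil))))))
noncomputable def n286 : Strat := .move 878 n114 (.cons 922 n107 .nil)
noncomputable def n287 : Strat := .move 923 n70 (.cons 924 n286 .nil)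
noncomputable def n288 : Strat := .move 962 n13 (.cons 1003 n125 .nil)
noncomputable def n289 : Strat := .win 965 0 920
noncomputable def n290 : Strat := .move 922 n87 (.cons 960 n289 .nil)
noncomputable def n291 : Strat := .move 961 n90 (.cons 839 n290 .nil)
noncomputable def n292 : Strat := .move 964 n74 (.cons 1005 n291 .nil)
noncomputable def n293 : Strat := .move 921 n288 (.cons 962 n292 .nil)
noncomputable def n294 : Strat := .move 923 n70 (.cons 924 n293 .nil)
noncomputable def n295 : Strat := .move 920 n81 (.cons 919 n294 .nil)
noncomputable def n296 : Strat := .move 838 n52 (.cons 837 n295 .nil)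
noncomputable def n297 : Strat := .win 839 1 838
noncomputable def n298 : Strat := .move 1002 n88 (.cons 1043 n297 .nil)
noncomputable def n299 : Strat := .win 1001 1 837
noncomputable def n300 : Strat := .win 922 5 918
noncomputable def n301 : Strat := .win 958 5 917
noncomputable def n302 : Strat := .move 959 n300 (.cons 922 n301 .nil)
noncomputable def n303 : Strat := .move 960 n299 (.cons 1001 n302 .nil)
noncomputable def n304 : Strat := .move 961 n298 (.cons 839 n303 .nil)
noncomputable def n305 : Strat := .move 921 n125 (.cons 797 n304 .nil)
noncomputable def n306 : Strat := .move 962 n126 (.cons 797 n129 (.cons 1003 n305 (.cons 921 n135 .nil)))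
noncomputable def n307 : Strat := .move 920 n81 (.cons 919 n306 .nil)
noncomputable def n308 : Strat := .move 838 n52 (.cons 837 n307 .nil)
noncomputable def n309 : Strat := .move 879 n117 (.cons 838 n287 (.cons 878 n296 (.cons 924 n308 (.cons 922 n109 .nil))))
noncomputable def n310 : Strat := .move 879 n70 (.cons 924 n120 .nil)
noncomputable def n311 : Strat := .move 879 n70 (.cons 924 n286 .nil)
noncomputable def n312 : Strat := .move 878 n106 (.cons 918 n115 .nil)
noncomputable def n313 : Strat := .move 919 n105 (.cons 920 n312 .nil)
noncomputable def n314 : Strat := .move 879 n70 (.cons 924 n313 .nil)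
noncomputable def n315 : Strat := .move 923 n310 (.cons 879 n123 (.cons 964 n311 (.cons 922 n314 .nil)))
noncomputable def n316 : Strat := .move 924 n59 (.cons 879 n37 .nil)
noncomputable def n317 : Strat := .move 922 n30 (.cons 964 n316 .nil)
noncomputable def n318 : Strat := .move 799 n118 (.cons 758 n317 .nil)
noncomputable def n319 : Strat := .move 879 n70 (.cons 924 n116 .nil)
noncomputable def n320 : Strat := .move 921 n41 (.cons 839 n13 .nil)
noncomputable def n321 : Strat := .move 963 n209 (.cons 965 n207 .nil)
noncomputable def n322 : Strat := .move 962 n320 (.cons 1003 n321 .nil)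
noncomputable def n323 : Strat := .move 925 n208 (.cons 926 n322 .nil)
noncomputable def n324 : Strat := .move 964 n74 (.cons 1005 n323 .nil)
noncomputable def n325 : Strat := .move 924 n59 (.cons 879 n324 .nil)
noncomputable def n326 : Strat := .move 799 n118 (.cons 758 n325 .nil)
noncomputable def n327 : Strat := .move 923 n318 (.cons 879 n123 (.cons 964 n319 (.cons 922 n326 .nil)))
noncomputable def n328 : Strat := .move 877 n254 (.cons 835 n99 .nil)
noncomputable def n329 : Strat := .move 836 n253 (.cons 837 n328 .nil)
noncomputable def n330 : Strat := .move 878 n106 (.cons 918 n329 .nil)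
noncomputable def n331 : Strat := .move 919 n105 (.cons 920 n330 .nil)
noncomputable def n332 : Strat := .move 799 n118 (.cons 758 n331 .nil)
noncomputable def n333 : Strat := .move 923 n70 (.cons 924 n332 .nil)
noncomputable def n334 : Strat := .move 918 n269 (.cons 917 n268 .nil)
noncomputable def n335 : Strat := .move 877 n99 (.cons 839 n334 .nil)
noncomputable def n336 : Strat := .move 799 n118 (.cons 758 n335 .nil)
noncomputable def n337 : Strat := .move 923 n70 (.cons 924 n336 .nil)
noncomputable def n338 : Strat := .move 878 n82 (.cons 836 n337 .nil)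
noncomputable def n339 : Strat := .move 837 n83 (.cons 838 n338 .nil)
noncomputable def n340 : Strat := .move 923 n70 (.cons 924 n134 .nil)
noncomputable def n341 : Strat := .move 961 n130 (.cons 1003 n340 .nil)
noncomputable def n342 : Strat := .move 799 n12 (.cons 758 n41 .nil)
noncomputable def n343 : Strat := .move 921 n125 (.cons 797 n342 .nil)
noncomputable def n344 : Strat := .move 962 n126 (.cons 797 n129 (.cons 921 n341 (.cons 1003 n343 .nil)))
noncomputable def n345 : Strat := .move 920 n81 (.cons 919 n344 .nil)
noncomputable def n346 : Strat := .move 838 n52 (.cons 837 n345 .nil)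
noncomputable def n347 : Strat := .win 799 6 758
noncomputable def n348 : Strat := .win 834 2 834
noncomputable def n349 : Strat := .win 836 2 835
noncomputable def n350 : Strat := .move 835 n348 (.cons 834 n349 .nil)
noncomputable def n351 : Strat := .move 876 n350 (.cons 836 n262 .nil)
noncomputable def n352 : Strat := .move 877 n99 (.cons 839 n351 .nil)
noncomputable def n353 : Strat := .win 921 0 876
noncomputable def n354 : Strat := .move 920 n353 (.cons 921 n81 .nil)
noncomputable def n355 : Strat := .move 876 n354 (.cons 919 n350 .nil)
noncomputable def n356 : Strat := .move 877 n99 (.cons 839 n355 .nil)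
noncomputable def n357 : Strat := .move 878 n107 (.cons 920 n335 (.cons 919 n352 (.cons 918 n356 .nil)))
noncomputable def n358 : Strat := .move 964 n74 (.cons 1005 n357 .nil)
noncomputable def n359 : Strat := .move 758 n347 (.cons 799 n358 .nil)
noncomputable def n360 : Strat := .move 923 n70 (.cons 924 n359 .nil)
noncomputable def n361 : Strat := .win 756 6 756
noncomputable def n362 : Strat := .win 920 6 797
noncomputable def n363 : Strat := .move 797 n361 (.cons 756 n362 .nil)
noncomputable def n364 : Strat := .move 962 n13 (.cons 1003 n363 .nil)
noncomputable def n365 : Strat := .move 838 n52 (.cons 837 n364 .nil)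
noncomputable def n366 : Strat := .move 962 n363 (.cons 756 n247 (.cons 797 n342 .nil))
noncomputable def n367 : Strat := .move 838 n52 (.cons 837 n366 .nil)
noncomputable def n368 : Strat := .move 962 n13 (.cons 1003 n342 .nil)
noncomputable def n369 : Strat := .move 877 n99 (.cons 839 n263 .nil)
noncomputable def n370 : Strat := .move 878 n82 (.cons 836 n369 .nil)
noncomputable def n371 : Strat := .move 837 n83 (.cons 838 n370 .nil)
noncomputable def n372 : Strat := .move 921 n365 (.cons 1003 n367 (.cons 797 n368 (.cons 962 n371 .nil)))
noncomputable def n373 : Strat := .move 924 n53 (.cons 923 n372 .nil)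
noncomputable def n374 : Strat := .move 879 n144 (.cons 838 n333 (.cons 920 n339 (.cons 877 n109 (.cons 878 n346 (.cons 837 n360 (.cons 919 n373 .nil))))))
noncomputable def n375 : Strat := .move 882 n145 (.cons 879 n243 (.cons 923 n285 (.cons 799 n309 (.cons 839 n315 (.cons 919 n327 (.cons 922 n374 .nil))))))
noncomputable def n376 : Strat := .win 799 1 757
noncomputable def n377 : Strat := .win 924 0 880
noncomputable def n378 : Strat := .win 926 0 881
noncomputable def n379 : Strat := .move 925 n377 (.cons 924 n378 .nil)
noncomputable def n380 : Strat := .move 884 n44 (.cons 839 n379 .nil)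
noncomputable def n381 : Strat := .move 884 n45 (.cons 922 n379 .nil)
noncomputable def n382 : Strat := .win 843 5 839
noncomputable def n383 : Strat := .win 964 1 800
noncomputable def n384 : Strat := .win 760 1 759
noncomputable def n385 : Strat := .move 801 n383 (.cons 964 n384 .nil)
noncomputable def n386 : Strat := .move 842 n382 (.cons 843 n385 .nil)
noncomputable def n387 : Strat := .move 923 n59 (.cons 879 n386 .nil)
noncomputable def n388 : Strat := .move 924 n54 (.cons 925 n387 .nil)
noncomputable def n389 : Strat := .move 883 n46 (.cons 922 n380 (.cons 839 n381 (.cons 884 n388 .nil)))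
noncomputable def n390 : Strat := .move 883 n43 (.cons 920 n380 .nil)
noncomputable def n391 : Strat := .move 919 n106 (.cons 918 n105 .nil)
noncomputable def n392 : Strat := .move 837 n82 (.cons 836 n391 .nil)
noncomputable def n393 : Strat := .move 878 n114 (.cons 922 n392 .nil)
noncomputable def n394 : Strat := .move 923 n70 (.cons 924 n393 .nil)
noncomputable def n395 : Strat := .move 877 n100 (.cons 922 n99 .nil)
noncomputable def n396 : Strat := .move 878 n106 (.cons 918 n395 .nil)
noncomputable def n397 : Strat := .move 919 n105 (.cons 920 n396 .nil)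
noncomputable def n398 : Strat := .move 836 n254 (.cons 835 n253 .nil)
noncomputable def n399 : Strat := .move 877 n99 (.cons 839 n398 .nil)
noncomputable def n400 : Strat := .move 878 n114 (.cons 922 n399 .nil)
noncomputable def n401 : Strat := .move 923 n70 (.cons 924 n400 .nil)
noncomputable def n402 : Strat := .move 923 n70 (.cons 924 n292 .nil)
noncomputable def n403 : Strat := .move 920 n81 (.cons 919 n402 .nil)
noncomputable def n404 : Strat := .move 879 n394 (.cons 923 n397 (.cons 922 n331 (.cons 920 n401 (.cons 878 n403 .nil))))
noncomputable def n405 : Strat := .move 882 n47 (.cons 920 n389 (.cons 922 n390 (.cons 884 n69 (.cons 883 n404 .nil))))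
noncomputable def n406 : Strat := .move 758 n376 (.cons 799 n405 .nil)
noncomputable def n407 : Strat := .move 799 n14 (.cons 922 n41 .nil)
noncomputable def n408 : Strat := .move 962 n13 (.cons 1003 n407 .nil)
noncomputable def n409 : Strat := .move 882 n65 (.cons 883 n67 .nil)
noncomputable def n410 : Strat := .move 919 n66 (.cons 918 n409 .nil)
noncomputable def n411 : Strat := .win 876 0 876
noncomputable def n412 : Strat := .move 877 n99 (.cons 839 n411 .nil)
noncomputable def n413 : Strat := .move 878 n114 (.cons 922 n412 .nil)
noncomputable def n414 : Strat := .move 879 n70 (.cons 924 n413 .nil)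
noncomputable def n415 : Strat := .move 879 n70 (.cons 924 n31 .nil)
noncomputable def n416 : Strat := .move 964 n74 (.cons 1005 n289 .nil)
noncomputable def n417 : Strat := .move 922 n316 (.cons 925 n415 (.cons 924 n416 .nil))
noncomputable def n418 : Strat := .win 965 2 920
noncomputable def n419 : Strat := .move 924 n207 (.cons 961 n59 .nil)
noncomputable def n420 : Strat := .move 963 n418 (.cons 965 n419 .nil)
noncomputable def n421 : Strat := .move 964 n74 (.cons 1005 n420 .nil)
noncomputable def n422 : Strat := .move 961 n87 (.cons 960 n298 .nil)
noncomputable def n423 : Strat := .move 922 n289 (.cons 965 n422 .nil)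
noncomputable def n424 : Strat := .move 964 n74 (.cons 1005 n423 .nil)
noncomputable def n425 : Strat := .move 923 n414 (.cons 877 n417 (.cons 922 n421 (.cons 924 n424 .nil)))
noncomputable def n426 : Strat := .move 882 n65 (.cons 883 n425 .nil)
noncomputable def n427 : Strat := .win 882 5 878
noncomputable def n428 : Strat := .win 964 0 919
noncomputable def n429 : Strat := .win 839 6 839
noncomputable def n430 : Strat := .win 1045 7 880
noncomputable def n431 : Strat := .move 1004 n429 (.cons 839 n430 .nil)
noncomputable def n432 : Strat := .move 963 n428 (.cons 964 n431 .nil)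
noncomputable def n433 : Strat := .move 922 n427 (.cons 882 n432 .nil)
noncomputable def n434 : Strat := .move 919 n66 (.cons 918 n433 .nil)
noncomputable def n435 : Strat := .win 879 0 878
noncomputable def n436 : Strat := .win 877 2 877
noncomputable def n437 : Strat := .move 878 n435 (.cons 879 n436 .nil)
noncomputable def n438 : Strat := .move 879 n32 (.cons 924 n31 .nil)
noncomputable def n439 : Strat := .win 961 4 919
noncomputable def n440 : Strat := .win 959 4 918
noncomputable def n441 : Strat := .move 960 n439 (.cons 961 n440 .nil)
noncomputable def n442 : Strat := .move 923 n437 (.cons 877 n438 (.cons 879 n441 .nil))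
noncomputable def n443 : Strat := .move 963 n428 (.cons 964 n442 .nil)
noncomputable def n444 : Strat := .move 923 n435 (.cons 879 n441 .nil)
noncomputable def n445 : Strat := .move 878 n436 (.cons 877 n444 .nil)
noncomputable def n446 : Strat := .move 922 n432 (.cons 839 n443 (.cons 963 n445 .nil))
noncomputable def n447 : Strat := .move 919 n66 (.cons 918 n446 .nil)
noncomputable def n448 : Strat := .move 920 n410 (.cons 919 n426 (.cons 879 n434 (.cons 882 n447 .nil)))
noncomputable def n449 : Strat := .move 962 n13 (.cons 1003 n448 .nil)
noncomputable def n450 : Strat := .move 921 n244 (.cons 962 n406 (.cons 922 n368 (.cons 758 n408 (.cons 799 n449 .nil))))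
noncomputable def n451 : Strat := .move 920 n65 (.cons 883 n81 .nil)
noncomputable def n452 : Strat := .move 883 n51 (.cons 839 n55 .nil)
noncomputable def n453 : Strat := .move 838 n52 (.cons 837 n452 .nil)
noncomputable def n454 : Strat := .move 877 n411 (.cons 876 n99 .nil)
noncomputable def n455 : Strat := .move 878 n82 (.cons 836 n454 .nil)
noncomputable def n456 : Strat := .move 837 n83 (.cons 838 n455 .nil)
noncomputable def n457 : Strat := .move 920 n81 (.cons 919 n456 .nil)
noncomputable def n458 : Strat := .move 879 n451 (.cons 920 n453 (.cons 883 n457 .nil))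
noncomputable def n459 : Strat := .move 883 n43 (.cons 920 n62 .nil)
noncomputable def n460 : Strat := .move 879 n72 (.cons 922 n457 (.cons 878 n76 .nil))
noncomputable def n461 : Strat := .move 883 n46 (.cons 839 n62 (.cons 922 n50 (.cons 884 n57 .nil)))
noncomputable def n462 : Strat := .move 882 n47 (.cons 922 n458 (.cons 839 n459 (.cons 883 n460 (.cons 920 n461 .nil))))
noncomputable def n463 : Strat := .move 799 n12 (.cons 758 n462 .nil)
noncomputable def n464 : Strat := .move 838 n125 (.cons 797 n52 .nil)
noncomputable def n465 : Strat := .move 879 n81 (.cons 919 n464 .nil)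
noncomputable def n466 : Strat := .move 882 n65 (.cons 883 n465 .nil)
noncomputable def n467 : Strat := .move 920 n342 (.cons 839 n466 .nil)
noncomputable def n468 : Strat := .move 962 n13 (.cons 1003 n467 .nil)
noncomputable def n469 : Strat := .win 837 0 837
noncomputable def n470 : Strat := .win 883 2 838
noncomputable def n471 : Strat := .move 882 n469 (.cons 837 n470 .nil)
noncomputable def n472 : Strat := .move 838 n246 (.cons 797 n471 .nil)
noncomputable def n473 : Strat := .move 839 n245 (.cons 799 n472 .nil)
noncomputable def n474 : Strat := .move 962 n13 (.cons 1003 n473 .nil)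
noncomputable def n475 : Strat := .win 836 0 836
noncomputable def n476 : Strat := .win 882 0 837
noncomputable def n477 : Strat := .move 837 n475 (.cons 836 n476 .nil)
noncomputable def n478 : Strat := .move 838 n246 (.cons 797 n477 .nil)
noncomputable def n479 : Strat := .win 1004 6 839
noncomputable def n480 : Strat := .win 1002 1 838
noncomputable def n481 : Strat := .win 924 4 920
noncomputable def n482 : Strat := .win 960 5 919
noncomputable def n483 : Strat := .move 923 n481 (.cons 924 n482 .nil)
noncomputable def n484 : Strat := .win 959 5 918
noncomputable def n485 : Strat := .win 923 5 919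
noncomputable def n486 : Strat := .move 960 n484 (.cons 959 n485 .nil)
noncomputable def n487 : Strat := .win 919 0 919
noncomputable def n488 : Strat := .move 920 n487 (.cons 919 n418 .nil)
noncomputable def n489 : Strat := .move 964 n153 (.cons 1005 n488 .nil)
noncomputable def n490 : Strat := .move 922 n483 (.cons 924 n486 (.cons 923 n489 .nil))
noncomputable def n491 : Strat := .move 961 n480 (.cons 1002 n490 .nil)
noncomputable def n492 : Strat := .move 963 n479 (.cons 1004 n491 .nil)
noncomputable def n493 : Strat := .move 839 n472 (.cons 883 n478 (.cons 837 n492 .nil))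
noncomputable def n494 : Strat := .move 962 n13 (.cons 1003 n493 .nil)
noncomputable def n495 : Strat := .move 921 n244 (.cons 962 n463 (.cons 922 n468 (.cons 758 n474 (.cons 799 n494 .nil))))
noncomputable def n496 : Strat := .move 962 n14 (.cons 922 n41 .nil)
noncomputable def n497 : Strat := .move 799 n12 (.cons 758 n496 .nil)
noncomputable def n498 : Strat := .move 839 n48 (.cons 838 n388 .nil)
noncomputable def n499 : Strat := .move 883 n50 (.cons 838 n46 (.cons 839 n381 (.cons 884 n498 .nil)))
noncomputable def n500 : Strat := .win 839 7 797
noncomputable def n501 : Strat := .move 797 n500 (.cons 839 n361 .nil)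
noncomputable def n502 : Strat := .move 838 n52 (.cons 837 n501 .nil)
noncomputable def n503 : Strat := .move 838 n52 (.cons 837 n125 .nil)
noncomputable def n504 : Strat := .move 920 n81 (.cons 919 n503 .nil)
noncomputable def n505 : Strat := .move 879 n502 (.cons 839 n504 (.cons 838 n287 .nil))
noncomputable def n506 : Strat := .move 882 n64 (.cons 839 n69 (.cons 920 n499 (.cons 883 n505 .nil)))
noncomputable def n507 : Strat := .move 962 n13 (.cons 1003 n506 .nil)
noncomputable def n508 : Strat := .move 882 n65 (.cons 883 n68 .nil)
noncomputable def n509 : Strat := .win 922 5 878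
noncomputable def n510 : Strat := .move 882 n67 (.cons 879 n509 .nil)
noncomputable def n511 : Strat := .move 919 n66 (.cons 918 n510 .nil)
noncomputable def n512 : Strat := .move 919 n67 (.cons 879 n509 .nil)
noncomputable def n513 : Strat := .move 882 n65 (.cons 883 n512 .nil)
noncomputable def n514 : Strat := .move 919 n66 (.cons 918 n509 .nil)
noncomputable def n515 : Strat := .move 882 n65 (.cons 883 n514 .nil)
noncomputable def n516 : Strat := .win 963 0 919
noncomputable def n517 : Strat := .move 964 n516 (.cons 963 n289 .nil)
noncomputable def n518 : Strat := .move 923 n435 (.cons 879 n517 .nil)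
noncomputable def n519 : Strat := .move 878 n436 (.cons 877 n518 .nil)
noncomputable def n520 : Strat := .move 1004 n156 (.cons 839 n430 .nil)
noncomputable def n521 : Strat := .move 963 n428 (.cons 964 n520 .nil)
noncomputable def n522 : Strat := .move 799 n12 (.cons 758 n30 .nil)
noncomputable def n523 : Strat := .move 923 n435 (.cons 879 n522 .nil)
noncomputable def n524 : Strat := .move 878 n436 (.cons 877 n523 .nil)
noncomputable def n525 : Strat := .win 1001 3 837
noncomputable def n526 : Strat := .win 797 1 796
noncomputable def n527 : Strat := .move 838 n525 (.cons 1001 n526 .nil)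
noncomputable def n528 : Strat := .move 960 n440 (.cons 959 n527 .nil)
noncomputable def n529 : Strat := .move 879 n79 (.cons 923 n528 .nil)
noncomputable def n530 : Strat := .move 878 n436 (.cons 877 n529 .nil)
noncomputable def n531 : Strat := .move 922 n519 (.cons 879 n521 (.cons 963 n524 (.cons 964 n530 .nil)))
noncomputable def n532 : Strat := .move 919 n66 (.cons 918 n531 .nil)
noncomputable def n533 : Strat := .move 922 n30 (.cons 964 n415 .nil)
noncomputable def n534 : Strat := .move 878 n114 (.cons 922 n84 .nil)
noncomputable def n535 : Strat := .move 879 n70 (.cons 924 n534 .nil)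
noncomputable def n536 : Strat := .move 878 n82 (.cons 836 n412 .nil)
noncomputable def n537 : Strat := .move 837 n83 (.cons 838 n536 .nil)
noncomputable def n538 : Strat := .move 879 n70 (.cons 924 n537 .nil)
noncomputable def n539 : Strat := .move 923 n533 (.cons 924 n122 (.cons 964 n535 (.cons 922 n538 .nil)))
noncomputable def n540 : Strat := .move 799 n12 (.cons 758 n539 .nil)
noncomputable def n541 : Strat := .move 882 n65 (.cons 883 n540 .nil)
noncomputable def n542 : Strat := .move 920 n508 (.cons 883 n511 (.cons 918 n513 (.cons 879 n515 (.cons 882 n532 (.cons 919 n541 .nil)))))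
noncomputable def n543 : Strat := .move 921 n244 (.cons 1003 n497 (.cons 758 n408 (.cons 922 n368 (.cons 799 n507 (.cons 962 n542 .nil)))))
noncomputable def n544 : Strat := .move 883 n43 (.cons 920 n48 .nil)
noncomputable def n545 : Strat := .move 883 n48 (.cons 838 n49 .nil)
noncomputable def n546 : Strat := .move 883 n43 (.cons 920 n49 .nil)
noncomputable def n547 : Strat := .win 838 0 837
noncomputable def n548 : Strat := .win 918 0 918
noncomputable def n549 : Strat := .move 919 n67 (.cons 879 n548 .nil)
noncomputable def n550 : Strat := .move 919 n509 (.cons 922 n67 .nil)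
noncomputable def n551 : Strat := .move 919 n509 (.cons 922 n548 .nil)
noncomputable def n552 : Strat := .win 922 6 840
noncomputable def n553 : Strat := .move 1005 n175 (.cons 923 n552 .nil)
noncomputable def n554 : Strat := .move 964 n418 (.cons 965 n553 .nil)
noncomputable def n555 : Strat := .move 920 n549 (.cons 918 n550 (.cons 879 n551 (.cons 919 n554 .nil)))
noncomputable def n556 : Strat := .move 837 n547 (.cons 838 n555 .nil)
noncomputable def n557 : Strat := .move 882 n544 (.cons 920 n545 (.cons 838 n546 (.cons 883 n556 .nil)))
noncomputable def n558 : Strat := .move 963 n479 (.cons 1004 n557 .nil)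
noncomputable def n559 : Strat := .win 919 2 919
noncomputable def n560 : Strat := .move 920 n418 (.cons 965 n559 .nil)
noncomputable def n561 : Strat := .move 1005 n552 (.cons 922 n176 .nil)
noncomputable def n562 : Strat := .move 964 n560 (.cons 965 n561 .nil)
noncomputable def n563 : Strat := .move 961 n480 (.cons 1002 n562 .nil)
noncomputable def n564 : Strat := .move 963 n479 (.cons 1004 n563 .nil)
noncomputable def n565 : Strat := .move 839 n472 (.cons 883 n478 (.cons 797 n558 (.cons 838 n564 .nil)))
noncomputable def n566 : Strat := .move 962 n13 (.cons 1003 n565 .nil)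
noncomputable def n567 : Strat := .move 964 n516 (.cons 963 n152 .nil)
noncomputable def n568 : Strat := .win 755 6 755
noncomputable def n569 : Strat := .win 961 6 796
noncomputable def n570 : Strat := .move 796 n568 (.cons 755 n569 .nil)
noncomputable def n571 : Strat := .move 837 n82 (.cons 836 n570 .nil)
noncomputable def n572 : Strat := .move 879 n79 (.cons 923 n571 .nil)
noncomputable def n573 : Strat := .move 878 n436 (.cons 877 n572 .nil)
noncomputable def n574 : Strat := .move 922 n567 (.cons 923 n521 (.cons 964 n573 .nil))
noncomputable def n575 : Strat := .move 799 n12 (.cons 758 n574 .nil)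
noncomputable def n576 : Strat := .move 919 n66 (.cons 918 n575 .nil)
noncomputable def n577 : Strat := .move 923 n533 (.cons 924 n122 (.cons 922 n538 .nil))
noncomputable def n578 : Strat := .move 799 n12 (.cons 758 n577 .nil)
noncomputable def n579 : Strat := .move 882 n65 (.cons 883 n578 .nil)
noncomputable def n580 : Strat := .move 920 n508 (.cons 883 n511 (.cons 879 n515 (.cons 918 n513 (.cons 882 n576 (.cons 919 n579 .nil)))))
noncomputable def n581 : Strat := .move 921 n244 (.cons 799 n566 (.cons 1003 n497 (.cons 922 n368 (.cons 962 n580 .nil))))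
noncomputable def n582 : Strat := .move 878 n435 (.cons 879 n517 .nil)
noncomputable def n583 : Strat := .move 923 n582 (.cons 965 n33 (.cons 879 n517 .nil))
noncomputable def n584 : Strat := .move 799 n12 (.cons 758 n567 .nil)
noncomputable def n585 : Strat := .move 1004 n430 (.cons 1045 n156 .nil)
noncomputable def n586 : Strat := .move 963 n428 (.cons 964 n585 .nil)
noncomputable def n587 : Strat := .move 960 n440 (.cons 959 n586 .nil)
noncomputable def n588 : Strat := .move 878 n436 (.cons 877 n587 .nil)
noncomputable def n589 : Strat := .move 922 n519 (.cons 877 n583 (.cons 878 n584 (.cons 964 n573 (.cons 923 n588 .nil))))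
noncomputable def n590 : Strat := .move 919 n66 (.cons 918 n589 .nil)
noncomputable def n591 : Strat := .move 923 n70 (.cons 924 n413 .nil)
noncomputable def n592 : Strat := .move 838 n52 (.cons 837 n591 .nil)
noncomputable def n593 : Strat := .move 1002 n89 (.cons 839 n88 .nil)
noncomputable def n594 : Strat := .move 922 n87 (.cons 960 n30 .nil)
noncomputable def n595 : Strat := .move 961 n593 (.cons 1043 n594 .nil)
noncomputable def n596 : Strat := .move 923 n70 (.cons 924 n595 .nil)
noncomputable def n597 : Strat := .move 838 n52 (.cons 837 n596 .nil)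
noncomputable def n598 : Strat := .move 877 n100 (.cons 922 n411 .nil)
noncomputable def n599 : Strat := .move 878 n82 (.cons 836 n598 .nil)
noncomputable def n600 : Strat := .move 837 n83 (.cons 838 n599 .nil)
noncomputable def n601 : Strat := .move 879 n72 (.cons 964 n592 (.cons 878 n597 (.cons 923 n600 (.cons 922 n537 .nil))))
noncomputable def n602 : Strat := .move 799 n12 (.cons 758 n601 .nil)
noncomputable def n603 : Strat := .move 882 n65 (.cons 883 n602 .nil)
noncomputable def n604 : Strat := .move 920 n508 (.cons 882 n590 (.cons 918 n513 (.cons 879 n515 (.cons 919 n603 .nil))))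
noncomputable def n605 : Strat := .win 922 0 919
noncomputable def n606 : Strat := .move 963 n418 (.cons 965 n605 .nil)
noncomputable def n607 : Strat := .move 919 n66 (.cons 918 n606 .nil)
noncomputable def n608 : Strat := .win 961 2 919
noncomputable def n609 : Strat := .move 919 n605 (.cons 922 n608 .nil)
noncomputable def n610 : Strat := .move 963 n418 (.cons 965 n609 .nil)
noncomputable def n611 : Strat := .move 837 n476 (.cons 882 n475 .nil)
noncomputable def n612 : Strat := .move 838 n246 (.cons 797 n611 .nil)
noncomputable def n613 : Strat := .move 961 n480 (.cons 1002 n612 .nil)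
noncomputable def n614 : Strat := .move 839 n479 (.cons 1004 n613 .nil)
noncomputable def n615 : Strat := .move 963 n418 (.cons 965 n614 .nil)
noncomputable def n616 : Strat := .move 964 n607 (.cons 918 n610 (.cons 963 n508 (.cons 919 n615 .nil)))
noncomputable def n617 : Strat := .move 882 n65 (.cons 883 n509 .nil)
noncomputable def n618 : Strat := .move 919 n66 (.cons 918 n617 .nil)
noncomputable def n619 : Strat := .move 879 n464 (.cons 838 n591 .nil)
noncomputable def n620 : Strat := .move 882 n65 (.cons 883 n619 .nil)
noncomputable def n621 : Strat := .move 964 n289 (.cons 965 n516 .nil)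
noncomputable def n622 : Strat := .move 923 n435 (.cons 879 n621 .nil)
noncomputable def n623 : Strat := .move 878 n436 (.cons 877 n622 .nil)
noncomputable def n624 : Strat := .move 922 n432 (.cons 1004 n623 (.cons 963 n445 .nil))
noncomputable def n625 : Strat := .move 919 n66 (.cons 918 n624 .nil)
noncomputable def n626 : Strat := .move 920 n616 (.cons 918 n466 (.cons 879 n618 (.cons 919 n620 (.cons 882 n625 .nil))))
noncomputable def n627 : Strat := .move 962 n13 (.cons 1003 n626 .nil)
noncomputable def n628 : Strat := .move 921 n244 (.cons 962 n604 (.cons 758 n474 (.cons 799 n627 .nil)))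
noncomputable def n629 : Strat := .move 838 n469 (.cons 837 n470 .nil)
noncomputable def n630 : Strat := .move 962 n13 (.cons 1003 n246 .nil)
noncomputable def n631 : Strat := .move 878 n141 (.cons 877 n107 .nil)
noncomputable def n632 : Strat := .move 964 n289 (.cons 965 n74 .nil)
noncomputable def n633 : Strat := .move 922 n31 (.cons 878 n632 .nil)
noncomputable def n634 : Strat := .move 923 n70 (.cons 924 n633 .nil)
noncomputable def n635 : Strat := .move 920 n81 (.cons 919 n634 .nil)
noncomputable def n636 : Strat := .win 1002 3 838
noncomputable def n637 : Strat := .win 922 4 919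
noncomputable def n638 : Strat := .move 960 n637 (.cons 922 n299 .nil)
noncomputable def n639 : Strat := .move 961 n636 (.cons 1002 n638 .nil)
noncomputable def n640 : Strat := .move 923 n70 (.cons 924 n639 .nil)
noncomputable def n641 : Strat := .move 920 n81 (.cons 919 n640 .nil)
noncomputable def n642 : Strat := .move 923 n70 (.cons 924 n114 .nil)
noncomputable def n643 : Strat := .move 878 n141 (.cons 877 n642 .nil)
noncomputable def n644 : Strat := .move 879 n631 (.cons 877 n635 (.cons 878 n641 (.cons 920 n643 .nil)))
noncomputable def n645 : Strat := .move 921 n630 (.cons 962 n644 .nil)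
noncomputable def n646 : Strat := .move 838 n469 (.cons 837 n645 .nil)
noncomputable def n647 : Strat := .win 922 4 920
noncomputable def n648 : Strat := .move 961 n647 (.cons 922 n480 .nil)
noncomputable def n649 : Strat := .move 923 n59 (.cons 879 n648 .nil)
noncomputable def n650 : Strat := .move 924 n54 (.cons 925 n649 .nil)
noncomputable def n651 : Strat := .move 962 n13 (.cons 1003 n650 .nil)
noncomputable def n652 : Strat := .move 921 n43 (.cons 920 n651 .nil)
noncomputable def n653 : Strat := .move 883 n49 (.cons 884 n652 .nil)
noncomputable def n654 : Strat := .move 839 n545 (.cons 884 n629 (.cons 883 n646 (.cons 838 n653 .nil)))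
noncomputable def n655 : Strat := .move 921 n43 (.cons 920 n381 .nil)
noncomputable def n656 : Strat := .win 801 1 800
noncomputable def n657 : Strat := .move 842 n382 (.cons 843 n656 .nil)
noncomputable def n658 : Strat := .move 964 n74 (.cons 1005 n657 .nil)
noncomputable def n659 : Strat := .move 923 n59 (.cons 879 n658 .nil)
noncomputable def n660 : Strat := .move 924 n54 (.cons 925 n659 .nil)
noncomputable def n661 : Strat := .win 842 5 839
noncomputable def n662 : Strat := .win 844 5 840
noncomputable def n663 : Strat := .move 843 n661 (.cons 842 n662 .nil)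
noncomputable def n664 : Strat := .move 884 n45 (.cons 922 n663 .nil)
noncomputable def n665 : Strat := .move 921 n43 (.cons 920 n664 .nil)
noncomputable def n666 : Strat := .move 883 n655 (.cons 884 n660 (.cons 924 n665 .nil))
noncomputable def n667 : Strat := .win 921 4 879
noncomputable def n668 : Strat := .move 920 n81 (.cons 919 n667 .nil)
noncomputable def n669 : Strat := .move 879 n52 (.cons 837 n668 .nil)
noncomputable def n670 : Strat := .move 838 n51 (.cons 839 n669 .nil)
noncomputable def n671 : Strat := .move 883 n50 (.cons 839 n665 (.cons 884 n670 .nil))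
noncomputable def n672 : Strat := .move 883 n50 (.cons 838 n380 (.cons 839 n660 .nil))
noncomputable def n673 : Strat := .win 964 5 920
noncomputable def n674 : Strat := .move 923 n673 (.cons 964 n647 .nil)
noncomputable def n675 : Strat := .move 924 n54 (.cons 925 n674 .nil)
noncomputable def n676 : Strat := .move 961 n480 (.cons 1002 n675 .nil)
noncomputable def n677 : Strat := .move 963 n479 (.cons 1004 n676 .nil)
noncomputable def n678 : Strat := .move 962 n13 (.cons 1003 n677 .nil)
noncomputable def n679 : Strat := .move 921 n43 (.cons 920 n678 .nil)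
noncomputable def n680 : Strat := .move 839 n48 (.cons 838 n679 .nil)
noncomputable def n681 : Strat := .move 839 n49 (.cons 884 n679 .nil)
noncomputable def n682 : Strat := .move 883 n50 (.cons 884 n680 (.cons 838 n681 (.cons 839 n655 .nil)))
noncomputable def n683 : Strat := .move 882 n654 (.cons 883 n309 (.cons 839 n666 (.cons 923 n671 (.cons 920 n672 (.cons 879 n682 .nil)))))
noncomputable def n684 : Strat := .win 964 2 919
noncomputable def n685 : Strat := .move 919 n548 (.cons 918 n684 .nil)
noncomputable def n686 : Strat := .move 964 n418 (.cons 965 n559 .nil)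
noncomputable def n687 : Strat := .move 1005 n176 (.cons 1006 n552 .nil)
noncomputable def n688 : Strat := .move 964 n418 (.cons 965 n687 .nil)
noncomputable def n689 : Strat := .move 882 n67 (.cons 879 n65 .nil)
noncomputable def n690 : Strat := .move 919 n548 (.cons 918 n689 .nil)
noncomputable def n691 : Strat := .move 920 n685 (.cons 918 n686 (.cons 919 n688 (.cons 964 n690 .nil)))
noncomputable def n692 : Strat := .move 961 n480 (.cons 1002 n691 .nil)
noncomputable def n693 : Strat := .move 963 n479 (.cons 1004 n692 .nil)
noncomputable def n694 : Strat := .move 960 n485 (.cons 923 n484 .nil)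
noncomputable def n695 : Strat := .move 922 n153 (.cons 1005 n694 .nil)
noncomputable def n696 : Strat := .move 964 n560 (.cons 965 n695 .nil)
noncomputable def n697 : Strat := .move 961 n480 (.cons 1002 n696 .nil)
noncomputable def n698 : Strat := .move 963 n479 (.cons 1004 n697 .nil)
noncomputable def n699 : Strat := .move 839 n472 (.cons 883 n478 (.cons 837 n693 (.cons 882 n698 .nil)))
noncomputable def n700 : Strat := .move 962 n13 (.cons 1003 n699 .nil)
noncomputable def n701 : Strat := .move 883 n46 (.cons 922 n50 (.cons 839 n62 (.cons 884 n57 .nil)))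
noncomputable def n702 : Strat := .move 922 n31 (.cons 878 n91 .nil)
noncomputable def n703 : Strat := .move 920 n81 (.cons 919 n702 .nil)
noncomputable def n704 : Strat := .move 879 n70 (.cons 924 n703 .nil)
noncomputable def n705 : Strat := .move 878 n106 (.cons 918 n82 .nil)
noncomputable def n706 : Strat := .move 919 n105 (.cons 920 n705 .nil)
noncomputable def n707 : Strat := .move 837 n83 (.cons 838 n706 .nil)
noncomputable def n708 : Strat := .move 879 n70 (.cons 924 n707 .nil)
noncomputable def n709 : Strat := .move 923 n533 (.cons 879 n75 (.cons 964 n704 (.cons 922 n708 .nil)))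
noncomputable def n710 : Strat := .move 882 n47 (.cons 922 n64 (.cons 884 n69 (.cons 920 n701 (.cons 883 n709 .nil))))
noncomputable def n711 : Strat := .move 799 n12 (.cons 758 n710 .nil)
noncomputable def n712 : Strat := .move 921 n244 (.cons 799 n700 (.cons 1003 n497 (.cons 922 n368 (.cons 962 n711 .nil))))
noncomputable def n713 : Strat := .win 962 3 798
noncomputable def n714 : Strat := .move 799 n12 (.cons 758 n713 .nil)
noncomputable def n715 : Strat := .move 921 n43 (.cons 920 n714 .nil)
noncomputable def n716 : Strat := .move 839 n48 (.cons 838 n715 .nil)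
noncomputable def n717 : Strat := .move 799 n12 (.cons 758 n29 .nil)
noncomputable def n718 : Strat := .move 922 n58 (.cons 884 n717 .nil)
noncomputable def n719 : Strat := .move 921 n43 (.cons 920 n718 .nil)
noncomputable def n720 : Strat := .move 883 n50 (.cons 884 n716 (.cons 838 n380 (.cons 839 n719 .nil)))
noncomputable def n721 : Strat := .move 921 n43 (.cons 920 n497 .nil)
noncomputable def n722 : Strat := .move 883 n716 (.cons 921 n57 (.cons 838 n721 (.cons 839 n660 .nil)))
noncomputable def n723 : Strat := .move 921 n43 (.cons 920 n46 .nil)
noncomputable def n724 : Strat := .move 883 n50 (.cons 838 n723 (.cons 839 n719 (.cons 884 n716 .nil)))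
noncomputable def n725 : Strat := .move 922 n31 (.cons 878 n30 .nil)
noncomputable def n726 : Strat := .move 799 n118 (.cons 758 n725 .nil)
noncomputable def n727 : Strat := .move 923 n70 (.cons 924 n726 .nil)
noncomputable def n728 : Strat := .move 879 n117 (.cons 836 n727 (.cons 923 n109 (.cons 878 n124 .nil)))
noncomputable def n729 : Strat := .move 883 n380 (.cons 884 n721 (.cons 839 n719 .nil))
noncomputable def n730 : Strat := .move 883 n50 (.cons 838 n380 (.cons 884 n670 (.cons 839 n660 .nil)))
noncomputable def n731 : Strat := .move 799 n118 (.cons 758 n73 .nil)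
noncomputable def n732 : Strat := .move 964 n74 (.cons 1005 n731 .nil)
noncomputable def n733 : Strat := .move 923 n59 (.cons 879 n732 .nil)
noncomputable def n734 : Strat := .move 924 n54 (.cons 925 n733 .nil)
noncomputable def n735 : Strat := .move 839 n48 (.cons 838 n734 .nil)
noncomputable def n736 : Strat := .move 883 n50 (.cons 838 n380 (.cons 884 n735 (.cons 839 n660 .nil)))
noncomputable def n737 : Strat := .move 882 n720 (.cons 884 n722 (.cons 925 n724 (.cons 883 n728 (.cons 838 n729 (.cons 758 n730 (.cons 920 n736 .nil))))))
noncomputable def n738 : Strat := .move 962 n13 (.cons 1003 n279 .nil)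
noncomputable def n739 : Strat := .move 924 n37 (.cons 925 n36 .nil)
noncomputable def n740 : Strat := .move 923 n33 (.cons 878 n739 (.cons 879 n522 .nil))
noncomputable def n741 : Strat := .move 963 n431 (.cons 839 n489 .nil)
noncomputable def n742 : Strat := .move 962 n13 (.cons 1003 n741 .nil)
noncomputable def n743 : Strat := .move 921 n738 (.cons 962 n740 (.cons 799 n742 .nil))
noncomputable def n744 : Strat := .win 962 1 839
noncomputable def n745 : Strat := .win 1044 1 880
noncomputable def n746 : Strat := .move 1003 n744 (.cons 962 n745 .nil)
noncomputable def n747 : Strat := .move 1004 n156 (.cons 839 n746 .nil)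
noncomputable def n748 : Strat := .win 799 6 799
noncomputable def n749 : Strat := .move 924 n37 (.cons 925 n207 .nil)
noncomputable def n750 : Strat := .move 962 n151 (.cons 1003 n749 .nil)
noncomputable def n751 : Strat := .move 923 n748 (.cons 799 n750 .nil)
noncomputable def n752 : Strat := .move 964 n153 (.cons 1005 n751 .nil)
noncomputable def n753 : Strat := .move 963 n167 (.cons 964 n747 (.cons 839 n752 .nil))
noncomputable def n754 : Strat := .win 800 3 758
noncomputable def n755 : Strat := .move 759 n754 (.cons 800 n18 .nil)
noncomputable def n756 : Strat := .move 758 n0 (.cons 921 n755 .nil)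
noncomputable def n757 : Strat := .move 921 n12 (.cons 758 n33 .nil)
noncomputable def n758 : Strat := .move 923 n30 (.cons 964 n757 .nil)
noncomputable def n759 : Strat := .move 758 n18 (.cons 718 n10 .nil)
noncomputable def n760 : Strat := .move 759 n754 (.cons 800 n759 .nil)
noncomputable def n761 : Strat := .move 923 n30 (.cons 964 n760 .nil)
noncomputable def n762 : Strat := .win 921 2 879
noncomputable def n763 : Strat := .move 924 n37 (.cons 925 n762 .nil)
noncomputable def n764 : Strat := .move 879 n31 (.cons 878 n763 .nil)
noncomputable def n765 : Strat := .move 923 n30 (.cons 964 n764 .nil)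
noncomputable def n766 : Strat := .move 799 n756 (.cons 759 n758 (.cons 921 n761 (.cons 758 n765 .nil)))
noncomputable def n767 : Strat := .move 799 n12 (.cons 758 n34 .nil)
noncomputable def n768 : Strat := .win 961 4 920
noncomputable def n769 : Strat := .move 924 n37 (.cons 925 n768 .nil)
noncomputable def n770 : Strat := .move 919 n66 (.cons 918 n517 .nil)
noncomputable def n771 : Strat := .move 960 n440 (.cons 959 n439 .nil)
noncomputable def n772 : Strat := .move 919 n66 (.cons 918 n771 .nil)
noncomputable def n773 : Strat := .win 1046 7 881
noncomputable def n774 : Strat := .win 963 6 840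
noncomputable def n775 : Strat := .move 1005 n773 (.cons 1046 n774 .nil)
noncomputable def n776 : Strat := .move 964 n289 (.cons 965 n775 .nil)
noncomputable def n777 : Strat := .move 920 n770 (.cons 964 n772 (.cons 918 n776 .nil))
noncomputable def n778 : Strat := .move 879 n31 (.cons 878 n777 .nil)
noncomputable def n779 : Strat := .move 923 n739 (.cons 879 n769 (.cons 925 n33 (.cons 924 n778 .nil)))
noncomputable def n780 : Strat := .move 962 n13 (.cons 1003 n779 .nil)
noncomputable def n781 : Strat := .move 921 n738 (.cons 1003 n717 (.cons 962 n767 (.cons 799 n780 .nil)))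
noncomputable def n782 : Strat := .move 799 n12 (.cons 758 n33 .nil)
noncomputable def n783 : Strat := .move 923 n738 (.cons 962 n782 (.cons 799 n739 .nil))
noncomputable def n784 : Strat := .move 919 n66 (.cons 918 n573 .nil)
noncomputable def n785 : Strat := .move 919 n66 (.cons 918 n530 .nil)
noncomputable def n786 : Strat := .move 878 n79 (.cons 923 n78 .nil)
noncomputable def n787 : Strat := .move 923 n31 (.cons 878 n32 .nil)
noncomputable def n788 : Strat := .move 961 n87 (.cons 960 n593 .nil)
noncomputable def n789 : Strat := .move 923 n32 (.cons 924 n788 .nil)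
noncomputable def n790 : Strat := .win 1002 7 837
noncomputable def n791 : Strat := .win 838 7 796
noncomputable def n792 : Strat := .move 796 n791 (.cons 838 n568 .nil)
noncomputable def n793 : Strat := .move 961 n790 (.cons 1002 n792 .nil)
noncomputable def n794 : Strat := .move 837 n82 (.cons 836 n793 .nil)
noncomputable def n795 : Strat := .move 878 n78 (.cons 877 n794 .nil)
noncomputable def n796 : Strat := .move 879 n786 (.cons 877 n787 (.cons 878 n789 (.cons 923 n795 .nil)))
noncomputable def n797 : Strat := .move 799 n12 (.cons 758 n796 .nil)
noncomputable def n798 : Strat := .win 923 4 919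
noncomputable def n799 : Strat := .win 1002 6 837
noncomputable def n800 : Strat := .win 796 6 796
noncomputable def n801 : Strat := .move 837 n799 (.cons 1002 n800 .nil)
noncomputable def n802 : Strat := .move 961 n798 (.cons 923 n801 .nil)
noncomputable def n803 : Strat := .move 878 n436 (.cons 877 n802 .nil)
noncomputable def n804 : Strat := .move 960 n440 (.cons 959 n803 .nil)
noncomputable def n805 : Strat := .move 919 n66 (.cons 918 n804 .nil)
noncomputable def n806 : Strat := .move 961 n799 (.cons 1002 n800 .nil)
noncomputable def n807 : Strat := .win 795 7 795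
noncomputable def n808 : Strat := .win 879 2 836
noncomputable def n809 : Strat := .move 836 n807 (.cons 795 n808 .nil)
noncomputable def n810 : Strat := .move 837 n806 (.cons 796 n809 .nil)
noncomputable def n811 : Strat := .move 960 n440 (.cons 959 n810 .nil)
noncomputable def n812 : Strat := .move 878 n436 (.cons 877 n811 .nil)
noncomputable def n813 : Strat := .move 919 n66 (.cons 918 n812 .nil)
noncomputable def n814 : Strat := .move 923 n439 (.cons 961 n38 .nil)
noncomputable def n815 : Strat := .move 960 n440 (.cons 959 n814 .nil)
noncomputable def n816 : Strat := .move 919 n66 (.cons 918 n815 .nil)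
noncomputable def n817 : Strat := .move 799 n12 (.cons 758 n816 .nil)
noncomputable def n818 : Strat := .move 920 n784 (.cons 796 n785 (.cons 919 n797 (.cons 879 n805 (.cons 923 n813 (.cons 878 n817 .nil)))))
noncomputable def n819 : Strat := .move 923 n738 (.cons 1003 n33 .nil)
noncomputable def n820 : Strat := .move 920 n87 (.cons 960 n298 .nil)
noncomputable def n821 : Strat := .win 1084 3 920
noncomputable def n822 : Strat := .win 920 3 879
noncomputable def n823 : Strat := .move 1043 n821 (.cons 1084 n822 .nil)
noncomputable def n824 : Strat := .move 1002 n297 (.cons 839 n823 .nil)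
noncomputable def n825 : Strat := .win 963 5 919
noncomputable def n826 : Strat := .move 960 n484 (.cons 959 n825 .nil)
noncomputable def n827 : Strat := .move 961 n820 (.cons 960 n824 (.cons 920 n826 .nil))
noncomputable def n828 : Strat := .move 879 n31 (.cons 878 n827 .nil)
noncomputable def n829 : Strat := .move 923 n739 (.cons 879 n769 (.cons 925 n33 (.cons 924 n828 .nil)))
noncomputable def n830 : Strat := .move 962 n13 (.cons 1003 n829 .nil)
noncomputable def n831 : Strat := .move 921 n783 (.cons 962 n818 (.cons 925 n819 (.cons 799 n830 (.cons 879 n738 .nil))))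
noncomputable def n832 : Strat := .move 921 n12 (.cons 758 n29 .nil)
noncomputable def n833 : Strat := .move 963 n153 (.cons 1005 n520 .nil)
noncomputable def n834 : Strat := .move 964 n152 (.cons 923 n833 .nil)
noncomputable def n835 : Strat := .move 921 n29 (.cons 962 n834 .nil)
noncomputable def n836 : Strat := .move 921 n12 (.cons 758 n834 .nil)
noncomputable def n837 : Strat := .move 799 n832 (.cons 758 n835 (.cons 962 n836 (.cons 921 n760 .nil)))
noncomputable def n838 : Strat := .win 924 5 920
noncomputable def n839 : Strat := .move 961 n482 (.cons 960 n838 .nil)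
noncomputable def n840 : Strat := .move 920 n289 (.cons 965 n487 .nil)
noncomputable def n841 : Strat := .move 921 n36 (.cons 879 n840 .nil)
noncomputable def n842 : Strat := .move 924 n37 (.cons 925 n841 .nil)
noncomputable def n843 : Strat := .move 1002 n297 (.cons 839 n193 .nil)
noncomputable def n844 : Strat := .move 921 n289 (.cons 965 n843 .nil)
noncomputable def n845 : Strat := .move 920 n559 (.cons 919 n844 .nil)
noncomputable def n846 : Strat := .move 961 n482 (.cons 960 n845 .nil)
noncomputable def n847 : Strat := .move 923 n749 (.cons 925 n839 (.cons 961 n842 (.cons 924 n846 .nil)))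
noncomputable def n848 : Strat := .move 964 n153 (.cons 1005 n847 .nil)
noncomputable def n849 : Strat := .move 962 n151 (.cons 1003 n848 .nil)
noncomputable def n850 : Strat := .move 1002 n88 (.cons 1043 n193 .nil)
noncomputable def n851 : Strat := .move 921 n289 (.cons 965 n850 .nil)
noncomputable def n852 : Strat := .move 920 n559 (.cons 919 n851 .nil)
noncomputable def n853 : Strat := .move 961 n482 (.cons 960 n852 .nil)
noncomputable def n854 : Strat := .move 923 n749 (.cons 925 n839 (.cons 961 n842 (.cons 924 n853 .nil)))
noncomputable def n855 : Strat := .move 964 n153 (.cons 1005 n854 .nil)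
noncomputable def n856 : Strat := .move 962 n151 (.cons 1003 n855 .nil)
noncomputable def n857 : Strat := .move 963 n747 (.cons 962 n167 (.cons 1004 n849 (.cons 839 n856 .nil)))
noncomputable def n858 : Strat := .win 921 1 798
noncomputable def n859 : Strat := .move 963 n151 (.cons 1003 n167 .nil)
noncomputable def n860 : Strat := .move 962 n858 (.cons 921 n859 .nil)
noncomputable def n861 : Strat := .move 799 n832 (.cons 921 n760 (.cons 758 n860 .nil))
noncomputable def n862 : Strat := .move 922 n743 (.cons 921 n753 (.cons 962 n766 (.cons 839 n781 (.cons 964 n831 (.cons 924 n837 (.cons 799 n857 (.cons 923 n861 .nil)))))))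
noncomputable def n863 : Strat := .win 717 1 716
noncomputable def n864 : Strat := .move 758 n0 (.cons 921 n863 .nil)
noncomputable def n865 : Strat := .move 882 n17 (.cons 923 n629 .nil)
noncomputable def n866 : Strat := .move 758 n863 (.cons 717 n865 .nil)
noncomputable def n867 : Strat := .move 921 n12 (.cons 758 n713 .nil)
noncomputable def n868 : Strat := .win 921 3 798
noncomputable def n869 : Strat := .win 800 5 796
noncomputable def n870 : Strat := .move 837 n476 (.cons 882 n869 .nil)
noncomputable def n871 : Strat := .win 1004 7 839
noncomputable def n872 : Strat := .move 963 n871 (.cons 1004 n151 .nil)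
noncomputable def n873 : Strat := .move 879 n31 (.cons 878 n70 .nil)
noncomputable def n874 : Strat := .move 923 n30 (.cons 964 n873 .nil)
noncomputable def n875 : Strat := .move 922 n872 (.cons 1003 n874 .nil)
noncomputable def n876 : Strat := .move 882 n470 (.cons 883 n875 .nil)
noncomputable def n877 : Strat := .move 837 n475 (.cons 836 n869 .nil)
noncomputable def n878 : Strat := .move 838 n477 (.cons 836 n870 (.cons 837 n876 (.cons 882 n877 .nil)))
noncomputable def n879 : Strat := .move 962 n868 (.cons 921 n878 .nil)
noncomputable def n880 : Strat := .move 839 n864 (.cons 921 n866 (.cons 717 n867 (.cons 758 n879 .nil)))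
noncomputable def n881 : Strat := .move 839 n863 (.cons 717 n865 .nil)
noncomputable def n882 : Strat := .move 758 n881 (.cons 839 n26 .nil)
noncomputable def n883 : Strat := .move 758 n0 (.cons 921 n26 .nil)
noncomputable def n884 : Strat := .move 923 n30 (.cons 964 n739 .nil)
noncomputable def n885 : Strat := .move 921 n29 (.cons 962 n884 .nil)
noncomputable def n886 : Strat := .win 885 4 881
noncomputable def n887 : Strat := .move 884 n44 (.cons 839 n886 .nil)
noncomputable def n888 : Strat := .move 842 n384 (.cons 760 n382 .nil)
noncomputable def n889 : Strat := .win 802 4 798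
noncomputable def n890 : Strat := .win 759 3 758
noncomputable def n891 : Strat := .move 800 n889 (.cons 802 n890 .nil)
noncomputable def n892 : Strat := .move 801 n888 (.cons 843 n891 .nil)
noncomputable def n893 : Strat := .move 839 n48 (.cons 838 n892 .nil)
noncomputable def n894 : Strat := .move 843 n662 (.cons 844 n661 .nil)
noncomputable def n895 : Strat := .move 884 n886 (.cons 885 n894 .nil)
noncomputable def n896 : Strat := .move 883 n887 (.cons 884 n893 (.cons 839 n895 .nil))
noncomputable def n897 : Strat := .move 882 n59 (.cons 879 n896 .nil)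
noncomputable def n898 : Strat := .move 924 n37 (.cons 925 n897 .nil)
noncomputable def n899 : Strat := .move 923 n30 (.cons 964 n898 .nil)
noncomputable def n900 : Strat := .move 921 n29 (.cons 962 n739 .nil)
noncomputable def n901 : Strat := .move 921 n29 (.cons 962 n33 .nil)
noncomputable def n902 : Strat := .win 882 3 881
noncomputable def n903 : Strat := .move 1045 n902 (.cons 882 n160 .nil)
noncomputable def n904 : Strat := .move 1004 n156 (.cons 839 n903 .nil)
noncomputable def n905 : Strat := .move 924 n37 (.cons 925 n904 .nil)
noncomputable def n906 : Strat := .move 963 n151 (.cons 1003 n905 .nil)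
noncomputable def n907 : Strat := .move 962 n858 (.cons 921 n906 .nil)
noncomputable def n908 : Strat := .move 963 n151 (.cons 1003 n904 .nil)
noncomputable def n909 : Strat := .move 962 n858 (.cons 921 n908 .nil)
noncomputable def n910 : Strat := .move 923 n900 (.cons 925 n901 (.cons 921 n898 (.cons 879 n907 (.cons 924 n909 .nil))))
noncomputable def n911 : Strat := .move 963 n151 (.cons 1003 n154 .nil)
noncomputable def n912 : Strat := .move 962 n858 (.cons 921 n911 .nil)
noncomputable def n913 : Strat := .move 922 n885 (.cons 921 n899 (.cons 964 n910 (.cons 879 n912 (.cons 923 n860 .nil))))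
noncomputable def n914 : Strat := .move 799 n880 (.cons 921 n882 (.cons 922 n6 (.cons 839 n883 (.cons 758 n913 .nil))))
noncomputable def n915 : Strat := .move 883 n49 (.cons 884 n715 .nil)
noncomputable def n916 : Strat := .move 921 n13 (.cons 1003 n245 .nil)
noncomputable def n917 : Strat := .move 838 n469 (.cons 837 n246 .nil)
noncomputable def n918 : Strat := .move 921 n13 (.cons 1003 n917 .nil)
noncomputable def n919 : Strat := .move 921 n245 (.cons 799 n917 .nil)
noncomputable def n920 : Strat := .move 922 n871 (.cons 1004 n151 .nil)
noncomputable def n921 : Strat := .move 961 n838 (.cons 924 n482 .nil)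
noncomputable def n922 : Strat := .move 923 n748 (.cons 799 n921 .nil)
noncomputable def n923 : Strat := .move 964 n153 (.cons 1005 n922 .nil)
noncomputable def n924 : Strat := .move 922 n151 (.cons 1003 n923 .nil)
noncomputable def n925 : Strat := .move 922 n871 (.cons 1004 n923 .nil)
noncomputable def n926 : Strat := .move 1005 n177 (.cons 1004 n176 .nil)
noncomputable def n927 : Strat := .move 960 n926 (.cons 1006 n180 .nil)
noncomputable def n928 : Strat := .move 965 n197 (.cons 1005 n231 .nil)
noncomputable def n929 : Strat := .move 960 n180 (.cons 920 n187 .nil)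
noncomputable def n930 : Strat := .move 961 n927 (.cons 960 n928 (.cons 1006 n929 .nil))
noncomputable def n931 : Strat := .move 838 n469 (.cons 837 n930 .nil)
noncomputable def n932 : Strat := .move 924 n213 (.cons 925 n230 .nil)
noncomputable def n933 : Strat := .move 961 n231 (.cons 1001 n932 .nil)
noncomputable def n934 : Strat := .move 966 n219 (.cons 1006 n226 .nil)
noncomputable def n935 : Strat := .move 965 n933 (.cons 961 n223 (.cons 1003 n934 .nil))
noncomputable def n936 : Strat := .move 838 n469 (.cons 837 n935 .nil)
noncomputable def n937 : Strat := .move 961 n838 (.cons 924 n929 .nil)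
noncomputable def n938 : Strat := .move 923 n74 (.cons 1005 n937 .nil)
noncomputable def n939 : Strat := .move 964 n212 (.cons 923 n931 (.cons 1005 n936 (.cons 965 n938 (.cons 961 n229 .nil))))
noncomputable def n940 : Strat := .move 963 n920 (.cons 1004 n924 (.cons 1003 n925 (.cons 922 n939 .nil)))
noncomputable def n941 : Strat := .move 962 n916 (.cons 799 n918 (.cons 1003 n919 (.cons 921 n940 .nil)))
noncomputable def n942 : Strat := .move 839 n545 (.cons 838 n915 (.cons 884 n629 (.cons 883 n941 .nil)))
noncomputable def n943 : Strat := .move 884 n378 (.cons 926 n663 .nil)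
noncomputable def n944 : Strat := .move 925 n377 (.cons 924 n943 .nil)
noncomputable def n945 : Strat := .move 883 n43 (.cons 920 n944 .nil)
noncomputable def n946 : Strat := .move 962 n13 (.cons 1003 n945 .nil)
noncomputable def n947 : Strat := .move 799 n12 (.cons 758 n42 .nil)
noncomputable def n948 : Strat := .move 921 n64 (.cons 839 n946 (.cons 920 n947 .nil))
noncomputable def n949 : Strat := .move 883 n43 (.cons 920 n718 .nil)
noncomputable def n950 : Strat := .move 883 n43 (.cons 920 n15 .nil)
noncomputable def n951 : Strat := .move 799 n12 (.cons 758 n950 .nil)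
noncomputable def n952 : Strat := .move 799 n12 (.cons 758 n15 .nil)
noncomputable def n953 : Strat := .move 883 n43 (.cons 920 n381 .nil)
noncomputable def n954 : Strat := .move 921 n949 (.cons 922 n946 (.cons 884 n951 (.cons 883 n952 (.cons 962 n953 .nil))))
noncomputable def n955 : Strat := .move 758 n17 (.cons 923 n863 .nil)
noncomputable def n956 : Strat := .move 923 n383 (.cons 964 n384 .nil)
noncomputable def n957 : Strat := .win 761 3 760
noncomputable def n958 : Strat := .win 800 4 798
noncomputable def n959 : Strat := .move 802 n957 (.cons 761 n958 .nil)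
noncomputable def n960 : Strat := .move 801 n956 (.cons 760 n959 .nil)
noncomputable def n961 : Strat := .move 842 n382 (.cons 843 n960 .nil)
noncomputable def n962 : Strat := .move 924 n54 (.cons 925 n961 .nil)
noncomputable def n963 : Strat := .move 962 n868 (.cons 921 n962 .nil)
noncomputable def n964 : Strat := .move 799 n867 (.cons 921 n955 (.cons 758 n963 .nil))
noncomputable def n965 : Strat := .move 839 n48 (.cons 838 n964 .nil)
noncomputable def n966 : Strat := .move 883 n50 (.cons 839 n944 (.cons 884 n965 .nil))
noncomputable def n967 : Strat := .move 921 n43 (.cons 920 n952 .nil)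
noncomputable def n968 : Strat := .move 883 n50 (.cons 839 n719 (.cons 884 n967 .nil))
noncomputable def n969 : Strat := .win 1005 3 841
noncomputable def n970 : Strat := .move 964 n969 (.cons 1005 n656 .nil)
noncomputable def n971 : Strat := .move 799 n73 (.cons 922 n118 .nil)
noncomputable def n972 : Strat := .move 964 n969 (.cons 1005 n971 .nil)
noncomputable def n973 : Strat := .move 802 n958 (.cons 800 n957 .nil)
noncomputable def n974 : Strat := .move 799 n118 (.cons 758 n973 .nil)
noncomputable def n975 : Strat := .move 801 n384 (.cons 760 n974 .nil)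
noncomputable def n976 : Strat := .move 923 n970 (.cons 801 n972 (.cons 964 n975 .nil))
noncomputable def n977 : Strat := .move 842 n382 (.cons 843 n976 .nil)
noncomputable def n978 : Strat := .move 924 n54 (.cons 925 n977 .nil)
noncomputable def n979 : Strat := .move 839 n48 (.cons 838 n978 .nil)
noncomputable def n980 : Strat := .move 839 n49 (.cons 884 n978 .nil)
noncomputable def n981 : Strat := .move 883 n50 (.cons 884 n979 (.cons 838 n980 (.cons 839 n944 .nil)))
noncomputable def n982 : Strat := .move 882 n942 (.cons 883 n243 (.cons 799 n682 (.cons 922 n948 (.cons 839 n954 (.cons 920 n966 (.cons 926 n968 (.cons 921 n981 .nil)))))))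
noncomputable def n983 : Strat := .move 923 n114 (.cons 922 n70 .nil)
noncomputable def n984 : Strat := .move 878 n141 (.cons 877 n983 .nil)
noncomputable def n985 : Strat := .move 878 n141 (.cons 877 n391 .nil)
noncomputable def n986 : Strat := .move 923 n70 (.cons 924 n122 .nil)
noncomputable def n987 : Strat := .move 920 n81 (.cons 919 n986 .nil)
noncomputable def n988 : Strat := .move 879 n984 (.cons 924 n985 (.cons 878 n987 .nil))
noncomputable def n989 : Strat := .move 882 n470 (.cons 883 n988 .nil)
noncomputable def n990 : Strat := .move 921 n713 (.cons 962 n989 .nil)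
noncomputable def n991 : Strat := .move 758 n863 (.cons 717 n17 .nil)
noncomputable def n992 : Strat := .move 882 n470 (.cons 883 n991 .nil)
noncomputable def n993 : Strat := .move 838 n867 (.cons 962 n864 (.cons 758 n990 (.cons 921 n992 .nil)))
noncomputable def n994 : Strat := .move 882 n17 (.cons 923 n545 .nil)
noncomputable def n995 : Strat := .move 758 n863 (.cons 717 n994 .nil)
noncomputable def n996 : Strat := .win 882 0 879
noncomputable def n997 : Strat := .move 879 n31 (.cons 878 n996 .nil)
noncomputable def n998 : Strat := .move 924 n37 (.cons 925 n997 .nil)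
noncomputable def n999 : Strat := .move 923 n30 (.cons 964 n998 .nil)
noncomputable def n1000 : Strat := .move 922 n872 (.cons 1004 n999 .nil)
noncomputable def n1001 : Strat := .move 962 n868 (.cons 921 n1000 .nil)
noncomputable def n1002 : Strat := .move 839 n993 (.cons 921 n995 (.cons 717 n867 (.cons 758 n1001 .nil)))
noncomputable def n1003 : Strat := .move 839 n863 (.cons 717 n994 .nil)
noncomputable def n1004 : Strat := .move 758 n5 (.cons 759 n1003 (.cons 717 n26 .nil))
noncomputable def n1005 : Strat := .move 921 n29 (.cons 962 n34 .nil)
noncomputable def n1006 : Strat := .win 919 5 878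
noncomputable def n1007 : Strat := .move 882 n65 (.cons 883 n1006 .nil)
noncomputable def n1008 : Strat := .move 919 n66 (.cons 918 n445 .nil)
noncomputable def n1009 : Strat := .win 882 4 879
noncomputable def n1010 : Strat := .win 884 5 880
noncomputable def n1011 : Strat := .move 924 n37 (.cons 925 n1010 .nil)
noncomputable def n1012 : Strat := .move 879 n31 (.cons 878 n788 .nil)
noncomputable def n1013 : Strat := .move 923 n33 (.cons 878 n739 (.cons 879 n1011 (.cons 924 n1012 .nil)))
noncomputable def n1014 : Strat := .move 883 n1009 (.cons 882 n1013 .nil)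
noncomputable def n1015 : Strat := .move 920 n1007 (.cons 882 n1008 (.cons 919 n1014 .nil))
noncomputable def n1016 : Strat := .move 921 n29 (.cons 962 n1015 .nil)
noncomputable def n1017 : Strat := .move 920 n1009 (.cons 882 n772 .nil)
noncomputable def n1018 : Strat := .move 883 n1010 (.cons 884 n1017 .nil)
noncomputable def n1019 : Strat := .move 924 n37 (.cons 925 n1018 .nil)
noncomputable def n1020 : Strat := .move 923 n30 (.cons 964 n1019 .nil)
noncomputable def n1021 : Strat := .move 921 n29 (.cons 962 n1020 .nil)
noncomputable def n1022 : Strat := .move 919 n66 (.cons 918 n427 .nil)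
noncomputable def n1023 : Strat := .move 882 n65 (.cons 883 n1012 .nil)
noncomputable def n1024 : Strat := .move 919 n66 (.cons 918 n436 .nil)
noncomputable def n1025 : Strat := .move 878 n435 (.cons 879 n1024 .nil)
noncomputable def n1026 : Strat := .move 920 n1007 (.cons 883 n1022 (.cons 919 n1023 (.cons 882 n1025 .nil)))
noncomputable def n1027 : Strat := .move 923 n30 (.cons 964 n1026 .nil)
noncomputable def n1028 : Strat := .move 921 n29 (.cons 962 n1027 .nil)
noncomputable def n1029 : Strat := .move 922 n1005 (.cons 921 n999 (.cons 964 n1016 (.cons 879 n1021 (.cons 924 n1028 (.cons 923 n860 .nil)))))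
noncomputable def n1030 : Strat := .move 799 n6 (.cons 759 n1002 (.cons 717 n16 (.cons 921 n1004 (.cons 758 n1029 .nil))))
noncomputable def n1031 : Strat := .move 963 n151 (.cons 1003 n871 .nil)
noncomputable def n1032 : Strat := .move 922 n79 (.cons 923 n1031 .nil)
noncomputable def n1033 : Strat := .move 878 n141 (.cons 877 n1032 .nil)
noncomputable def n1034 : Strat := .move 961 n130 (.cons 1003 n636 .nil)
noncomputable def n1035 : Strat := .move 920 n81 (.cons 919 n1034 .nil)
noncomputable def n1036 : Strat := .move 879 n985 (.cons 918 n1033 (.cons 878 n1035 .nil))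
noncomputable def n1037 : Strat := .move 882 n470 (.cons 883 n1036 .nil)
noncomputable def n1038 : Strat := .move 838 n477 (.cons 836 n870 (.cons 837 n1037 (.cons 882 n877 .nil)))
noncomputable def n1039 : Strat := .move 962 n868 (.cons 921 n1038 .nil)
noncomputable def n1040 : Strat := .move 839 n864 (.cons 921 n866 (.cons 717 n867 (.cons 758 n1039 .nil)))
noncomputable def n1041 : Strat := .move 758 n881 (.cons 882 n5 (.cons 717 n26 .nil))
noncomputable def n1042 : Strat := .move 883 n43 (.cons 920 n58 .nil)
noncomputable def n1043 : Strat := .move 838 n51 (.cons 839 n52 .nil)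
noncomputable def n1044 : Strat := .move 883 n58 (.cons 884 n1043 .nil)
noncomputable def n1045 : Strat := .move 920 n81 (.cons 919 n91 .nil)
noncomputable def n1046 : Strat := .move 882 n451 (.cons 919 n1042 (.cons 920 n1044 (.cons 883 n1045 .nil)))
noncomputable def n1047 : Strat := .move 879 n31 (.cons 878 n1046 .nil)
noncomputable def n1048 : Strat := .move 923 n30 (.cons 964 n1047 .nil)
noncomputable def n1049 : Strat := .move 921 n29 (.cons 962 n1048 .nil)
noncomputable def n1050 : Strat := .win 921 7 880
noncomputable def n1051 : Strat := .win 1003 1 880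
noncomputable def n1052 : Strat := .win 1085 1 921
noncomputable def n1053 : Strat := .move 1044 n1051 (.cons 1003 n1052 .nil)
noncomputable def n1054 : Strat := .move 1045 n1050 (.cons 921 n1053 .nil)
noncomputable def n1055 : Strat := .move 1004 n156 (.cons 839 n1054 .nil)
noncomputable def n1056 : Strat := .move 963 n153 (.cons 1005 n1055 .nil)
noncomputable def n1057 : Strat := .move 964 n152 (.cons 923 n1056 .nil)
noncomputable def n1058 : Strat := .move 923 n31 (.cons 878 n91 .nil)
noncomputable def n1059 : Strat := .move 960 n299 (.cons 1001 n798 .nil)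
noncomputable def n1060 : Strat := .move 961 n593 (.cons 1043 n1059 .nil)
noncomputable def n1061 : Strat := .move 838 n52 (.cons 837 n1060 .nil)
noncomputable def n1062 : Strat := .move 879 n1058 (.cons 923 n85 (.cons 878 n1061 .nil))
noncomputable def n1063 : Strat := .move 882 n65 (.cons 883 n1062 .nil)
noncomputable def n1064 : Strat := .move 920 n1007 (.cons 919 n1063 (.cons 883 n1022 (.cons 882 n784 .nil)))
noncomputable def n1065 : Strat := .move 921 n29 (.cons 962 n1064 .nil)
noncomputable def n1066 : Strat := .move 963 n153 (.cons 1005 n747 .nil)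
noncomputable def n1067 : Strat := .move 964 n152 (.cons 923 n1066 .nil)
noncomputable def n1068 : Strat := .move 922 n1049 (.cons 962 n1057 (.cons 923 n860 (.cons 964 n1065 (.cons 839 n912 (.cons 921 n1067 .nil)))))
noncomputable def n1069 : Strat := .move 799 n1040 (.cons 921 n1041 (.cons 922 n6 (.cons 717 n16 (.cons 758 n1068 .nil))))
noncomputable def n1070 : Strat := .move 920 n65 (.cons 883 n1006 .nil)
noncomputable def n1071 : Strat := .move 923 n31 (.cons 878 n70 .nil)
noncomputable def n1072 : Strat := .move 961 n87 (.cons 960 n636 .nil)
noncomputable def n1073 : Strat := .move 923 n70 (.cons 924 n1072 .nil)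
noncomputable def n1074 : Strat := .move 920 n81 (.cons 919 n1073 .nil)
noncomputable def n1075 : Strat := .move 878 n78 (.cons 877 n391 .nil)
noncomputable def n1076 : Strat := .move 838 n469 (.cons 837 n1075 .nil)
noncomputable def n1077 : Strat := .move 879 n80 (.cons 877 n1071 (.cons 878 n1074 (.cons 923 n1076 .nil)))
noncomputable def n1078 : Strat := .move 883 n49 (.cons 884 n48 .nil)
noncomputable def n1079 : Strat := .move 882 n546 (.cons 884 n1070 (.cons 883 n1077 (.cons 920 n1078 .nil)))
noncomputable def n1080 : Strat := .move 799 n12 (.cons 758 n1079 .nil)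
noncomputable def n1081 : Strat := .move 963 n479 (.cons 1004 n472 .nil)
noncomputable def n1082 : Strat := .move 962 n13 (.cons 1003 n1081 .nil)
noncomputable def n1083 : Strat := .move 839 n738 (.cons 962 n1080 (.cons 799 n1082 .nil))
noncomputable def n1084 : Strat := .move 879 n77 (.cons 924 n80 (.cons 923 n86 (.cons 878 n93 .nil)))
noncomputable def n1085 : Strat := .move 879 n53 (.cons 923 n1043 .nil)
noncomputable def n1086 : Strat := .move 924 n54 (.cons 925 n1085 .nil)
noncomputable def n1087 : Strat := .move 883 n58 (.cons 884 n1086 .nil)
noncomputable def n1088 : Strat := .move 882 n1042 (.cons 883 n1084 (.cons 920 n1087 .nil))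
noncomputable def n1089 : Strat := .move 799 n12 (.cons 758 n1088 .nil)
noncomputable def n1090 : Strat := .move 882 n65 (.cons 883 n81 .nil)
noncomputable def n1091 : Strat := .win 882 4 878
noncomputable def n1092 : Strat := .move 919 n66 (.cons 918 n1091 .nil)
noncomputable def n1093 : Strat := .move 920 n1090 (.cons 883 n1092 (.cons 882 n422 .nil))
noncomputable def n1094 : Strat := .move 879 n31 (.cons 878 n1093 .nil)
noncomputable def n1095 : Strat := .move 923 n38 (.cons 925 n33 (.cons 879 n769 (.cons 924 n1094 .nil)))
noncomputable def n1096 : Strat := .move 962 n13 (.cons 1003 n1095 .nil)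
noncomputable def n1097 : Strat := .move 922 n1083 (.cons 962 n1089 (.cons 882 n783 (.cons 924 n738 (.cons 799 n1096 .nil))))
noncomputable def n1098 : Strat := .move 922 n1042 (.cons 883 n1084 (.cons 920 n1087 .nil))
noncomputable def n1099 : Strat := .move 922 n58 (.cons 884 n1086 .nil)
noncomputable def n1100 : Strat := .move 879 n53 (.cons 923 n85 .nil)
noncomputable def n1101 : Strat := .move 924 n54 (.cons 925 n1100 .nil)
noncomputable def n1102 : Strat := .move 922 n58 (.cons 884 n1101 .nil)
noncomputable def n1103 : Strat := .move 883 n1099 (.cons 839 n1102 (.cons 922 n50 (.cons 838 n46 (.cons 884 n57 .nil))))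
noncomputable def n1104 : Strat := .move 883 n43 (.cons 920 n1102 .nil)
noncomputable def n1105 : Strat := .move 961 n90 (.cons 839 n638 .nil)
noncomputable def n1106 : Strat := .move 923 n70 (.cons 924 n1105 .nil)
noncomputable def n1107 : Strat := .move 838 n52 (.cons 837 n1106 .nil)
noncomputable def n1108 : Strat := .move 920 n81 (.cons 919 n1107 .nil)
noncomputable def n1109 : Strat := .move 878 n82 (.cons 836 n391 .nil)
noncomputable def n1110 : Strat := .move 837 n83 (.cons 838 n1109 .nil)
noncomputable def n1111 : Strat := .move 923 n70 (.cons 924 n1110 .nil)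
noncomputable def n1112 : Strat := .move 838 n52 (.cons 837 n1105 .nil)
noncomputable def n1113 : Strat := .move 920 n81 (.cons 919 n1112 .nil)
noncomputable def n1114 : Strat := .move 920 n81 (.cons 919 n788 .nil)
noncomputable def n1115 : Strat := .move 922 n31 (.cons 878 n1114 .nil)
noncomputable def n1116 : Strat := .move 923 n116 (.cons 878 n1113 (.cons 837 n1115 (.cons 922 n1110 .nil)))
noncomputable def n1117 : Strat := .move 922 n31 (.cons 878 n788 .nil)
noncomputable def n1118 : Strat := .move 923 n70 (.cons 924 n1117 .nil)
noncomputable def n1119 : Strat := .move 920 n81 (.cons 919 n1118 .nil)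
noncomputable def n1120 : Strat := .move 879 n94 (.cons 919 n117 (.cons 878 n1108 (.cons 922 n1111 (.cons 924 n1116 (.cons 837 n1119 (.cons 923 n104 .nil))))))
noncomputable def n1121 : Strat := .move 882 n1098 (.cons 920 n1103 (.cons 922 n64 (.cons 839 n1104 (.cons 838 n47 (.cons 884 n69 (.cons 883 n1120 .nil))))))
noncomputable def n1122 : Strat := .move 799 n12 (.cons 758 n1121 .nil)
noncomputable def n1123 : Strat := .move 962 n13 (.cons 1003 n1094 .nil)
noncomputable def n1124 : Strat := .move 962 n13 (.cons 1003 n769 .nil)
noncomputable def n1125 : Strat := .move 922 n38 (.cons 924 n1123 (.cons 879 n1124 .nil))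
noncomputable def n1126 : Strat := .move 879 n70 (.cons 924 n451 .nil)
noncomputable def n1127 : Strat := .move 879 n70 (.cons 924 n502 .nil)
noncomputable def n1128 : Strat := .move 882 n64 (.cons 839 n1126 (.cons 883 n1127 .nil))
noncomputable def n1129 : Strat := .move 962 n13 (.cons 1003 n1128 .nil)
noncomputable def n1130 : Strat := .move 838 n246 (.cons 797 n469 .nil)
noncomputable def n1131 : Strat := .move 922 n482 (.cons 960 n481 .nil)
noncomputable def n1132 : Strat := .move 961 n480 (.cons 1002 n1131 .nil)
noncomputable def n1133 : Strat := .move 963 n479 (.cons 1004 n1132 .nil)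
noncomputable def n1134 : Strat := .move 882 n1130 (.cons 838 n1133 .nil)
noncomputable def n1135 : Strat := .move 963 n479 (.cons 1004 n482 .nil)
noncomputable def n1136 : Strat := .move 922 n481 (.cons 924 n1135 .nil)
noncomputable def n1137 : Strat := .move 961 n480 (.cons 1002 n1136 .nil)
noncomputable def n1138 : Strat := .move 839 n472 (.cons 883 n1134 (.cons 838 n1137 .nil))
noncomputable def n1139 : Strat := .move 962 n13 (.cons 1003 n1138 .nil)
noncomputable def n1140 : Strat := .move 922 n739 (.cons 879 n769 (.cons 925 n33 (.cons 924 n828 .nil)))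
noncomputable def n1141 : Strat := .move 962 n13 (.cons 1003 n1140 .nil)
noncomputable def n1142 : Strat := .win 922 5 919
noncomputable def n1143 : Strat := .win 917 2 917
noncomputable def n1144 : Strat := .win 919 2 918
noncomputable def n1145 : Strat := .move 918 n1143 (.cons 917 n1144 .nil)
noncomputable def n1146 : Strat := .win 999 4 958
noncomputable def n1147 : Strat := .win 1001 4 959
noncomputable def n1148 : Strat := .move 1000 n1146 (.cons 999 n1147 .nil)
noncomputable def n1149 : Strat := .move 959 n1145 (.cons 919 n1148 .nil)
noncomputable def n1150 : Strat := .move 960 n1142 (.cons 922 n1149 .nil)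
noncomputable def n1151 : Strat := .move 961 n480 (.cons 1002 n1150 .nil)
noncomputable def n1152 : Strat := .move 963 n479 (.cons 1004 n1151 .nil)
noncomputable def n1153 : Strat := .move 839 n472 (.cons 883 n478 (.cons 838 n1152 .nil))
noncomputable def n1154 : Strat := .move 962 n13 (.cons 1003 n1153 .nil)
noncomputable def n1155 : Strat := .move 882 n65 (.cons 883 n464 .nil)
noncomputable def n1156 : Strat := .move 920 n1090 (.cons 919 n1155 (.cons 883 n1092 (.cons 882 n772 .nil)))
noncomputable def n1157 : Strat := .move 962 n13 (.cons 1003 n1156 .nil)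
noncomputable def n1158 : Strat := .move 879 n31 (.cons 878 n1157 .nil)
noncomputable def n1159 : Strat := .move 922 n38 (.cons 924 n1158 (.cons 879 n1124 .nil))
noncomputable def n1160 : Strat := .move 838 n52 (.cons 837 n51 .nil)
noncomputable def n1161 : Strat := .move 883 n58 (.cons 884 n1160 .nil)
noncomputable def n1162 : Strat := .move 838 n52 (.cons 837 n91 .nil)
noncomputable def n1163 : Strat := .move 920 n81 (.cons 919 n1162 .nil)
noncomputable def n1164 : Strat := .move 882 n451 (.cons 919 n1042 (.cons 920 n1161 (.cons 883 n1163 .nil)))
noncomputable def n1165 : Strat := .move 879 n31 (.cons 878 n1164 .nil)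
noncomputable def n1166 : Strat := .move 922 n33 (.cons 924 n1165 (.cons 878 n38 (.cons 879 n1019 .nil)))
noncomputable def n1167 : Strat := .move 923 n1125 (.cons 922 n1129 (.cons 879 n1139 (.cons 882 n1141 (.cons 924 n1154 (.cons 839 n1159 (.cons 962 n1166 .nil))))))
noncomputable def n1168 : Strat := .move 839 n245 (.cons 799 n478 .nil)
noncomputable def n1169 : Strat := .move 962 n13 (.cons 1003 n1168 .nil)
noncomputable def n1170 : Strat := .move 922 n783 (.cons 962 n818 (.cons 925 n819 (.cons 799 n830 (.cons 879 n738 .nil))))
noncomputable def n1171 : Strat := .move 922 n38 (.cons 924 n738 .nil)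
noncomputable def n1172 : Strat := .move 884 n662 (.cons 844 n378 .nil)
noncomputable def n1173 : Strat := .move 843 n661 (.cons 842 n1172 .nil)
noncomputable def n1174 : Strat := .move 925 n377 (.cons 924 n1173 .nil)
noncomputable def n1175 : Strat := .move 883 n43 (.cons 920 n1174 .nil)
noncomputable def n1176 : Strat := .win 883 0 880
noncomputable def n1177 : Strat := .move 925 n1176 (.cons 883 n208 .nil)
noncomputable def n1178 : Strat := .move 924 n59 (.cons 879 n1177 .nil)
noncomputable def n1179 : Strat := .move 920 n81 (.cons 919 n464 .nil)
noncomputable def n1180 : Strat := .move 879 n70 (.cons 924 n1179 .nil)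
noncomputable def n1181 : Strat := .move 882 n1126 (.cons 924 n69 (.cons 879 n1175 (.cons 920 n1178 (.cons 883 n1180 .nil))))
noncomputable def n1182 : Strat := .move 962 n13 (.cons 1003 n1181 .nil)
noncomputable def n1183 : Strat := .move 799 n12 (.cons 758 n1182 .nil)
noncomputable def n1184 : Strat := .move 922 n38 (.cons 924 n717 .nil)
noncomputable def n1185 : Strat := .move 922 n31 (.cons 878 n32 .nil)
noncomputable def n1186 : Strat := .move 882 n70 (.cons 924 n451 .nil)
noncomputable def n1187 : Strat := .move 796 n569 (.cons 961 n568 .nil)
noncomputable def n1188 : Strat := .move 837 n82 (.cons 836 n1187 .nil)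
noncomputable def n1189 : Strat := .move 920 n1091 (.cons 882 n1188 .nil)
noncomputable def n1190 : Strat := .move 919 n106 (.cons 918 n1189 .nil)
noncomputable def n1191 : Strat := .move 878 n114 (.cons 922 n1190 .nil)
noncomputable def n1192 : Strat := .move 879 n1185 (.cons 922 n1186 (.cons 924 n1191 .nil))
noncomputable def n1193 : Strat := .move 799 n12 (.cons 758 n1192 .nil)
noncomputable def n1194 : Strat := .move 923 n1171 (.cons 922 n1183 (.cons 879 n952 (.cons 1003 n1184 (.cons 799 n1159 (.cons 962 n1193 .nil)))))
noncomputable def n1195 : Strat := .move 921 n1097 (.cons 962 n1122 (.cons 799 n1167 (.cons 922 n1169 (.cons 882 n1170 (.cons 839 n1194 (.cons 838 n244 .nil))))))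
noncomputable def n1196 : Strat := .move 883 n51 (.cons 839 n668 .nil)
noncomputable def n1197 : Strat := .move 838 n52 (.cons 837 n1196 .nil)
noncomputable def n1198 : Strat := .move 923 n70 (.cons 924 n1197 .nil)
noncomputable def n1199 : Strat := .win 962 6 797
noncomputable def n1200 : Strat := .move 797 n1199 (.cons 962 n361 .nil)
noncomputable def n1201 : Strat := .move 838 n52 (.cons 837 n1200 .nil)
noncomputable def n1202 : Strat := .move 799 n12 (.cons 758 n1201 .nil)
noncomputable def n1203 : Strat := .move 921 n65 (.cons 883 n1202 .nil)
noncomputable def n1204 : Strat := .move 920 n81 (.cons 919 n1203 .nil)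
noncomputable def n1205 : Strat := .move 923 n70 (.cons 924 n1204 .nil)
noncomputable def n1206 : Strat := .move 884 n44 (.cons 839 n894 .nil)
noncomputable def n1207 : Strat := .move 883 n667 (.cons 921 n1206 .nil)
noncomputable def n1208 : Strat := .move 920 n81 (.cons 919 n1207 .nil)
noncomputable def n1209 : Strat := .move 799 n118 (.cons 758 n1208 .nil)
noncomputable def n1210 : Strat := .move 923 n70 (.cons 924 n1209 .nil)
noncomputable def n1211 : Strat := .move 882 n1198 (.cons 883 n144 (.cons 839 n1205 (.cons 920 n453 (.cons 838 n1210 .nil))))
noncomputable def n1212 : Strat := .move 882 n144 (.cons 838 n333 (.cons 920 n339 (.cons 877 n109 (.cons 878 n346 (.cons 837 n360 (.cons 919 n373 .nil))))))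
noncomputable def n1213 : Strat := .move 882 n453 (.cons 838 n1210 (.cons 923 n1197 (.cons 883 n1110 .nil)))
noncomputable def n1214 : Strat := .move 961 n800 (.cons 796 n790 .nil)
noncomputable def n1215 : Strat := .move 920 n1091 (.cons 882 n1214 .nil)
noncomputable def n1216 : Strat := .move 837 n82 (.cons 836 n1215 .nil)
noncomputable def n1217 : Strat := .move 919 n106 (.cons 918 n1216 .nil)
noncomputable def n1218 : Strat := .move 878 n271 (.cons 919 n256 (.cons 839 n1217 .nil))
noncomputable def n1219 : Strat := .win 882 2 837
noncomputable def n1220 : Strat := .win 756 1 755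
noncomputable def n1221 : Strat := .win 960 3 796
noncomputable def n1222 : Strat := .move 797 n1220 (.cons 756 n1221 .nil)
noncomputable def n1223 : Strat := .move 919 n106 (.cons 918 n1222 .nil)
noncomputable def n1224 : Strat := .move 838 n1219 (.cons 882 n1223 .nil)
noncomputable def n1225 : Strat := .move 837 n82 (.cons 836 n1224 .nil)
noncomputable def n1226 : Strat := .move 878 n256 (.cons 837 n271 (.cons 877 n1225 .nil))
noncomputable def n1227 : Strat := .move 883 n667 (.cons 921 n50 .nil)
noncomputable def n1228 : Strat := .move 920 n81 (.cons 919 n1227 .nil)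
noncomputable def n1229 : Strat := .move 923 n70 (.cons 924 n1228 .nil)
noncomputable def n1230 : Strat := .move 882 n1197 (.cons 920 n453 (.cons 883 n346 (.cons 837 n1229 (.cons 838 n1210 (.cons 839 n1205 .nil)))))
noncomputable def n1231 : Strat := .move 920 n568 (.cons 755 n569 .nil)
noncomputable def n1232 : Strat := .win 756 3 755
noncomputable def n1233 : Strat := .win 839 2 795
noncomputable def n1234 : Strat := .win 754 7 754
noncomputable def n1235 : Strat := .move 795 n1233 (.cons 839 n1234 .nil)
noncomputable def n1236 : Strat := .move 838 n1221 (.cons 960 n1235 .nil)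
noncomputable def n1237 : Strat := .move 797 n1232 (.cons 756 n1236 .nil)
noncomputable def n1238 : Strat := .move 796 n1231 (.cons 920 n1237 .nil)
noncomputable def n1239 : Strat := .move 919 n106 (.cons 918 n1238 .nil)
noncomputable def n1240 : Strat := .move 837 n82 (.cons 836 n1239 .nil)
noncomputable def n1241 : Strat := .win 838 3 796
noncomputable def n1242 : Strat := .win 1041 1 877
noncomputable def n1243 : Strat := .win 959 1 836
noncomputable def n1244 : Strat := .move 1000 n1242 (.cons 1041 n1243 .nil)
noncomputable def n1245 : Strat := .win 1043 6 878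
noncomputable def n1246 : Strat := .win 961 6 837
noncomputable def n1247 : Strat := .move 1002 n1245 (.cons 1043 n1246 .nil)
noncomputable def n1248 : Strat := .move 1001 n1244 (.cons 959 n1247 .nil)
noncomputable def n1249 : Strat := .move 960 n1241 (.cons 838 n1248 .nil)
noncomputable def n1250 : Strat := .move 797 n1232 (.cons 756 n1249 .nil)
noncomputable def n1251 : Strat := .win 920 6 755
noncomputable def n1252 : Strat := .win 797 3 755
noncomputable def n1253 : Strat := .win 715 3 714
noncomputable def n1254 : Strat := .move 756 n1252 (.cons 797 n1253 .nil)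
noncomputable def n1255 : Strat := .move 755 n1251 (.cons 920 n1254 .nil)
noncomputable def n1256 : Strat := .move 796 n1231 (.cons 920 n1250 (.cons 961 n1255 .nil))
noncomputable def n1257 : Strat := .move 837 n82 (.cons 836 n1256 .nil)
noncomputable def n1258 : Strat := .move 919 n106 (.cons 918 n1257 .nil)
noncomputable def n1259 : Strat := .move 878 n271 (.cons 919 n256 (.cons 877 n1240 (.cons 839 n1258 .nil)))
noncomputable def n1260 : Strat := .move 839 n245 (.cons 799 n612 .nil)
noncomputable def n1261 : Strat := .move 962 n13 (.cons 1003 n1260 .nil)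
noncomputable def n1262 : Strat := .move 883 n43 (.cons 920 n1160 .nil)
noncomputable def n1263 : Strat := .move 883 n43 (.cons 920 n55 .nil)
noncomputable def n1264 : Strat := .move 882 n1262 (.cons 839 n1263 (.cons 920 n453 (.cons 883 n371 .nil)))
noncomputable def n1265 : Strat := .move 799 n12 (.cons 758 n1264 .nil)
noncomputable def n1266 : Strat := .move 839 n246 (.cons 797 n611 .nil)
noncomputable def n1267 : Strat := .win 878 2 836
noncomputable def n1268 : Strat := .win 835 0 835
noncomputable def n1269 : Strat := .move 836 n1267 (.cons 878 n1268 .nil)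
noncomputable def n1270 : Strat := .move 837 n1219 (.cons 882 n1269 .nil)
noncomputable def n1271 : Strat := .move 838 n1266 (.cons 839 n363 (.cons 797 n1270 .nil))
noncomputable def n1272 : Strat := .move 962 n13 (.cons 1003 n1271 .nil)
noncomputable def n1273 : Strat := .win 877 4 836
noncomputable def n1274 : Strat := .win 795 2 795
noncomputable def n1275 : Strat := .win 920 7 796
noncomputable def n1276 : Strat := .move 961 n1275 (.cons 920 n480 .nil)
noncomputable def n1277 : Strat := .move 796 n1274 (.cons 795 n1276 .nil)
noncomputable def n1278 : Strat := .move 878 n1273 (.cons 877 n1277 .nil)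
noncomputable def n1279 : Strat := .move 837 n475 (.cons 836 n1278 .nil)
noncomputable def n1280 : Strat := .move 838 n246 (.cons 797 n1279 .nil)
noncomputable def n1281 : Strat := .move 839 n245 (.cons 799 n1280 .nil)
noncomputable def n1282 : Strat := .move 962 n13 (.cons 1003 n1281 .nil)
noncomputable def n1283 : Strat := .move 882 n52 (.cons 837 n65 .nil)
noncomputable def n1284 : Strat := .move 920 n125 (.cons 797 n1283 .nil)
noncomputable def n1285 : Strat := .win 796 7 796
noncomputable def n1286 : Strat := .move 836 n1268 (.cons 835 n1267 .nil)
noncomputable def n1287 : Strat := .move 837 n1285 (.cons 796 n1286 .nil)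
noncomputable def n1288 : Strat := .move 1001 n132 (.cons 1042 n131 .nil)
noncomputable def n1289 : Strat := .move 1002 n88 (.cons 1043 n1288 .nil)
noncomputable def n1290 : Strat := .move 961 n1287 (.cons 837 n1289 .nil)
noncomputable def n1291 : Strat := .move 920 n125 (.cons 797 n1290 .nil)
noncomputable def n1292 : Strat := .move 838 n1284 (.cons 882 n1291 (.cons 797 n1270 (.cons 837 n363 .nil)))
noncomputable def n1293 : Strat := .move 799 n12 (.cons 758 n1292 .nil)
noncomputable def n1294 : Strat := .move 962 n13 (.cons 1003 n1293 .nil)
noncomputable def n1295 : Strat := .move 921 n1261 (.cons 962 n1265 (.cons 799 n1272 (.cons 882 n1282 (.cons 839 n1294 (.cons 836 n474 (.cons 838 n368 .nil))))))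
noncomputable def n1296 : Strat := .move 839 n141 (.cons 877 n545 .nil)
noncomputable def n1297 : Strat := .move 878 n106 (.cons 918 n1296 .nil)
noncomputable def n1298 : Strat := .move 919 n105 (.cons 920 n1297 .nil)
noncomputable def n1299 : Strat := .move 923 n70 (.cons 924 n1298 .nil)
noncomputable def n1300 : Strat := .move 883 n667 (.cons 921 n55 .nil)
noncomputable def n1301 : Strat := .move 920 n81 (.cons 919 n1300 .nil)
noncomputable def n1302 : Strat := .move 838 n51 (.cons 839 n55 .nil)
noncomputable def n1303 : Strat := .move 920 n667 (.cons 921 n55 .nil)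
noncomputable def n1304 : Strat := .move 920 n667 (.cons 921 n50 .nil)
noncomputable def n1305 : Strat := .move 883 n1302 (.cons 839 n1303 (.cons 923 n1304 .nil))
noncomputable def n1306 : Strat := .move 883 n54 (.cons 925 n50 .nil)
noncomputable def n1307 : Strat := .move 924 n53 (.cons 923 n1306 .nil)
noncomputable def n1308 : Strat := .move 882 n1229 (.cons 923 n1228 (.cons 883 n360 (.cons 921 n1299 (.cons 839 n1301 (.cons 919 n1305 (.cons 920 n1307 .nil))))))
noncomputable def n1309 : Strat := .move 882 n83 (.cons 838 n105 .nil)
noncomputable def n1310 : Strat := .move 837 n82 (.cons 836 n1309 .nil)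
noncomputable def n1311 : Strat := .move 878 n106 (.cons 918 n1310 .nil)
noncomputable def n1312 : Strat := .move 878 n106 (.cons 918 n1257 .nil)
noncomputable def n1313 : Strat := .move 878 n106 (.cons 918 n1216 .nil)
noncomputable def n1314 : Strat := .win 837 7 837
noncomputable def n1315 : Strat := .win 1043 7 878
noncomputable def n1316 : Strat := .move 1002 n1314 (.cons 837 n1315 .nil)
noncomputable def n1317 : Strat := .move 837 n800 (.cons 796 n790 .nil)
noncomputable def n1318 : Strat := .win 1044 6 879
noncomputable def n1319 : Strat := .win 962 6 838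
noncomputable def n1320 : Strat := .move 1003 n1318 (.cons 1044 n1319 .nil)
noncomputable def n1321 : Strat := .move 838 n131 (.cons 960 n1320 .nil)
noncomputable def n1322 : Strat := .move 1001 n132 (.cons 1042 n1321 .nil)
noncomputable def n1323 : Strat := .move 1002 n1315 (.cons 1043 n1322 .nil)
noncomputable def n1324 : Strat := .move 960 n299 (.cons 1001 n526 .nil)
noncomputable def n1325 : Strat := .win 1000 1 836
noncomputable def n1326 : Strat := .move 837 n1325 (.cons 1000 n800 .nil)
noncomputable def n1327 : Strat := .win 921 5 917
noncomputable def n1328 : Strat := .win 957 5 916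
noncomputable def n1329 : Strat := .move 958 n1327 (.cons 921 n1328 .nil)
noncomputable def n1330 : Strat := .move 959 n1326 (.cons 796 n1329 .nil)
noncomputable def n1331 : Strat := .move 960 n299 (.cons 1001 n1330 .nil)
noncomputable def n1332 : Strat := .win 960 1 796
noncomputable def n1333 : Strat := .move 797 n1220 (.cons 756 n1332 .nil)
noncomputable def n1334 : Strat := .win 837 6 796
noncomputable def n1335 : Strat := .win 755 7 755
noncomputable def n1336 : Strat := .move 797 n1335 (.cons 755 n1220 .nil)
noncomputable def n1337 : Strat := .move 796 n1334 (.cons 837 n1336 .nil)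
noncomputable def n1338 : Strat := .move 838 n1324 (.cons 797 n1331 (.cons 1001 n1333 (.cons 960 n1337 .nil)))
noncomputable def n1339 : Strat := .move 961 n1316 (.cons 1043 n1317 (.cons 837 n1323 (.cons 1002 n1338 .nil)))
noncomputable def n1340 : Strat := .move 920 n1091 (.cons 882 n1339 .nil)
noncomputable def n1341 : Strat := .move 878 n106 (.cons 918 n1340 .nil)
noncomputable def n1342 : Strat := .move 838 n1219 (.cons 882 n1222 .nil)
noncomputable def n1343 : Strat := .move 837 n82 (.cons 836 n1342 .nil)
noncomputable def n1344 : Strat := .move 878 n106 (.cons 918 n1343 .nil)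
noncomputable def n1345 : Strat := .win 917 5 876
noncomputable def n1346 : Strat := .win 921 5 877
noncomputable def n1347 : Strat := .move 918 n1345 (.cons 917 n1346 .nil)
noncomputable def n1348 : Strat := .move 920 n1091 (.cons 882 n1347 .nil)
noncomputable def n1349 : Strat := .move 921 n361 (.cons 756 n1199 .nil)
noncomputable def n1350 : Strat := .move 797 n1332 (.cons 960 n1349 .nil)
noncomputable def n1351 : Strat := .win 1042 3 878
noncomputable def n1352 : Strat := .win 961 1 837
noncomputable def n1353 : Strat := .move 1001 n1351 (.cons 1042 n1352 .nil)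
noncomputable def n1354 : Strat := .move 960 n526 (.cons 797 n1353 .nil)
noncomputable def n1355 : Strat := .move 878 n82 (.cons 836 n790 .nil)
noncomputable def n1356 : Strat := .move 837 n1285 (.cons 796 n1355 .nil)
noncomputable def n1357 : Strat := .win 878 7 878
noncomputable def n1358 : Strat := .win 921 3 879
noncomputable def n1359 : Strat := .move 1043 n1357 (.cons 878 n1358 .nil)
noncomputable def n1360 : Strat := .move 1002 n132 (.cons 1042 n1359 .nil)
noncomputable def n1361 : Strat := .move 1001 n131 (.cons 960 n1360 .nil)
noncomputable def n1362 : Strat := .move 962 n130 (.cons 1003 n1361 .nil)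
noncomputable def n1363 : Strat := .move 962 n130 (.cons 1003 n1287 .nil)
noncomputable def n1364 : Strat := .move 1002 n1318 (.cons 1044 n1288 .nil)
noncomputable def n1365 : Strat := .move 1003 n1319 (.cons 962 n1364 .nil)
noncomputable def n1366 : Strat := .move 961 n1356 (.cons 837 n1362 (.cons 1002 n1363 (.cons 878 n1365 .nil)))
noncomputable def n1367 : Strat := .win 961 7 796
noncomputable def n1368 : Strat := .move 837 n1367 (.cons 961 n1286 .nil)
noncomputable def n1369 : Strat := .move 796 n1335 (.cons 755 n1368 .nil)
noncomputable def n1370 : Strat := .move 921 n361 (.cons 756 n1369 .nil)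
noncomputable def n1371 : Strat := .move 921 n1199 (.cons 962 n1369 .nil)
noncomputable def n1372 : Strat := .win 878 1 755
noncomputable def n1373 : Strat := .win 796 7 755
noncomputable def n1374 : Strat := .win 714 7 714
noncomputable def n1375 : Strat := .move 755 n1373 (.cons 796 n1374 .nil)
noncomputable def n1376 : Strat := .move 756 n1372 (.cons 878 n1375 .nil)
noncomputable def n1377 : Strat := .move 797 n1349 (.cons 962 n1370 (.cons 756 n1371 (.cons 921 n1376 .nil)))
noncomputable def n1378 : Strat := .move 838 n1350 (.cons 962 n1354 (.cons 797 n1366 (.cons 960 n1377 .nil)))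
noncomputable def n1379 : Strat := .move 920 n1091 (.cons 882 n1378 .nil)
noncomputable def n1380 : Strat := .move 919 n1311 (.cons 882 n1312 (.cons 838 n1313 (.cons 836 n1341 (.cons 920 n1344 (.cons 878 n1348 (.cons 918 n1379 .nil))))))
noncomputable def n1381 : Strat := .move 879 n1211 (.cons 883 n1212 (.cons 797 n1213 (.cons 838 n1218 (.cons 920 n1226 (.cons 878 n1230 (.cons 882 n1259 (.cons 919 n1295 (.cons 837 n1308 (.cons 839 n1380 .nil)))))))))
noncomputable def n1382 : Strat := .move 882 n121 (.cons 922 n1205 (.cons 923 n1110 .nil))
noncomputable def n1383 : Strat := .move 921 n78 (.cons 877 n738 .nil)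
noncomputable def n1384 : Strat := .move 922 n79 (.cons 923 n1383 .nil)
noncomputable def n1385 : Strat := .move 878 n1384 (.cons 922 n1258 .nil)
noncomputable def n1386 : Strat := .move 923 n70 (.cons 924 n534 .nil)
noncomputable def n1387 : Strat := .move 964 n74 (.cons 1005 n748 .nil)
noncomputable def n1388 : Strat := .move 922 n31 (.cons 878 n1387 .nil)
noncomputable def n1389 : Strat := .move 923 n70 (.cons 924 n1388 .nil)
noncomputable def n1390 : Strat := .move 923 n70 (.cons 924 n732 .nil)
noncomputable def n1391 : Strat := .move 882 n1386 (.cons 922 n1111 (.cons 838 n394 (.cons 836 n1389 (.cons 878 n1390 (.cons 924 n1110 .nil)))))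
noncomputable def n1392 : Strat := .move 962 n13 (.cons 1003 n503 .nil)
noncomputable def n1393 : Strat := .move 921 n65 (.cons 883 n1392 .nil)
noncomputable def n1394 : Strat := .move 920 n81 (.cons 919 n1393 .nil)
noncomputable def n1395 : Strat := .move 882 n124 (.cons 922 n1205 (.cons 799 n1394 .nil))
noncomputable def n1396 : Strat := .move 919 n106 (.cons 918 n1342 .nil)
noncomputable def n1397 : Strat := .move 837 n82 (.cons 836 n1396 .nil)
noncomputable def n1398 : Strat := .move 878 n1384 (.cons 922 n1397 .nil)
noncomputable def n1399 : Strat := .move 878 n1384 (.cons 922 n1217 .nil)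
noncomputable def n1400 : Strat := .move 921 n65 (.cons 883 n244 .nil)
noncomputable def n1401 : Strat := .move 920 n81 (.cons 919 n1400 .nil)
noncomputable def n1402 : Strat := .move 882 n121 (.cons 922 n1301 (.cons 924 n1401 .nil))
noncomputable def n1403 : Strat := .move 922 n279 (.cons 799 n787 .nil)
noncomputable def n1404 : Strat := .move 962 n13 (.cons 1003 n1403 .nil)
noncomputable def n1405 : Strat := .move 922 n29 (.cons 962 n787 .nil)
noncomputable def n1406 : Strat := .move 799 n12 (.cons 758 n1405 .nil)
noncomputable def n1407 : Strat := .move 923 n32 (.cons 924 n30 .nil)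
noncomputable def n1408 : Strat := .move 883 n58 (.cons 884 n43 .nil)
noncomputable def n1409 : Strat := .move 882 n83 (.cons 838 n1408 .nil)
noncomputable def n1410 : Strat := .move 837 n82 (.cons 836 n1409 .nil)
noncomputable def n1411 : Strat := .move 878 n78 (.cons 877 n1410 .nil)
noncomputable def n1412 : Strat := .move 922 n787 (.cons 878 n1407 (.cons 924 n786 (.cons 923 n1411 .nil)))
noncomputable def n1413 : Strat := .move 799 n12 (.cons 758 n1412 .nil)
noncomputable def n1414 : Strat := .move 961 n87 (.cons 960 n776 .nil)
noncomputable def n1415 : Strat := .move 920 n1155 (.cons 882 n1414 .nil)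
noncomputable def n1416 : Strat := .move 923 n32 (.cons 924 n1415 .nil)
noncomputable def n1417 : Strat := .move 797 n362 (.cons 920 n361 .nil)
noncomputable def n1418 : Strat := .move 838 n1219 (.cons 882 n1417 .nil)
noncomputable def n1419 : Strat := .move 837 n82 (.cons 836 n1418 .nil)
noncomputable def n1420 : Strat := .move 878 n78 (.cons 877 n1419 .nil)
noncomputable def n1421 : Strat := .move 922 n787 (.cons 878 n1416 (.cons 924 n786 (.cons 923 n1420 .nil)))
noncomputable def n1422 : Strat := .move 962 n13 (.cons 1003 n1421 .nil)
noncomputable def n1423 : Strat := .move 921 n1404 (.cons 922 n1294 (.cons 1003 n1406 (.cons 878 n244 (.cons 962 n1413 (.cons 799 n1422 .nil)))))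
noncomputable def n1424 : Strat := .move 879 n1382 (.cons 922 n1380 (.cons 882 n1385 (.cons 921 n1391 (.cons 878 n1395 (.cons 920 n1398 (.cons 838 n1399 (.cons 837 n1402 (.cons 919 n1423 .nil))))))))
noncomputable def n1425 : Strat := .win 839 4 836
noncomputable def n1426 : Strat := .move 877 n1425 (.cons 839 n270 .nil)
noncomputable def n1427 : Strat := .move 838 n1219 (.cons 882 n1426 .nil)
noncomputable def n1428 : Strat := .move 837 n82 (.cons 836 n1427 .nil)
noncomputable def n1429 : Strat := .move 882 n83 (.cons 838 n983 .nil)
noncomputable def n1430 : Strat := .move 837 n82 (.cons 836 n1429 .nil)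
noncomputable def n1431 : Strat := .move 878 n1428 (.cons 882 n271 (.cons 877 n1430 .nil))
noncomputable def n1432 : Strat := .move 756 n1253 (.cons 715 n1252 .nil)
noncomputable def n1433 : Strat := .move 755 n1251 (.cons 920 n1432 .nil)
noncomputable def n1434 : Strat := .win 713 7 713
noncomputable def n1435 : Strat := .win 795 7 754
noncomputable def n1436 : Strat := .move 754 n1434 (.cons 713 n1435 .nil)
noncomputable def n1437 : Strat := .move 755 n1253 (.cons 715 n1436 .nil)
noncomputable def n1438 : Strat := .move 756 n1252 (.cons 797 n1437 .nil)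
noncomputable def n1439 : Strat := .win 920 6 796
noncomputable def n1440 : Strat := .move 797 n1241 (.cons 838 n1232 .nil)
noncomputable def n1441 : Strat := .move 960 n799 (.cons 1002 n1440 .nil)
noncomputable def n1442 : Strat := .move 961 n1439 (.cons 920 n1441 .nil)
noncomputable def n1443 : Strat := .move 796 n1231 (.cons 961 n1433 (.cons 920 n1438 (.cons 755 n1442 .nil)))
noncomputable def n1444 : Strat := .move 922 n79 (.cons 923 n1443 .nil)
noncomputable def n1445 : Strat := .move 919 n106 (.cons 918 n1444 .nil)
noncomputable def n1446 : Strat := .move 837 n82 (.cons 836 n1445 .nil)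
noncomputable def n1447 : Strat := .move 878 n271 (.cons 919 n256 (.cons 839 n1446 .nil))
noncomputable def n1448 : Strat := .move 876 n348 (.cons 834 n262 .nil)
noncomputable def n1449 : Strat := .move 835 n349 (.cons 836 n1448 .nil)
noncomputable def n1450 : Strat := .move 882 n70 (.cons 924 n1449 .nil)
noncomputable def n1451 : Strat := .move 923 n114 (.cons 922 n1450 .nil)
noncomputable def n1452 : Strat := .move 877 n99 (.cons 839 n1451 .nil)
noncomputable def n1453 : Strat := .move 882 n70 (.cons 924 n391 .nil)
noncomputable def n1454 : Strat := .move 923 n114 (.cons 922 n1453 .nil)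
noncomputable def n1455 : Strat := .move 882 n70 (.cons 924 n1296 .nil)
noncomputable def n1456 : Strat := .move 923 n114 (.cons 922 n1455 .nil)
noncomputable def n1457 : Strat := .move 878 n271 (.cons 919 n1452 (.cons 917 n1454 (.cons 918 n1456 .nil)))
noncomputable def n1458 : Strat := .win 714 6 714
noncomputable def n1459 : Strat := .move 755 n1458 (.cons 714 n1251 .nil)
noncomputable def n1460 : Strat := .move 796 n1274 (.cons 795 n1459 .nil)
noncomputable def n1461 : Strat := .move 839 n1273 (.cons 877 n1460 .nil)
noncomputable def n1462 : Strat := .move 838 n1219 (.cons 882 n1461 .nil)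
noncomputable def n1463 : Strat := .move 837 n82 (.cons 836 n1462 .nil)
noncomputable def n1464 : Strat := .move 922 n1463 (.cons 837 n271 (.cons 877 n1397 .nil))
noncomputable def n1465 : Strat := .move 922 n271 (.cons 918 n256 (.cons 839 n1217 .nil))
noncomputable def n1466 : Strat := .move 919 n106 (.cons 918 n1443 .nil)
noncomputable def n1467 : Strat := .move 837 n82 (.cons 836 n1466 .nil)
noncomputable def n1468 : Strat := .move 922 n256 (.cons 836 n271 (.cons 839 n1467 .nil))
noncomputable def n1469 : Strat := .move 922 n256 (.cons 837 n271 (.cons 839 n1397 .nil))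
noncomputable def n1470 : Strat := .move 838 n476 (.cons 882 n1460 .nil)
noncomputable def n1471 : Strat := .move 837 n82 (.cons 836 n1470 .nil)
noncomputable def n1472 : Strat := .move 839 n141 (.cons 877 n1471 .nil)
noncomputable def n1473 : Strat := .move 882 n105 (.cons 920 n1078 .nil)
noncomputable def n1474 : Strat := .move 919 n106 (.cons 918 n1473 .nil)
noncomputable def n1475 : Strat := .move 963 n871 (.cons 1004 n1474 .nil)
noncomputable def n1476 : Strat := .move 839 n141 (.cons 877 n1475 .nil)
noncomputable def n1477 : Strat := .move 920 n569 (.cons 961 n568 .nil)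
noncomputable def n1478 : Strat := .win 838 2 795
noncomputable def n1479 : Strat := .move 795 n1234 (.cons 754 n1478 .nil)
noncomputable def n1480 : Strat := .move 796 n1477 (.cons 755 n1479 .nil)
noncomputable def n1481 : Strat := .move 919 n106 (.cons 918 n1480 .nil)
noncomputable def n1482 : Strat := .move 963 n871 (.cons 1004 n1481 .nil)
noncomputable def n1483 : Strat := .move 837 n82 (.cons 836 n1482 .nil)
noncomputable def n1484 : Strat := .move 839 n141 (.cons 877 n1483 .nil)
noncomputable def n1485 : Strat := .move 922 n1472 (.cons 837 n1476 (.cons 877 n1225 (.cons 882 n1484 (.cons 838 n1217 .nil))))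
noncomputable def n1486 : Strat := .move 920 n568 (.cons 755 n1367 .nil)
noncomputable def n1487 : Strat := .move 796 n1274 (.cons 795 n1486 .nil)
noncomputable def n1488 : Strat := .move 839 n1273 (.cons 877 n1487 .nil)
noncomputable def n1489 : Strat := .move 838 n1219 (.cons 882 n1488 .nil)
noncomputable def n1490 : Strat := .move 837 n82 (.cons 836 n1489 .nil)
noncomputable def n1491 : Strat := .move 878 n1464 (.cons 838 n1465 (.cons 882 n1468 (.cons 920 n1469 (.cons 917 n1485 (.cons 837 n271 (.cons 877 n1397 (.cons 918 n1490 .nil)))))))
noncomputable def n1492 : Strat := .win 962 2 919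
noncomputable def n1493 : Strat := .move 964 n1492 (.cons 962 n153 .nil)
noncomputable def n1494 : Strat := .move 961 n636 (.cons 1002 n1493 .nil)
noncomputable def n1495 : Strat := .move 920 n1091 (.cons 882 n1494 .nil)
noncomputable def n1496 : Strat := .move 919 n106 (.cons 918 n1495 .nil)
noncomputable def n1497 : Strat := .move 963 n871 (.cons 1004 n1496 .nil)
noncomputable def n1498 : Strat := .move 922 n79 (.cons 923 n1497 .nil)
noncomputable def n1499 : Strat := .move 839 n141 (.cons 877 n1498 .nil)
noncomputable def n1500 : Strat := .move 882 n70 (.cons 924 n256 .nil)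
noncomputable def n1501 : Strat := .move 923 n114 (.cons 922 n1500 .nil)
noncomputable def n1502 : Strat := .move 878 n1499 (.cons 923 n1465 (.cons 922 n271 (.cons 839 n1217 (.cons 918 n1501 .nil))))
noncomputable def n1503 : Strat := .move 923 n70 (.cons 924 n258 .nil)
noncomputable def n1504 : Strat := .move 839 n470 (.cons 883 n985 .nil)
noncomputable def n1505 : Strat := .move 838 n52 (.cons 837 n1504 .nil)
noncomputable def n1506 : Strat := .move 882 n453 (.cons 838 n1503 (.cons 837 n1299 (.cons 924 n1505 (.cons 839 n1111 .nil))))
noncomputable def n1507 : Strat := .win 875 5 834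
noncomputable def n1508 : Strat := .move 917 n261 (.cons 918 n260 .nil)
noncomputable def n1509 : Strat := .move 876 n1507 (.cons 875 n1508 .nil)
noncomputable def n1510 : Strat := .move 877 n1425 (.cons 839 n1509 .nil)
noncomputable def n1511 : Strat := .move 838 n1219 (.cons 882 n1510 .nil)
noncomputable def n1512 : Strat := .move 837 n82 (.cons 836 n1511 .nil)
noncomputable def n1513 : Strat := .move 882 n629 (.cons 837 n983 .nil)
noncomputable def n1514 : Strat := .move 839 n141 (.cons 877 n1513 .nil)
noncomputable def n1515 : Strat := .move 878 n1512 (.cons 837 n1452 (.cons 839 n1430 (.cons 882 n256 (.cons 836 n1514 .nil))))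
noncomputable def n1516 : Strat := .move 882 n1389 (.cons 922 n453 (.cons 924 n1505 .nil))
noncomputable def n1517 : Strat := .move 878 n1490 (.cons 837 n1456 (.cons 839 n1430 (.cons 838 n1501 (.cons 882 n256 .nil))))
noncomputable def n1518 : Strat := .move 799 n118 (.cons 758 n75 .nil)
noncomputable def n1519 : Strat := .move 923 n70 (.cons 924 n1518 .nil)
noncomputable def n1520 : Strat := .move 839 n470 (.cons 883 n1519 .nil)
noncomputable def n1521 : Strat := .move 838 n52 (.cons 837 n1520 .nil)
noncomputable def n1522 : Strat := .move 882 n81 (.cons 919 n1521 .nil)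
noncomputable def n1523 : Strat := .move 882 n81 (.cons 919 n1390 .nil)
noncomputable def n1524 : Strat := .move 925 n378 (.cons 926 n377 .nil)
noncomputable def n1525 : Strat := .move 884 n662 (.cons 844 n1524 .nil)
noncomputable def n1526 : Strat := .move 843 n661 (.cons 842 n1525 .nil)
noncomputable def n1527 : Strat := .move 883 n51 (.cons 839 n1526 .nil)
noncomputable def n1528 : Strat := .move 838 n52 (.cons 837 n1527 .nil)
noncomputable def n1529 : Strat := .move 882 n81 (.cons 919 n1528 .nil)
noncomputable def n1530 : Strat := .move 839 n636 (.cons 1002 n475 .nil)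
noncomputable def n1531 : Strat := .move 837 n1285 (.cons 796 n1530 .nil)
noncomputable def n1532 : Strat := .move 1003 n1319 (.cons 962 n1318 .nil)
noncomputable def n1533 : Strat := .move 1002 n89 (.cons 839 n1532 .nil)
noncomputable def n1534 : Strat := .win 839 0 836
noncomputable def n1535 : Strat := .move 836 n1268 (.cons 835 n1534 .nil)
noncomputable def n1536 : Strat := .move 837 n1285 (.cons 796 n1535 .nil)
noncomputable def n1537 : Strat := .win 963 2 918
noncomputable def n1538 : Strat := .win 917 0 917
noncomputable def n1539 : Strat := .move 918 n1537 (.cons 963 n1538 .nil)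
noncomputable def n1540 : Strat := .move 962 n130 (.cons 1003 n1539 .nil)
noncomputable def n1541 : Strat := .move 919 n526 (.cons 797 n1540 .nil)
noncomputable def n1542 : Strat := .move 960 n299 (.cons 1001 n1541 .nil)
noncomputable def n1543 : Strat := .move 838 n1531 (.cons 837 n1533 (.cons 1002 n1536 (.cons 839 n1542 .nil)))
noncomputable def n1544 : Strat := .move 919 n526 (.cons 797 n1539 .nil)
noncomputable def n1545 : Strat := .move 962 n130 (.cons 1003 n1544 .nil)
noncomputable def n1546 : Strat := .move 960 n299 (.cons 1001 n1545 .nil)
noncomputable def n1547 : Strat := .move 838 n1536 (.cons 837 n1546 .nil)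
noncomputable def n1548 : Strat := .win 964 4 960
noncomputable def n1549 : Strat := .win 922 1 839
noncomputable def n1550 : Strat := .move 962 n1548 (.cons 964 n1549 .nil)
noncomputable def n1551 : Strat := .win 1000 5 959
noncomputable def n1552 : Strat := .move 962 n1551 (.cons 1000 n1548 .nil)
noncomputable def n1553 : Strat := .move 962 n1551 (.cons 1000 n1549 .nil)
noncomputable def n1554 : Strat := .win 964 5 960
noncomputable def n1555 : Strat := .win 959 2 959
noncomputable def n1556 : Strat := .win 1005 2 960
noncomputable def n1557 : Strat := .move 960 n1555 (.cons 959 n1556 .nil)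
noncomputable def n1558 : Strat := .move 1004 n1554 (.cons 964 n1557 .nil)
noncomputable def n1559 : Strat := .move 963 n1550 (.cons 922 n1552 (.cons 964 n1553 (.cons 962 n1558 .nil)))
noncomputable def n1560 : Strat := .move 1001 n132 (.cons 1042 n1559 .nil)
noncomputable def n1561 : Strat := .move 1003 n1318 (.cons 1044 n1560 .nil)
noncomputable def n1562 : Strat := .move 1002 n89 (.cons 839 n1561 .nil)
noncomputable def n1563 : Strat := .win 838 6 838
noncomputable def n1564 : Strat := .win 965 4 961
noncomputable def n1565 : Strat := .move 964 n1564 (.cons 965 n559 .nil)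
noncomputable def n1566 : Strat := .move 963 n1549 (.cons 922 n1565 .nil)
noncomputable def n1567 : Strat := .move 962 n1563 (.cons 838 n1566 .nil)
noncomputable def n1568 : Strat := .move 1003 n1318 (.cons 1044 n1567 .nil)
noncomputable def n1569 : Strat := .move 1002 n89 (.cons 839 n1568 .nil)
noncomputable def n1570 : Strat := .win 838 1 837
noncomputable def n1571 : Strat := .win 1004 2 959
noncomputable def n1572 : Strat := .win 958 0 958
noncomputable def n1573 : Strat := .move 959 n1571 (.cons 1004 n1572 .nil)
noncomputable def n1574 : Strat := .move 960 n1570 (.cons 838 n1573 .nil)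
noncomputable def n1575 : Strat := .move 1003 n1318 (.cons 1044 n1574 .nil)
noncomputable def n1576 : Strat := .move 1001 n132 (.cons 1042 n1575 .nil)
noncomputable def n1577 : Strat := .move 1002 n89 (.cons 839 n1576 .nil)
noncomputable def n1578 : Strat := .move 838 n131 (.cons 960 n1319 .nil)
noncomputable def n1579 : Strat := .move 1001 n132 (.cons 1042 n1578 .nil)
noncomputable def n1580 : Strat := .move 1002 n1318 (.cons 1044 n1579 .nil)
noncomputable def n1581 : Strat := .move 1001 n132 (.cons 1042 n1574 .nil)
noncomputable def n1582 : Strat := .move 1002 n1318 (.cons 1044 n1581 .nil)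
noncomputable def n1583 : Strat := .move 1002 n1318 (.cons 1044 n1560 .nil)
noncomputable def n1584 : Strat := .move 1002 n1318 (.cons 1044 n1567 .nil)
noncomputable def n1585 : Strat := .win 960 2 918
noncomputable def n1586 : Strat := .move 918 n1585 (.cons 960 n1538 .nil)
noncomputable def n1587 : Strat := .move 919 n684 (.cons 964 n1586 .nil)
noncomputable def n1588 : Strat := .move 963 n1549 (.cons 922 n1587 .nil)
noncomputable def n1589 : Strat := .move 962 n1563 (.cons 838 n1588 .nil)
noncomputable def n1590 : Strat := .move 1003 n1580 (.cons 962 n1582 (.cons 838 n1583 (.cons 1001 n1584 (.cons 1002 n1589 .nil))))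
noncomputable def n1591 : Strat := .win 1001 1 878
noncomputable def n1592 : Strat := .win 1083 1 919
noncomputable def n1593 : Strat := .move 1042 n1591 (.cons 1001 n1592 .nil)
noncomputable def n1594 : Strat := .win 1044 6 920
noncomputable def n1595 : Strat := .win 1126 6 961
noncomputable def n1596 : Strat := .win 919 7 919
noncomputable def n1597 : Strat := .win 1125 7 960
noncomputable def n1598 : Strat := .move 1001 n1597 (.cons 1125 n1570 .nil)
noncomputable def n1599 : Strat := .move 960 n1596 (.cons 919 n1598 .nil)
noncomputable def n1600 : Strat := .move 1084 n1595 (.cons 1126 n1599 .nil)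
noncomputable def n1601 : Strat := .move 1085 n1594 (.cons 1044 n1600 .nil)
noncomputable def n1602 : Strat := .win 1042 1 919
noncomputable def n1603 : Strat := .win 1124 1 960
noncomputable def n1604 : Strat := .move 1085 n1595 (.cons 1126 n1594 .nil)
noncomputable def n1605 : Strat := .move 1084 n1603 (.cons 1124 n1604 .nil)
noncomputable def n1606 : Strat := .move 1083 n1602 (.cons 1042 n1605 .nil)
noncomputable def n1607 : Strat := .move 1043 n1593 (.cons 1042 n1601 (.cons 1001 n1606 .nil))
noncomputable def n1608 : Strat := .move 1002 n89 (.cons 839 n1607 .nil)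
noncomputable def n1609 : Strat := .move 961 n1543 (.cons 1002 n1547 (.cons 838 n1562 (.cons 1001 n1569 (.cons 962 n1577 (.cons 839 n1590 (.cons 1003 n1608 .nil))))))
noncomputable def n1610 : Strat := .move 1003 n1318 (.cons 1044 n1579 .nil)
noncomputable def n1611 : Strat := .move 1002 n89 (.cons 839 n1610 .nil)
noncomputable def n1612 : Strat := .move 837 n1219 (.cons 882 n1285 .nil)
noncomputable def n1613 : Strat := .move 1001 n131 (.cons 960 n132 .nil)
noncomputable def n1614 : Strat := .move 1002 n1318 (.cons 1044 n1613 .nil)
noncomputable def n1615 : Strat := .move 1003 n1319 (.cons 962 n1614 .nil)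
noncomputable def n1616 : Strat := .move 838 n1612 (.cons 837 n1615 .nil)
noncomputable def n1617 : Strat := .win 963 5 959
noncomputable def n1618 : Strat := .win 999 5 958
noncomputable def n1619 : Strat := .move 962 n1617 (.cons 963 n1618 .nil)
noncomputable def n1620 : Strat := .win 960 2 959
noncomputable def n1621 : Strat := .win 958 2 958
noncomputable def n1622 : Strat := .move 959 n1620 (.cons 960 n1621 .nil)
noncomputable def n1623 : Strat := .win 962 5 959
noncomputable def n1624 : Strat := .move 963 n1554 (.cons 964 n1623 .nil)
noncomputable def n1625 : Strat := .move 1004 n1557 (.cons 1005 n1622 (.cons 959 n1624 .nil))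
noncomputable def n1626 : Strat := .win 962 5 958
noncomputable def n1627 : Strat := .win 957 2 957
noncomputable def n1628 : Strat := .win 959 2 958
noncomputable def n1629 : Strat := .move 958 n1627 (.cons 957 n1628 .nil)
noncomputable def n1630 : Strat := .move 999 n1626 (.cons 962 n1629 .nil)
noncomputable def n1631 : Strat := .win 1039 4 998
noncomputable def n1632 : Strat := .win 1041 4 999
noncomputable def n1633 : Strat := .move 1040 n1631 (.cons 1039 n1632 .nil)
noncomputable def n1634 : Strat := .move 999 n1629 (.cons 959 n1633 .nil)
noncomputable def n1635 : Strat := .move 1000 n1619 (.cons 999 n1625 (.cons 963 n1630 (.cons 962 n1634 .nil)))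
noncomputable def n1636 : Strat := .move 1001 n132 (.cons 1042 n1635 .nil)
noncomputable def n1637 : Strat := .move 1003 n1318 (.cons 1044 n1636 .nil)
noncomputable def n1638 : Strat := .move 1002 n89 (.cons 839 n1637 .nil)
noncomputable def n1639 : Strat := .move 837 n476 (.cons 882 n1285 .nil)
noncomputable def n1640 : Strat := .move 837 n1285 (.cons 796 n475 .nil)
noncomputable def n1641 : Strat := .move 882 n470 (.cons 883 n1519 .nil)
noncomputable def n1642 : Strat := .move 838 n1639 (.cons 796 n471 (.cons 882 n1640 (.cons 837 n1641 .nil)))
noncomputable def n1643 : Strat := .move 839 n636 (.cons 1002 n1642 .nil)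
noncomputable def n1644 : Strat := .move 838 n130 (.cons 1003 n1612 .nil)
noncomputable def n1645 : Strat := .move 838 n130 (.cons 1003 n1536 .nil)
noncomputable def n1646 : Strat := .move 924 n54 (.cons 925 n53 .nil)
noncomputable def n1647 : Strat := .move 883 n51 (.cons 839 n1646 .nil)
noncomputable def n1648 : Strat := .move 882 n52 (.cons 837 n1647 .nil)
noncomputable def n1649 : Strat := .move 838 n130 (.cons 1003 n1648 .nil)
noncomputable def n1650 : Strat := .move 838 n52 (.cons 837 n123 .nil)
noncomputable def n1651 : Strat := .move 882 n70 (.cons 924 n1650 .nil)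
noncomputable def n1652 : Strat := .move 924 n673 (.cons 964 n37 .nil)
noncomputable def n1653 : Strat := .move 922 n482 (.cons 960 n1652 .nil)
noncomputable def n1654 : Strat := .move 1005 n176 (.cons 1006 n177 .nil)
noncomputable def n1655 : Strat := .move 1001 n185 (.cons 1000 n1570 .nil)
noncomputable def n1656 : Strat := .move 960 n1654 (.cons 1004 n1655 .nil)
noncomputable def n1657 : Strat := .move 964 n838 (.cons 924 n1656 .nil)
noncomputable def n1658 : Strat := .move 960 n1142 (.cons 922 n1655 .nil)
noncomputable def n1659 : Strat := .move 922 n153 (.cons 1005 n748 .nil)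
noncomputable def n1660 : Strat := .move 964 n838 (.cons 924 n1659 .nil)
noncomputable def n1661 : Strat := .move 963 n1653 (.cons 922 n1657 (.cons 964 n1658 (.cons 960 n1660 .nil)))
noncomputable def n1662 : Strat := .move 964 n74 (.cons 1005 n971 .nil)
noncomputable def n1663 : Strat := .move 882 n70 (.cons 924 n1662 .nil)
noncomputable def n1664 : Strat := .move 960 n825 (.cons 963 n299 .nil)
noncomputable def n1665 : Strat := .move 799 n30 (.cons 964 n118 .nil)
noncomputable def n1666 : Strat := .move 922 n1664 (.cons 1001 n1665 .nil)
noncomputable def n1667 : Strat := .move 838 n52 (.cons 837 n1666 .nil)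
noncomputable def n1668 : Strat := .move 882 n70 (.cons 924 n1667 .nil)
noncomputable def n1669 : Strat := .move 837 n1285 (.cons 796 n1219 .nil)
noncomputable def n1670 : Strat := .move 838 n299 (.cons 1001 n1669 .nil)
noncomputable def n1671 : Strat := .move 963 n1142 (.cons 922 n1655 .nil)
noncomputable def n1672 : Strat := .win 882 7 840
noncomputable def n1673 : Strat := .move 964 n176 (.cons 1006 n1672 .nil)
noncomputable def n1674 : Strat := .move 1005 n177 (.cons 1004 n1673 .nil)
noncomputable def n1675 : Strat := .move 963 n1142 (.cons 922 n1674 .nil)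
noncomputable def n1676 : Strat := .move 960 n1670 (.cons 796 n1671 (.cons 838 n1675 .nil))
noncomputable def n1677 : Strat := .move 882 n70 (.cons 924 n52 .nil)
noncomputable def n1678 : Strat := .move 836 n1534 (.cons 839 n1268 .nil)
noncomputable def n1679 : Strat := .move 837 n1285 (.cons 796 n1678 .nil)
noncomputable def n1680 : Strat := .move 924 n37 (.cons 925 n996 .nil)
noncomputable def n1681 : Strat := .move 922 n825 (.cons 963 n1680 .nil)
noncomputable def n1682 : Strat := .move 960 n299 (.cons 1001 n1681 .nil)
noncomputable def n1683 : Strat := .move 838 n1677 (.cons 924 n1612 (.cons 882 n1679 (.cons 837 n1682 .nil)))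
noncomputable def n1684 : Strat := .move 882 n70 (.cons 924 n74 .nil)
noncomputable def n1685 : Strat := .move 963 n838 (.cons 924 n1656 .nil)
noncomputable def n1686 : Strat := .win 963 5 920
noncomputable def n1687 : Strat := .move 924 n996 (.cons 882 n1686 .nil)
noncomputable def n1688 : Strat := .move 963 n177 (.cons 1004 n176 .nil)
noncomputable def n1689 : Strat := .move 1005 n1672 (.cons 882 n1688 .nil)
noncomputable def n1690 : Strat := .move 963 n1654 (.cons 1004 n1655 .nil)
noncomputable def n1691 : Strat := .move 960 n1670 (.cons 838 n1689 (.cons 882 n1690 .nil))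
noncomputable def n1692 : Strat := .move 964 n1684 (.cons 882 n1685 (.cons 1005 n1687 (.cons 924 n1691 .nil)))
noncomputable def n1693 : Strat := .move 923 n1651 (.cons 882 n1661 (.cons 838 n1663 (.cons 1005 n1668 (.cons 924 n1676 (.cons 964 n1683 (.cons 922 n1692 .nil))))))
noncomputable def n1694 : Strat := .move 923 n482 (.cons 960 n1680 .nil)
noncomputable def n1695 : Strat := .move 963 n151 (.cons 1003 n1694 .nil)
noncomputable def n1696 : Strat := .move 960 n177 (.cons 1004 n485 .nil)
noncomputable def n1697 : Strat := .move 1005 n164 (.cons 964 n1696 .nil)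
noncomputable def n1698 : Strat := .win 960 0 960
noncomputable def n1699 : Strat := .move 1004 n1698 (.cons 960 n156 .nil)
noncomputable def n1700 : Strat := .move 1005 n164 (.cons 964 n1699 .nil)
noncomputable def n1701 : Strat := .move 923 n838 (.cons 924 n748 .nil)
noncomputable def n1702 : Strat := .move 964 n153 (.cons 1005 n1701 .nil)
noncomputable def n1703 : Strat := .move 963 n1694 (.cons 924 n1697 (.cons 923 n1700 (.cons 960 n1702 .nil)))
noncomputable def n1704 : Strat := .move 963 n151 (.cons 1003 n1700 .nil)
noncomputable def n1705 : Strat := .move 963 n151 (.cons 1003 n1702 .nil)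
noncomputable def n1706 : Strat := .move 923 n30 (.cons 964 n1680 .nil)
noncomputable def n1707 : Strat := .move 882 n118 (.cons 758 n70 .nil)
noncomputable def n1708 : Strat := .move 923 n30 (.cons 964 n1707 .nil)
noncomputable def n1709 : Strat := .move 759 n18 (.cons 718 n754 .nil)
noncomputable def n1710 : Strat := .move 718 n3 (.cons 677 n2 .nil)
noncomputable def n1711 : Strat := .move 717 n1 (.cons 839 n1710 .nil)
noncomputable def n1712 : Strat := .move 717 n8 (.cons 675 n1 .nil)
noncomputable def n1713 : Strat := .move 716 n7 (.cons 757 n1712 .nil)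
noncomputable def n1714 : Strat := .move 758 n1709 (.cons 800 n1711 (.cons 718 n1713 .nil))
noncomputable def n1715 : Strat := .move 799 n1706 (.cons 925 n1708 (.cons 882 n1714 .nil))
noncomputable def n1716 : Strat := .move 922 n1695 (.cons 1003 n1703 (.cons 923 n1704 (.cons 960 n1705 (.cons 963 n1715 .nil))))
noncomputable def n1717 : Strat := .move 962 n1644 (.cons 882 n1645 (.cons 796 n1649 (.cons 1003 n1693 (.cons 838 n1716 .nil))))
noncomputable def n1718 : Strat := .move 961 n1611 (.cons 839 n1616 (.cons 838 n1638 (.cons 1042 n1643 (.cons 1002 n1717 .nil))))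
noncomputable def n1719 : Strat := .move 920 n1522 (.cons 838 n1523 (.cons 923 n1529 (.cons 882 n1609 (.cons 919 n1718 .nil))))
noncomputable def n1720 : Strat := .move 879 n1431 (.cons 882 n1447 (.cons 837 n1457 (.cons 839 n1391 (.cons 923 n1491 (.cons 838 n1502 (.cons 922 n1506 (.cons 919 n1515 (.cons 836 n1516 (.cons 918 n1517 (.cons 878 n1719 .nil))))))))))
noncomputable def n1721 : Strat := .move 921 n12 (.cons 758 n111 .nil)
noncomputable def n1722 : Strat := .move 921 n12 (.cons 758 n1121 .nil)
noncomputable def n1723 : Strat := .win 882 6 758
noncomputable def n1724 : Strat := .move 923 n1723 (.cons 882 n30 .nil)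
noncomputable def n1725 : Strat := .move 758 n0 (.cons 921 n1724 .nil)
noncomputable def n1726 : Strat := .move 758 n0 (.cons 921 n1709 .nil)
noncomputable def n1727 : Strat := .move 758 n1723 (.cons 882 n1709 .nil)
noncomputable def n1728 : Strat := .move 923 n30 (.cons 964 n1727 .nil)
noncomputable def n1729 : Strat := .move 879 n996 (.cons 882 n762 .nil)
noncomputable def n1730 : Strat := .move 924 n37 (.cons 925 n1729 .nil)
noncomputable def n1731 : Strat := .move 923 n30 (.cons 964 n1730 .nil)
noncomputable def n1732 : Strat := .move 922 n1725 (.cons 923 n1726 (.cons 921 n1728 (.cons 758 n1731 .nil)))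
noncomputable def n1733 : Strat := .move 758 n5 (.cons 717 n27 (.cons 759 n10 .nil))
noncomputable def n1734 : Strat := .move 922 n756 (.cons 759 n758 (.cons 921 n761 (.cons 758 n765 .nil)))
noncomputable def n1735 : Strat := .move 921 n47 (.cons 920 n63 (.cons 922 n64 (.cons 884 n69 (.cons 883 n110 .nil))))
noncomputable def n1736 : Strat := .move 879 n72 (.cons 964 n1197 .nil)
noncomputable def n1737 : Strat := .move 921 n1098 (.cons 920 n1103 (.cons 922 n64 (.cons 839 n1104 (.cons 838 n47 (.cons 884 n69 (.cons 883 n1120 .nil))))))
noncomputable def n1738 : Strat := .move 879 n1262 (.cons 839 n1263 (.cons 920 n453 (.cons 883 n371 .nil)))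
noncomputable def n1739 : Strat := .move 878 n82 (.cons 836 n395 .nil)
noncomputable def n1740 : Strat := .move 837 n83 (.cons 838 n1739 .nil)
noncomputable def n1741 : Strat := .move 879 n72 (.cons 923 n1740 (.cons 922 n371 (.cons 878 n76 .nil)))
noncomputable def n1742 : Strat := .move 921 n47 (.cons 922 n1738 (.cons 920 n63 (.cons 839 n459 (.cons 883 n1741 .nil))))
noncomputable def n1743 : Strat := .move 883 n667 (.cons 921 n895 .nil)
noncomputable def n1744 : Strat := .move 920 n81 (.cons 919 n1743 .nil)
noncomputable def n1745 : Strat := .move 922 n31 (.cons 878 n1744 .nil)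
noncomputable def n1746 : Strat := .move 879 n70 (.cons 924 n1745 .nil)
noncomputable def n1747 : Strat := .move 883 n43 (.cons 920 n60 .nil)
noncomputable def n1748 : Strat := .move 842 n656 (.cons 801 n382 .nil)
noncomputable def n1749 : Strat := .move 924 n54 (.cons 925 n1748 .nil)
noncomputable def n1750 : Strat := .move 883 n43 (.cons 920 n1749 .nil)
noncomputable def n1751 : Strat := .move 883 n54 (.cons 925 n1748 .nil)
noncomputable def n1752 : Strat := .move 924 n59 (.cons 879 n1751 .nil)
noncomputable def n1753 : Strat := .move 920 n81 (.cons 919 n65 .nil)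
noncomputable def n1754 : Strat := .move 879 n70 (.cons 924 n1753 .nil)
noncomputable def n1755 : Strat := .move 837 n83 (.cons 838 n705 .nil)
noncomputable def n1756 : Strat := .move 919 n105 (.cons 920 n1755 .nil)
noncomputable def n1757 : Strat := .move 879 n70 (.cons 924 n1756 .nil)
noncomputable def n1758 : Strat := .move 919 n67 (.cons 879 n66 .nil)
noncomputable def n1759 : Strat := .move 920 n65 (.cons 883 n1758 .nil)
noncomputable def n1760 : Strat := .move 921 n1747 (.cons 879 n1750 (.cons 920 n1752 (.cons 925 n1754 (.cons 883 n1757 (.cons 924 n1759 .nil)))))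
noncomputable def n1761 : Strat := .move 964 n74 (.cons 1005 n1760 .nil)
noncomputable def n1762 : Strat := .move 923 n75 (.cons 964 n1746 (.cons 922 n1761 .nil))
noncomputable def n1763 : Strat := .move 923 n59 (.cons 879 n75 .nil)
noncomputable def n1764 : Strat := .move 924 n54 (.cons 925 n1763 .nil)
noncomputable def n1765 : Strat := .move 884 n44 (.cons 839 n663 .nil)
noncomputable def n1766 : Strat := .move 883 n380 (.cons 884 n1764 (.cons 924 n1765 .nil))
noncomputable def n1767 : Strat := .move 921 n72 (.cons 878 n76 (.cons 964 n94 (.cons 924 n98 (.cons 923 n104 (.cons 922 n109 .nil)))))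
noncomputable def n1768 : Strat := .move 921 n94 (.cons 919 n117 (.cons 878 n1108 (.cons 922 n1111 (.cons 924 n1116 (.cons 837 n1119 (.cons 923 n104 .nil))))))
noncomputable def n1769 : Strat := .move 879 n1767 (.cons 837 n72 (.cons 878 n76 (.cons 964 n1768 (.cons 924 n109 .nil))))
noncomputable def n1770 : Strat := .move 883 n723 (.cons 884 n670 (.cons 921 n50 (.cons 839 n665 .nil)))
noncomputable def n1771 : Strat := .move 839 n48 (.cons 838 n962 .nil)
noncomputable def n1772 : Strat := .move 921 n43 (.cons 920 n1771 .nil)
noncomputable def n1773 : Strat := .move 883 n723 (.cons 884 n1772 (.cons 921 n50 (.cons 839 n944 .nil)))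
noncomputable def n1774 : Strat := .move 921 n43 (.cons 920 n50 .nil)
noncomputable def n1775 : Strat := .move 921 n43 (.cons 920 n388 .nil)
noncomputable def n1776 : Strat := .move 883 n1774 (.cons 839 n1775 (.cons 921 n50 .nil))
noncomputable def n1777 : Strat := .move 882 n1735 (.cons 884 n1736 (.cons 964 n1737 (.cons 919 n1742 (.cons 839 n1762 (.cons 838 n1766 (.cons 883 n1769 (.cons 924 n1770 (.cons 879 n1773 (.cons 922 n1776 .nil)))))))))
noncomputable def n1778 : Strat := .move 799 n1721 (.cons 964 n1722 (.cons 878 n1732 (.cons 921 n1733 (.cons 882 n1734 (.cons 922 n6 (.cons 758 n1777 .nil))))))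
noncomputable def n1779 : Strat := .move 801 n22 (.cons 802 n21 .nil)
noncomputable def n1780 : Strat := .move 757 n19 (.cons 716 n1779 .nil)
noncomputable def n1781 : Strat := .move 800 n20 (.cons 922 n1780 .nil)
noncomputable def n1782 : Strat := .move 759 n18 (.cons 718 n1781 .nil)
noncomputable def n1783 : Strat := .move 758 n863 (.cons 717 n1782 .nil)
noncomputable def n1784 : Strat := .move 838 n475 (.cons 836 n476 .nil)
noncomputable def n1785 : Strat := .move 838 n476 (.cons 882 n869 .nil)
noncomputable def n1786 : Strat := .move 838 n475 (.cons 836 n869 .nil)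
noncomputable def n1787 : Strat := .move 879 n141 (.cons 877 n82 .nil)
noncomputable def n1788 : Strat := .move 920 n1091 (.cons 882 n1187 .nil)
noncomputable def n1789 : Strat := .move 919 n106 (.cons 918 n1788 .nil)
noncomputable def n1790 : Strat := .move 879 n82 (.cons 836 n1789 .nil)
noncomputable def n1791 : Strat := .move 922 n427 (.cons 882 n436 .nil)
noncomputable def n1792 : Strat := .move 920 n66 (.cons 918 n1791 .nil)
noncomputable def n1793 : Strat := .move 882 n509 (.cons 922 n65 .nil)
noncomputable def n1794 : Strat := .move 920 n66 (.cons 918 n1793 .nil)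
noncomputable def n1795 : Strat := .win 877 1 754
noncomputable def n1796 : Strat := .win 959 1 795
noncomputable def n1797 : Strat := .move 918 n1795 (.cons 877 n1796 .nil)
noncomputable def n1798 : Strat := .move 755 n1797 (.cons 959 n1432 .nil)
noncomputable def n1799 : Strat := .win 918 1 795
noncomputable def n1800 : Strat := .move 959 n1325 (.cons 1000 n1799 .nil)
noncomputable def n1801 : Strat := .win 836 7 795
noncomputable def n1802 : Strat := .move 795 n1801 (.cons 836 n1234 .nil)
noncomputable def n1803 : Strat := .move 960 n1800 (.cons 918 n1802 .nil)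
noncomputable def n1804 : Strat := .move 755 n1432 (.cons 797 n1436 .nil)
noncomputable def n1805 : Strat := .move 796 n1798 (.cons 755 n1803 (.cons 959 n1804 .nil))
noncomputable def n1806 : Strat := .move 963 n428 (.cons 964 n871 .nil)
noncomputable def n1807 : Strat := .move 922 n436 (.cons 877 n1806 .nil)
noncomputable def n1808 : Strat := .win 960 6 837
noncomputable def n1809 : Strat := .move 1002 n88 (.cons 1043 n1808 .nil)
noncomputable def n1810 : Strat := .move 961 n800 (.cons 796 n1809 .nil)
noncomputable def n1811 : Strat := .move 920 n1791 (.cons 877 n1793 (.cons 882 n1807 (.cons 922 n1810 .nil)))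
noncomputable def n1812 : Strat := .move 919 n1792 (.cons 877 n1794 (.cons 920 n1805 (.cons 918 n1811 .nil)))
noncomputable def n1813 : Strat := .move 879 n141 (.cons 877 n1789 .nil)
noncomputable def n1814 : Strat := .move 878 n1787 (.cons 877 n1790 (.cons 879 n1812 (.cons 836 n1813 .nil)))
noncomputable def n1815 : Strat := .move 837 n1784 (.cons 836 n1785 (.cons 882 n1786 (.cons 838 n1814 .nil)))
noncomputable def n1816 : Strat := .move 921 n713 (.cons 962 n1815 .nil)
noncomputable def n1817 : Strat := .move 839 n867 (.cons 921 n1783 (.cons 758 n1816 .nil))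
noncomputable def n1818 : Strat := .move 839 n863 (.cons 717 n1782 .nil)
noncomputable def n1819 : Strat := .move 758 n1818 (.cons 717 n26 (.cons 922 n5 (.cons 718 n10 .nil)))
noncomputable def n1820 : Strat := .move 921 n43 (.cons 920 n15 .nil)
noncomputable def n1821 : Strat := .move 883 n50 (.cons 884 n1820 .nil)
noncomputable def n1822 : Strat := .move 839 n863 (.cons 717 n629 .nil)
noncomputable def n1823 : Strat := .move 758 n0 (.cons 921 n1822 .nil)
noncomputable def n1824 : Strat := .move 884 n662 (.cons 844 n379 .nil)
noncomputable def n1825 : Strat := .move 843 n661 (.cons 842 n1824 .nil)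
noncomputable def n1826 : Strat := .move 839 n48 (.cons 838 n985 .nil)
noncomputable def n1827 : Strat := .move 878 n391 (.cons 920 n399 .nil)
noncomputable def n1828 : Strat := .move 879 n1160 (.cons 837 n1826 (.cons 838 n1827 (.cons 839 n1110 .nil)))
noncomputable def n1829 : Strat := .move 842 n382 (.cons 843 n1828 .nil)
noncomputable def n1830 : Strat := .move 924 n54 (.cons 925 n1829 .nil)
noncomputable def n1831 : Strat := .move 883 n50 (.cons 839 n1825 (.cons 884 n1830 .nil))
noncomputable def n1832 : Strat := .move 882 n16 (.cons 758 n1821 (.cons 962 n1823 (.cons 921 n1831 .nil)))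
noncomputable def n1833 : Strat := .move 920 n1091 (.cons 882 n598 .nil)
noncomputable def n1834 : Strat := .move 919 n106 (.cons 918 n1833 .nil)
noncomputable def n1835 : Strat := .move 919 n106 (.cons 918 n1310 .nil)
noncomputable def n1836 : Strat := .move 878 n101 (.cons 922 n271 (.cons 839 n1834 (.cons 877 n1835 .nil)))
noncomputable def n1837 : Strat := .move 921 n15 (.cons 962 n1836 (.cons 922 n42 .nil))
noncomputable def n1838 : Strat := .move 878 n101 (.cons 877 n1835 .nil)
noncomputable def n1839 : Strat := .move 921 n15 (.cons 962 n1838 (.cons 922 n42 .nil))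
noncomputable def n1840 : Strat := .move 884 n1524 (.cons 924 n894 .nil)
noncomputable def n1841 : Strat := .move 883 n51 (.cons 839 n1840 .nil)
noncomputable def n1842 : Strat := .move 838 n52 (.cons 837 n1841 .nil)
noncomputable def n1843 : Strat := .move 882 n81 (.cons 919 n1842 .nil)
noncomputable def n1844 : Strat := .move 882 n52 (.cons 837 n1841 .nil)
noncomputable def n1845 : Strat := .move 961 n130 (.cons 1003 n1612 .nil)
noncomputable def n1846 : Strat := .move 838 n1844 (.cons 837 n135 (.cons 839 n1845 .nil))
noncomputable def n1847 : Strat := .move 963 n1585 (.cons 960 n684 .nil)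
noncomputable def n1848 : Strat := .move 960 n1537 (.cons 963 n526 .nil)
noncomputable def n1849 : Strat := .move 838 n130 (.cons 1003 n1848 .nil)
noncomputable def n1850 : Strat := .move 963 n684 (.cons 964 n1549 .nil)
noncomputable def n1851 : Strat := .move 1003 n1563 (.cons 838 n1850 .nil)
noncomputable def n1852 : Strat := .move 838 n130 (.cons 1003 n1324 .nil)
noncomputable def n1853 : Strat := .move 961 n1847 (.cons 964 n1849 (.cons 960 n1851 (.cons 963 n1852 .nil)))
noncomputable def n1854 : Strat := .move 918 n1345 (.cons 917 n1853 .nil)
noncomputable def n1855 : Strat := .move 919 n1091 (.cons 882 n1854 .nil)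
noncomputable def n1856 : Strat := .move 838 n130 (.cons 1003 n1679 .nil)
noncomputable def n1857 : Strat := .move 963 n178 (.cons 918 n684 .nil)
noncomputable def n1858 : Strat := .move 919 n526 (.cons 797 n1857 .nil)
noncomputable def n1859 : Strat := .move 960 n299 (.cons 1001 n1858 .nil)
noncomputable def n1860 : Strat := .move 838 n130 (.cons 1003 n1859 .nil)
noncomputable def n1861 : Strat := .move 960 n185 (.cons 1000 n1570 .nil)
noncomputable def n1862 : Strat := .move 963 n1548 (.cons 964 n1861 .nil)
noncomputable def n1863 : Strat := .move 1001 n132 (.cons 1042 n1862 .nil)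
noncomputable def n1864 : Strat := .move 1002 n89 (.cons 839 n1863 .nil)
noncomputable def n1865 : Strat := .move 964 n193 (.cons 1001 n559 .nil)
noncomputable def n1866 : Strat := .move 963 n1549 (.cons 922 n1865 .nil)
noncomputable def n1867 : Strat := .move 1003 n1318 (.cons 1044 n1866 .nil)
noncomputable def n1868 : Strat := .move 1002 n89 (.cons 839 n1867 .nil)
noncomputable def n1869 : Strat := .move 961 n1856 (.cons 839 n1860 (.cons 1003 n1864 (.cons 838 n1868 .nil)))
noncomputable def n1870 : Strat := .move 918 n1538 (.cons 917 n1847 .nil)
noncomputable def n1871 : Strat := .move 1001 n185 (.cons 1000 n1351 .nil)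
noncomputable def n1872 : Strat := .move 960 n178 (.cons 918 n1871 .nil)
noncomputable def n1873 : Strat := .move 963 n684 (.cons 964 n1872 .nil)
noncomputable def n1874 : Strat := .win 918 0 917
noncomputable def n1875 : Strat := .move 1002 n1318 (.cons 1044 n89 .nil)
noncomputable def n1876 : Strat := .move 1003 n1850 (.cons 922 n1875 .nil)
noncomputable def n1877 : Strat := .move 917 n1874 (.cons 918 n1876 .nil)
noncomputable def n1878 : Strat := .move 1003 n1318 (.cons 1044 n1549 .nil)
noncomputable def n1879 : Strat := .move 963 n684 (.cons 964 n1878 .nil)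
noncomputable def n1880 : Strat := .move 1002 n89 (.cons 839 n1879 .nil)
noncomputable def n1881 : Strat := .move 1042 n1592 (.cons 1083 n1591 .nil)
noncomputable def n1882 : Strat := .win 1085 6 920
noncomputable def n1883 : Strat := .win 1003 6 879
noncomputable def n1884 : Strat := .move 1044 n1882 (.cons 1085 n1883 .nil)
noncomputable def n1885 : Strat := .move 1043 n1881 (.cons 1001 n1884 .nil)
noncomputable def n1886 : Strat := .move 1002 n89 (.cons 839 n1885 .nil)
noncomputable def n1887 : Strat := .move 961 n1870 (.cons 917 n1873 (.cons 960 n1877 (.cons 918 n1880 (.cons 963 n1886 .nil))))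
noncomputable def n1888 : Strat := .move 919 n1091 (.cons 882 n1887 .nil)
noncomputable def n1889 : Strat := .move 920 n1843 (.cons 919 n1846 (.cons 839 n1855 (.cons 882 n1869 (.cons 838 n1888 .nil))))
noncomputable def n1890 : Strat := .move 962 n148 (.cons 921 n1889 (.cons 922 n149 (.cons 1003 n150 .nil)))
noncomputable def n1891 : Strat := .move 877 n100 (.cons 922 n270 .nil)
noncomputable def n1892 : Strat := .move 878 n101 (.cons 922 n271 (.cons 839 n1891 (.cons 877 n1190 .nil)))
noncomputable def n1893 : Strat := .move 921 n15 (.cons 962 n1892 (.cons 922 n42 .nil))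
noncomputable def n1894 : Strat := .win 797 3 796
noncomputable def n1895 : Strat := .move 960 n1894 (.cons 797 n525 .nil)
noncomputable def n1896 : Strat := .move 797 n1221 (.cons 960 n1220 .nil)
noncomputable def n1897 : Strat := .win 839 5 796
noncomputable def n1898 : Strat := .move 800 n1897 (.cons 839 n890 .nil)
noncomputable def n1899 : Strat := .move 838 n1895 (.cons 1001 n1896 (.cons 797 n1898 .nil))
noncomputable def n1900 : Strat := .move 837 n82 (.cons 836 n1899 .nil)
noncomputable def n1901 : Strat := .move 919 n106 (.cons 918 n1900 .nil)
noncomputable def n1902 : Strat := .move 922 n78 (.cons 877 n1901 .nil)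
noncomputable def n1903 : Strat := .move 838 n1285 (.cons 796 n869 .nil)
noncomputable def n1904 : Strat := .move 961 n636 (.cons 1002 n1903 .nil)
noncomputable def n1905 : Strat := .move 837 n82 (.cons 836 n1904 .nil)
noncomputable def n1906 : Strat := .move 839 n141 (.cons 877 n1905 .nil)
noncomputable def n1907 : Strat := .move 920 n1906 (.cons 837 n101 (.cons 877 n794 .nil))
noncomputable def n1908 : Strat := .move 839 n1274 (.cons 795 n869 .nil)
noncomputable def n1909 : Strat := .move 796 n1477 (.cons 755 n1908 .nil)
noncomputable def n1910 : Strat := .move 838 n1895 (.cons 1001 n1896 (.cons 797 n1909 .nil))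
noncomputable def n1911 : Strat := .move 837 n82 (.cons 836 n1910 .nil)
noncomputable def n1912 : Strat := .move 919 n106 (.cons 918 n1911 .nil)
noncomputable def n1913 : Strat := .move 878 n1902 (.cons 919 n1907 (.cons 922 n271 (.cons 839 n1891 (.cons 877 n1912 .nil))))
noncomputable def n1914 : Strat := .move 921 n15 (.cons 962 n1913 (.cons 922 n42 .nil))
noncomputable def n1915 : Strat := .move 838 n526 (.cons 797 n525 .nil)
noncomputable def n1916 : Strat := .win 922 4 918
noncomputable def n1917 : Strat := .win 961 5 917
noncomputable def n1918 : Strat := .move 958 n1917 (.cons 961 n1328 .nil)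
noncomputable def n1919 : Strat := .move 959 n1916 (.cons 922 n1918 .nil)
noncomputable def n1920 : Strat := .move 960 n1915 (.cons 1001 n1919 .nil)
noncomputable def n1921 : Strat := .move 920 n1091 (.cons 882 n1920 .nil)
noncomputable def n1922 : Strat := .move 919 n106 (.cons 918 n1921 .nil)
noncomputable def n1923 : Strat := .move 878 n101 (.cons 922 n271 (.cons 877 n1922 .nil))
noncomputable def n1924 : Strat := .move 921 n15 (.cons 962 n1923 (.cons 922 n42 .nil))
noncomputable def n1925 : Strat := .move 922 n78 (.cons 877 n1410 .nil)
noncomputable def n1926 : Strat := .win 797 6 756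
noncomputable def n1927 : Strat := .move 796 n1908 (.cons 800 n1459 .nil)
noncomputable def n1928 : Strat := .move 756 n1926 (.cons 797 n1927 .nil)
noncomputable def n1929 : Strat := .move 838 n1219 (.cons 882 n1928 .nil)
noncomputable def n1930 : Strat := .move 837 n82 (.cons 836 n1929 .nil)
noncomputable def n1931 : Strat := .move 878 n101 (.cons 839 n1925 (.cons 922 n256 (.cons 877 n1930 .nil)))
noncomputable def n1932 : Strat := .move 921 n15 (.cons 962 n1931 (.cons 922 n42 .nil))
noncomputable def n1933 : Strat := .move 839 n1273 (.cons 877 n869 .nil)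
noncomputable def n1934 : Strat := .move 838 n1219 (.cons 882 n1933 .nil)
noncomputable def n1935 : Strat := .move 837 n82 (.cons 836 n1934 .nil)
noncomputable def n1936 : Strat := .move 878 n1935 (.cons 882 n256 (.cons 837 n271 (.cons 877 n1225 .nil)))
noncomputable def n1937 : Strat := .move 922 n29 (.cons 962 n78 .nil)
noncomputable def n1938 : Strat := .move 876 n259 (.cons 920 n1507 .nil)
noncomputable def n1939 : Strat := .move 877 n100 (.cons 922 n1938 .nil)
noncomputable def n1940 : Strat := .move 962 n13 (.cons 1003 n1417 .nil)
noncomputable def n1941 : Strat := .move 921 n15 (.cons 1003 n1937 (.cons 962 n1939 (.cons 922 n1940 .nil)))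
noncomputable def n1942 : Strat := .move 838 n1219 (.cons 882 n1941 .nil)
noncomputable def n1943 : Strat := .move 837 n82 (.cons 836 n1942 .nil)
noncomputable def n1944 : Strat := .move 838 n525 (.cons 1001 n1894 .nil)
noncomputable def n1945 : Strat := .win 838 3 837
noncomputable def n1946 : Strat := .move 1001 n1945 (.cons 838 n1244 .nil)
noncomputable def n1947 : Strat := .move 920 n1351 (.cons 1042 n800 .nil)
noncomputable def n1948 : Strat := .move 1001 n1244 (.cons 959 n1947 .nil)
noncomputable def n1949 : Strat := .move 961 n799 (.cons 1002 n1948 .nil)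
noncomputable def n1950 : Strat := .move 796 n1232 (.cons 756 n1477 .nil)
noncomputable def n1951 : Strat := .move 797 n1241 (.cons 838 n1950 .nil)
noncomputable def n1952 : Strat := .move 960 n1944 (.cons 797 n1946 (.cons 838 n1949 (.cons 1001 n1951 .nil)))
noncomputable def n1953 : Strat := .move 837 n82 (.cons 836 n1952 .nil)
noncomputable def n1954 : Strat := .move 919 n106 (.cons 918 n1953 .nil)
noncomputable def n1955 : Strat := .move 876 n348 (.cons 834 n259 .nil)
noncomputable def n1956 : Strat := .move 835 n349 (.cons 836 n1955 .nil)
noncomputable def n1957 : Strat := .move 921 n100 (.cons 922 n1956 .nil)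
noncomputable def n1958 : Strat := .move 877 n269 (.cons 917 n1957 .nil)
noncomputable def n1959 : Strat := .move 918 n268 (.cons 919 n1958 .nil)
noncomputable def n1960 : Strat := .move 882 n65 (.cons 883 n52 .nil)
noncomputable def n1961 : Strat := .move 838 n1960 (.cons 837 n1200 .nil)
noncomputable def n1962 : Strat := .move 920 n411 (.cons 876 n1961 .nil)
noncomputable def n1963 : Strat := .move 921 n100 (.cons 922 n1962 .nil)
noncomputable def n1964 : Strat := .move 877 n269 (.cons 917 n1963 .nil)
noncomputable def n1965 : Strat := .move 918 n268 (.cons 919 n1964 .nil)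
noncomputable def n1966 : Strat := .move 878 n1217 (.cons 796 n1835 (.cons 919 n1943 (.cons 920 n1397 (.cons 882 n1954 (.cons 837 n1959 (.cons 836 n1965 .nil))))))
noncomputable def n1967 : Strat := .move 879 n1837 (.cons 917 n1839 (.cons 878 n1890 (.cons 838 n1893 (.cons 882 n1914 (.cons 837 n1924 (.cons 919 n1932 (.cons 921 n1936 (.cons 839 n1966 .nil))))))))
noncomputable def n1968 : Strat := .move 799 n1817 (.cons 921 n1819 (.cons 922 n6 (.cons 759 n1832 (.cons 717 n16 (.cons 758 n1967 .nil)))))
noncomputable def n1969 : Strat := .move 880 n113 (.cons 883 n375 (.cons 838 n450 (.cons 918 n495 (.cons 961 n543 (.cons 960 n581 (.cons 1005 n628 (.cons 799 n683 (.cons 877 n712 (.cons 1003 n737 (.cons 882 n862 (.cons 920 n914 (.cons 879 n982 (.cons 837 n1030 (.cons 924 n1069 (.cons 964 n1195 (.cons 922 n1381 (.cons 839 n1424 (.cons 921 n1720 (.cons 962 n1778 (.cons 923 n1968 .nil))))))))))))))))))))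

theorem ok : checkS n1969 (pairBits 840 881) (pairBits 841 798) ≠ 0 := by decide +kernel

theorem reply : MakerWins {cellOf 881, cellOf 840} {cellOf 841, cellOf 798} :=
  reply2 n1969 840 881 841 798 ok

end Vale.Agent.Snaky.Cert2.R798
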