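import Vale.Agent.Snaky.Cert2.Lem

namespace Vale.Agent.Snaky.Cert2.R799

open Vale.Agent.Snaky

noncomputable def n0 : Strat := .win 839 5 836
noncomputable def n1 : Strat := .win 919 4 877
noncomputable def n2 : Strat := .win 917 4 876
noncomputable def n3 : Strat := .move 918 n1 (.cons 919 n2 .nil)
noncomputable def n4 : Strat := .move 877 n0 (.cons 839 n3 .nil)
noncomputable def n5 : Strat := .win 918 4 877
noncomputable def n6 : Strat := .win 836 2 836
noncomputable def n7 : Strat := .win 838 2 837
noncomputable def n8 : Strat := .win 920 4 878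
noncomputable def n9 : Strat := .move 882 n7 (.cons 838 n8 .nil)
noncomputable def n10 : Strat := .move 837 n6 (.cons 836 n9 .nil)
noncomputable def n11 : Strat := .move 919 n5 (.cons 918 n10 .nil)
noncomputable def n12 : Strat := .win 837 2 836
noncomputable def n13 : Strat := .win 835 2 835
noncomputable def n14 : Strat := .move 836 n12 (.cons 837 n13 .nil)
noncomputable def n15 : Strat := .move 877 n0 (.cons 839 n14 .nil)
noncomputable def n16 : Strat := .move 878 n4 (.cons 839 n11 (.cons 919 n15 .nil))
noncomputable def n17 : Strat := .win 923 0 878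
noncomputable def n18 : Strat := .win 921 0 877
noncomputable def n19 : Strat := .move 877 n18 (.cons 921 n14 .nil)
noncomputable def n20 : Strat := .move 922 n17 (.cons 923 n19 .nil)
noncomputable def n21 : Strat := .win 882 4 878
noncomputable def n22 : Strat := .win 877 0 877
noncomputable def n23 : Strat := .win 1003 3 839
noncomputable def n24 : Strat := .win 797 6 797
noncomputable def n25 : Strat := .win 959 4 918
noncomputable def n26 : Strat := .win 1001 3 837
noncomputable def n27 : Strat := .move 960 n25 (.cons 959 n26 .nil)
noncomputable def n28 : Strat := .move 838 n24 (.cons 797 n27 .nil)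
noncomputable def n29 : Strat := .move 962 n23 (.cons 1003 n28 .nil)
noncomputable def n30 : Strat := .move 921 n22 (.cons 877 n29 .nil)
noncomputable def n31 : Strat := .move 922 n17 (.cons 923 n30 .nil)
noncomputable def n32 : Strat := .move 920 n21 (.cons 882 n31 .nil)
noncomputable def n33 : Strat := .move 919 n5 (.cons 918 n32 .nil)
noncomputable def n34 : Strat := .move 878 n11 (.cons 919 n20 (.cons 836 n33 .nil))
noncomputable def n35 : Strat := .win 882 2 837
noncomputable def n36 : Strat := .win 756 1 755
noncomputable def n37 : Strat := .win 960 3 796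
noncomputable def n38 : Strat := .move 797 n36 (.cons 756 n37 .nil)
noncomputable def n39 : Strat := .move 919 n5 (.cons 918 n38 .nil)
noncomputable def n40 : Strat := .move 838 n35 (.cons 882 n39 .nil)
noncomputable def n41 : Strat := .move 837 n6 (.cons 836 n40 .nil)
noncomputable def n42 : Strat := .move 878 n15 (.cons 836 n4 (.cons 877 n41 .nil))
noncomputable def n43 : Strat := .move 920 n21 (.cons 882 n29 .nil)
noncomputable def n44 : Strat := .move 921 n22 (.cons 877 n43 .nil)
noncomputable def n45 : Strat := .move 922 n17 (.cons 923 n44 .nil)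
noncomputable def n46 : Strat := .move 919 n5 (.cons 918 n45 .nil)
noncomputable def n47 : Strat := .move 922 n17 (.cons 923 n18 .nil)
noncomputable def n48 : Strat := .move 877 n0 (.cons 839 n47 .nil)
noncomputable def n49 : Strat := .win 922 0 878
noncomputable def n50 : Strat := .win 924 0 879
noncomputable def n51 : Strat := .move 923 n49 (.cons 922 n50 .nil)
noncomputable def n52 : Strat := .move 882 n8 (.cons 920 n51 .nil)
noncomputable def n53 : Strat := .move 919 n5 (.cons 918 n52 .nil)
noncomputable def n54 : Strat := .move 878 n4 (.cons 839 n46 (.cons 919 n48 (.cons 877 n53 .nil)))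
noncomputable def n55 : Strat := .win 837 2 837
noncomputable def n56 : Strat := .win 839 2 838
noncomputable def n57 : Strat := .win 919 4 878
noncomputable def n58 : Strat := .win 921 4 879
noncomputable def n59 : Strat := .move 920 n57 (.cons 919 n58 .nil)
noncomputable def n60 : Strat := .move 883 n56 (.cons 839 n59 .nil)
noncomputable def n61 : Strat := .move 838 n55 (.cons 837 n60 .nil)
noncomputable def n62 : Strat := .win 923 0 879
noncomputable def n63 : Strat := .win 925 0 880
noncomputable def n64 : Strat := .move 924 n62 (.cons 923 n63 .nil)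
noncomputable def n65 : Strat := .move 883 n56 (.cons 839 n64 .nil)
noncomputable def n66 : Strat := .move 838 n55 (.cons 837 n65 .nil)
noncomputable def n67 : Strat := .win 883 4 879
noncomputable def n68 : Strat := .win 878 0 878
noncomputable def n69 : Strat := .win 1005 7 840
noncomputable def n70 : Strat := .win 965 0 920
noncomputable def n71 : Strat := .move 964 n69 (.cons 1005 n70 .nil)
noncomputable def n72 : Strat := .move 922 n68 (.cons 878 n71 .nil)
noncomputable def n73 : Strat := .move 921 n67 (.cons 883 n72 .nil)
noncomputable def n74 : Strat := .move 920 n57 (.cons 919 n73 .nil)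
noncomputable def n75 : Strat := .move 923 n50 (.cons 924 n74 .nil)
noncomputable def n76 : Strat := .win 962 6 797
noncomputable def n77 : Strat := .win 756 6 756
noncomputable def n78 : Strat := .move 797 n76 (.cons 962 n77 .nil)
noncomputable def n79 : Strat := .move 962 n24 (.cons 797 n23 .nil)
noncomputable def n80 : Strat := .move 964 n70 (.cons 965 n69 .nil)
noncomputable def n81 : Strat := .move 921 n78 (.cons 756 n79 (.cons 962 n80 .nil))
noncomputable def n82 : Strat := .move 922 n68 (.cons 878 n81 .nil)
noncomputable def n83 : Strat := .move 920 n57 (.cons 919 n82 .nil)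
noncomputable def n84 : Strat := .move 838 n55 (.cons 837 n83 .nil)
noncomputable def n85 : Strat := .move 923 n50 (.cons 924 n84 .nil)
noncomputable def n86 : Strat := .move 882 n61 (.cons 921 n66 (.cons 839 n75 (.cons 883 n85 .nil)))
noncomputable def n87 : Strat := .move 883 n58 (.cons 921 n64 .nil)
noncomputable def n88 : Strat := .move 920 n57 (.cons 919 n87 .nil)
noncomputable def n89 : Strat := .move 922 n78 (.cons 756 n79 (.cons 962 n80 .nil))
noncomputable def n90 : Strat := .win 1002 3 838
noncomputable def n91 : Strat := .win 798 1 797
noncomputable def n92 : Strat := .move 839 n90 (.cons 1002 n91 .nil)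
noncomputable def n93 : Strat := .win 1043 3 879
noncomputable def n94 : Strat := .win 839 3 838
noncomputable def n95 : Strat := .move 1002 n93 (.cons 1043 n94 .nil)
noncomputable def n96 : Strat := .win 960 4 919
noncomputable def n97 : Strat := .move 922 n96 (.cons 960 n70 .nil)
noncomputable def n98 : Strat := .move 961 n92 (.cons 798 n95 (.cons 1002 n97 .nil))
noncomputable def n99 : Strat := .move 964 n78 (.cons 756 n79 (.cons 962 n98 .nil))
noncomputable def n100 : Strat := .move 962 n23 (.cons 1003 n24 .nil)
noncomputable def n101 : Strat := .win 839 1 797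
noncomputable def n102 : Strat := .win 757 3 756
noncomputable def n103 : Strat := .move 798 n101 (.cons 839 n102 .nil)
noncomputable def n104 : Strat := .win 922 4 919
noncomputable def n105 : Strat := .win 1001 1 837
noncomputable def n106 : Strat := .move 960 n104 (.cons 922 n105 .nil)
noncomputable def n107 : Strat := .move 961 n103 (.cons 757 n92 (.cons 839 n106 .nil))
noncomputable def n108 : Strat := .move 797 n77 (.cons 756 n107 .nil)
noncomputable def n109 : Strat := .win 1002 1 838
noncomputable def n110 : Strat := .move 839 n109 (.cons 1002 n91 .nil)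
noncomputable def n111 : Strat := .win 839 1 838
noncomputable def n112 : Strat := .move 1002 n93 (.cons 1043 n111 .nil)
noncomputable def n113 : Strat := .move 961 n110 (.cons 798 n112 (.cons 1002 n106 .nil))
noncomputable def n114 : Strat := .move 962 n23 (.cons 1003 n113 .nil)
noncomputable def n115 : Strat := .move 921 n89 (.cons 1005 n99 (.cons 965 n100 (.cons 962 n108 (.cons 797 n114 .nil))))
noncomputable def n116 : Strat := .move 923 n50 (.cons 924 n115 .nil)
noncomputable def n117 : Strat := .move 920 n57 (.cons 919 n116 .nil)
noncomputable def n118 : Strat := .move 838 n55 (.cons 837 n117 .nil)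
noncomputable def n119 : Strat := .move 882 n61 (.cons 838 n88 (.cons 921 n66 (.cons 883 n118 .nil)))
noncomputable def n120 : Strat := .move 877 n0 (.cons 839 n18 .nil)
noncomputable def n121 : Strat := .move 922 n17 (.cons 923 n120 .nil)
noncomputable def n122 : Strat := .win 796 6 796
noncomputable def n123 : Strat := .win 1002 7 837
noncomputable def n124 : Strat := .move 961 n122 (.cons 796 n123 .nil)
noncomputable def n125 : Strat := .move 837 n6 (.cons 836 n124 .nil)
noncomputable def n126 : Strat := .move 920 n21 (.cons 882 n125 .nil)
noncomputable def n127 : Strat := .move 919 n5 (.cons 918 n126 .nil)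
noncomputable def n128 : Strat := .move 878 n4 (.cons 918 n121 (.cons 877 n127 .nil))
noncomputable def n129 : Strat := .win 755 6 755
noncomputable def n130 : Strat := .win 961 6 796
noncomputable def n131 : Strat := .move 796 n129 (.cons 755 n130 .nil)
noncomputable def n132 : Strat := .win 797 1 796
noncomputable def n133 : Strat := .move 838 n132 (.cons 797 n26 .nil)
noncomputable def n134 : Strat := .win 838 1 796
noncomputable def n135 : Strat := .win 756 3 755
noncomputable def n136 : Strat := .move 797 n134 (.cons 838 n135 .nil)
noncomputable def n137 : Strat := .win 1042 3 878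
noncomputable def n138 : Strat := .win 838 3 837
noncomputable def n139 : Strat := .move 1001 n137 (.cons 1042 n138 .nil)
noncomputable def n140 : Strat := .win 921 4 918
noncomputable def n141 : Strat := .win 1000 1 836
noncomputable def n142 : Strat := .move 959 n140 (.cons 921 n141 .nil)
noncomputable def n143 : Strat := .move 960 n133 (.cons 1001 n136 (.cons 797 n139 (.cons 838 n142 .nil)))
noncomputable def n144 : Strat := .move 796 n129 (.cons 755 n143 .nil)
noncomputable def n145 : Strat := .move 838 n132 (.cons 797 n105 .nil)
noncomputable def n146 : Strat := .move 960 n145 (.cons 1001 n142 .nil)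
noncomputable def n147 : Strat := .move 961 n123 (.cons 1002 n146 .nil)
noncomputable def n148 : Strat := .move 920 n124 (.cons 1002 n131 (.cons 961 n144 (.cons 796 n147 .nil)))
noncomputable def n149 : Strat := .move 837 n6 (.cons 836 n148 .nil)
noncomputable def n150 : Strat := .move 919 n5 (.cons 918 n149 .nil)
noncomputable def n151 : Strat := .move 922 n17 (.cons 923 n150 .nil)
noncomputable def n152 : Strat := .move 878 n4 (.cons 839 n20 (.cons 877 n151 .nil))
noncomputable def n153 : Strat := .move 882 n7 (.cons 838 n51 .nil)
noncomputable def n154 : Strat := .move 837 n6 (.cons 836 n153 .nil)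
noncomputable def n155 : Strat := .move 878 n15 (.cons 839 n20 (.cons 837 n48 (.cons 877 n154 .nil)))
noncomputable def n156 : Strat := .move 879 n16 (.cons 839 n34 (.cons 920 n42 (.cons 837 n54 (.cons 877 n86 (.cons 878 n119 (.cons 838 n128 (.cons 882 n152 (.cons 919 n155 .nil))))))))
noncomputable def n157 : Strat := .move 919 n5 (.cons 918 n8 .nil)
noncomputable def n158 : Strat := .move 878 n6 (.cons 836 n157 .nil)
noncomputable def n159 : Strat := .move 837 n7 (.cons 838 n158 .nil)
noncomputable def n160 : Strat := .move 923 n50 (.cons 924 n159 .nil)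
noncomputable def n161 : Strat := .move 882 n61 (.cons 839 n88 (.cons 883 n160 (.cons 920 n66 .nil)))
noncomputable def n162 : Strat := .move 920 n129 (.cons 755 n130 .nil)
noncomputable def n163 : Strat := .win 838 3 796
noncomputable def n164 : Strat := .win 1041 1 877
noncomputable def n165 : Strat := .win 959 1 836
noncomputable def n166 : Strat := .move 1000 n164 (.cons 1041 n165 .nil)
noncomputable def n167 : Strat := .win 1043 6 878
noncomputable def n168 : Strat := .win 961 6 837
noncomputable def n169 : Strat := .move 1002 n167 (.cons 1043 n168 .nil)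
noncomputable def n170 : Strat := .move 1001 n166 (.cons 959 n169 .nil)
noncomputable def n171 : Strat := .move 960 n163 (.cons 838 n170 .nil)
noncomputable def n172 : Strat := .move 797 n135 (.cons 756 n171 .nil)
noncomputable def n173 : Strat := .win 920 6 755
noncomputable def n174 : Strat := .win 797 3 755
noncomputable def n175 : Strat := .win 715 3 714
noncomputable def n176 : Strat := .move 756 n174 (.cons 797 n175 .nil)
noncomputable def n177 : Strat := .move 755 n173 (.cons 920 n176 .nil)
noncomputable def n178 : Strat := .move 796 n162 (.cons 920 n172 (.cons 961 n177 .nil))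
noncomputable def n179 : Strat := .move 837 n6 (.cons 836 n178 .nil)
noncomputable def n180 : Strat := .move 919 n5 (.cons 918 n179 .nil)
noncomputable def n181 : Strat := .move 878 n4 (.cons 839 n180 (.cons 918 n15 .nil))
noncomputable def n182 : Strat := .move 921 n77 (.cons 756 n76 .nil)
noncomputable def n183 : Strat := .win 921 6 756
noncomputable def n184 : Strat := .win 798 3 756
noncomputable def n185 : Strat := .win 716 3 715
noncomputable def n186 : Strat := .move 757 n184 (.cons 798 n185 .nil)
noncomputable def n187 : Strat := .move 756 n183 (.cons 921 n186 .nil)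
noncomputable def n188 : Strat := .win 961 3 797
noncomputable def n189 : Strat := .win 795 0 795
noncomputable def n190 : Strat := .win 755 7 755
noncomputable def n191 : Strat := .move 796 n189 (.cons 795 n190 .nil)
noncomputable def n192 : Strat := .move 839 n188 (.cons 961 n191 .nil)
noncomputable def n193 : Strat := .move 798 n102 (.cons 757 n192 .nil)
noncomputable def n194 : Strat := .move 797 n182 (.cons 962 n187 (.cons 921 n193 .nil))
noncomputable def n195 : Strat := .move 920 n57 (.cons 919 n194 .nil)
noncomputable def n196 : Strat := .move 838 n55 (.cons 837 n195 .nil)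
noncomputable def n197 : Strat := .move 882 n61 (.cons 839 n88 (.cons 921 n66 (.cons 883 n196 .nil)))
noncomputable def n198 : Strat := .move 920 n21 (.cons 882 n124 .nil)
noncomputable def n199 : Strat := .move 837 n6 (.cons 836 n198 .nil)
noncomputable def n200 : Strat := .move 919 n5 (.cons 918 n199 .nil)
noncomputable def n201 : Strat := .move 878 n4 (.cons 839 n200 (.cons 919 n15 .nil))
noncomputable def n202 : Strat := .move 878 n5 (.cons 918 n10 .nil)
noncomputable def n203 : Strat := .move 838 n35 (.cons 882 n38 .nil)
noncomputable def n204 : Strat := .move 837 n6 (.cons 836 n203 .nil)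
noncomputable def n205 : Strat := .move 878 n5 (.cons 918 n204 .nil)
noncomputable def n206 : Strat := .win 917 5 876
noncomputable def n207 : Strat := .win 921 5 877
noncomputable def n208 : Strat := .move 918 n206 (.cons 917 n207 .nil)
noncomputable def n209 : Strat := .move 920 n21 (.cons 882 n208 .nil)
noncomputable def n210 : Strat := .move 878 n5 (.cons 918 n179 .nil)
noncomputable def n211 : Strat := .win 960 1 796
noncomputable def n212 : Strat := .win 878 1 755
noncomputable def n213 : Strat := .move 756 n212 (.cons 878 n183 .nil)
noncomputable def n214 : Strat := .move 797 n211 (.cons 960 n213 .nil)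
noncomputable def n215 : Strat := .move 797 n211 (.cons 960 n182 .nil)
noncomputable def n216 : Strat := .win 961 1 837
noncomputable def n217 : Strat := .move 1001 n137 (.cons 1042 n216 .nil)
noncomputable def n218 : Strat := .move 960 n132 (.cons 797 n217 .nil)
noncomputable def n219 : Strat := .win 921 6 797
noncomputable def n220 : Strat := .win 1003 6 838
noncomputable def n221 : Strat := .win 837 7 796
noncomputable def n222 : Strat := .move 796 n221 (.cons 837 n190 .nil)
noncomputable def n223 : Strat := .move 961 n220 (.cons 1003 n222 .nil)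
noncomputable def n224 : Strat := .move 962 n219 (.cons 921 n223 .nil)
noncomputable def n225 : Strat := .move 756 n212 (.cons 878 n186 .nil)
noncomputable def n226 : Strat := .move 797 n213 (.cons 878 n182 (.cons 756 n224 (.cons 921 n225 .nil)))
noncomputable def n227 : Strat := .win 796 7 796
noncomputable def n228 : Strat := .move 878 n6 (.cons 836 n123 .nil)
noncomputable def n229 : Strat := .move 837 n227 (.cons 796 n228 .nil)
noncomputable def n230 : Strat := .move 837 n122 (.cons 796 n123 .nil)
noncomputable def n231 : Strat := .win 960 1 837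
noncomputable def n232 : Strat := .win 1043 7 878
noncomputable def n233 : Strat := .win 1042 1 878
noncomputable def n234 : Strat := .move 1002 n232 (.cons 1043 n233 .nil)
noncomputable def n235 : Strat := .move 1001 n231 (.cons 960 n234 .nil)
noncomputable def n236 : Strat := .move 837 n141 (.cons 1000 n122 .nil)
noncomputable def n237 : Strat := .win 921 5 917
noncomputable def n238 : Strat := .win 957 5 916
noncomputable def n239 : Strat := .move 958 n237 (.cons 921 n238 .nil)
noncomputable def n240 : Strat := .move 959 n236 (.cons 796 n239 .nil)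
noncomputable def n241 : Strat := .move 960 n105 (.cons 1001 n240 .nil)
noncomputable def n242 : Strat := .move 878 n230 (.cons 837 n235 (.cons 1002 n241 .nil))
noncomputable def n243 : Strat := .win 878 7 878
noncomputable def n244 : Strat := .win 921 3 879
noncomputable def n245 : Strat := .move 1043 n243 (.cons 878 n244 .nil)
noncomputable def n246 : Strat := .move 1002 n233 (.cons 1042 n245 .nil)
noncomputable def n247 : Strat := .move 1001 n231 (.cons 960 n246 .nil)
noncomputable def n248 : Strat := .move 962 n220 (.cons 1003 n247 .nil)
noncomputable def n249 : Strat := .win 835 0 835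
noncomputable def n250 : Strat := .win 878 2 836
noncomputable def n251 : Strat := .move 836 n249 (.cons 835 n250 .nil)
noncomputable def n252 : Strat := .move 837 n227 (.cons 796 n251 .nil)
noncomputable def n253 : Strat := .move 962 n220 (.cons 1003 n252 .nil)
noncomputable def n254 : Strat := .win 962 6 838
noncomputable def n255 : Strat := .win 1044 6 879
noncomputable def n256 : Strat := .move 1001 n233 (.cons 1042 n231 .nil)
noncomputable def n257 : Strat := .move 1002 n255 (.cons 1044 n256 .nil)
noncomputable def n258 : Strat := .move 1003 n254 (.cons 962 n257 .nil)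
noncomputable def n259 : Strat := .move 961 n229 (.cons 836 n242 (.cons 837 n248 (.cons 1002 n253 (.cons 878 n258 .nil))))
noncomputable def n260 : Strat := .move 838 n214 (.cons 878 n215 (.cons 756 n218 (.cons 960 n226 (.cons 797 n259 .nil))))
noncomputable def n261 : Strat := .move 920 n21 (.cons 882 n260 .nil)
noncomputable def n262 : Strat := .move 919 n202 (.cons 920 n205 (.cons 878 n209 (.cons 882 n210 (.cons 918 n261 .nil))))
noncomputable def n263 : Strat := .win 877 5 836
noncomputable def n264 : Strat := .win 882 0 837
noncomputable def n265 : Strat := .move 838 n264 (.cons 882 n39 .nil)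
noncomputable def n266 : Strat := .move 837 n6 (.cons 836 n265 .nil)
noncomputable def n267 : Strat := .move 839 n263 (.cons 877 n266 .nil)
noncomputable def n268 : Strat := .move 919 n5 (.cons 918 n203 .nil)
noncomputable def n269 : Strat := .move 837 n6 (.cons 836 n268 .nil)
noncomputable def n270 : Strat := .move 878 n267 (.cons 839 n269 (.cons 837 n4 (.cons 919 n15 .nil)))
noncomputable def n271 : Strat := .win 838 2 838
noncomputable def n272 : Strat := .win 884 2 839
noncomputable def n273 : Strat := .move 839 n271 (.cons 838 n272 .nil)
noncomputable def n274 : Strat := .move 883 n63 (.cons 925 n273 .nil)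
noncomputable def n275 : Strat := .move 924 n62 (.cons 923 n274 .nil)
noncomputable def n276 : Strat := .move 882 n8 (.cons 920 n275 .nil)
noncomputable def n277 : Strat := .move 919 n5 (.cons 918 n276 .nil)
noncomputable def n278 : Strat := .win 836 2 835
noncomputable def n279 : Strat := .win 834 2 834
noncomputable def n280 : Strat := .win 918 4 876
noncomputable def n281 : Strat := .win 916 4 875
noncomputable def n282 : Strat := .move 917 n280 (.cons 918 n281 .nil)
noncomputable def n283 : Strat := .move 876 n279 (.cons 834 n282 .nil)
noncomputable def n284 : Strat := .move 835 n278 (.cons 836 n283 .nil)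
noncomputable def n285 : Strat := .move 877 n0 (.cons 839 n284 .nil)
noncomputable def n286 : Strat := .win 921 0 876
noncomputable def n287 : Strat := .win 875 0 875
noncomputable def n288 : Strat := .move 919 n21 (.cons 882 n287 .nil)
noncomputable def n289 : Strat := .move 920 n286 (.cons 921 n288 .nil)
noncomputable def n290 : Strat := .move 876 n279 (.cons 834 n289 .nil)
noncomputable def n291 : Strat := .move 835 n278 (.cons 836 n290 .nil)
noncomputable def n292 : Strat := .move 877 n0 (.cons 839 n291 .nil)
noncomputable def n293 : Strat := .move 877 n3 (.cons 918 n291 (.cons 919 n284 .nil))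
noncomputable def n294 : Strat := .move 878 n4 (.cons 877 n277 (.cons 919 n285 (.cons 918 n292 (.cons 839 n293 .nil))))
noncomputable def n295 : Strat := .win 836 0 836
noncomputable def n296 : Strat := .win 877 4 836
noncomputable def n297 : Strat := .win 795 2 795
noncomputable def n298 : Strat := .win 961 7 796
noncomputable def n299 : Strat := .move 920 n298 (.cons 961 n129 .nil)
noncomputable def n300 : Strat := .move 796 n297 (.cons 795 n299 .nil)
noncomputable def n301 : Strat := .move 878 n296 (.cons 877 n300 .nil)
noncomputable def n302 : Strat := .move 839 n295 (.cons 836 n301 .nil)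
noncomputable def n303 : Strat := .move 838 n35 (.cons 882 n302 .nil)
noncomputable def n304 : Strat := .win 839 0 836
noncomputable def n305 : Strat := .move 838 n249 (.cons 835 n304 .nil)
noncomputable def n306 : Strat := .move 836 n250 (.cons 878 n305 .nil)
noncomputable def n307 : Strat := .win 839 2 839
noncomputable def n308 : Strat := .win 842 5 839
noncomputable def n309 : Strat := .win 844 5 840
noncomputable def n310 : Strat := .move 843 n308 (.cons 842 n309 .nil)
noncomputable def n311 : Strat := .move 884 n307 (.cons 839 n310 .nil)
noncomputable def n312 : Strat := .move 883 n63 (.cons 925 n311 .nil)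
noncomputable def n313 : Strat := .move 924 n62 (.cons 923 n312 .nil)
noncomputable def n314 : Strat := .move 882 n7 (.cons 838 n313 .nil)
noncomputable def n315 : Strat := .move 836 n250 (.cons 878 n249 .nil)
noncomputable def n316 : Strat := .move 838 n35 (.cons 882 n315 .nil)
noncomputable def n317 : Strat := .win 918 1 754
noncomputable def n318 : Strat := .move 877 n0 (.cons 839 n317 .nil)
noncomputable def n319 : Strat := .move 755 n173 (.cons 920 n318 .nil)
noncomputable def n320 : Strat := .win 920 1 756
noncomputable def n321 : Strat := .win 716 6 716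
noncomputable def n322 : Strat := .move 757 n320 (.cons 920 n321 .nil)
noncomputable def n323 : Strat := .win 757 1 756
noncomputable def n324 : Strat := .win 921 1 797
noncomputable def n325 : Strat := .move 961 n324 (.cons 921 n90 .nil)
noncomputable def n326 : Strat := .move 920 n323 (.cons 757 n325 .nil)
noncomputable def n327 : Strat := .win 756 7 756
noncomputable def n328 : Strat := .move 797 n327 (.cons 756 n189 .nil)
noncomputable def n329 : Strat := .win 920 1 797
noncomputable def n330 : Strat := .move 962 n109 (.cons 1002 n23 .nil)
noncomputable def n331 : Strat := .move 961 n329 (.cons 920 n330 .nil)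
noncomputable def n332 : Strat := .move 921 n328 (.cons 795 n331 .nil)
noncomputable def n333 : Strat := .win 921 7 756
noncomputable def n334 : Strat := .win 715 7 715
noncomputable def n335 : Strat := .move 756 n333 (.cons 921 n334 .nil)
noncomputable def n336 : Strat := .move 797 n189 (.cons 795 n335 .nil)
noncomputable def n337 : Strat := .move 757 n321 (.cons 716 n336 .nil)
noncomputable def n338 : Strat := .move 798 n322 (.cons 716 n326 (.cons 757 n332 (.cons 920 n337 .nil)))
noncomputable def n339 : Strat := .move 839 n263 (.cons 877 n338 .nil)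
noncomputable def n340 : Strat := .win 755 1 754
noncomputable def n341 : Strat := .move 918 n2 (.cons 917 n340 .nil)
noncomputable def n342 : Strat := .move 877 n0 (.cons 839 n341 .nil)
noncomputable def n343 : Strat := .win 756 3 714
noncomputable def n344 : Strat := .win 674 3 673
noncomputable def n345 : Strat := .win 672 7 672
noncomputable def n346 : Strat := .win 754 7 713
noncomputable def n347 : Strat := .move 713 n345 (.cons 672 n346 .nil)
noncomputable def n348 : Strat := .move 714 n344 (.cons 674 n347 .nil)
noncomputable def n349 : Strat := .move 715 n343 (.cons 756 n348 .nil)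
noncomputable def n350 : Strat := .move 755 n173 (.cons 920 n349 .nil)
noncomputable def n351 : Strat := .move 796 n319 (.cons 755 n339 (.cons 920 n342 (.cons 877 n350 .nil)))
noncomputable def n352 : Strat := .move 878 n6 (.cons 836 n351 .nil)
noncomputable def n353 : Strat := .move 837 n303 (.cons 882 n306 (.cons 836 n314 (.cons 839 n316 (.cons 838 n352 .nil))))
noncomputable def n354 : Strat := .move 879 n161 (.cons 882 n181 (.cons 878 n197 (.cons 838 n201 (.cons 839 n262 (.cons 920 n270 (.cons 837 n294 (.cons 919 n353 .nil)))))))
noncomputable def n355 : Strat := .move 960 n25 (.cons 959 n133 .nil)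
noncomputable def n356 : Strat := .move 921 n22 (.cons 877 n355 .nil)
noncomputable def n357 : Strat := .move 920 n131 (.cons 755 n124 (.cons 796 n356 .nil))
noncomputable def n358 : Strat := .move 922 n17 (.cons 923 n357 .nil)
noncomputable def n359 : Strat := .move 837 n6 (.cons 836 n358 .nil)
noncomputable def n360 : Strat := .move 919 n5 (.cons 918 n359 .nil)
noncomputable def n361 : Strat := .move 756 n175 (.cons 715 n174 .nil)
noncomputable def n362 : Strat := .move 755 n173 (.cons 920 n361 .nil)
noncomputable def n363 : Strat := .win 839 2 795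
noncomputable def n364 : Strat := .win 754 7 754
noncomputable def n365 : Strat := .move 795 n363 (.cons 839 n364 .nil)
noncomputable def n366 : Strat := .move 838 n37 (.cons 960 n365 .nil)
noncomputable def n367 : Strat := .move 797 n135 (.cons 756 n366 .nil)
noncomputable def n368 : Strat := .move 796 n162 (.cons 961 n362 (.cons 920 n367 .nil))
noncomputable def n369 : Strat := .move 922 n17 (.cons 923 n368 .nil)
noncomputable def n370 : Strat := .move 919 n5 (.cons 918 n369 .nil)
noncomputable def n371 : Strat := .move 837 n6 (.cons 836 n370 .nil)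
noncomputable def n372 : Strat := .move 878 n4 (.cons 839 n360 (.cons 919 n15 (.cons 877 n371 .nil)))
noncomputable def n373 : Strat := .move 835 n279 (.cons 834 n278 .nil)
noncomputable def n374 : Strat := .move 876 n287 (.cons 875 n373 .nil)
noncomputable def n375 : Strat := .move 877 n18 (.cons 921 n374 .nil)
noncomputable def n376 : Strat := .move 920 n21 (.cons 882 n375 .nil)
noncomputable def n377 : Strat := .move 922 n17 (.cons 923 n376 .nil)
noncomputable def n378 : Strat := .move 919 n5 (.cons 918 n377 .nil)
noncomputable def n379 : Strat := .move 922 n17 (.cons 923 n356 .nil)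
noncomputable def n380 : Strat := .move 920 n21 (.cons 882 n379 .nil)
noncomputable def n381 : Strat := .move 919 n5 (.cons 918 n380 .nil)
noncomputable def n382 : Strat := .move 878 n11 (.cons 918 n154 (.cons 838 n127 (.cons 837 n378 (.cons 836 n381 (.cons 882 n360 .nil)))))
noncomputable def n383 : Strat := .move 878 n4 (.cons 839 n127 (.cons 919 n15 .nil))
noncomputable def n384 : Strat := .move 878 n15 (.cons 836 n4 (.cons 877 n154 .nil))
noncomputable def n385 : Strat := .move 878 n4 (.cons 919 n48 (.cons 839 n378 (.cons 877 n53 .nil)))
noncomputable def n386 : Strat := .move 878 n15 (.cons 837 n48 (.cons 877 n154 .nil))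
noncomputable def n387 : Strat := .move 878 n49 (.cons 922 n6 .nil)
noncomputable def n388 : Strat := .move 837 n7 (.cons 838 n387 .nil)
noncomputable def n389 : Strat := .move 923 n50 (.cons 924 n388 .nil)
noncomputable def n390 : Strat := .win 885 4 881
noncomputable def n391 : Strat := .move 884 n307 (.cons 839 n390 .nil)
noncomputable def n392 : Strat := .move 883 n58 (.cons 921 n391 .nil)
noncomputable def n393 : Strat := .move 922 n68 (.cons 878 n392 .nil)
noncomputable def n394 : Strat := .move 920 n57 (.cons 919 n393 .nil)
noncomputable def n395 : Strat := .move 923 n50 (.cons 924 n394 .nil)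
noncomputable def n396 : Strat := .move 882 n61 (.cons 921 n66 (.cons 883 n389 (.cons 838 n395 .nil)))
noncomputable def n397 : Strat := .move 883 n58 (.cons 921 n273 .nil)
noncomputable def n398 : Strat := .move 920 n57 (.cons 919 n397 .nil)
noncomputable def n399 : Strat := .move 923 n50 (.cons 924 n398 .nil)
noncomputable def n400 : Strat := .move 878 n49 (.cons 922 n157 .nil)
noncomputable def n401 : Strat := .move 923 n50 (.cons 924 n400 .nil)
noncomputable def n402 : Strat := .win 921 4 880
noncomputable def n403 : Strat := .move 884 n307 (.cons 839 n402 .nil)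
noncomputable def n404 : Strat := .move 838 n55 (.cons 837 n56 .nil)
noncomputable def n405 : Strat := .win 920 4 879
noncomputable def n406 : Strat := .win 884 4 880
noncomputable def n407 : Strat := .move 921 n405 (.cons 920 n406 .nil)
noncomputable def n408 : Strat := .move 883 n403 (.cons 921 n273 (.cons 884 n404 (.cons 839 n407 .nil)))
noncomputable def n409 : Strat := .move 922 n68 (.cons 878 n408 .nil)
noncomputable def n410 : Strat := .move 923 n50 (.cons 924 n409 .nil)
noncomputable def n411 : Strat := .win 837 0 837
noncomputable def n412 : Strat := .win 883 2 838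
noncomputable def n413 : Strat := .move 838 n411 (.cons 837 n412 .nil)
noncomputable def n414 : Strat := .move 839 n263 (.cons 877 n413 .nil)
noncomputable def n415 : Strat := .move 878 n49 (.cons 922 n414 .nil)
noncomputable def n416 : Strat := .move 923 n50 (.cons 924 n415 .nil)
noncomputable def n417 : Strat := .move 882 n399 (.cons 923 n61 (.cons 883 n401 (.cons 919 n410 (.cons 920 n416 .nil))))
noncomputable def n418 : Strat := .move 882 n57 (.cons 919 n397 .nil)
noncomputable def n419 : Strat := .move 798 n323 (.cons 757 n324 .nil)
noncomputable def n420 : Strat := .move 839 n90 (.cons 1002 n419 .nil)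
noncomputable def n421 : Strat := .win 838 3 797
noncomputable def n422 : Strat := .move 798 n323 (.cons 757 n421 .nil)
noncomputable def n423 : Strat := .move 839 n90 (.cons 1002 n422 .nil)
noncomputable def n424 : Strat := .win 1001 1 878
noncomputable def n425 : Strat := .win 1083 1 919
noncomputable def n426 : Strat := .move 1042 n424 (.cons 1001 n425 .nil)
noncomputable def n427 : Strat := .move 1043 n244 (.cons 921 n426 .nil)
noncomputable def n428 : Strat := .move 1002 n94 (.cons 839 n427 .nil)
noncomputable def n429 : Strat := .win 1003 6 879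
noncomputable def n430 : Strat := .win 1085 6 920
noncomputable def n431 : Strat := .move 1044 n429 (.cons 1003 n430 .nil)
noncomputable def n432 : Strat := .move 1043 n244 (.cons 921 n431 .nil)
noncomputable def n433 : Strat := .win 838 1 837
noncomputable def n434 : Strat := .win 1004 2 959
noncomputable def n435 : Strat := .win 958 0 958
noncomputable def n436 : Strat := .move 959 n434 (.cons 1004 n435 .nil)
noncomputable def n437 : Strat := .move 960 n433 (.cons 838 n436 .nil)
noncomputable def n438 : Strat := .move 1003 n255 (.cons 1044 n437 .nil)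
noncomputable def n439 : Strat := .move 1001 n233 (.cons 1042 n438 .nil)
noncomputable def n440 : Strat := .move 1002 n427 (.cons 1001 n432 (.cons 1043 n439 .nil))
noncomputable def n441 : Strat := .win 798 3 797
noncomputable def n442 : Strat := .move 837 n227 (.cons 796 n295 .nil)
noncomputable def n443 : Strat := .move 839 n441 (.cons 798 n442 .nil)
noncomputable def n444 : Strat := .win 919 1 796
noncomputable def n445 : Strat := .move 797 n444 (.cons 919 n222 .nil)
noncomputable def n446 : Strat := .move 960 n105 (.cons 1001 n445 .nil)
noncomputable def n447 : Strat := .win 839 3 797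
noncomputable def n448 : Strat := .move 960 n105 (.cons 1001 n444 .nil)
noncomputable def n449 : Strat := .move 797 n102 (.cons 757 n448 .nil)
noncomputable def n450 : Strat := .move 798 n447 (.cons 839 n449 .nil)
noncomputable def n451 : Strat := .move 838 n443 (.cons 839 n446 (.cons 837 n450 .nil))
noncomputable def n452 : Strat := .move 961 n420 (.cons 921 n423 (.cons 757 n428 (.cons 839 n440 (.cons 1002 n451 .nil))))
noncomputable def n453 : Strat := .move 882 n57 (.cons 919 n87 .nil)
noncomputable def n454 : Strat := .move 798 n323 (.cons 757 n188 .nil)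
noncomputable def n455 : Strat := .move 839 n412 (.cons 883 n454 .nil)
noncomputable def n456 : Strat := .move 838 n55 (.cons 837 n455 .nil)
noncomputable def n457 : Strat := .move 882 n57 (.cons 919 n456 .nil)
noncomputable def n458 : Strat := .move 839 n323 (.cons 757 n188 .nil)
noncomputable def n459 : Strat := .win 839 1 756
noncomputable def n460 : Strat := .win 797 3 756
noncomputable def n461 : Strat := .move 757 n459 (.cons 839 n460 .nil)
noncomputable def n462 : Strat := .win 796 7 755
noncomputable def n463 : Strat := .win 714 7 714
noncomputable def n464 : Strat := .move 756 n463 (.cons 714 n183 .nil)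
noncomputable def n465 : Strat := .move 755 n462 (.cons 796 n464 .nil)
noncomputable def n466 : Strat := .move 797 n102 (.cons 757 n465 .nil)
noncomputable def n467 : Strat := .win 715 6 715
noncomputable def n468 : Strat := .move 756 n467 (.cons 715 n183 .nil)
noncomputable def n469 : Strat := .move 797 n191 (.cons 755 n468 .nil)
noncomputable def n470 : Strat := .move 839 n188 (.cons 961 n469 .nil)
noncomputable def n471 : Strat := .move 798 n458 (.cons 961 n461 (.cons 839 n466 (.cons 757 n470 .nil)))
noncomputable def n472 : Strat := .move 924 n62 (.cons 923 n471 .nil)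
noncomputable def n473 : Strat := .move 838 n55 (.cons 837 n472 .nil)
noncomputable def n474 : Strat := .move 882 n397 (.cons 839 n87 (.cons 921 n456 (.cons 883 n473 .nil)))
noncomputable def n475 : Strat := .move 920 n418 (.cons 882 n452 (.cons 839 n453 (.cons 921 n457 (.cons 919 n474 .nil))))
noncomputable def n476 : Strat := .move 879 n16 (.cons 882 n372 (.cons 839 n382 (.cons 838 n383 (.cons 920 n384 (.cons 837 n385 (.cons 919 n386 (.cons 877 n396 (.cons 836 n417 (.cons 878 n475 .nil)))))))))
noncomputable def n477 : Strat := .move 920 n21 (.cons 882 n356 .nil)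
noncomputable def n478 : Strat := .move 922 n17 (.cons 923 n477 .nil)
noncomputable def n479 : Strat := .move 919 n5 (.cons 918 n478 .nil)
noncomputable def n480 : Strat := .move 796 n130 (.cons 961 n129 .nil)
noncomputable def n481 : Strat := .move 961 n123 (.cons 1002 n122 .nil)
noncomputable def n482 : Strat := .move 920 n480 (.cons 755 n481 (.cons 961 n355 .nil))
noncomputable def n483 : Strat := .move 921 n22 (.cons 877 n482 .nil)
noncomputable def n484 : Strat := .move 922 n17 (.cons 923 n483 .nil)
noncomputable def n485 : Strat := .move 837 n6 (.cons 836 n484 .nil)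
noncomputable def n486 : Strat := .move 919 n5 (.cons 918 n485 .nil)
noncomputable def n487 : Strat := .move 878 n11 (.cons 919 n154 (.cons 838 n127 (.cons 837 n479 (.cons 882 n486 .nil))))
noncomputable def n488 : Strat := .move 878 n15 (.cons 836 n4 (.cons 839 n269 .nil))
noncomputable def n489 : Strat := .move 878 n4 (.cons 839 n479 (.cons 919 n48 (.cons 877 n53 .nil)))
noncomputable def n490 : Strat := .move 961 n441 (.cons 798 n90 .nil)
noncomputable def n491 : Strat := .move 921 n78 (.cons 756 n106 .nil)
noncomputable def n492 : Strat := .move 961 n90 (.cons 1002 n491 .nil)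
noncomputable def n493 : Strat := .move 921 n76 (.cons 962 n77 .nil)
noncomputable def n494 : Strat := .move 797 n493 (.cons 756 n191 .nil)
noncomputable def n495 : Strat := .move 798 n323 (.cons 757 n494 .nil)
noncomputable def n496 : Strat := .move 839 n454 (.cons 757 n490 (.cons 798 n492 (.cons 961 n495 .nil)))
noncomputable def n497 : Strat := .move 923 n50 (.cons 924 n496 .nil)
noncomputable def n498 : Strat := .move 920 n57 (.cons 919 n497 .nil)
noncomputable def n499 : Strat := .move 838 n55 (.cons 837 n498 .nil)
noncomputable def n500 : Strat := .move 882 n61 (.cons 839 n88 (.cons 921 n66 (.cons 883 n499 .nil)))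
noncomputable def n501 : Strat := .move 920 n129 (.cons 755 n298 .nil)
noncomputable def n502 : Strat := .move 796 n297 (.cons 795 n501 .nil)
noncomputable def n503 : Strat := .move 838 n264 (.cons 882 n502 .nil)
noncomputable def n504 : Strat := .move 837 n6 (.cons 836 n503 .nil)
noncomputable def n505 : Strat := .move 878 n263 (.cons 877 n504 .nil)
noncomputable def n506 : Strat := .win 757 6 757
noncomputable def n507 : Strat := .win 963 7 798
noncomputable def n508 : Strat := .move 798 n506 (.cons 757 n507 .nil)
noncomputable def n509 : Strat := .move 922 n17 (.cons 923 n508 .nil)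
noncomputable def n510 : Strat := .move 878 n263 (.cons 877 n509 .nil)
noncomputable def n511 : Strat := .move 878 n504 (.cons 755 n509 .nil)
noncomputable def n512 : Strat := .move 837 n264 (.cons 882 n295 .nil)
noncomputable def n513 : Strat := .move 882 n411 (.cons 837 n412 .nil)
noncomputable def n514 : Strat := .win 716 1 715
noncomputable def n515 : Strat := .move 757 n320 (.cons 920 n514 .nil)
noncomputable def n516 : Strat := .win 922 6 757
noncomputable def n517 : Strat := .move 757 n514 (.cons 716 n516 .nil)
noncomputable def n518 : Strat := .move 920 n323 (.cons 757 n188 .nil)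
noncomputable def n519 : Strat := .win 797 7 755
noncomputable def n520 : Strat := .win 714 6 714
noncomputable def n521 : Strat := .move 755 n519 (.cons 797 n520 .nil)
noncomputable def n522 : Strat := .move 920 n188 (.cons 961 n521 .nil)
noncomputable def n523 : Strat := .move 796 n297 (.cons 795 n522 .nil)
noncomputable def n524 : Strat := .move 837 n295 (.cons 836 n523 .nil)
noncomputable def n525 : Strat := .move 798 n515 (.cons 920 n517 (.cons 716 n518 (.cons 757 n524 .nil)))
noncomputable def n526 : Strat := .move 756 n183 (.cons 921 n467 .nil)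
noncomputable def n527 : Strat := .move 796 n190 (.cons 755 n189 .nil)
noncomputable def n528 : Strat := .move 797 n526 (.cons 715 n493 (.cons 921 n527 .nil))
noncomputable def n529 : Strat := .move 920 n188 (.cons 961 n528 .nil)
noncomputable def n530 : Strat := .move 922 n507 (.cons 963 n529 .nil)
noncomputable def n531 : Strat := .move 882 n412 (.cons 883 n530 .nil)
noncomputable def n532 : Strat := .move 798 n515 (.cons 920 n517 (.cons 716 n518 (.cons 757 n531 .nil)))
noncomputable def n533 : Strat := .move 838 n512 (.cons 836 n513 (.cons 882 n525 (.cons 837 n532 .nil)))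
noncomputable def n534 : Strat := .move 839 n505 (.cons 755 n510 (.cons 877 n511 (.cons 878 n533 .nil)))
noncomputable def n535 : Strat := .move 878 n4 (.cons 839 n486 (.cons 919 n15 (.cons 877 n371 .nil)))
noncomputable def n536 : Strat := .move 879 n16 (.cons 839 n487 (.cons 838 n383 (.cons 920 n488 (.cons 837 n489 (.cons 878 n500 (.cons 919 n534 (.cons 882 n535 .nil)))))))
noncomputable def n537 : Strat := .move 878 n200 (.cons 1002 n11 (.cons 836 n33 (.cons 882 n20 .nil)))
noncomputable def n538 : Strat := .move 837 n6 (.cons 836 n38 .nil)
noncomputable def n539 : Strat := .move 919 n5 (.cons 918 n538 .nil)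
noncomputable def n540 : Strat := .move 838 n15 (.cons 836 n4 (.cons 839 n539 .nil))
noncomputable def n541 : Strat := .move 878 n540 (.cons 839 n20 (.cons 836 n4 (.cons 877 n151 .nil)))
noncomputable def n542 : Strat := .move 839 n263 (.cons 877 n509 .nil)
noncomputable def n543 : Strat := .win 798 7 798
noncomputable def n544 : Strat := .win 1004 7 839
noncomputable def n545 : Strat := .move 839 n543 (.cons 798 n544 .nil)
noncomputable def n546 : Strat := .win 1005 6 840
noncomputable def n547 : Strat := .win 921 0 919
noncomputable def n548 : Strat := .move 964 n546 (.cons 1005 n547 .nil)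
noncomputable def n549 : Strat := .move 963 n545 (.cons 1004 n548 .nil)
noncomputable def n550 : Strat := .move 920 n21 (.cons 882 n549 .nil)
noncomputable def n551 : Strat := .move 922 n17 (.cons 923 n550 .nil)
noncomputable def n552 : Strat := .move 919 n5 (.cons 918 n551 .nil)
noncomputable def n553 : Strat := .move 878 n542 (.cons 877 n552 (.cons 922 n4 (.cons 839 n46 .nil)))
noncomputable def n554 : Strat := .move 878 n15 (.cons 839 n269 (.cons 837 n4 .nil))
noncomputable def n555 : Strat := .move 922 n506 (.cons 757 n507 .nil)
noncomputable def n556 : Strat := .win 797 7 797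
noncomputable def n557 : Strat := .move 962 n23 (.cons 1003 n556 .nil)
noncomputable def n558 : Strat := .win 961 1 797
noncomputable def n559 : Strat := .move 920 n558 (.cons 961 n527 .nil)
noncomputable def n560 : Strat := .move 797 n77 (.cons 756 n559 .nil)
noncomputable def n561 : Strat := .move 921 n557 (.cons 962 n560 (.cons 797 n331 .nil))
noncomputable def n562 : Strat := .move 838 n512 (.cons 882 n561 .nil)
noncomputable def n563 : Strat := .move 922 n507 (.cons 963 n562 .nil)
noncomputable def n564 : Strat := .move 798 n322 (.cons 716 n555 (.cons 757 n563 .nil))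
noncomputable def n565 : Strat := .move 839 n510 (.cons 922 n505 (.cons 878 n564 .nil))
noncomputable def n566 : Strat := .move 839 n266 (.cons 837 n509 .nil)
noncomputable def n567 : Strat := .move 837 n124 (.cons 1002 n131 (.cons 961 n144 (.cons 796 n147 .nil)))
noncomputable def n568 : Strat := .move 922 n17 (.cons 923 n567 .nil)
noncomputable def n569 : Strat := .move 920 n21 (.cons 882 n568 .nil)
noncomputable def n570 : Strat := .move 919 n5 (.cons 918 n569 .nil)
noncomputable def n571 : Strat := .move 796 n297 (.cons 795 n129 .nil)
noncomputable def n572 : Strat := .move 920 n188 (.cons 961 n571 .nil)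
noncomputable def n573 : Strat := .move 798 n506 (.cons 757 n572 .nil)
noncomputable def n574 : Strat := .move 963 n543 (.cons 798 n544 .nil)
noncomputable def n575 : Strat := .move 755 n520 (.cons 714 n173 .nil)
noncomputable def n576 : Strat := .move 796 n297 (.cons 795 n575 .nil)
noncomputable def n577 : Strat := .move 839 n508 (.cons 963 n573 (.cons 757 n574 (.cons 798 n576 .nil)))
noncomputable def n578 : Strat := .move 922 n17 (.cons 923 n577 .nil)
noncomputable def n579 : Strat := .move 838 n35 (.cons 882 n578 .nil)
noncomputable def n580 : Strat := .move 837 n6 (.cons 836 n579 .nil)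
noncomputable def n581 : Strat := .move 878 n566 (.cons 923 n269 (.cons 836 n570 (.cons 882 n151 (.cons 837 n552 (.cons 919 n580 .nil)))))
noncomputable def n582 : Strat := .move 919 n21 (.cons 882 n208 .nil)
noncomputable def n583 : Strat := .move 961 n90 (.cons 1002 n324 .nil)
noncomputable def n584 : Strat := .move 798 n323 (.cons 757 n583 .nil)
noncomputable def n585 : Strat := .move 961 n90 (.cons 1002 n421 .nil)
noncomputable def n586 : Strat := .move 798 n323 (.cons 757 n585 .nil)
noncomputable def n587 : Strat := .move 838 n441 (.cons 798 n512 .nil)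
noncomputable def n588 : Strat := .move 961 n90 (.cons 1002 n587 .nil)
noncomputable def n589 : Strat := .move 838 n188 (.cons 961 n512 .nil)
noncomputable def n590 : Strat := .move 798 n323 (.cons 757 n589 .nil)
noncomputable def n591 : Strat := .move 837 n295 (.cons 836 n227 .nil)
noncomputable def n592 : Strat := .move 961 n90 (.cons 1002 n591 .nil)
noncomputable def n593 : Strat := .move 961 n90 (.cons 1002 n227 .nil)
noncomputable def n594 : Strat := .move 837 n264 (.cons 882 n593 .nil)
noncomputable def n595 : Strat := .move 755 n463 (.cons 714 n462 .nil)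
noncomputable def n596 : Strat := .move 756 n467 (.cons 715 n595 .nil)
noncomputable def n597 : Strat := .move 797 n219 (.cons 921 n596 .nil)
noncomputable def n598 : Strat := .move 962 n220 (.cons 1003 n597 .nil)
noncomputable def n599 : Strat := .move 961 n90 (.cons 1002 n598 .nil)
noncomputable def n600 : Strat := .move 838 n512 (.cons 882 n592 (.cons 836 n594 (.cons 837 n599 .nil)))
noncomputable def n601 : Strat := .move 797 n468 (.cons 921 n527 .nil)
noncomputable def n602 : Strat := .move 882 n411 (.cons 837 n601 .nil)
noncomputable def n603 : Strat := .move 838 n602 (.cons 797 n512 (.cons 837 n601 .nil))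
noncomputable def n604 : Strat := .move 922 n507 (.cons 963 n603 .nil)
noncomputable def n605 : Strat := .move 798 n323 (.cons 757 n604 .nil)
noncomputable def n606 : Strat := .move 839 n584 (.cons 921 n586 (.cons 757 n588 (.cons 1002 n590 (.cons 798 n600 (.cons 961 n605 .nil)))))
noncomputable def n607 : Strat := .win 918 5 877
noncomputable def n608 : Strat := .win 1004 6 839
noncomputable def n609 : Strat := .win 964 2 919
noncomputable def n610 : Strat := .move 963 n608 (.cons 1004 n609 .nil)
noncomputable def n611 : Strat := .move 919 n607 (.cons 918 n610 .nil)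
noncomputable def n612 : Strat := .move 921 n24 (.cons 797 n611 .nil)
noncomputable def n613 : Strat := .move 962 n220 (.cons 1003 n612 .nil)
noncomputable def n614 : Strat := .move 838 n591 (.cons 837 n613 .nil)
noncomputable def n615 : Strat := .move 961 n90 (.cons 1002 n614 .nil)
noncomputable def n616 : Strat := .win 922 7 798
noncomputable def n617 : Strat := .move 962 n23 (.cons 1003 n608 .nil)
noncomputable def n618 : Strat := .win 838 6 797
noncomputable def n619 : Strat := .move 797 n618 (.cons 838 n327 .nil)
noncomputable def n620 : Strat := .move 962 n23 (.cons 1003 n619 .nil)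
noncomputable def n621 : Strat := .move 919 n211 (.cons 960 n607 .nil)
noncomputable def n622 : Strat := .move 838 n621 (.cons 918 n527 .nil)
noncomputable def n623 : Strat := .move 797 n327 (.cons 756 n622 .nil)
noncomputable def n624 : Strat := .move 921 n617 (.cons 1004 n620 (.cons 962 n623 .nil))
noncomputable def n625 : Strat := .move 963 n616 (.cons 922 n624 .nil)
noncomputable def n626 : Strat := .move 798 n323 (.cons 757 n625 .nil)
noncomputable def n627 : Strat := .move 839 n584 (.cons 798 n615 (.cons 921 n586 (.cons 961 n626 .nil)))
noncomputable def n628 : Strat := .win 918 5 876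
noncomputable def n629 : Strat := .move 797 n211 (.cons 960 n193 .nil)
noncomputable def n630 : Strat := .move 839 n441 (.cons 798 n90 .nil)
noncomputable def n631 : Strat := .move 961 n105 (.cons 1001 n630 .nil)
noncomputable def n632 : Strat := .move 960 n132 (.cons 797 n631 .nil)
noncomputable def n633 : Strat := .move 839 n90 (.cons 1002 n441 .nil)
noncomputable def n634 : Strat := .move 1002 n94 (.cons 839 n256 .nil)
noncomputable def n635 : Strat := .move 1003 n255 (.cons 1044 n254 .nil)
noncomputable def n636 : Strat := .move 1002 n233 (.cons 1042 n635 .nil)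
noncomputable def n637 : Strat := .move 1001 n231 (.cons 960 n636 .nil)
noncomputable def n638 : Strat := .move 961 n633 (.cons 798 n634 (.cons 839 n637 (.cons 1002 n443 .nil)))
noncomputable def n639 : Strat := .move 756 n185 (.cons 716 n595 .nil)
noncomputable def n640 : Strat := .move 757 n184 (.cons 798 n639 .nil)
noncomputable def n641 : Strat := .move 797 n211 (.cons 960 n640 .nil)
noncomputable def n642 : Strat := .move 961 n227 (.cons 796 n90 .nil)
noncomputable def n643 : Strat := .move 837 n295 (.cons 836 n642 .nil)
noncomputable def n644 : Strat := .move 755 n520 (.cons 714 n519 .nil)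
noncomputable def n645 : Strat := .move 796 n297 (.cons 795 n644 .nil)
noncomputable def n646 : Strat := .move 837 n295 (.cons 836 n645 .nil)
noncomputable def n647 : Strat := .move 839 n454 (.cons 798 n643 (.cons 961 n646 .nil))
noncomputable def n648 : Strat := .move 838 n629 (.cons 755 n632 (.cons 797 n638 (.cons 961 n641 (.cons 798 n218 (.cons 960 n647 .nil)))))
noncomputable def n649 : Strat := .move 917 n628 (.cons 918 n648 .nil)
noncomputable def n650 : Strat := .move 919 n21 (.cons 882 n649 .nil)
noncomputable def n651 : Strat := .move 920 n582 (.cons 919 n606 (.cons 882 n627 (.cons 921 n650 .nil)))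
noncomputable def n652 : Strat := .move 879 n201 (.cons 839 n537 (.cons 882 n541 (.cons 837 n553 (.cons 920 n554 (.cons 919 n565 (.cons 877 n581 (.cons 878 n651 .nil)))))))
noncomputable def n653 : Strat := .move 878 n4 (.cons 918 n48 (.cons 839 n11 .nil))
noncomputable def n654 : Strat := .move 964 n547 (.cons 921 n546 .nil)
noncomputable def n655 : Strat := .move 920 n21 (.cons 882 n654 .nil)
noncomputable def n656 : Strat := .move 919 n5 (.cons 918 n655 .nil)
noncomputable def n657 : Strat := .move 963 n544 (.cons 1004 n656 .nil)
noncomputable def n658 : Strat := .move 922 n17 (.cons 923 n657 .nil)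
noncomputable def n659 : Strat := .move 839 n263 (.cons 877 n658 .nil)
noncomputable def n660 : Strat := .move 878 n659 (.cons 919 n48 (.cons 923 n4 (.cons 877 n53 .nil)))
noncomputable def n661 : Strat := .win 839 4 836
noncomputable def n662 : Strat := .move 877 n661 (.cons 839 n3 .nil)
noncomputable def n663 : Strat := .move 838 n35 (.cons 882 n662 .nil)
noncomputable def n664 : Strat := .move 837 n6 (.cons 836 n663 .nil)
noncomputable def n665 : Strat := .move 919 n5 (.cons 918 n9 .nil)
noncomputable def n666 : Strat := .move 837 n6 (.cons 836 n665 .nil)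
noncomputable def n667 : Strat := .move 878 n664 (.cons 882 n15 (.cons 837 n4 (.cons 839 n666 .nil)))
noncomputable def n668 : Strat := .move 878 n15 (.cons 837 n4 (.cons 839 n269 .nil))
noncomputable def n669 : Strat := .win 963 2 920
noncomputable def n670 : Strat := .win 922 0 920
noncomputable def n671 : Strat := .move 965 n669 (.cons 963 n670 .nil)
noncomputable def n672 : Strat := .move 964 n69 (.cons 1005 n671 .nil)
noncomputable def n673 : Strat := .move 962 n23 (.cons 1003 n672 .nil)
noncomputable def n674 : Strat := .move 961 n95 (.cons 839 n97 .nil)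
noncomputable def n675 : Strat := .move 964 n69 (.cons 1005 n674 .nil)
noncomputable def n676 : Strat := .move 921 n100 (.cons 797 n673 (.cons 962 n675 .nil))
noncomputable def n677 : Strat := .move 923 n50 (.cons 924 n676 .nil)
noncomputable def n678 : Strat := .move 920 n57 (.cons 919 n677 .nil)
noncomputable def n679 : Strat := .move 838 n55 (.cons 837 n678 .nil)
noncomputable def n680 : Strat := .move 882 n61 (.cons 838 n88 (.cons 920 n66 (.cons 883 n679 .nil)))
noncomputable def n681 : Strat := .win 797 3 796
noncomputable def n682 : Strat := .move 838 n681 (.cons 797 n26 .nil)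
noncomputable def n683 : Strat := .move 1001 n138 (.cons 838 n166 .nil)
noncomputable def n684 : Strat := .win 1002 6 837
noncomputable def n685 : Strat := .move 920 n122 (.cons 796 n142 .nil)
noncomputable def n686 : Strat := .move 961 n684 (.cons 1002 n685 .nil)
noncomputable def n687 : Strat := .move 960 n682 (.cons 797 n683 (.cons 838 n686 .nil))
noncomputable def n688 : Strat := .move 922 n17 (.cons 923 n687 .nil)
noncomputable def n689 : Strat := .move 919 n5 (.cons 918 n688 .nil)
noncomputable def n690 : Strat := .move 837 n6 (.cons 836 n689 .nil)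
noncomputable def n691 : Strat := .move 878 n4 (.cons 918 n15 (.cons 839 n20 (.cons 877 n690 .nil)))
noncomputable def n692 : Strat := .move 878 n11 (.cons 882 n20 (.cons 837 n46 .nil))
noncomputable def n693 : Strat := .move 878 n15 (.cons 837 n48 (.cons 839 n20 (.cons 877 n154 .nil)))
noncomputable def n694 : Strat := .move 879 n653 (.cons 838 n660 (.cons 921 n667 (.cons 920 n668 (.cons 878 n680 (.cons 882 n691 (.cons 839 n692 (.cons 919 n693 .nil)))))))
noncomputable def n695 : Strat := .move 878 n263 (.cons 877 n657 .nil)
noncomputable def n696 : Strat := .move 920 n21 (.cons 882 n325 .nil)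
noncomputable def n697 : Strat := .move 919 n5 (.cons 918 n696 .nil)
noncomputable def n698 : Strat := .move 798 n506 (.cons 757 n697 .nil)
noncomputable def n699 : Strat := .move 878 n263 (.cons 877 n698 .nil)
noncomputable def n700 : Strat := .move 922 n508 (.cons 798 n695 (.cons 963 n699 .nil))
noncomputable def n701 : Strat := .move 882 n57 (.cons 919 n412 .nil)
noncomputable def n702 : Strat := .move 920 n188 (.cons 961 n701 .nil)
noncomputable def n703 : Strat := .move 798 n515 (.cons 920 n517 (.cons 716 n518 (.cons 757 n702 .nil)))
noncomputable def n704 : Strat := .win 962 7 797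
noncomputable def n705 : Strat := .move 797 n77 (.cons 756 n704 .nil)
noncomputable def n706 : Strat := .win 922 6 798
noncomputable def n707 : Strat := .move 963 n608 (.cons 1004 n706 .nil)
noncomputable def n708 : Strat := .move 962 n23 (.cons 1003 n707 .nil)
noncomputable def n709 : Strat := .move 920 n558 (.cons 961 n708 .nil)
noncomputable def n710 : Strat := .move 797 n77 (.cons 756 n621 .nil)
noncomputable def n711 : Strat := .move 920 n558 (.cons 961 n710 .nil)
noncomputable def n712 : Strat := .move 921 n557 (.cons 1003 n705 (.cons 797 n709 (.cons 962 n711 .nil)))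
noncomputable def n713 : Strat := .move 798 n515 (.cons 920 n517 (.cons 716 n518 (.cons 757 n712 .nil)))
noncomputable def n714 : Strat := .move 838 n512 (.cons 836 n513 (.cons 837 n703 (.cons 882 n713 .nil)))
noncomputable def n715 : Strat := .move 961 n90 (.cons 1002 n122 .nil)
noncomputable def n716 : Strat := .win 838 2 795
noncomputable def n717 : Strat := .move 795 n364 (.cons 754 n716 .nil)
noncomputable def n718 : Strat := .move 796 n129 (.cons 755 n717 .nil)
noncomputable def n719 : Strat := .move 798 n323 (.cons 757 n718 .nil)
noncomputable def n720 : Strat := .move 798 n324 (.cons 921 n323 .nil)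
noncomputable def n721 : Strat := .move 961 n90 (.cons 1002 n720 .nil)
noncomputable def n722 : Strat := .move 920 n715 (.cons 1002 n131 (.cons 961 n719 (.cons 796 n721 .nil)))
noncomputable def n723 : Strat := .move 919 n5 (.cons 918 n722 .nil)
noncomputable def n724 : Strat := .move 837 n6 (.cons 836 n723 .nil)
noncomputable def n725 : Strat := .move 878 n263 (.cons 877 n724 .nil)
noncomputable def n726 : Strat := .move 878 n263 (.cons 877 n266 .nil)
noncomputable def n727 : Strat := .move 839 n505 (.cons 838 n700 (.cons 878 n714 (.cons 882 n725 (.cons 961 n726 .nil))))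
noncomputable def n728 : Strat := .win 920 6 797
noncomputable def n729 : Strat := .move 797 n728 (.cons 920 n77 .nil)
noncomputable def n730 : Strat := .move 962 n23 (.cons 1003 n729 .nil)
noncomputable def n731 : Strat := .move 922 n22 (.cons 877 n730 .nil)
noncomputable def n732 : Strat := .move 797 n77 (.cons 756 n728 .nil)
noncomputable def n733 : Strat := .move 962 n23 (.cons 1003 n732 .nil)
noncomputable def n734 : Strat := .win 922 0 877
noncomputable def n735 : Strat := .win 875 5 834
noncomputable def n736 : Strat := .win 920 0 876
noncomputable def n737 : Strat := .move 876 n735 (.cons 875 n736 .nil)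
noncomputable def n738 : Strat := .move 877 n734 (.cons 922 n737 .nil)
noncomputable def n739 : Strat := .move 917 n281 (.cons 916 n280 .nil)
noncomputable def n740 : Strat := .move 876 n735 (.cons 875 n739 .nil)
noncomputable def n741 : Strat := .move 877 n734 (.cons 922 n740 .nil)
noncomputable def n742 : Strat := .move 962 n23 (.cons 1003 n741 .nil)
noncomputable def n743 : Strat := .move 921 n731 (.cons 922 n733 (.cons 962 n738 (.cons 920 n742 .nil)))
noncomputable def n744 : Strat := .move 838 n35 (.cons 882 n743 .nil)
noncomputable def n745 : Strat := .move 837 n6 (.cons 836 n744 .nil)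
noncomputable def n746 : Strat := .win 715 1 714
noncomputable def n747 : Strat := .win 919 1 755
noncomputable def n748 : Strat := .move 756 n746 (.cons 715 n747 .nil)
noncomputable def n749 : Strat := .move 919 n36 (.cons 756 n37 .nil)
noncomputable def n750 : Strat := .move 796 n129 (.cons 755 n298 .nil)
noncomputable def n751 : Strat := .move 961 n123 (.cons 1002 n227 .nil)
noncomputable def n752 : Strat := .move 961 n105 (.cons 1001 n123 .nil)
noncomputable def n753 : Strat := .move 960 n444 (.cons 919 n752 .nil)
noncomputable def n754 : Strat := .win 876 0 876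
noncomputable def n755 : Strat := .move 877 n754 (.cons 876 n734 .nil)
noncomputable def n756 : Strat := .move 921 n76 (.cons 962 n755 .nil)
noncomputable def n757 : Strat := .move 919 n211 (.cons 960 n756 .nil)
noncomputable def n758 : Strat := .move 920 n750 (.cons 755 n751 (.cons 796 n753 (.cons 961 n757 .nil)))
noncomputable def n759 : Strat := .move 756 n746 (.cons 715 n183 .nil)
noncomputable def n760 : Strat := .move 797 n748 (.cons 715 n749 (.cons 756 n758 (.cons 919 n759 .nil)))
noncomputable def n761 : Strat := .move 838 n35 (.cons 882 n760 .nil)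
noncomputable def n762 : Strat := .move 837 n6 (.cons 836 n761 .nil)
noncomputable def n763 : Strat := .move 838 n76 (.cons 962 n211 .nil)
noncomputable def n764 : Strat := .move 921 n755 (.cons 922 n763 .nil)
noncomputable def n765 : Strat := .move 797 n135 (.cons 756 n764 .nil)
noncomputable def n766 : Strat := .move 796 n129 (.cons 755 n765 .nil)
noncomputable def n767 : Strat := .move 959 n141 (.cons 1000 n239 .nil)
noncomputable def n768 : Strat := .move 960 n145 (.cons 1001 n767 .nil)
noncomputable def n769 : Strat := .move 961 n123 (.cons 1002 n768 .nil)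
noncomputable def n770 : Strat := .move 837 n124 (.cons 1002 n131 (.cons 961 n766 (.cons 796 n769 .nil)))
noncomputable def n771 : Strat := .move 920 n21 (.cons 882 n770 .nil)
noncomputable def n772 : Strat := .move 919 n5 (.cons 918 n771 .nil)
noncomputable def n773 : Strat := .move 920 n124 (.cons 1002 n131 (.cons 961 n766 (.cons 796 n769 .nil)))
noncomputable def n774 : Strat := .move 837 n6 (.cons 836 n773 .nil)
noncomputable def n775 : Strat := .move 919 n5 (.cons 918 n774 .nil)
noncomputable def n776 : Strat := .move 876 n279 (.cons 834 n736 .nil)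
noncomputable def n777 : Strat := .move 835 n278 (.cons 836 n776 .nil)
noncomputable def n778 : Strat := .move 962 n23 (.cons 1003 n777 .nil)
noncomputable def n779 : Strat := .move 921 n734 (.cons 922 n778 .nil)
noncomputable def n780 : Strat := .move 877 n2 (.cons 917 n779 .nil)
noncomputable def n781 : Strat := .move 918 n1 (.cons 919 n780 .nil)
noncomputable def n782 : Strat := .move 878 n200 (.cons 919 n745 (.cons 918 n762 (.cons 836 n772 (.cons 920 n269 (.cons 882 n775 (.cons 837 n781 .nil))))))
noncomputable def n783 : Strat := .win 924 0 880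
noncomputable def n784 : Strat := .win 926 0 881
noncomputable def n785 : Strat := .move 925 n783 (.cons 924 n784 .nil)
noncomputable def n786 : Strat := .move 884 n309 (.cons 844 n785 .nil)
noncomputable def n787 : Strat := .move 843 n308 (.cons 842 n786 .nil)
noncomputable def n788 : Strat := .move 883 n56 (.cons 839 n787 .nil)
noncomputable def n789 : Strat := .move 838 n55 (.cons 837 n788 .nil)
noncomputable def n790 : Strat := .move 797 n77 (.cons 756 n76 .nil)
noncomputable def n791 : Strat := .move 839 n558 (.cons 961 n191 .nil)
noncomputable def n792 : Strat := .move 798 n102 (.cons 757 n791 .nil)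
noncomputable def n793 : Strat := .move 797 n77 (.cons 756 n792 .nil)
noncomputable def n794 : Strat := .win 922 5 918
noncomputable def n795 : Strat := .win 958 5 917
noncomputable def n796 : Strat := .move 959 n794 (.cons 922 n795 .nil)
noncomputable def n797 : Strat := .move 960 n105 (.cons 1001 n796 .nil)
noncomputable def n798 : Strat := .move 961 n110 (.cons 798 n112 (.cons 1002 n797 .nil))
noncomputable def n799 : Strat := .move 962 n23 (.cons 1003 n798 .nil)
noncomputable def n800 : Strat := .move 921 n100 (.cons 1003 n790 (.cons 962 n793 (.cons 797 n799 .nil)))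
noncomputable def n801 : Strat := .move 920 n57 (.cons 919 n800 .nil)
noncomputable def n802 : Strat := .move 838 n55 (.cons 837 n801 .nil)
noncomputable def n803 : Strat := .move 925 n784 (.cons 926 n783 .nil)
noncomputable def n804 : Strat := .move 884 n309 (.cons 844 n803 .nil)
noncomputable def n805 : Strat := .move 843 n308 (.cons 842 n804 .nil)
noncomputable def n806 : Strat := .move 838 n55 (.cons 837 n805 .nil)
noncomputable def n807 : Strat := .move 883 n58 (.cons 921 n806 .nil)
noncomputable def n808 : Strat := .move 920 n57 (.cons 919 n807 .nil)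
noncomputable def n809 : Strat := .move 883 n58 (.cons 921 n311 .nil)
noncomputable def n810 : Strat := .move 920 n57 (.cons 919 n809 .nil)
noncomputable def n811 : Strat := .move 882 n61 (.cons 920 n789 (.cons 883 n802 (.cons 837 n398 (.cons 839 n808 (.cons 838 n810 .nil)))))
noncomputable def n812 : Strat := .move 839 n263 (.cons 877 n724 .nil)
noncomputable def n813 : Strat := .move 922 n18 (.cons 921 n3 .nil)
noncomputable def n814 : Strat := .move 877 n0 (.cons 839 n813 .nil)
noncomputable def n815 : Strat := .move 796 n162 (.cons 920 n367 .nil)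
noncomputable def n816 : Strat := .move 919 n5 (.cons 918 n815 .nil)
noncomputable def n817 : Strat := .move 837 n6 (.cons 836 n816 .nil)
noncomputable def n818 : Strat := .move 878 n812 (.cons 839 n775 (.cons 837 n814 (.cons 919 n15 (.cons 877 n817 .nil))))
noncomputable def n819 : Strat := .move 922 n18 (.cons 921 n14 .nil)
noncomputable def n820 : Strat := .move 877 n0 (.cons 839 n819 .nil)
noncomputable def n821 : Strat := .move 878 n4 (.cons 839 n127 (.cons 919 n820 .nil))
noncomputable def n822 : Strat := .move 921 n734 (.cons 922 n14 .nil)
noncomputable def n823 : Strat := .move 877 n0 (.cons 839 n822 .nil)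
noncomputable def n824 : Strat := .move 878 n823 (.cons 839 n269 (.cons 836 n814 .nil))
noncomputable def n825 : Strat := .move 839 n296 (.cons 877 n502 .nil)
noncomputable def n826 : Strat := .move 838 n35 (.cons 882 n825 .nil)
noncomputable def n827 : Strat := .move 837 n6 (.cons 836 n826 .nil)
noncomputable def n828 : Strat := .move 882 n8 (.cons 920 n413 .nil)
noncomputable def n829 : Strat := .move 919 n5 (.cons 918 n828 .nil)
noncomputable def n830 : Strat := .move 839 n263 (.cons 877 n829 .nil)
noncomputable def n831 : Strat := .move 920 n21 (.cons 882 n481 .nil)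
noncomputable def n832 : Strat := .move 919 n5 (.cons 918 n831 .nil)
noncomputable def n833 : Strat := .move 837 n6 (.cons 836 n832 .nil)
noncomputable def n834 : Strat := .move 878 n827 (.cons 836 n830 (.cons 838 n4 (.cons 839 n833 .nil)))
noncomputable def n835 : Strat := .move 918 n2 (.cons 917 n779 .nil)
noncomputable def n836 : Strat := .move 877 n0 (.cons 839 n835 .nil)
noncomputable def n837 : Strat := .move 882 n57 (.cons 919 n67 .nil)
noncomputable def n838 : Strat := .move 920 n754 (.cons 876 n837 .nil)
noncomputable def n839 : Strat := .move 921 n734 (.cons 922 n838 .nil)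
noncomputable def n840 : Strat := .move 877 n0 (.cons 839 n839 .nil)
noncomputable def n841 : Strat := .move 1002 n94 (.cons 839 n232 .nil)
noncomputable def n842 : Strat := .move 838 n231 (.cons 960 n635 .nil)
noncomputable def n843 : Strat := .move 1001 n233 (.cons 1042 n842 .nil)
noncomputable def n844 : Strat := .move 1002 n232 (.cons 1043 n843 .nil)
noncomputable def n845 : Strat := .win 921 3 839
noncomputable def n846 : Strat := .win 838 6 838
noncomputable def n847 : Strat := .move 1003 n845 (.cons 921 n846 .nil)
noncomputable def n848 : Strat := .move 797 n211 (.cons 960 n36 .nil)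
noncomputable def n849 : Strat := .move 838 n220 (.cons 1003 n848 .nil)
noncomputable def n850 : Strat := .move 798 n421 (.cons 838 n324 .nil)
noncomputable def n851 : Strat := .move 798 n421 (.cons 838 n323 .nil)
noncomputable def n852 : Strat := .win 922 7 839
noncomputable def n853 : Strat := .win 921 6 839
noncomputable def n854 : Strat := .move 1004 n852 (.cons 922 n853 .nil)
noncomputable def n855 : Strat := .move 839 n720 (.cons 757 n850 (.cons 921 n851 (.cons 798 n854 .nil)))
noncomputable def n856 : Strat := .move 963 n609 (.cons 964 n855 .nil)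
noncomputable def n857 : Strat := .move 839 n608 (.cons 1004 n91 .nil)
noncomputable def n858 : Strat := .move 963 n609 (.cons 964 n857 .nil)
noncomputable def n859 : Strat := .move 921 n23 (.cons 1003 n858 .nil)
noncomputable def n860 : Strat := .move 962 n847 (.cons 921 n849 (.cons 1003 n856 (.cons 838 n859 .nil)))
noncomputable def n861 : Strat := .move 961 n841 (.cons 839 n844 (.cons 1043 n420 (.cons 1002 n860 .nil)))
noncomputable def n862 : Strat := .move 920 n21 (.cons 882 n861 .nil)
noncomputable def n863 : Strat := .move 919 n5 (.cons 918 n862 .nil)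
noncomputable def n864 : Strat := .move 878 n4 (.cons 839 n781 (.cons 919 n836 (.cons 918 n840 (.cons 877 n863 .nil))))
noncomputable def n865 : Strat := .move 876 n736 (.cons 920 n282 .nil)
noncomputable def n866 : Strat := .move 921 n734 (.cons 922 n865 .nil)
noncomputable def n867 : Strat := .move 877 n0 (.cons 839 n866 .nil)
noncomputable def n868 : Strat := .move 878 n6 (.cons 836 n867 .nil)
noncomputable def n869 : Strat := .move 836 n249 (.cons 835 n304 .nil)
noncomputable def n870 : Strat := .move 838 n35 (.cons 882 n869 .nil)
noncomputable def n871 : Strat := .move 878 n6 (.cons 836 n744 .nil)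
noncomputable def n872 : Strat := .move 878 n296 (.cons 877 n299 .nil)
noncomputable def n873 : Strat := .move 839 n297 (.cons 795 n872 .nil)
noncomputable def n874 : Strat := .win 878 6 755
noncomputable def n875 : Strat := .move 920 n298 (.cons 961 n874 .nil)
noncomputable def n876 : Strat := .move 755 n520 (.cons 714 n875 .nil)
noncomputable def n877 : Strat := .win 752 2 752
noncomputable def n878 : Strat := .win 793 0 793
noncomputable def n879 : Strat := .move 794 n877 (.cons 752 n878 .nil)
noncomputable def n880 : Strat := .win 754 2 753
noncomputable def n881 : Strat := .move 798 n880 (.cons 754 n102 .nil)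
noncomputable def n882 : Strat := .move 753 n879 (.cons 793 n881 .nil)
noncomputable def n883 : Strat := .move 797 n493 (.cons 756 n882 .nil)
noncomputable def n884 : Strat := .move 795 n363 (.cons 839 n883 .nil)
noncomputable def n885 : Strat := .move 920 n298 (.cons 961 n884 .nil)
noncomputable def n886 : Strat := .move 878 n296 (.cons 877 n575 .nil)
noncomputable def n887 : Strat := .move 839 n297 (.cons 795 n886 .nil)
noncomputable def n888 : Strat := .win 754 4 753
noncomputable def n889 : Strat := .win 758 4 754
noncomputable def n890 : Strat := .move 757 n888 (.cons 754 n889 .nil)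
noncomputable def n891 : Strat := .move 794 n878 (.cons 793 n890 .nil)
noncomputable def n892 : Strat := .win 878 3 714
noncomputable def n893 : Strat := .win 797 1 673
noncomputable def n894 : Strat := .win 633 1 632
noncomputable def n895 : Strat := .move 674 n893 (.cons 797 n894 .nil)
noncomputable def n896 : Strat := .move 715 n892 (.cons 878 n895 .nil)
noncomputable def n897 : Strat := .move 756 n891 (.cons 794 n896 .nil)
noncomputable def n898 : Strat := .move 755 n520 (.cons 714 n897 .nil)
noncomputable def n899 : Strat := .move 795 n363 (.cons 839 n898 .nil)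
noncomputable def n900 : Strat := .move 796 n873 (.cons 839 n876 (.cons 755 n885 (.cons 961 n887 (.cons 920 n899 .nil))))
noncomputable def n901 : Strat := .move 838 n35 (.cons 882 n900 .nil)
noncomputable def n902 : Strat := .move 837 n303 (.cons 838 n868 (.cons 878 n870 (.cons 839 n871 (.cons 836 n901 .nil))))
noncomputable def n903 : Strat := .move 879 n727 (.cons 839 n782 (.cons 878 n811 (.cons 882 n818 (.cons 838 n821 (.cons 920 n824 (.cons 921 n834 (.cons 837 n864 (.cons 919 n902 .nil))))))))
noncomputable def n904 : Strat := .move 920 n57 (.cons 919 n454 .nil)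
noncomputable def n905 : Strat := .move 839 n412 (.cons 883 n904 .nil)
noncomputable def n906 : Strat := .move 838 n55 (.cons 837 n905 .nil)
noncomputable def n907 : Strat := .move 878 n49 (.cons 922 n263 .nil)
noncomputable def n908 : Strat := .move 839 n412 (.cons 883 n907 .nil)
noncomputable def n909 : Strat := .move 838 n55 (.cons 837 n908 .nil)
noncomputable def n910 : Strat := .move 923 n50 (.cons 924 n909 .nil)
noncomputable def n911 : Strat := .move 882 n906 (.cons 839 n75 (.cons 883 n401 (.cons 920 n910 .nil)))
noncomputable def n912 : Strat := .move 921 n22 (.cons 877 n730 .nil)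
noncomputable def n913 : Strat := .move 922 n17 (.cons 923 n912 .nil)
noncomputable def n914 : Strat := .move 960 n26 (.cons 1001 n681 .nil)
noncomputable def n915 : Strat := .move 919 n5 (.cons 918 n914 .nil)
noncomputable def n916 : Strat := .win 920 4 918
noncomputable def n917 : Strat := .move 959 n916 (.cons 920 n141 .nil)
noncomputable def n918 : Strat := .move 921 n22 (.cons 877 n917 .nil)
noncomputable def n919 : Strat := .move 922 n17 (.cons 923 n918 .nil)
noncomputable def n920 : Strat := .move 960 n26 (.cons 1001 n919 .nil)
noncomputable def n921 : Strat := .move 919 n5 (.cons 918 n920 .nil)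
noncomputable def n922 : Strat := .move 837 n39 (.cons 919 n913 (.cons 756 n915 (.cons 797 n921 .nil)))
noncomputable def n923 : Strat := .win 920 1 796
noncomputable def n924 : Strat := .move 960 n26 (.cons 1001 n923 .nil)
noncomputable def n925 : Strat := .move 797 n36 (.cons 756 n924 .nil)
noncomputable def n926 : Strat := .move 919 n5 (.cons 918 n925 .nil)
noncomputable def n927 : Strat := .move 838 n4 (.cons 839 n922 (.cons 918 n542 (.cons 877 n926 .nil)))
noncomputable def n928 : Strat := .win 961 5 918
noncomputable def n929 : Strat := .move 959 n916 (.cons 920 n928 .nil)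
noncomputable def n930 : Strat := .move 797 n923 (.cons 920 n36 .nil)
noncomputable def n931 : Strat := .move 838 n26 (.cons 1001 n930 .nil)
noncomputable def n932 : Strat := .win 837 3 796
noncomputable def n933 : Strat := .move 797 n932 (.cons 837 n36 .nil)
noncomputable def n934 : Strat := .move 838 n26 (.cons 1001 n933 .nil)
noncomputable def n935 : Strat := .move 960 n929 (.cons 961 n931 (.cons 920 n934 .nil))
noncomputable def n936 : Strat := .move 919 n5 (.cons 918 n935 .nil)
noncomputable def n937 : Strat := .move 962 n23 (.cons 1003 n936 .nil)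
noncomputable def n938 : Strat := .move 921 n22 (.cons 877 n937 .nil)
noncomputable def n939 : Strat := .move 922 n17 (.cons 923 n938 .nil)
noncomputable def n940 : Strat := .win 962 1 839
noncomputable def n941 : Strat := .win 1044 1 880
noncomputable def n942 : Strat := .win 1046 6 881
noncomputable def n943 : Strat := .win 964 6 840
noncomputable def n944 : Strat := .move 1005 n942 (.cons 1046 n943 .nil)
noncomputable def n945 : Strat := .move 1004 n941 (.cons 1044 n944 .nil)
noncomputable def n946 : Strat := .move 1003 n940 (.cons 962 n945 .nil)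
noncomputable def n947 : Strat := .win 1003 1 839
noncomputable def n948 : Strat := .win 961 2 919
noncomputable def n949 : Strat := .move 920 n948 (.cons 961 n547 .nil)
noncomputable def n950 : Strat := .move 964 n546 (.cons 1005 n949 .nil)
noncomputable def n951 : Strat := .move 962 n947 (.cons 1003 n950 .nil)
noncomputable def n952 : Strat := .move 839 n543 (.cons 798 n951 .nil)
noncomputable def n953 : Strat := .move 963 n545 (.cons 839 n946 (.cons 1004 n952 .nil))
noncomputable def n954 : Strat := .move 919 n5 (.cons 918 n953 .nil)
noncomputable def n955 : Strat := .move 922 n17 (.cons 923 n954 .nil)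
noncomputable def n956 : Strat := .move 878 n927 (.cons 839 n939 (.cons 919 n48 (.cons 923 n4 (.cons 877 n955 .nil))))
noncomputable def n957 : Strat := .move 797 n36 (.cons 756 n211 .nil)
noncomputable def n958 : Strat := .move 960 n26 (.cons 1001 n132 .nil)
noncomputable def n959 : Strat := .win 837 6 796
noncomputable def n960 : Strat := .move 962 n220 (.cons 1003 n219 .nil)
noncomputable def n961 : Strat := .move 961 n959 (.cons 837 n960 .nil)
noncomputable def n962 : Strat := .move 796 n190 (.cons 755 n961 .nil)
noncomputable def n963 : Strat := .move 797 n36 (.cons 756 n962 .nil)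
noncomputable def n964 : Strat := .move 961 n230 (.cons 837 n235 (.cons 1002 n241 .nil))
noncomputable def n965 : Strat := .move 838 n957 (.cons 756 n958 (.cons 960 n963 (.cons 797 n964 .nil)))
noncomputable def n966 : Strat := .move 920 n21 (.cons 882 n965 .nil)
noncomputable def n967 : Strat := .move 919 n5 (.cons 918 n966 .nil)
noncomputable def n968 : Strat := .move 919 n21 (.cons 882 n28 .nil)
noncomputable def n969 : Strat := .win 837 7 837
noncomputable def n970 : Strat := .move 1002 n969 (.cons 837 n93 .nil)
noncomputable def n971 : Strat := .win 959 5 918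
noncomputable def n972 : Strat := .move 960 n105 (.cons 1001 n971 .nil)
noncomputable def n973 : Strat := .move 961 n970 (.cons 1043 n972 .nil)
noncomputable def n974 : Strat := .move 838 n24 (.cons 797 n973 .nil)
noncomputable def n975 : Strat := .move 920 n837 (.cons 883 n968 (.cons 882 n974 .nil))
noncomputable def n976 : Strat := .move 962 n23 (.cons 1003 n975 .nil)
noncomputable def n977 : Strat := .move 921 n22 (.cons 877 n976 .nil)
noncomputable def n978 : Strat := .move 922 n17 (.cons 923 n977 .nil)
noncomputable def n979 : Strat := .move 877 n18 (.cons 921 n3 .nil)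
noncomputable def n980 : Strat := .move 922 n17 (.cons 923 n979 .nil)
noncomputable def n981 : Strat := .win 920 2 920
noncomputable def n982 : Strat := .win 966 2 921
noncomputable def n983 : Strat := .move 965 n981 (.cons 920 n982 .nil)
noncomputable def n984 : Strat := .move 964 n546 (.cons 1005 n983 .nil)
noncomputable def n985 : Strat := .move 962 n947 (.cons 1003 n984 .nil)
noncomputable def n986 : Strat := .win 1045 7 880
noncomputable def n987 : Strat := .move 1004 n986 (.cons 1045 n944 .nil)
noncomputable def n988 : Strat := .move 962 n947 (.cons 1003 n987 .nil)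
noncomputable def n989 : Strat := .move 1003 n941 (.cons 1044 n944 .nil)
noncomputable def n990 : Strat := .move 1004 n986 (.cons 1045 n989 .nil)
noncomputable def n991 : Strat := .move 1004 n986 (.cons 1045 n941 .nil)
noncomputable def n992 : Strat := .move 1003 n940 (.cons 962 n991 .nil)
noncomputable def n993 : Strat := .move 1005 n943 (.cons 964 n942 .nil)
noncomputable def n994 : Strat := .move 1004 n986 (.cons 1045 n993 .nil)
noncomputable def n995 : Strat := .move 963 n985 (.cons 966 n988 (.cons 962 n990 (.cons 964 n992 (.cons 1003 n994 .nil))))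
noncomputable def n996 : Strat := .move 921 n22 (.cons 877 n995 .nil)
noncomputable def n997 : Strat := .move 922 n17 (.cons 923 n996 .nil)
noncomputable def n998 : Strat := .move 878 n33 (.cons 922 n967 (.cons 918 n978 (.cons 921 n53 (.cons 882 n939 (.cons 920 n980 (.cons 919 n997 .nil))))))
noncomputable def n999 : Strat := .move 838 n55 (.cons 837 n24 .nil)
noncomputable def n1000 : Strat := .move 962 n23 (.cons 1003 n999 .nil)
noncomputable def n1001 : Strat := .move 921 n67 (.cons 883 n1000 .nil)
noncomputable def n1002 : Strat := .move 920 n57 (.cons 919 n1001 .nil)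
noncomputable def n1003 : Strat := .move 882 n61 (.cons 839 n1002 (.cons 921 n66 (.cons 838 n88 (.cons 883 n118 .nil))))
noncomputable def n1004 : Strat := .move 882 n906 (.cons 838 n401 (.cons 919 n910 .nil))
noncomputable def n1005 : Strat := .move 838 n411 (.cons 837 n904 .nil)
noncomputable def n1006 : Strat := .move 883 n271 (.cons 838 n272 .nil)
noncomputable def n1007 : Strat := .move 883 n272 (.cons 884 n58 .nil)
noncomputable def n1008 : Strat := .move 920 n57 (.cons 919 n1007 .nil)
noncomputable def n1009 : Strat := .move 839 n413 (.cons 883 n1005 (.cons 837 n1006 (.cons 838 n1008 .nil)))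
noncomputable def n1010 : Strat := .move 798 n558 (.cons 961 n323 .nil)
noncomputable def n1011 : Strat := .move 961 n109 (.cons 1002 n91 .nil)
noncomputable def n1012 : Strat := .move 923 n69 (.cons 1005 n50 .nil)
noncomputable def n1013 : Strat := .win 965 2 920
noncomputable def n1014 : Strat := .move 963 n608 (.cons 1004 n1013 .nil)
noncomputable def n1015 : Strat := .move 964 n1012 (.cons 924 n1014 .nil)
noncomputable def n1016 : Strat := .move 839 n1010 (.cons 757 n1011 (.cons 961 n1015 .nil))
noncomputable def n1017 : Strat := .move 962 n23 (.cons 1003 n1016 .nil)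
noncomputable def n1018 : Strat := .move 921 n100 (.cons 1003 n790 (.cons 797 n1017 (.cons 962 n793 .nil)))
noncomputable def n1019 : Strat := .move 920 n57 (.cons 919 n1018 .nil)
noncomputable def n1020 : Strat := .move 838 n55 (.cons 837 n1019 .nil)
noncomputable def n1021 : Strat := .move 882 n1009 (.cons 920 n66 (.cons 839 n88 (.cons 883 n1020 .nil)))
noncomputable def n1022 : Strat := .move 1004 n941 (.cons 1044 n993 .nil)
noncomputable def n1023 : Strat := .move 1003 n940 (.cons 962 n1022 .nil)
noncomputable def n1024 : Strat := .move 882 n412 (.cons 883 n411 .nil)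
noncomputable def n1025 : Strat := .win 921 7 797
noncomputable def n1026 : Strat := .move 919 n36 (.cons 756 n5 .nil)
noncomputable def n1027 : Strat := .move 797 n1025 (.cons 921 n1026 .nil)
noncomputable def n1028 : Strat := .move 838 n1024 (.cons 837 n1027 .nil)
noncomputable def n1029 : Strat := .move 962 n947 (.cons 1003 n1028 .nil)
noncomputable def n1030 : Strat := .move 839 n543 (.cons 798 n1029 .nil)
noncomputable def n1031 : Strat := .move 963 n545 (.cons 839 n1023 (.cons 1004 n1030 .nil))
noncomputable def n1032 : Strat := .move 922 n17 (.cons 923 n1031 .nil)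
noncomputable def n1033 : Strat := .move 878 n4 (.cons 839 n980 (.cons 919 n48 (.cons 877 n1032 .nil)))
noncomputable def n1034 : Strat := .move 878 n17 (.cons 923 n508 .nil)
noncomputable def n1035 : Strat := .win 882 0 879
noncomputable def n1036 : Strat := .win 921 2 879
noncomputable def n1037 : Strat := .move 924 n1035 (.cons 882 n1036 .nil)
noncomputable def n1038 : Strat := .move 923 n68 (.cons 878 n1037 .nil)
noncomputable def n1039 : Strat := .move 922 n1034 (.cons 923 n508 (.cons 757 n574 (.cons 963 n1038 .nil)))
noncomputable def n1040 : Strat := .move 922 n17 (.cons 923 n574 .nil)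
noncomputable def n1041 : Strat := .move 878 n263 (.cons 877 n1040 .nil)
noncomputable def n1042 : Strat := .move 883 n272 (.cons 884 n59 .nil)
noncomputable def n1043 : Strat := .move 920 n57 (.cons 919 n325 .nil)
noncomputable def n1044 : Strat := .move 923 n50 (.cons 924 n1043 .nil)
noncomputable def n1045 : Strat := .move 883 n272 (.cons 884 n64 .nil)
noncomputable def n1046 : Strat := .move 882 n1042 (.cons 883 n1044 (.cons 919 n1045 .nil))
noncomputable def n1047 : Strat := .move 922 n507 (.cons 963 n1046 .nil)
noncomputable def n1048 : Strat := .move 798 n322 (.cons 716 n555 (.cons 757 n1047 .nil))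
noncomputable def n1049 : Strat := .move 961 n90 (.cons 1002 n419 .nil)
noncomputable def n1050 : Strat := .move 920 n21 (.cons 882 n1049 .nil)
noncomputable def n1051 : Strat := .move 919 n5 (.cons 918 n1050 .nil)
noncomputable def n1052 : Strat := .move 878 n263 (.cons 877 n1051 .nil)
noncomputable def n1053 : Strat := .move 878 n263 (.cons 877 n658 .nil)
noncomputable def n1054 : Strat := .move 839 n510 (.cons 877 n1039 (.cons 757 n1041 (.cons 878 n1048 (.cons 922 n1052 (.cons 798 n1053 .nil)))))
noncomputable def n1055 : Strat := .move 837 n715 (.cons 1002 n131 (.cons 961 n719 (.cons 796 n721 .nil)))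
noncomputable def n1056 : Strat := .move 920 n21 (.cons 882 n1055 .nil)
noncomputable def n1057 : Strat := .move 919 n5 (.cons 918 n1056 .nil)
noncomputable def n1058 : Strat := .move 839 n263 (.cons 877 n1057 .nil)
noncomputable def n1059 : Strat := .move 1002 n94 (.cons 839 n969 .nil)
noncomputable def n1060 : Strat := .move 1002 n969 (.cons 837 n232 .nil)
noncomputable def n1061 : Strat := .move 960 n105 (.cons 1001 n132 .nil)
noncomputable def n1062 : Strat := .move 797 n190 (.cons 755 n36 .nil)
noncomputable def n1063 : Strat := .move 796 n959 (.cons 837 n1062 .nil)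
noncomputable def n1064 : Strat := .move 838 n1061 (.cons 1001 n957 (.cons 960 n1063 (.cons 797 n241 .nil)))
noncomputable def n1065 : Strat := .move 961 n1059 (.cons 839 n1060 (.cons 837 n841 (.cons 1002 n1064 .nil)))
noncomputable def n1066 : Strat := .move 920 n21 (.cons 882 n1065 .nil)
noncomputable def n1067 : Strat := .move 919 n5 (.cons 918 n1066 .nil)
noncomputable def n1068 : Strat := .move 796 n129 (.cons 755 n297 .nil)
noncomputable def n1069 : Strat := .move 920 n188 (.cons 961 n1068 .nil)
noncomputable def n1070 : Strat := .move 837 n264 (.cons 882 n1069 .nil)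
noncomputable def n1071 : Strat := .move 756 n747 (.cons 919 n183 .nil)
noncomputable def n1072 : Strat := .move 756 n467 (.cons 715 n747 .nil)
noncomputable def n1073 : Strat := .move 920 n188 (.cons 961 n527 .nil)
noncomputable def n1074 : Strat := .move 797 n1071 (.cons 921 n1072 (.cons 919 n468 (.cons 756 n1073 .nil)))
noncomputable def n1075 : Strat := .move 838 n513 (.cons 883 n1070 (.cons 882 n1074 .nil))
noncomputable def n1076 : Strat := .move 963 n616 (.cons 922 n1075 .nil)
noncomputable def n1077 : Strat := .move 798 n322 (.cons 716 n555 (.cons 757 n1076 .nil))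
noncomputable def n1078 : Strat := .move 839 n263 (.cons 877 n1077 .nil)
noncomputable def n1079 : Strat := .move 878 n1058 (.cons 877 n1067 (.cons 839 n772 (.cons 919 n867 (.cons 918 n1078 (.cons 921 n830 (.cons 920 n814 .nil))))))
noncomputable def n1080 : Strat := .win 963 6 798
noncomputable def n1081 : Strat := .move 923 n50 (.cons 924 n68 .nil)
noncomputable def n1082 : Strat := .move 922 n1080 (.cons 963 n1081 .nil)
noncomputable def n1083 : Strat := .move 921 n557 (.cons 1003 n705 (.cons 962 n1082 .nil))
noncomputable def n1084 : Strat := .move 798 n518 (.cons 920 n517 (.cons 757 n1083 .nil))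
noncomputable def n1085 : Strat := .move 839 n412 (.cons 883 n1084 .nil)
noncomputable def n1086 : Strat := .move 838 n55 (.cons 837 n1085 .nil)
noncomputable def n1087 : Strat := .move 961 n109 (.cons 1002 n329 .nil)
noncomputable def n1088 : Strat := .move 962 n23 (.cons 1003 n1087 .nil)
noncomputable def n1089 : Strat := .move 921 n557 (.cons 1003 n705 (.cons 962 n560 (.cons 797 n1088 .nil)))
noncomputable def n1090 : Strat := .move 798 n518 (.cons 920 n517 (.cons 757 n1089 .nil))
noncomputable def n1091 : Strat := .move 839 n412 (.cons 883 n1090 .nil)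
noncomputable def n1092 : Strat := .move 838 n55 (.cons 837 n1091 .nil)
noncomputable def n1093 : Strat := .win 922 4 880
noncomputable def n1094 : Strat := .move 884 n309 (.cons 844 n1093 .nil)
noncomputable def n1095 : Strat := .move 843 n308 (.cons 842 n1094 .nil)
noncomputable def n1096 : Strat := .move 962 n23 (.cons 1003 n1095 .nil)
noncomputable def n1097 : Strat := .move 921 n405 (.cons 920 n1096 .nil)
noncomputable def n1098 : Strat := .move 883 n63 (.cons 925 n1097 .nil)
noncomputable def n1099 : Strat := .move 924 n62 (.cons 923 n1098 .nil)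
noncomputable def n1100 : Strat := .win 839 7 839
noncomputable def n1101 : Strat := .win 1045 3 881
noncomputable def n1102 : Strat := .move 1004 n1100 (.cons 839 n1101 .nil)
noncomputable def n1103 : Strat := .win 798 6 798
noncomputable def n1104 : Strat := .move 839 n544 (.cons 1004 n1103 .nil)
noncomputable def n1105 : Strat := .win 920 0 920
noncomputable def n1106 : Strat := .move 965 n982 (.cons 966 n1105 .nil)
noncomputable def n1107 : Strat := .move 963 n1102 (.cons 1045 n1104 (.cons 839 n1106 .nil))
noncomputable def n1108 : Strat := .win 839 7 797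
noncomputable def n1109 : Strat := .move 797 n1108 (.cons 839 n77 .nil)
noncomputable def n1110 : Strat := .move 962 n23 (.cons 1003 n1109 .nil)
noncomputable def n1111 : Strat := .move 921 n730 (.cons 962 n1107 (.cons 920 n1110 .nil))
noncomputable def n1112 : Strat := .move 838 n55 (.cons 837 n1111 .nil)
noncomputable def n1113 : Strat := .move 964 n69 (.cons 1005 n1112 .nil)
noncomputable def n1114 : Strat := .move 922 n68 (.cons 878 n1113 .nil)
noncomputable def n1115 : Strat := .move 923 n50 (.cons 924 n1114 .nil)
noncomputable def n1116 : Strat := .move 882 n1086 (.cons 923 n1092 (.cons 839 n1099 (.cons 962 n410 (.cons 883 n1115 (.cons 921 n910 (.cons 922 n66 .nil))))))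
noncomputable def n1117 : Strat := .move 879 n911 (.cons 882 n956 (.cons 839 n998 (.cons 878 n1003 (.cons 921 n1004 (.cons 922 n1021 (.cons 920 n1033 (.cons 838 n1054 (.cons 923 n1079 (.cons 919 n1116 .nil)))))))))
noncomputable def n1118 : Strat := .move 879 n61 (.cons 921 n66 (.cons 839 n75 (.cons 883 n85 .nil)))
noncomputable def n1119 : Strat := .move 837 n7 (.cons 838 n6 .nil)
noncomputable def n1120 : Strat := .move 878 n49 (.cons 922 n1119 .nil)
noncomputable def n1121 : Strat := .move 923 n50 (.cons 924 n1120 .nil)
noncomputable def n1122 : Strat := .move 879 n75 (.cons 878 n1002 (.cons 920 n1121 .nil))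
noncomputable def n1123 : Strat := .move 884 n307 (.cons 839 n785 .nil)
noncomputable def n1124 : Strat := .move 884 n1093 (.cons 922 n785 .nil)
noncomputable def n1125 : Strat := .move 921 n405 (.cons 920 n1124 .nil)
noncomputable def n1126 : Strat := .win 797 7 756
noncomputable def n1127 : Strat := .move 756 n334 (.cons 715 n1126 .nil)
noncomputable def n1128 : Strat := .move 757 n321 (.cons 716 n1127 .nil)
noncomputable def n1129 : Strat := .move 798 n706 (.cons 922 n1128 .nil)
noncomputable def n1130 : Strat := .move 963 n608 (.cons 1004 n1129 .nil)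
noncomputable def n1131 : Strat := .move 962 n23 (.cons 1003 n1130 .nil)
noncomputable def n1132 : Strat := .move 921 n405 (.cons 920 n1131 .nil)
noncomputable def n1133 : Strat := .move 839 n271 (.cons 838 n1132 .nil)
noncomputable def n1134 : Strat := .move 883 n273 (.cons 838 n1123 (.cons 839 n1125 (.cons 884 n1133 .nil)))
noncomputable def n1135 : Strat := .win 879 0 879
noncomputable def n1136 : Strat := .win 843 5 839
noncomputable def n1137 : Strat := .win 801 1 800
noncomputable def n1138 : Strat := .move 842 n1136 (.cons 843 n1137 .nil)
noncomputable def n1139 : Strat := .move 964 n69 (.cons 1005 n1138 .nil)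
noncomputable def n1140 : Strat := .move 923 n1135 (.cons 879 n1139 .nil)
noncomputable def n1141 : Strat := .move 924 n63 (.cons 925 n1140 .nil)
noncomputable def n1142 : Strat := .move 883 n273 (.cons 838 n1123 (.cons 839 n1141 .nil))
noncomputable def n1143 : Strat := .move 921 n405 (.cons 920 n1093 .nil)
noncomputable def n1144 : Strat := .move 884 n307 (.cons 839 n1143 .nil)
noncomputable def n1145 : Strat := .move 883 n1123 (.cons 924 n1144 (.cons 884 n1141 .nil))
noncomputable def n1146 : Strat := .move 884 n1093 (.cons 922 n310 .nil)
noncomputable def n1147 : Strat := .move 921 n405 (.cons 920 n1146 .nil)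
noncomputable def n1148 : Strat := .move 883 n273 (.cons 839 n1147 (.cons 884 n1133 .nil))
noncomputable def n1149 : Strat := .move 798 n1080 (.cons 963 n323 .nil)
noncomputable def n1150 : Strat := .move 963 n544 (.cons 1004 n1103 .nil)
noncomputable def n1151 : Strat := .move 961 n96 (.cons 960 n90 .nil)
noncomputable def n1152 : Strat := .move 839 n1149 (.cons 757 n1150 (.cons 963 n1151 .nil))
noncomputable def n1153 : Strat := .move 921 n70 (.cons 965 n1152 .nil)
noncomputable def n1154 : Strat := .move 920 n57 (.cons 919 n1153 .nil)
noncomputable def n1155 : Strat := .move 964 n69 (.cons 1005 n1154 .nil)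
noncomputable def n1156 : Strat := .move 922 n68 (.cons 878 n1155 .nil)
noncomputable def n1157 : Strat := .move 923 n50 (.cons 924 n1156 .nil)
noncomputable def n1158 : Strat := .move 879 n85 (.cons 838 n1157 (.cons 920 n389 (.cons 922 n196 .nil)))
noncomputable def n1159 : Strat := .move 882 n1118 (.cons 839 n1122 (.cons 879 n1134 (.cons 921 n1142 (.cons 838 n1145 (.cons 924 n1148 (.cons 883 n1158 .nil))))))
noncomputable def n1160 : Strat := .move 1003 n941 (.cons 1044 n940 .nil)
noncomputable def n1161 : Strat := .move 1004 n1100 (.cons 839 n1160 .nil)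
noncomputable def n1162 : Strat := .move 961 n122 (.cons 796 n90 .nil)
noncomputable def n1163 : Strat := .move 920 n480 (.cons 755 n1162 (.cons 961 n654 .nil))
noncomputable def n1164 : Strat := .move 839 n543 (.cons 798 n1163 .nil)
noncomputable def n1165 : Strat := .move 963 n545 (.cons 798 n1161 (.cons 839 n946 (.cons 1004 n1164 .nil)))
noncomputable def n1166 : Strat := .move 919 n5 (.cons 918 n1165 .nil)
noncomputable def n1167 : Strat := .move 837 n6 (.cons 836 n1166 .nil)
noncomputable def n1168 : Strat := .move 922 n17 (.cons 923 n1167 .nil)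
noncomputable def n1169 : Strat := .move 878 n542 (.cons 922 n4 (.cons 839 n20 (.cons 877 n1168 .nil)))
noncomputable def n1170 : Strat := .move 837 n6 (.cons 836 n7 .nil)
noncomputable def n1171 : Strat := .move 878 n49 (.cons 922 n1170 .nil)
noncomputable def n1172 : Strat := .move 923 n50 (.cons 924 n1171 .nil)
noncomputable def n1173 : Strat := .move 878 n6 (.cons 836 n805 .nil)
noncomputable def n1174 : Strat := .move 837 n7 (.cons 838 n1173 .nil)
noncomputable def n1175 : Strat := .move 883 n58 (.cons 921 n1174 .nil)
noncomputable def n1176 : Strat := .move 920 n57 (.cons 919 n1175 .nil)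
noncomputable def n1177 : Strat := .move 922 n17 (.cons 923 n22 .nil)
noncomputable def n1178 : Strat := .move 878 n1177 (.cons 923 n1170 .nil)
noncomputable def n1179 : Strat := .move 962 n23 (.cons 1003 n1178 .nil)
noncomputable def n1180 : Strat := .move 921 n67 (.cons 883 n1179 .nil)
noncomputable def n1181 : Strat := .move 920 n57 (.cons 919 n1180 .nil)
noncomputable def n1182 : Strat := .move 882 n1172 (.cons 838 n401 (.cons 922 n88 (.cons 923 n1176 (.cons 924 n1181 .nil))))
noncomputable def n1183 : Strat := .move 882 n66 (.cons 839 n88 (.cons 883 n159 .nil))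
noncomputable def n1184 : Strat := .move 919 n5 (.cons 918 n550 .nil)
noncomputable def n1185 : Strat := .move 922 n17 (.cons 923 n1184 .nil)
noncomputable def n1186 : Strat := .move 960 n25 (.cons 959 n139 .nil)
noncomputable def n1187 : Strat := .move 962 n23 (.cons 1003 n1186 .nil)
noncomputable def n1188 : Strat := .move 920 n21 (.cons 882 n1187 .nil)
noncomputable def n1189 : Strat := .move 919 n5 (.cons 918 n1188 .nil)
noncomputable def n1190 : Strat := .move 921 n22 (.cons 877 n1189 .nil)
noncomputable def n1191 : Strat := .move 922 n17 (.cons 923 n1190 .nil)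
noncomputable def n1192 : Strat := .move 878 n4 (.cons 918 n121 (.cons 877 n1185 (.cons 839 n1191 .nil)))
noncomputable def n1193 : Strat := .move 878 n263 (.cons 877 n157 .nil)
noncomputable def n1194 : Strat := .move 839 n412 (.cons 883 n1193 .nil)
noncomputable def n1195 : Strat := .move 838 n55 (.cons 837 n1194 .nil)
noncomputable def n1196 : Strat := .move 882 n1195 (.cons 838 n401 (.cons 920 n1172 (.cons 878 n66 .nil)))
noncomputable def n1197 : Strat := .move 878 n4 (.cons 918 n15 (.cons 877 n666 .nil))
noncomputable def n1198 : Strat := .move 878 n15 (.cons 836 n48 (.cons 877 n154 .nil))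
noncomputable def n1199 : Strat := .move 839 n413 (.cons 838 n1008 (.cons 883 n1005 .nil))
noncomputable def n1200 : Strat := .move 921 n67 (.cons 883 n673 .nil)
noncomputable def n1201 : Strat := .move 920 n57 (.cons 919 n1200 .nil)
noncomputable def n1202 : Strat := .move 923 n50 (.cons 924 n1201 .nil)
noncomputable def n1203 : Strat := .win 963 5 919
noncomputable def n1204 : Strat := .win 921 4 919
noncomputable def n1205 : Strat := .move 922 n1203 (.cons 963 n1204 .nil)
noncomputable def n1206 : Strat := .move 960 n105 (.cons 1001 n1205 .nil)
noncomputable def n1207 : Strat := .move 962 n220 (.cons 1003 n1206 .nil)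
noncomputable def n1208 : Strat := .move 961 n630 (.cons 839 n258 (.cons 1002 n1207 .nil))
noncomputable def n1209 : Strat := .move 923 n50 (.cons 924 n1208 .nil)
noncomputable def n1210 : Strat := .move 920 n57 (.cons 919 n1209 .nil)
noncomputable def n1211 : Strat := .move 838 n55 (.cons 837 n1210 .nil)
noncomputable def n1212 : Strat := .move 882 n1199 (.cons 920 n66 (.cons 839 n1202 (.cons 883 n1211 .nil)))
noncomputable def n1213 : Strat := .move 879 n653 (.cons 882 n1169 (.cons 839 n1182 (.cons 922 n1183 (.cons 837 n1192 (.cons 921 n1196 (.cons 923 n1197 (.cons 919 n1198 (.cons 878 n1212 .nil))))))))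
noncomputable def n1214 : Strat := .win 838 0 837
noncomputable def n1215 : Strat := .move 882 n1214 (.cons 838 n51 .nil)
noncomputable def n1216 : Strat := .move 837 n6 (.cons 836 n1215 .nil)
noncomputable def n1217 : Strat := .move 882 n1214 (.cons 838 n157 .nil)
noncomputable def n1218 : Strat := .move 837 n6 (.cons 836 n1217 .nil)
noncomputable def n1219 : Strat := .move 839 n509 (.cons 963 n1216 (.cons 922 n1218 .nil))
noncomputable def n1220 : Strat := .move 878 n4 (.cons 877 n1219 (.cons 919 n15 (.cons 839 n53 .nil)))
noncomputable def n1221 : Strat := .move 960 n681 (.cons 797 n26 .nil)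
noncomputable def n1222 : Strat := .move 838 n38 (.cons 756 n1221 (.cons 797 n576 .nil))
noncomputable def n1223 : Strat := .move 919 n5 (.cons 918 n1222 .nil)
noncomputable def n1224 : Strat := .move 837 n6 (.cons 836 n1223 .nil)
noncomputable def n1225 : Strat := .move 839 n509 (.cons 757 n1040 (.cons 963 n1224 .nil))
noncomputable def n1226 : Strat := .move 878 n4 (.cons 839 n20 (.cons 877 n1225 .nil))
noncomputable def n1227 : Strat := .move 878 n53 (.cons 923 n11 (.cons 882 n20 .nil))
noncomputable def n1228 : Strat := .move 839 n263 (.cons 877 n1218 .nil)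
noncomputable def n1229 : Strat := .move 878 n1228 (.cons 837 n4 (.cons 919 n15 (.cons 839 n11 .nil)))
noncomputable def n1230 : Strat := .move 878 n4 (.cons 917 n121 (.cons 877 n53 .nil))
noncomputable def n1231 : Strat := .move 878 n15 (.cons 835 n121 (.cons 839 n20 (.cons 877 n154 .nil)))
noncomputable def n1232 : Strat := .move 921 n70 (.cons 965 n78 .nil)
noncomputable def n1233 : Strat := .move 920 n57 (.cons 919 n1232 .nil)
noncomputable def n1234 : Strat := .move 964 n69 (.cons 1005 n1233 .nil)
noncomputable def n1235 : Strat := .move 922 n68 (.cons 878 n1234 .nil)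
noncomputable def n1236 : Strat := .move 838 n55 (.cons 837 n1235 .nil)
noncomputable def n1237 : Strat := .move 923 n50 (.cons 924 n1236 .nil)
noncomputable def n1238 : Strat := .move 920 n57 (.cons 919 n392 .nil)
noncomputable def n1239 : Strat := .move 922 n68 (.cons 878 n1238 .nil)
noncomputable def n1240 : Strat := .move 923 n50 (.cons 924 n1239 .nil)
noncomputable def n1241 : Strat := .move 882 n61 (.cons 883 n1237 (.cons 921 n66 (.cons 838 n1240 .nil)))
noncomputable def n1242 : Strat := .move 882 n55 (.cons 837 n60 .nil)
noncomputable def n1243 : Strat := .move 962 n23 (.cons 1003 n728 .nil)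
noncomputable def n1244 : Strat := .move 921 n77 (.cons 756 n1243 .nil)
noncomputable def n1245 : Strat := .move 837 n304 (.cons 839 n249 .nil)
noncomputable def n1246 : Strat := .win 837 0 836
noncomputable def n1247 : Strat := .move 839 n189 (.cons 795 n1246 .nil)
noncomputable def n1248 : Strat := .win 795 4 794
noncomputable def n1249 : Strat := .win 837 0 835
noncomputable def n1250 : Strat := .move 835 n1248 (.cons 795 n1249 .nil)
noncomputable def n1251 : Strat := .win 835 4 794
noncomputable def n1252 : Strat := .win 839 0 795
noncomputable def n1253 : Strat := .move 795 n1251 (.cons 835 n1252 .nil)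
noncomputable def n1254 : Strat := .move 836 n1245 (.cons 835 n1247 (.cons 839 n1250 (.cons 837 n1253 .nil)))
noncomputable def n1255 : Strat := .move 796 n190 (.cons 755 n1254 .nil)
noncomputable def n1256 : Strat := .move 798 n102 (.cons 757 n1255 .nil)
noncomputable def n1257 : Strat := .move 920 n621 (.cons 919 n1256 .nil)
noncomputable def n1258 : Strat := .move 921 n77 (.cons 756 n1257 .nil)
noncomputable def n1259 : Strat := .move 962 n23 (.cons 1003 n1108 .nil)
noncomputable def n1260 : Strat := .move 921 n1243 (.cons 962 n1257 (.cons 920 n1259 .nil))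
noncomputable def n1261 : Strat := .win 839 6 715
noncomputable def n1262 : Strat := .win 755 7 714
noncomputable def n1263 : Strat := .win 673 7 673
noncomputable def n1264 : Strat := .move 714 n1262 (.cons 755 n1263 .nil)
noncomputable def n1265 : Strat := .move 715 n1261 (.cons 839 n1264 .nil)
noncomputable def n1266 : Strat := .move 756 n183 (.cons 921 n1265 .nil)
noncomputable def n1267 : Strat := .move 798 n320 (.cons 920 n516 .nil)
noncomputable def n1268 : Strat := .move 839 n467 (.cons 715 n1267 .nil)
noncomputable def n1269 : Strat := .move 757 n185 (.cons 716 n1268 .nil)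
noncomputable def n1270 : Strat := .move 920 n184 (.cons 798 n462 .nil)
noncomputable def n1271 : Strat := .move 757 n185 (.cons 716 n1270 .nil)
noncomputable def n1272 : Strat := .move 755 n463 (.cons 714 n1271 .nil)
noncomputable def n1273 : Strat := .move 756 n1269 (.cons 920 n1265 (.cons 839 n1272 .nil))
noncomputable def n1274 : Strat := .move 797 n1244 (.cons 962 n1258 (.cons 756 n1260 (.cons 920 n1266 (.cons 921 n1273 .nil))))
noncomputable def n1275 : Strat := .move 921 n67 (.cons 883 n100 .nil)
noncomputable def n1276 : Strat := .move 920 n57 (.cons 919 n1275 .nil)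
noncomputable def n1277 : Strat := .move 882 n55 (.cons 837 n1276 .nil)
noncomputable def n1278 : Strat := .move 882 n55 (.cons 837 n65 .nil)
noncomputable def n1279 : Strat := .move 919 n21 (.cons 882 n211 .nil)
noncomputable def n1280 : Strat := .move 920 n1279 (.cons 919 n640 .nil)
noncomputable def n1281 : Strat := .move 921 n76 (.cons 962 n621 .nil)
noncomputable def n1282 : Strat := .move 921 n76 (.cons 962 n837 .nil)
noncomputable def n1283 : Strat := .move 753 n877 (.cons 752 n880 .nil)
noncomputable def n1284 : Strat := .win 834 4 793
noncomputable def n1285 : Strat := .win 836 4 794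
noncomputable def n1286 : Strat := .move 835 n1284 (.cons 834 n1285 .nil)
noncomputable def n1287 : Strat := .move 794 n1283 (.cons 754 n1286 .nil)
noncomputable def n1288 : Strat := .move 795 n1252 (.cons 839 n1287 .nil)
noncomputable def n1289 : Strat := .move 796 n190 (.cons 755 n1288 .nil)
noncomputable def n1290 : Strat := .move 798 n102 (.cons 757 n1289 .nil)
noncomputable def n1291 : Strat := .move 920 n1279 (.cons 882 n1281 (.cons 960 n1282 (.cons 919 n1290 .nil)))
noncomputable def n1292 : Strat := .move 797 n1244 (.cons 921 n1280 (.cons 920 n1266 (.cons 756 n1291 .nil)))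
noncomputable def n1293 : Strat := .move 838 n1242 (.cons 882 n1274 (.cons 839 n1277 (.cons 920 n1278 (.cons 837 n1292 .nil))))
noncomputable def n1294 : Strat := .move 879 n1220 (.cons 882 n1226 (.cons 839 n1227 (.cons 922 n1229 (.cons 837 n1230 (.cons 919 n1231 (.cons 877 n1241 (.cons 878 n1293 .nil)))))))
noncomputable def n1295 : Strat := .move 878 n4 (.cons 918 n48 (.cons 839 n53 .nil))
noncomputable def n1296 : Strat := .move 839 n413 (.cons 837 n1006 (.cons 838 n1008 (.cons 883 n1005 .nil)))
noncomputable def n1297 : Strat := .move 961 n92 (.cons 798 n95 (.cons 1002 n106 .nil))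
noncomputable def n1298 : Strat := .move 921 n100 (.cons 797 n114 (.cons 1003 n790 (.cons 962 n1297 .nil)))
noncomputable def n1299 : Strat := .move 923 n50 (.cons 924 n1298 .nil)
noncomputable def n1300 : Strat := .move 920 n57 (.cons 919 n1299 .nil)
noncomputable def n1301 : Strat := .move 838 n55 (.cons 837 n1300 .nil)
noncomputable def n1302 : Strat := .move 882 n1296 (.cons 838 n88 (.cons 920 n66 (.cons 883 n1301 .nil)))
noncomputable def n1303 : Strat := .move 882 n8 (.cons 920 n1170 .nil)
noncomputable def n1304 : Strat := .move 919 n5 (.cons 918 n1303 .nil)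
noncomputable def n1305 : Strat := .move 878 n53 (.cons 882 n20 (.cons 922 n1304 .nil))
noncomputable def n1306 : Strat := .move 878 n15 (.cons 836 n48 (.cons 839 n20 (.cons 877 n154 .nil)))
noncomputable def n1307 : Strat := .move 878 n4 (.cons 918 n15 (.cons 877 n11 .nil))
noncomputable def n1308 : Strat := .move 837 n295 (.cons 836 n39 .nil)
noncomputable def n1309 : Strat := .move 838 n1308 (.cons 836 n509 .nil)
noncomputable def n1310 : Strat := .move 839 n263 (.cons 877 n1309 .nil)
noncomputable def n1311 : Strat := .move 919 n5 (.cons 918 n950 .nil)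
noncomputable def n1312 : Strat := .move 962 n947 (.cons 1003 n1311 .nil)
noncomputable def n1313 : Strat := .move 839 n544 (.cons 1004 n1312 .nil)
noncomputable def n1314 : Strat := .move 839 n543 (.cons 798 n1312 .nil)
noncomputable def n1315 : Strat := .move 963 n545 (.cons 798 n1313 (.cons 1004 n1314 (.cons 839 n1023 .nil)))
noncomputable def n1316 : Strat := .move 922 n17 (.cons 923 n1315 .nil)
noncomputable def n1317 : Strat := .move 878 n1310 (.cons 922 n4 (.cons 839 n20 (.cons 877 n1316 .nil)))
noncomputable def n1318 : Strat := .move 879 n1295 (.cons 878 n1302 (.cons 839 n1305 (.cons 920 n1306 (.cons 924 n1307 (.cons 882 n1317 .nil)))))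
noncomputable def n1319 : Strat := .move 878 n4 (.cons 839 n154 .nil)
noncomputable def n1320 : Strat := .move 798 n447 (.cons 839 n102 .nil)
noncomputable def n1321 : Strat := .move 961 n1320 (.cons 757 n633 (.cons 839 n960 .nil))
noncomputable def n1322 : Strat := .move 757 n185 (.cons 716 n184 .nil)
noncomputable def n1323 : Strat := .move 756 n183 (.cons 921 n1322 .nil)
noncomputable def n1324 : Strat := .move 756 n1322 (.cons 798 n595 .nil)
noncomputable def n1325 : Strat := .move 797 n493 (.cons 756 n1321 (.cons 962 n1323 (.cons 921 n1324 .nil)))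
noncomputable def n1326 : Strat := .move 964 n69 (.cons 1005 n1325 .nil)
noncomputable def n1327 : Strat := .move 923 n50 (.cons 924 n1326 .nil)
noncomputable def n1328 : Strat := .move 920 n57 (.cons 919 n1327 .nil)
noncomputable def n1329 : Strat := .move 838 n55 (.cons 837 n1328 .nil)
noncomputable def n1330 : Strat := .move 882 n61 (.cons 839 n88 (.cons 921 n66 (.cons 883 n1329 .nil)))
noncomputable def n1331 : Strat := .win 713 7 713
noncomputable def n1332 : Strat := .win 795 7 754
noncomputable def n1333 : Strat := .move 754 n1331 (.cons 713 n1332 .nil)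
noncomputable def n1334 : Strat := .move 755 n175 (.cons 715 n1333 .nil)
noncomputable def n1335 : Strat := .move 756 n174 (.cons 797 n1334 .nil)
noncomputable def n1336 : Strat := .move 798 n507 (.cons 963 n323 .nil)
noncomputable def n1337 : Strat := .move 963 n544 (.cons 1004 n543 .nil)
noncomputable def n1338 : Strat := .move 795 n716 (.cons 838 n364 .nil)
noncomputable def n1339 : Strat := .move 839 n1336 (.cons 757 n1337 (.cons 963 n1338 .nil))
noncomputable def n1340 : Strat := .move 920 n130 (.cons 961 n1339 .nil)
noncomputable def n1341 : Strat := .move 796 n162 (.cons 961 n362 (.cons 920 n1335 (.cons 755 n1340 .nil)))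
noncomputable def n1342 : Strat := .move 919 n5 (.cons 918 n1341 .nil)
noncomputable def n1343 : Strat := .move 837 n6 (.cons 836 n1342 .nil)
noncomputable def n1344 : Strat := .move 922 n17 (.cons 923 n1343 .nil)
noncomputable def n1345 : Strat := .move 878 n4 (.cons 839 n980 (.cons 919 n15 (.cons 877 n1344 .nil)))
noncomputable def n1346 : Strat := .move 882 n1172 (.cons 838 n401 (.cons 878 n88 (.cons 924 n1002 .nil)))
noncomputable def n1347 : Strat := .move 922 n17 (.cons 923 n127 .nil)
noncomputable def n1348 : Strat := .move 878 n4 (.cons 839 n980 (.cons 918 n121 (.cons 877 n1347 .nil)))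
noncomputable def n1349 : Strat := .move 839 n263 (.cons 877 n504 .nil)
noncomputable def n1350 : Strat := .move 920 n21 (.cons 882 n131 .nil)
noncomputable def n1351 : Strat := .move 919 n5 (.cons 918 n1350 .nil)
noncomputable def n1352 : Strat := .move 837 n6 (.cons 836 n1351 .nil)
noncomputable def n1353 : Strat := .move 878 n1349 (.cons 837 n4 (.cons 839 n1352 .nil))
noncomputable def n1354 : Strat := .move 878 n542 (.cons 923 n15 (.cons 877 n154 .nil))
noncomputable def n1355 : Strat := .move 922 n68 (.cons 878 n398 .nil)
noncomputable def n1356 : Strat := .move 923 n50 (.cons 924 n1355 .nil)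
noncomputable def n1357 : Strat := .move 839 n263 (.cons 877 n1006 .nil)
noncomputable def n1358 : Strat := .move 878 n49 (.cons 922 n1357 .nil)
noncomputable def n1359 : Strat := .move 923 n50 (.cons 924 n1358 .nil)
noncomputable def n1360 : Strat := .move 882 n1356 (.cons 923 n398 (.cons 883 n401 (.cons 920 n1359 .nil)))
noncomputable def n1361 : Strat := .move 879 n1319 (.cons 878 n1330 (.cons 882 n1345 (.cons 839 n1346 (.cons 838 n1348 (.cons 923 n1353 (.cons 919 n1354 (.cons 837 n1360 .nil)))))))
noncomputable def n1362 : Strat := .move 877 n18 (.cons 921 n0 .nil)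
noncomputable def n1363 : Strat := .move 878 n17 (.cons 923 n1362 .nil)
noncomputable def n1364 : Strat := .move 839 n508 (.cons 798 n695 (.cons 963 n699 .nil))
noncomputable def n1365 : Strat := .move 839 n263 (.cons 877 n508 .nil)
noncomputable def n1366 : Strat := .move 878 n17 (.cons 923 n1365 .nil)
noncomputable def n1367 : Strat := .win 925 2 880
noncomputable def n1368 : Strat := .move 924 n1367 (.cons 925 n1035 .nil)
noncomputable def n1369 : Strat := .move 923 n68 (.cons 878 n1368 .nil)
noncomputable def n1370 : Strat := .move 1003 n940 (.cons 962 n941 .nil)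
noncomputable def n1371 : Strat := .move 1004 n1100 (.cons 839 n1370 .nil)
noncomputable def n1372 : Strat := .win 919 0 919
noncomputable def n1373 : Strat := .move 920 n1372 (.cons 919 n1013 .nil)
noncomputable def n1374 : Strat := .win 924 2 879
noncomputable def n1375 : Strat := .move 923 n1374 (.cons 924 n1106 .nil)
noncomputable def n1376 : Strat := .win 923 2 879
noncomputable def n1377 : Strat := .win 925 5 921
noncomputable def n1378 : Strat := .move 965 n1377 (.cons 925 n982 .nil)
noncomputable def n1379 : Strat := .move 924 n1376 (.cons 923 n1378 .nil)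
noncomputable def n1380 : Strat := .move 923 n96 (.cons 960 n1374 .nil)
noncomputable def n1381 : Strat := .win 923 4 919
noncomputable def n1382 : Strat := .move 960 n971 (.cons 959 n1381 .nil)
noncomputable def n1383 : Strat := .win 1001 4 960
noncomputable def n1384 : Strat := .move 1002 n93 (.cons 1043 n1383 .nil)
noncomputable def n1385 : Strat := .move 961 n1380 (.cons 924 n1382 (.cons 960 n1384 .nil))
noncomputable def n1386 : Strat := .move 920 n1372 (.cons 919 n1385 .nil)
noncomputable def n1387 : Strat := .move 921 n1373 (.cons 919 n1375 (.cons 920 n1379 (.cons 965 n1386 .nil)))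
noncomputable def n1388 : Strat := .move 964 n546 (.cons 1005 n1387 .nil)
noncomputable def n1389 : Strat := .move 962 n947 (.cons 1003 n1388 .nil)
noncomputable def n1390 : Strat := .move 963 n545 (.cons 798 n1371 (.cons 839 n1389 .nil))
noncomputable def n1391 : Strat := .move 879 n1363 (.cons 923 n1364 (.cons 921 n1366 (.cons 839 n1369 (.cons 878 n1390 .nil))))
noncomputable def n1392 : Strat := .move 837 n6 (.cons 836 n480 .nil)
noncomputable def n1393 : Strat := .move 920 n21 (.cons 882 n1392 .nil)
noncomputable def n1394 : Strat := .move 919 n5 (.cons 918 n1393 .nil)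
noncomputable def n1395 : Strat := .move 921 n22 (.cons 877 n1394 .nil)
noncomputable def n1396 : Strat := .move 878 n17 (.cons 923 n1395 .nil)
noncomputable def n1397 : Strat := .move 878 n1395 (.cons 921 n4 (.cons 877 n127 (.cons 919 n1362 .nil)))
noncomputable def n1398 : Strat := .move 878 n17 (.cons 923 n4 .nil)
noncomputable def n1399 : Strat := .move 921 n67 (.cons 883 n71 .nil)
noncomputable def n1400 : Strat := .move 920 n57 (.cons 919 n1399 .nil)
noncomputable def n1401 : Strat := .move 923 n50 (.cons 924 n1400 .nil)
noncomputable def n1402 : Strat := .move 883 n63 (.cons 925 n403 .nil)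
noncomputable def n1403 : Strat := .move 924 n62 (.cons 923 n1402 .nil)
noncomputable def n1404 : Strat := .move 839 n91 (.cons 798 n90 .nil)
noncomputable def n1405 : Strat := .move 961 n96 (.cons 960 n1404 .nil)
noncomputable def n1406 : Strat := .move 921 n70 (.cons 965 n1405 .nil)
noncomputable def n1407 : Strat := .move 964 n69 (.cons 1005 n1406 .nil)
noncomputable def n1408 : Strat := .move 920 n57 (.cons 919 n1407 .nil)
noncomputable def n1409 : Strat := .move 923 n50 (.cons 924 n1408 .nil)
noncomputable def n1410 : Strat := .move 884 n309 (.cons 844 n307 .nil)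
noncomputable def n1411 : Strat := .move 843 n308 (.cons 842 n1410 .nil)
noncomputable def n1412 : Strat := .move 883 n63 (.cons 925 n1411 .nil)
noncomputable def n1413 : Strat := .move 924 n62 (.cons 923 n1412 .nil)
noncomputable def n1414 : Strat := .move 920 n57 (.cons 919 n1413 .nil)
noncomputable def n1415 : Strat := .move 882 n1401 (.cons 920 n1403 (.cons 924 n810 (.cons 883 n1409 (.cons 921 n1414 .nil))))
noncomputable def n1416 : Strat := .move 879 n1396 (.cons 923 n1397 (.cons 921 n1398 (.cons 877 n1369 (.cons 878 n1415 .nil))))
noncomputable def n1417 : Strat := .move 879 n68 (.cons 878 n1368 .nil)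
noncomputable def n1418 : Strat := .win 961 4 920
noncomputable def n1419 : Strat := .move 962 n23 (.cons 1003 n1418 .nil)
noncomputable def n1420 : Strat := .win 884 5 880
noncomputable def n1421 : Strat := .move 882 n405 (.cons 920 n1139 .nil)
noncomputable def n1422 : Strat := .move 883 n1420 (.cons 884 n1421 .nil)
noncomputable def n1423 : Strat := .move 921 n1419 (.cons 961 n1422 .nil)
noncomputable def n1424 : Strat := .move 924 n1367 (.cons 925 n1423 .nil)
noncomputable def n1425 : Strat := .win 879 2 879
noncomputable def n1426 : Strat := .move 921 n1425 (.cons 879 n1419 .nil)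
noncomputable def n1427 : Strat := .move 924 n1367 (.cons 925 n1426 .nil)
noncomputable def n1428 : Strat := .win 879 0 878
noncomputable def n1429 : Strat := .move 920 n1372 (.cons 919 n70 .nil)
noncomputable def n1430 : Strat := .move 921 n1429 (.cons 920 n992 .nil)
noncomputable def n1431 : Strat := .move 964 n546 (.cons 1005 n1430 .nil)
noncomputable def n1432 : Strat := .move 1004 n942 (.cons 1046 n1370 .nil)
noncomputable def n1433 : Strat := .move 1005 n943 (.cons 964 n1432 .nil)
noncomputable def n1434 : Strat := .move 921 n982 (.cons 966 n1105 .nil)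
noncomputable def n1435 : Strat := .win 967 2 922
noncomputable def n1436 : Strat := .win 921 2 921
noncomputable def n1437 : Strat := .move 966 n1435 (.cons 967 n1436 .nil)
noncomputable def n1438 : Strat := .win 921 0 920
noncomputable def n1439 : Strat := .win 919 2 919
noncomputable def n1440 : Strat := .win 960 5 919
noncomputable def n1441 : Strat := .move 961 n1439 (.cons 919 n1440 .nil)
noncomputable def n1442 : Strat := .move 920 n1438 (.cons 921 n1441 .nil)
noncomputable def n1443 : Strat := .win 1008 0 963
noncomputable def n1444 : Strat := .win 1006 0 962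
noncomputable def n1445 : Strat := .move 1007 n1443 (.cons 1008 n1444 .nil)
noncomputable def n1446 : Strat := .move 966 n1435 (.cons 967 n1445 .nil)
noncomputable def n1447 : Strat := .move 965 n1434 (.cons 920 n1437 (.cons 966 n1442 (.cons 921 n1446 .nil)))
noncomputable def n1448 : Strat := .move 962 n947 (.cons 1003 n1447 .nil)
noncomputable def n1449 : Strat := .move 964 n546 (.cons 1005 n1448 .nil)
noncomputable def n1450 : Strat := .win 882 3 881
noncomputable def n1451 : Strat := .win 921 7 880
noncomputable def n1452 : Strat := .move 1045 n1450 (.cons 882 n1451 .nil)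
noncomputable def n1453 : Strat := .move 1004 n942 (.cons 1046 n1452 .nil)
noncomputable def n1454 : Strat := .move 1005 n943 (.cons 964 n1453 .nil)
noncomputable def n1455 : Strat := .move 1004 n941 (.cons 1044 n1452 .nil)
noncomputable def n1456 : Strat := .move 1003 n940 (.cons 962 n1455 .nil)
noncomputable def n1457 : Strat := .move 963 n1431 (.cons 921 n1433 (.cons 1004 n1449 (.cons 1003 n1454 (.cons 964 n1456 .nil))))
noncomputable def n1458 : Strat := .move 878 n1428 (.cons 879 n1457 .nil)
noncomputable def n1459 : Strat := .move 923 n1417 (.cons 879 n1424 (.cons 882 n1427 (.cons 924 n1458 .nil)))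
noncomputable def n1460 : Strat := .win 961 5 920
noncomputable def n1461 : Strat := .move 924 n1367 (.cons 925 n1460 .nil)
noncomputable def n1462 : Strat := .win 920 3 838
noncomputable def n1463 : Strat := .move 1002 n1462 (.cons 920 n1383 .nil)
noncomputable def n1464 : Strat := .move 879 n68 (.cons 878 n1463 .nil)
noncomputable def n1465 : Strat := .move 961 n1440 (.cons 960 n1464 .nil)
noncomputable def n1466 : Strat := .move 879 n1035 (.cons 882 n68 .nil)
noncomputable def n1467 : Strat := .move 924 n1367 (.cons 925 n1466 .nil)
noncomputable def n1468 : Strat := .move 923 n1461 (.cons 924 n1465 (.cons 961 n1467 .nil))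
noncomputable def n1469 : Strat := .move 962 n947 (.cons 1003 n1468 .nil)
noncomputable def n1470 : Strat := .move 964 n546 (.cons 1005 n1469 .nil)
noncomputable def n1471 : Strat := .move 839 n544 (.cons 1004 n1470 .nil)
noncomputable def n1472 : Strat := .move 839 n543 (.cons 798 n1470 .nil)
noncomputable def n1473 : Strat := .move 963 n545 (.cons 798 n1471 (.cons 839 n1433 (.cons 1004 n1472 .nil)))
noncomputable def n1474 : Strat := .move 921 n1372 (.cons 919 n1013 .nil)
noncomputable def n1475 : Strat := .move 919 n547 (.cons 921 n948 .nil)
noncomputable def n1476 : Strat := .win 879 3 838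
noncomputable def n1477 : Strat := .move 1002 n1476 (.cons 879 n1383 .nil)
noncomputable def n1478 : Strat := .move 961 n1439 (.cons 919 n1477 .nil)
noncomputable def n1479 : Strat := .win 921 2 920
noncomputable def n1480 : Strat := .win 926 5 922
noncomputable def n1481 : Strat := .win 924 5 921
noncomputable def n1482 : Strat := .move 925 n1480 (.cons 926 n1481 .nil)
noncomputable def n1483 : Strat := .move 966 n1445 (.cons 1006 n1482 .nil)
noncomputable def n1484 : Strat := .move 965 n1479 (.cons 921 n1483 .nil)
noncomputable def n1485 : Strat := .move 920 n1474 (.cons 965 n1475 (.cons 921 n1478 (.cons 919 n1484 .nil)))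
noncomputable def n1486 : Strat := .move 964 n546 (.cons 1005 n1485 .nil)
noncomputable def n1487 : Strat := .move 962 n947 (.cons 1003 n1486 .nil)
noncomputable def n1488 : Strat := .move 839 n543 (.cons 798 n1487 .nil)
noncomputable def n1489 : Strat := .move 963 n545 (.cons 839 n1023 (.cons 1004 n1488 .nil))
noncomputable def n1490 : Strat := .win 924 4 920
noncomputable def n1491 : Strat := .move 923 n1490 (.cons 924 n1440 .nil)
noncomputable def n1492 : Strat := .move 961 n109 (.cons 1002 n1491 .nil)
noncomputable def n1493 : Strat := .move 921 n1373 (.cons 919 n983 (.cons 920 n1492 .nil))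
noncomputable def n1494 : Strat := .move 964 n546 (.cons 1005 n1493 .nil)
noncomputable def n1495 : Strat := .move 962 n947 (.cons 1003 n1494 .nil)
noncomputable def n1496 : Strat := .move 839 n544 (.cons 1004 n1495 .nil)
noncomputable def n1497 : Strat := .move 921 n70 (.cons 965 n1384 .nil)
noncomputable def n1498 : Strat := .move 920 n1439 (.cons 919 n1497 .nil)
noncomputable def n1499 : Strat := .move 961 n1440 (.cons 960 n1498 .nil)
noncomputable def n1500 : Strat := .win 966 0 921
noncomputable def n1501 : Strat := .move 921 n1500 (.cons 966 n1105 .nil)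
noncomputable def n1502 : Strat := .win 921 0 921
noncomputable def n1503 : Strat := .move 966 n1435 (.cons 967 n1502 .nil)
noncomputable def n1504 : Strat := .win 1007 0 962
noncomputable def n1505 : Strat := .win 1088 7 923
noncomputable def n1506 : Strat := .win 882 7 882
noncomputable def n1507 : Strat := .move 1047 n1505 (.cons 1088 n1506 .nil)
noncomputable def n1508 : Strat := .move 1006 n1504 (.cons 1007 n1507 .nil)
noncomputable def n1509 : Strat := .move 965 n1501 (.cons 920 n1503 (.cons 966 n1508 .nil))
noncomputable def n1510 : Strat := .move 924 n1367 (.cons 925 n1509 .nil)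
noncomputable def n1511 : Strat := .move 923 n1461 (.cons 924 n1499 (.cons 961 n1510 .nil))
noncomputable def n1512 : Strat := .move 964 n546 (.cons 1005 n1511 .nil)
noncomputable def n1513 : Strat := .move 962 n947 (.cons 1003 n1512 .nil)
noncomputable def n1514 : Strat := .move 963 n545 (.cons 798 n1496 (.cons 839 n1513 .nil))
noncomputable def n1515 : Strat := .win 923 5 919
noncomputable def n1516 : Strat := .move 960 n971 (.cons 959 n1515 .nil)
noncomputable def n1517 : Strat := .move 961 n109 (.cons 1002 n1516 .nil)
noncomputable def n1518 : Strat := .move 921 n1373 (.cons 919 n983 (.cons 920 n1517 .nil))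
noncomputable def n1519 : Strat := .move 964 n546 (.cons 1005 n1518 .nil)
noncomputable def n1520 : Strat := .move 962 n947 (.cons 1003 n1519 .nil)
noncomputable def n1521 : Strat := .move 839 n543 (.cons 798 n1520 .nil)
noncomputable def n1522 : Strat := .move 963 n545 (.cons 1004 n1521 (.cons 839 n1023 .nil))
noncomputable def n1523 : Strat := .move 879 n68 (.cons 878 n1035 .nil)
noncomputable def n1524 : Strat := .move 924 n1367 (.cons 925 n1523 .nil)
noncomputable def n1525 : Strat := .move 921 n1425 (.cons 879 n1418 .nil)
noncomputable def n1526 : Strat := .move 924 n1367 (.cons 925 n1525 .nil)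
noncomputable def n1527 : Strat := .win 921 1 838
noncomputable def n1528 : Strat := .move 1002 n1462 (.cons 920 n1527 .nil)
noncomputable def n1529 : Strat := .move 961 n1440 (.cons 960 n1528 .nil)
noncomputable def n1530 : Strat := .move 879 n68 (.cons 878 n1529 .nil)
noncomputable def n1531 : Strat := .win 921 4 920
noncomputable def n1532 : Strat := .move 961 n1440 (.cons 960 n1531 .nil)
noncomputable def n1533 : Strat := .move 924 n1367 (.cons 925 n1532 .nil)
noncomputable def n1534 : Strat := .move 923 n1524 (.cons 878 n1526 (.cons 924 n1530 (.cons 879 n1533 .nil)))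
noncomputable def n1535 : Strat := .move 962 n947 (.cons 1003 n1534 .nil)
noncomputable def n1536 : Strat := .move 839 n543 (.cons 798 n1535 .nil)
noncomputable def n1537 : Strat := .move 839 n544 (.cons 1004 n1535 .nil)
noncomputable def n1538 : Strat := .win 1005 6 881
noncomputable def n1539 : Strat := .win 1087 6 922
noncomputable def n1540 : Strat := .move 1046 n1538 (.cons 1005 n1539 .nil)
noncomputable def n1541 : Strat := .move 1045 n1451 (.cons 921 n1540 .nil)
noncomputable def n1542 : Strat := .move 1004 n941 (.cons 1044 n1541 .nil)
noncomputable def n1543 : Strat := .move 1003 n940 (.cons 962 n1542 .nil)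
noncomputable def n1544 : Strat := .move 963 n545 (.cons 1004 n1536 (.cons 798 n1537 (.cons 839 n1543 .nil)))
noncomputable def n1545 : Strat := .move 879 n68 (.cons 878 n1528 .nil)
noncomputable def n1546 : Strat := .move 961 n1440 (.cons 960 n1545 .nil)
noncomputable def n1547 : Strat := .move 923 n1533 (.cons 921 n1524 (.cons 924 n1546 .nil))
noncomputable def n1548 : Strat := .move 962 n947 (.cons 1003 n1547 .nil)
noncomputable def n1549 : Strat := .move 963 n544 (.cons 1004 n1548 .nil)
noncomputable def n1550 : Strat := .move 878 n17 (.cons 923 n263 .nil)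
noncomputable def n1551 : Strat := .move 920 n21 (.cons 882 n583 .nil)
noncomputable def n1552 : Strat := .move 919 n5 (.cons 918 n1551 .nil)
noncomputable def n1553 : Strat := .move 878 n263 (.cons 877 n1552 .nil)
noncomputable def n1554 : Strat := .move 921 n558 (.cons 961 n67 .nil)
noncomputable def n1555 : Strat := .move 920 n57 (.cons 919 n1554 .nil)
noncomputable def n1556 : Strat := .move 882 n1042 (.cons 884 n1555 (.cons 883 n1043 (.cons 920 n1045 .nil)))
noncomputable def n1557 : Strat := .move 879 n1550 (.cons 923 n1553 (.cons 877 n1369 (.cons 878 n1556 .nil)))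
noncomputable def n1558 : Strat := .move 798 n506 (.cons 757 n1557 .nil)
noncomputable def n1559 : Strat := .move 839 n508 (.cons 798 n1549 (.cons 963 n1558 .nil))
noncomputable def n1560 : Strat := .move 923 n1035 (.cons 882 n1367 .nil)
noncomputable def n1561 : Strat := .move 923 n1036 (.cons 921 n1035 .nil)
noncomputable def n1562 : Strat := .move 923 n1036 (.cons 921 n1367 .nil)
noncomputable def n1563 : Strat := .move 921 n982 (.cons 966 n981 .nil)
noncomputable def n1564 : Strat := .move 965 n1377 (.cons 925 n1563 .nil)
noncomputable def n1565 : Strat := .move 924 n1560 (.cons 925 n1561 (.cons 882 n1562 (.cons 923 n1564 .nil)))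
noncomputable def n1566 : Strat := .move 964 n546 (.cons 1005 n1565 .nil)
noncomputable def n1567 : Strat := .move 962 n947 (.cons 1003 n1566 .nil)
noncomputable def n1568 : Strat := .move 839 n543 (.cons 798 n1567 .nil)
noncomputable def n1569 : Strat := .move 963 n545 (.cons 839 n1023 (.cons 1004 n1568 .nil))
noncomputable def n1570 : Strat := .move 878 n263 (.cons 877 n656 .nil)
noncomputable def n1571 : Strat := .move 839 n543 (.cons 798 n1570 .nil)
noncomputable def n1572 : Strat := .move 963 n545 (.cons 839 n1023 (.cons 1004 n1571 .nil))
noncomputable def n1573 : Strat := .move 879 n1363 (.cons 921 n1366 (.cons 877 n1369 (.cons 878 n1569 (.cons 923 n1572 .nil))))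
noncomputable def n1574 : Strat := .move 1002 n1383 (.cons 1001 n1527 .nil)
noncomputable def n1575 : Strat := .move 961 n1440 (.cons 960 n1574 .nil)
noncomputable def n1576 : Strat := .move 923 n1461 (.cons 924 n1575 (.cons 961 n1467 .nil))
noncomputable def n1577 : Strat := .move 964 n546 (.cons 1005 n1576 .nil)
noncomputable def n1578 : Strat := .move 962 n947 (.cons 1003 n1577 .nil)
noncomputable def n1579 : Strat := .move 839 n543 (.cons 798 n1578 .nil)
noncomputable def n1580 : Strat := .move 923 n1367 (.cons 925 n1460 .nil)
noncomputable def n1581 : Strat := .move 966 n1436 (.cons 921 n1445 .nil)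
noncomputable def n1582 : Strat := .move 965 n1377 (.cons 925 n1581 .nil)
noncomputable def n1583 : Strat := .move 923 n1460 (.cons 961 n1523 .nil)
noncomputable def n1584 : Strat := .move 924 n1580 (.cons 923 n1582 (.cons 925 n1583 .nil))
noncomputable def n1585 : Strat := .move 964 n546 (.cons 1005 n1584 .nil)
noncomputable def n1586 : Strat := .move 962 n947 (.cons 1003 n1585 .nil)
noncomputable def n1587 : Strat := .move 963 n545 (.cons 798 n1371 (.cons 1004 n1579 (.cons 839 n1586 .nil)))
noncomputable def n1588 : Strat := .move 922 n1391 (.cons 963 n1416 (.cons 839 n1459 (.cons 921 n1473 (.cons 923 n1489 (.cons 879 n1514 (.cons 924 n1522 (.cons 964 n1544 (.cons 1005 n1559 (.cons 961 n1573 (.cons 920 n1587 .nil))))))))))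
noncomputable def n1589 : Strat := .move 879 n4 (.cons 839 n20 (.cons 877 n151 .nil))
noncomputable def n1590 : Strat := .move 798 n706 (.cons 922 n1087 .nil)
noncomputable def n1591 : Strat := .move 963 n608 (.cons 1004 n1590 .nil)
noncomputable def n1592 : Strat := .move 837 n295 (.cons 836 n296 .nil)
noncomputable def n1593 : Strat := .move 838 n556 (.cons 797 n1592 .nil)
noncomputable def n1594 : Strat := .move 839 n1591 (.cons 922 n1593 .nil)
noncomputable def n1595 : Strat := .move 962 n23 (.cons 1003 n1594 .nil)
noncomputable def n1596 : Strat := .move 962 n1591 (.cons 922 n1593 .nil)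
noncomputable def n1597 : Strat := .move 961 n329 (.cons 920 n109 .nil)
noncomputable def n1598 : Strat := .move 798 n706 (.cons 922 n1597 .nil)
noncomputable def n1599 : Strat := .move 963 n608 (.cons 1004 n1598 .nil)
noncomputable def n1600 : Strat := .win 838 7 797
noncomputable def n1601 : Strat := .move 797 n327 (.cons 756 n1600 .nil)
noncomputable def n1602 : Strat := .move 798 n706 (.cons 922 n1601 .nil)
noncomputable def n1603 : Strat := .move 963 n608 (.cons 1004 n1602 .nil)
noncomputable def n1604 : Strat := .move 757 n321 (.cons 716 n516 .nil)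
noncomputable def n1605 : Strat := .move 798 n329 (.cons 920 n1604 .nil)
noncomputable def n1606 : Strat := .move 961 n109 (.cons 1002 n1605 .nil)
noncomputable def n1607 : Strat := .win 1006 0 961
noncomputable def n1608 : Strat := .win 922 6 840
noncomputable def n1609 : Strat := .move 1005 n1607 (.cons 1006 n1608 .nil)
noncomputable def n1610 : Strat := .move 920 n1439 (.cons 919 n1013 .nil)
noncomputable def n1611 : Strat := .move 964 n1609 (.cons 922 n1610 .nil)
noncomputable def n1612 : Strat := .move 961 n109 (.cons 1002 n1611 .nil)
noncomputable def n1613 : Strat := .move 963 n608 (.cons 1004 n1612 .nil)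
noncomputable def n1614 : Strat := .move 798 n329 (.cons 920 n1601 .nil)
noncomputable def n1615 : Strat := .move 961 n109 (.cons 1002 n1614 .nil)
noncomputable def n1616 : Strat := .move 962 n1599 (.cons 920 n1603 (.cons 963 n1606 (.cons 798 n1613 (.cons 922 n1615 .nil))))
noncomputable def n1617 : Strat := .move 837 n296 (.cons 877 n295 .nil)
noncomputable def n1618 : Strat := .move 838 n556 (.cons 797 n1617 .nil)
noncomputable def n1619 : Strat := .move 961 n109 (.cons 1002 n1618 .nil)
noncomputable def n1620 : Strat := .move 963 n608 (.cons 1004 n1619 .nil)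
noncomputable def n1621 : Strat := .move 962 n1620 (.cons 797 n1613 (.cons 1004 n1593 .nil))
noncomputable def n1622 : Strat := .move 962 n1593 (.cons 797 n1606 .nil)
noncomputable def n1623 : Strat := .move 960 n1515 (.cons 923 n971 .nil)
noncomputable def n1624 : Strat := .move 961 n109 (.cons 1002 n1623 .nil)
noncomputable def n1625 : Strat := .move 922 n1103 (.cons 798 n1624 .nil)
noncomputable def n1626 : Strat := .move 963 n608 (.cons 1004 n1625 .nil)
noncomputable def n1627 : Strat := .move 962 n1603 (.cons 1004 n1593 (.cons 838 n1130 (.cons 797 n1626 .nil)))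
noncomputable def n1628 : Strat := .move 964 n546 (.cons 1005 n1373 .nil)
noncomputable def n1629 : Strat := .move 922 n1103 (.cons 798 n1628 .nil)
noncomputable def n1630 : Strat := .move 963 n608 (.cons 1004 n1629 .nil)
noncomputable def n1631 : Strat := .move 963 n609 (.cons 964 n608 .nil)
noncomputable def n1632 : Strat := .move 919 n607 (.cons 918 n1631 .nil)
noncomputable def n1633 : Strat := .move 920 n91 (.cons 798 n1632 .nil)
noncomputable def n1634 : Strat := .move 961 n109 (.cons 1002 n1633 .nil)
noncomputable def n1635 : Strat := .move 962 n1626 (.cons 959 n1630 (.cons 963 n1606 (.cons 922 n1634 (.cons 798 n1613 .nil))))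
noncomputable def n1636 : Strat := .move 962 n1603 (.cons 922 n1593 (.cons 838 n1130 (.cons 797 n1630 .nil)))
noncomputable def n1637 : Strat := .move 798 n329 (.cons 920 n1128 .nil)
noncomputable def n1638 : Strat := .move 961 n109 (.cons 1002 n1637 .nil)
noncomputable def n1639 : Strat := .move 962 n1593 (.cons 838 n1638 (.cons 797 n1634 .nil))
noncomputable def n1640 : Strat := .move 922 n506 (.cons 757 n1080 .nil)
noncomputable def n1641 : Strat := .win 877 2 877
noncomputable def n1642 : Strat := .move 919 n607 (.cons 918 n1641 .nil)
noncomputable def n1643 : Strat := .move 920 n558 (.cons 961 n1642 .nil)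
noncomputable def n1644 : Strat := .move 922 n1080 (.cons 963 n1643 .nil)
noncomputable def n1645 : Strat := .move 756 n1126 (.cons 797 n334 .nil)
noncomputable def n1646 : Strat := .move 757 n321 (.cons 716 n1645 .nil)
noncomputable def n1647 : Strat := .move 798 n1640 (.cons 757 n1644 (.cons 963 n1604 (.cons 922 n1646 .nil)))
noncomputable def n1648 : Strat := .move 839 n1596 (.cons 877 n1616 (.cons 798 n1621 (.cons 963 n1622 (.cons 920 n1627 (.cons 797 n1635 (.cons 961 n1636 (.cons 922 n1639 (.cons 962 n1647 .nil))))))))
noncomputable def n1649 : Strat := .move 839 n1593 (.cons 838 n1638 (.cons 797 n1634 .nil))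
noncomputable def n1650 : Strat := .move 962 n23 (.cons 1003 n1649 .nil)
noncomputable def n1651 : Strat := .move 839 n1603 (.cons 1004 n1593 (.cons 838 n1130 (.cons 797 n1626 .nil)))
noncomputable def n1652 : Strat := .move 962 n23 (.cons 1003 n1651 .nil)
noncomputable def n1653 : Strat := .move 839 n1593 (.cons 797 n1606 .nil)
noncomputable def n1654 : Strat := .move 962 n23 (.cons 1003 n1653 .nil)
noncomputable def n1655 : Strat := .move 839 n1620 (.cons 797 n1613 (.cons 1004 n1593 .nil))
noncomputable def n1656 : Strat := .move 962 n23 (.cons 1003 n1655 .nil)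
noncomputable def n1657 : Strat := .move 839 n1603 (.cons 922 n1593 (.cons 838 n1130 (.cons 797 n1630 .nil)))
noncomputable def n1658 : Strat := .move 962 n23 (.cons 1003 n1657 .nil)
noncomputable def n1659 : Strat := .move 839 n1626 (.cons 959 n1630 (.cons 963 n1606 (.cons 922 n1634 (.cons 798 n1613 .nil))))
noncomputable def n1660 : Strat := .move 962 n23 (.cons 1003 n1659 .nil)
noncomputable def n1661 : Strat := .win 964 0 919
noncomputable def n1662 : Strat := .move 839 n1103 (.cons 798 n544 .nil)
noncomputable def n1663 : Strat := .move 963 n1661 (.cons 964 n1662 .nil)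
noncomputable def n1664 : Strat := .move 922 n1641 (.cons 877 n1663 .nil)
noncomputable def n1665 : Strat := .move 920 n607 (.cons 918 n1664 .nil)
noncomputable def n1666 : Strat := .win 960 6 837
noncomputable def n1667 : Strat := .move 1002 n93 (.cons 1043 n1666 .nil)
noncomputable def n1668 : Strat := .move 961 n122 (.cons 796 n1667 .nil)
noncomputable def n1669 : Strat := .move 838 n296 (.cons 877 n295 .nil)
noncomputable def n1670 : Strat := .move 839 n91 (.cons 798 n1669 .nil)
noncomputable def n1671 : Strat := .move 961 n122 (.cons 796 n1670 .nil)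
noncomputable def n1672 : Strat := .move 959 n795 (.cons 958 n141 .nil)
noncomputable def n1673 : Strat := .move 961 n684 (.cons 1002 n1672 .nil)
noncomputable def n1674 : Strat := .win 795 7 795
noncomputable def n1675 : Strat := .win 838 0 836
noncomputable def n1676 : Strat := .move 839 n1675 (.cons 838 n91 .nil)
noncomputable def n1677 : Strat := .move 836 n1674 (.cons 795 n1676 .nil)
noncomputable def n1678 : Strat := .move 961 n684 (.cons 1002 n1677 .nil)
noncomputable def n1679 : Strat := .move 838 n681 (.cons 797 n304 .nil)
noncomputable def n1680 : Strat := .move 836 n1674 (.cons 795 n1679 .nil)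
noncomputable def n1681 : Strat := .move 960 n1673 (.cons 958 n1678 (.cons 961 n1680 .nil))
noncomputable def n1682 : Strat := .move 839 n295 (.cons 836 n296 .nil)
noncomputable def n1683 : Strat := .win 796 3 755
noncomputable def n1684 : Strat := .move 756 n746 (.cons 715 n1683 .nil)
noncomputable def n1685 : Strat := .move 797 n37 (.cons 960 n1684 .nil)
noncomputable def n1686 : Strat := .move 838 n1682 (.cons 877 n1685 .nil)
noncomputable def n1687 : Strat := .move 837 n1668 (.cons 1002 n1671 (.cons 796 n1681 (.cons 961 n1686 .nil)))
noncomputable def n1688 : Strat := .move 837 n684 (.cons 1002 n122 .nil)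
noncomputable def n1689 : Strat := .move 961 n1381 (.cons 923 n1688 .nil)
noncomputable def n1690 : Strat := .move 960 n25 (.cons 959 n1689 .nil)
noncomputable def n1691 : Strat := .move 922 n1663 (.cons 963 n1690 .nil)
noncomputable def n1692 : Strat := .move 922 n1641 (.cons 877 n1690 .nil)
noncomputable def n1693 : Strat := .move 920 n1664 (.cons 922 n1687 (.cons 877 n1691 (.cons 839 n1692 .nil)))
noncomputable def n1694 : Strat := .move 920 n607 (.cons 918 n1687 .nil)
noncomputable def n1695 : Strat := .move 920 n607 (.cons 918 n1691 .nil)
noncomputable def n1696 : Strat := .move 920 n607 (.cons 918 n1692 .nil)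
noncomputable def n1697 : Strat := .move 797 n37 (.cons 960 n135 .nil)
noncomputable def n1698 : Strat := .move 838 n363 (.cons 839 n1697 .nil)
noncomputable def n1699 : Strat := .move 795 n364 (.cons 754 n1698 .nil)
noncomputable def n1700 : Strat := .win 798 0 795
noncomputable def n1701 : Strat := .move 797 n1700 (.cons 798 n135 .nil)
noncomputable def n1702 : Strat := .move 839 n716 (.cons 838 n1701 .nil)
noncomputable def n1703 : Strat := .move 795 n364 (.cons 754 n1702 .nil)
noncomputable def n1704 : Strat := .move 839 n296 (.cons 877 n295 .nil)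
noncomputable def n1705 : Strat := .move 838 n37 (.cons 960 n1704 .nil)
noncomputable def n1706 : Strat := .move 797 n135 (.cons 756 n1705 .nil)
noncomputable def n1707 : Strat := .win 836 7 795
noncomputable def n1708 : Strat := .win 918 1 795
noncomputable def n1709 : Strat := .move 959 n141 (.cons 1000 n1708 .nil)
noncomputable def n1710 : Strat := .move 960 n1707 (.cons 836 n1709 .nil)
noncomputable def n1711 : Strat := .move 838 n363 (.cons 839 n1710 .nil)
noncomputable def n1712 : Strat := .move 795 n364 (.cons 754 n1711 .nil)
noncomputable def n1713 : Strat := .win 960 7 795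
noncomputable def n1714 : Strat := .move 836 n1251 (.cons 835 n1713 .nil)
noncomputable def n1715 : Strat := .move 798 n1252 (.cons 839 n1714 .nil)
noncomputable def n1716 : Strat := .move 797 n135 (.cons 756 n1715 .nil)
noncomputable def n1717 : Strat := .move 795 n364 (.cons 754 n1716 .nil)
noncomputable def n1718 : Strat := .move 795 n364 (.cons 754 n1710 .nil)
noncomputable def n1719 : Strat := .move 796 n1699 (.cons 960 n1703 (.cons 795 n1706 (.cons 797 n1712 (.cons 838 n1717 (.cons 839 n1718 .nil)))))
noncomputable def n1720 : Strat := .move 838 n304 (.cons 839 n681 .nil)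
noncomputable def n1721 : Strat := .move 836 n1674 (.cons 795 n1720 .nil)
noncomputable def n1722 : Strat := .win 877 7 836
noncomputable def n1723 : Strat := .move 1001 n1722 (.cons 877 n166 .nil)
noncomputable def n1724 : Strat := .move 836 n1674 (.cons 795 n1723 .nil)
noncomputable def n1725 : Strat := .move 1001 n164 (.cons 1041 n169 .nil)
noncomputable def n1726 : Strat := .move 1000 n165 (.cons 959 n1725 .nil)
noncomputable def n1727 : Strat := .move 960 n1721 (.cons 797 n1724 (.cons 836 n1726 .nil))
noncomputable def n1728 : Strat := .win 959 1 795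
noncomputable def n1729 : Strat := .win 877 1 754
noncomputable def n1730 : Strat := .move 755 n1729 (.cons 877 n361 .nil)
noncomputable def n1731 : Strat := .move 918 n1728 (.cons 959 n1730 .nil)
noncomputable def n1732 : Strat := .move 796 n1717 (.cons 795 n1731 (.cons 756 n1718 .nil))
noncomputable def n1733 : Strat := .move 797 n163 (.cons 838 n135 .nil)
noncomputable def n1734 : Strat := .move 796 n1708 (.cons 918 n1733 .nil)
noncomputable def n1735 : Strat := .move 959 n141 (.cons 1000 n1734 .nil)
noncomputable def n1736 : Strat := .move 1001 n1722 (.cons 877 n169 .nil)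
noncomputable def n1737 : Strat := .move 836 n1674 (.cons 795 n1736 .nil)
noncomputable def n1738 : Strat := .move 960 n1735 (.cons 918 n1724 (.cons 959 n1737 .nil))
noncomputable def n1739 : Strat := .move 838 n681 (.cons 797 n1682 .nil)
noncomputable def n1740 : Strat := .move 1002 n168 (.cons 961 n1734 .nil)
noncomputable def n1741 : Strat := .move 959 n141 (.cons 1000 n1740 .nil)
noncomputable def n1742 : Strat := .win 796 1 795
noncomputable def n1743 : Strat := .win 1042 7 877
noncomputable def n1744 : Strat := .win 836 6 836
noncomputable def n1745 : Strat := .move 877 n1743 (.cons 1042 n1744 .nil)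
noncomputable def n1746 : Strat := .move 1001 n169 (.cons 961 n1745 .nil)
noncomputable def n1747 : Strat := .move 918 n1742 (.cons 796 n1746 .nil)
noncomputable def n1748 : Strat := .move 959 n141 (.cons 1000 n1747 .nil)
noncomputable def n1749 : Strat := .move 960 n1739 (.cons 877 n1741 (.cons 838 n1748 .nil))
noncomputable def n1750 : Strat := .move 836 n304 (.cons 839 n1674 .nil)
noncomputable def n1751 : Strat := .move 838 n681 (.cons 797 n1750 .nil)
noncomputable def n1752 : Strat := .move 795 n1707 (.cons 836 n364 .nil)
noncomputable def n1753 : Strat := .move 796 n1708 (.cons 918 n1752 .nil)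
noncomputable def n1754 : Strat := .move 959 n141 (.cons 1000 n1753 .nil)
noncomputable def n1755 : Strat := .move 960 n1735 (.cons 959 n1751 (.cons 838 n1754 .nil))
noncomputable def n1756 : Strat := .win 797 0 795
noncomputable def n1757 : Strat := .move 757 n516 (.cons 922 n321 .nil)
noncomputable def n1758 : Strat := .move 798 n1756 (.cons 797 n1757 .nil)
noncomputable def n1759 : Strat := .move 839 n716 (.cons 838 n1758 .nil)
noncomputable def n1760 : Strat := .move 795 n364 (.cons 754 n1759 .nil)
noncomputable def n1761 : Strat := .move 755 n1729 (.cons 877 n1333 .nil)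
noncomputable def n1762 : Strat := .move 918 n1728 (.cons 959 n1761 .nil)
noncomputable def n1763 : Strat := .move 796 n1703 (.cons 795 n1731 (.cons 756 n1760 (.cons 797 n1762 .nil)))
noncomputable def n1764 : Strat := .move 960 n681 (.cons 797 n1750 .nil)
noncomputable def n1765 : Strat := .move 960 n681 (.cons 797 n1737 .nil)
noncomputable def n1766 : Strat := .move 839 n296 (.cons 877 n1685 .nil)
noncomputable def n1767 : Strat := .move 838 n1682 (.cons 877 n1764 (.cons 839 n1765 (.cons 836 n1766 .nil)))
noncomputable def n1768 : Strat := .move 839 n1675 (.cons 838 n1736 .nil)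
noncomputable def n1769 : Strat := .move 836 n1674 (.cons 795 n1768 .nil)
noncomputable def n1770 : Strat := .move 796 n364 (.cons 754 n1708 .nil)
noncomputable def n1771 : Strat := .move 795 n1707 (.cons 836 n1770 .nil)
noncomputable def n1772 : Strat := .move 1002 n168 (.cons 961 n1771 .nil)
noncomputable def n1773 : Strat := .move 959 n141 (.cons 1000 n1772 .nil)
noncomputable def n1774 : Strat := .move 960 n1724 (.cons 1041 n1769 (.cons 795 n1748 (.cons 877 n1773 (.cons 836 n1726 .nil))))
noncomputable def n1775 : Strat := .move 837 n1719 (.cons 796 n1727 (.cons 838 n1732 (.cons 839 n1738 (.cons 795 n1749 (.cons 877 n1755 (.cons 960 n1763 (.cons 959 n1767 (.cons 797 n1774 .nil))))))))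
noncomputable def n1776 : Strat := .move 919 n1665 (.cons 918 n1693 (.cons 922 n1694 (.cons 877 n1695 (.cons 839 n1696 (.cons 920 n1775 .nil)))))
noncomputable def n1777 : Strat := .move 1004 n941 (.cons 1044 n986 .nil)
noncomputable def n1778 : Strat := .move 1003 n940 (.cons 962 n1777 .nil)
noncomputable def n1779 : Strat := .move 963 n1661 (.cons 964 n1778 .nil)
noncomputable def n1780 : Strat := .move 922 n1641 (.cons 877 n1779 .nil)
noncomputable def n1781 : Strat := .move 920 n607 (.cons 918 n1780 .nil)
noncomputable def n1782 : Strat := .win 962 3 839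
noncomputable def n1783 : Strat := .move 963 n1661 (.cons 964 n1777 .nil)
noncomputable def n1784 : Strat := .move 922 n1783 (.cons 1045 n1690 .nil)
noncomputable def n1785 : Strat := .move 1003 n1782 (.cons 962 n1784 .nil)
noncomputable def n1786 : Strat := .move 920 n607 (.cons 918 n1785 .nil)
noncomputable def n1787 : Strat := .win 920 5 877
noncomputable def n1788 : Strat := .win 963 2 918
noncomputable def n1789 : Strat := .win 959 2 917
noncomputable def n1790 : Strat := .win 916 0 916
noncomputable def n1791 : Strat := .move 917 n1789 (.cons 959 n1790 .nil)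
noncomputable def n1792 : Strat := .move 961 n1788 (.cons 963 n1791 .nil)
noncomputable def n1793 : Strat := .move 959 n141 (.cons 1000 n1742 .nil)
noncomputable def n1794 : Strat := .move 837 n684 (.cons 1002 n1793 .nil)
noncomputable def n1795 : Strat := .move 961 n1788 (.cons 963 n1794 .nil)
noncomputable def n1796 : Strat := .move 836 n1722 (.cons 877 n1674 .nil)
noncomputable def n1797 : Strat := .move 1001 n166 (.cons 959 n1796 .nil)
noncomputable def n1798 : Strat := .move 797 n135 (.cons 756 n163 .nil)
noncomputable def n1799 : Strat := .move 796 n1728 (.cons 959 n1798 .nil)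
noncomputable def n1800 : Strat := .move 795 n364 (.cons 754 n1707 .nil)
noncomputable def n1801 : Strat := .move 796 n1798 (.cons 838 n1800 .nil)
noncomputable def n1802 : Strat := .move 837 n1793 (.cons 796 n1797 (.cons 1000 n1799 (.cons 959 n1801 .nil)))
noncomputable def n1803 : Strat := .win 837 6 837
noncomputable def n1804 : Strat := .win 1084 3 920
noncomputable def n1805 : Strat := .win 1001 6 878
noncomputable def n1806 : Strat := .move 1043 n1804 (.cons 1084 n1805 .nil)
noncomputable def n1807 : Strat := .move 1002 n1803 (.cons 837 n1806 .nil)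
noncomputable def n1808 : Strat := .move 961 n1788 (.cons 963 n1807 .nil)
noncomputable def n1809 : Strat := .move 960 n1792 (.cons 916 n1795 (.cons 961 n1802 (.cons 959 n1808 .nil)))
noncomputable def n1810 : Strat := .move 962 n23 (.cons 1003 n1809 .nil)
noncomputable def n1811 : Strat := .move 918 n1787 (.cons 920 n1810 .nil)
noncomputable def n1812 : Strat := .win 918 2 918
noncomputable def n1813 : Strat := .move 922 n1515 (.cons 923 n971 .nil)
noncomputable def n1814 : Strat := .move 963 n1812 (.cons 918 n1813 .nil)
noncomputable def n1815 : Strat := .move 918 n1788 (.cons 963 n1791 .nil)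
noncomputable def n1816 : Strat := .move 837 n684 (.cons 1002 n141 .nil)
noncomputable def n1817 : Strat := .move 959 n794 (.cons 922 n1816 .nil)
noncomputable def n1818 : Strat := .win 1000 4 959
noncomputable def n1819 : Strat := .move 1002 n167 (.cons 1043 n1803 .nil)
noncomputable def n1820 : Strat := .move 1001 n1818 (.cons 1000 n1819 .nil)
noncomputable def n1821 : Strat := .move 963 n1812 (.cons 918 n1820 .nil)
noncomputable def n1822 : Strat := .move 961 n1814 (.cons 922 n1815 (.cons 963 n1817 (.cons 959 n1821 .nil)))
noncomputable def n1823 : Strat := .move 962 n23 (.cons 1003 n1822 .nil)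
noncomputable def n1824 : Strat := .move 837 n1735 (.cons 918 n1724 (.cons 959 n1737 .nil))
noncomputable def n1825 : Strat := .move 959 n794 (.cons 922 n141 .nil)
noncomputable def n1826 : Strat := .move 837 n684 (.cons 1002 n1825 .nil)
noncomputable def n1827 : Strat := .win 917 2 917
noncomputable def n1828 : Strat := .move 918 n1827 (.cons 917 n1788 .nil)
noncomputable def n1829 : Strat := .move 959 n794 (.cons 922 n1828 .nil)
noncomputable def n1830 : Strat := .move 963 n1818 (.cons 1000 n1812 .nil)
noncomputable def n1831 : Strat := .move 1001 n1796 (.cons 795 n1830 .nil)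
noncomputable def n1832 : Strat := .move 837 n684 (.cons 1002 n1831 .nil)
noncomputable def n1833 : Strat := .move 961 n1826 (.cons 1002 n1829 (.cons 959 n1832 .nil))
noncomputable def n1834 : Strat := .move 962 n23 (.cons 1003 n1833 .nil)
noncomputable def n1835 : Strat := .win 964 4 960
noncomputable def n1836 : Strat := .move 1002 n1835 (.cons 964 n167 .nil)
noncomputable def n1837 : Strat := .move 1001 n1818 (.cons 1000 n1836 .nil)
noncomputable def n1838 : Strat := .move 963 n1812 (.cons 918 n1837 .nil)
noncomputable def n1839 : Strat := .win 999 4 958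
noncomputable def n1840 : Strat := .win 918 3 877
noncomputable def n1841 : Strat := .win 1001 1 877
noncomputable def n1842 : Strat := .move 1041 n1840 (.cons 918 n1841 .nil)
noncomputable def n1843 : Strat := .move 1000 n1839 (.cons 999 n1842 .nil)
noncomputable def n1844 : Strat := .move 959 n794 (.cons 922 n1843 .nil)
noncomputable def n1845 : Strat := .move 923 n1203 (.cons 963 n1490 .nil)
noncomputable def n1846 : Strat := .move 922 n971 (.cons 959 n1845 .nil)
noncomputable def n1847 : Strat := .move 961 n1814 (.cons 923 n1838 (.cons 963 n1844 (.cons 918 n1846 .nil)))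
noncomputable def n1848 : Strat := .move 962 n23 (.cons 1003 n1847 .nil)
noncomputable def n1849 : Strat := .win 837 1 836
noncomputable def n1850 : Strat := .move 959 n434 (.cons 1004 n1849 .nil)
noncomputable def n1851 : Strat := .move 1000 n164 (.cons 1041 n1850 .nil)
noncomputable def n1852 : Strat := .move 1002 n167 (.cons 1043 n1851 .nil)
noncomputable def n1853 : Strat := .move 837 n165 (.cons 959 n1796 .nil)
noncomputable def n1854 : Strat := .move 1000 n164 (.cons 1041 n1853 .nil)
noncomputable def n1855 : Strat := .win 918 7 877
noncomputable def n1856 : Strat := .win 836 7 836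
noncomputable def n1857 : Strat := .move 877 n1855 (.cons 918 n1856 .nil)
noncomputable def n1858 : Strat := .win 1041 4 1000
noncomputable def n1859 : Strat := .win 959 2 959
noncomputable def n1860 : Strat := .move 1004 n1858 (.cons 1041 n1859 .nil)
noncomputable def n1861 : Strat := .move 1042 n1857 (.cons 836 n1860 .nil)
noncomputable def n1862 : Strat := .move 1002 n167 (.cons 1043 n1861 .nil)
noncomputable def n1863 : Strat := .win 958 2 958
noncomputable def n1864 : Strat := .move 1000 n1863 (.cons 958 n1849 .nil)
noncomputable def n1865 : Strat := .move 959 n434 (.cons 1004 n1864 .nil)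
noncomputable def n1866 : Strat := .move 1002 n167 (.cons 1043 n1865 .nil)
noncomputable def n1867 : Strat := .win 1000 1 877
noncomputable def n1868 : Strat := .win 1082 1 918
noncomputable def n1869 : Strat := .win 1084 6 919
noncomputable def n1870 : Strat := .win 1002 6 878
noncomputable def n1871 : Strat := .move 1043 n1869 (.cons 1084 n1870 .nil)
noncomputable def n1872 : Strat := .move 1042 n1868 (.cons 1082 n1871 .nil)
noncomputable def n1873 : Strat := .move 1041 n1867 (.cons 1000 n1872 .nil)
noncomputable def n1874 : Strat := .move 1001 n1852 (.cons 1004 n1854 (.cons 1000 n1862 (.cons 1041 n1866 (.cons 959 n1873 .nil))))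
noncomputable def n1875 : Strat := .move 1003 n1782 (.cons 962 n1874 .nil)
noncomputable def n1876 : Strat := .win 1004 0 960
noncomputable def n1877 : Strat := .move 1005 n943 (.cons 964 n1876 .nil)
noncomputable def n1878 : Strat := .move 922 n1515 (.cons 923 n1877 .nil)
noncomputable def n1879 : Strat := .move 963 n1812 (.cons 918 n1878 .nil)
noncomputable def n1880 : Strat := .move 959 n1827 (.cons 917 n141 .nil)
noncomputable def n1881 : Strat := .move 918 n1788 (.cons 963 n1880 .nil)
noncomputable def n1882 : Strat := .move 837 n684 (.cons 1002 n1881 .nil)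
noncomputable def n1883 : Strat := .move 961 n1817 (.cons 1000 n1814 (.cons 959 n1879 (.cons 922 n1882 .nil)))
noncomputable def n1884 : Strat := .move 962 n23 (.cons 1003 n1883 .nil)
noncomputable def n1885 : Strat := .move 961 n1821 (.cons 1001 n1879 (.cons 963 n1807 .nil))
noncomputable def n1886 : Strat := .move 962 n23 (.cons 1003 n1885 .nil)
noncomputable def n1887 : Strat := .move 959 n1827 (.cons 917 n794 .nil)
noncomputable def n1888 : Strat := .move 918 n1788 (.cons 963 n1887 .nil)
noncomputable def n1889 : Strat := .move 837 n684 (.cons 1002 n1888 .nil)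
noncomputable def n1890 : Strat := .move 961 n1889 (.cons 963 n1807 (.cons 1002 n1814 .nil))
noncomputable def n1891 : Strat := .move 962 n23 (.cons 1003 n1890 .nil)
noncomputable def n1892 : Strat := .move 796 n1708 (.cons 918 n1798 .nil)
noncomputable def n1893 : Strat := .move 959 n141 (.cons 1000 n1892 .nil)
noncomputable def n1894 : Strat := .move 961 n794 (.cons 922 n1788 .nil)
noncomputable def n1895 : Strat := .move 918 n1742 (.cons 796 n1894 .nil)
noncomputable def n1896 : Strat := .move 959 n141 (.cons 1000 n1895 .nil)
noncomputable def n1897 : Strat := .move 796 n364 (.cons 754 n1798 .nil)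
noncomputable def n1898 : Strat := .move 795 n1707 (.cons 836 n1897 .nil)
noncomputable def n1899 : Strat := .move 961 n794 (.cons 922 n1828 .nil)
noncomputable def n1900 : Strat := .move 959 n141 (.cons 1000 n1899 .nil)
noncomputable def n1901 : Strat := .move 837 n1893 (.cons 756 n1896 (.cons 959 n1898 (.cons 796 n1900 .nil)))
noncomputable def n1902 : Strat := .move 962 n23 (.cons 1003 n1901 .nil)
noncomputable def n1903 : Strat := .win 963 4 959
noncomputable def n1904 : Strat := .move 1001 n1903 (.cons 963 n164 .nil)
noncomputable def n1905 : Strat := .move 1000 n165 (.cons 959 n1904 .nil)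
noncomputable def n1906 : Strat := .move 837 n684 (.cons 1002 n1905 .nil)
noncomputable def n1907 : Strat := .move 961 n1826 (.cons 837 n1846 (.cons 922 n1906 (.cons 959 n1807 .nil)))
noncomputable def n1908 : Strat := .move 962 n23 (.cons 1003 n1907 .nil)
noncomputable def n1909 : Strat := .move 960 n1823 (.cons 962 n1824 (.cons 1043 n1834 (.cons 837 n1848 (.cons 961 n1875 (.cons 1001 n1884 (.cons 959 n1886 (.cons 1000 n1891 (.cons 1002 n1902 (.cons 918 n1908 .nil)))))))))
noncomputable def n1910 : Strat := .move 920 n1641 (.cons 877 n1779 .nil)
noncomputable def n1911 : Strat := .move 920 n1641 (.cons 877 n1690 .nil)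
noncomputable def n1912 : Strat := .move 920 n1783 (.cons 1045 n1690 .nil)
noncomputable def n1913 : Strat := .move 1003 n1782 (.cons 962 n1912 .nil)
noncomputable def n1914 : Strat := .move 961 n971 (.cons 959 n1845 .nil)
noncomputable def n1915 : Strat := .move 962 n23 (.cons 1003 n1914 .nil)
noncomputable def n1916 : Strat := .move 837 n166 (.cons 959 n1796 .nil)
noncomputable def n1917 : Strat := .move 963 n941 (.cons 1044 n986 .nil)
noncomputable def n1918 : Strat := .move 1002 n1859 (.cons 959 n167 .nil)
noncomputable def n1919 : Strat := .move 1004 n1917 (.cons 1045 n1918 .nil)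
noncomputable def n1920 : Strat := .move 1041 n1868 (.cons 1082 n1867 .nil)
noncomputable def n1921 : Strat := .move 1042 n1920 (.cons 1000 n1871 .nil)
noncomputable def n1922 : Strat := .move 1001 n1916 (.cons 837 n1919 (.cons 959 n1921 .nil))
noncomputable def n1923 : Strat := .move 1003 n1782 (.cons 962 n1922 .nil)
noncomputable def n1924 : Strat := .move 795 n1707 (.cons 836 n170 .nil)
noncomputable def n1925 : Strat := .move 797 n163 (.cons 838 n170 .nil)
noncomputable def n1926 : Strat := .move 837 n1898 (.cons 756 n1924 (.cons 795 n1925 .nil))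
noncomputable def n1927 : Strat := .win 1005 0 960
noncomputable def n1928 : Strat := .move 1004 n1927 (.cons 1005 n986 .nil)
noncomputable def n1929 : Strat := .move 963 n1515 (.cons 923 n1928 .nil)
noncomputable def n1930 : Strat := .move 961 n1845 (.cons 924 n1929 (.cons 963 n1807 .nil))
noncomputable def n1931 : Strat := .move 962 n23 (.cons 1003 n1930 .nil)
noncomputable def n1932 : Strat := .move 960 n1915 (.cons 961 n1923 (.cons 962 n1926 (.cons 959 n1931 .nil)))
noncomputable def n1933 : Strat := .move 922 n1910 (.cons 962 n1911 (.cons 877 n1913 (.cons 920 n1932 .nil)))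
noncomputable def n1934 : Strat := .move 919 n1781 (.cons 962 n1696 (.cons 877 n1786 (.cons 922 n1811 (.cons 920 n1909 (.cons 918 n1933 .nil)))))
noncomputable def n1935 : Strat := .move 921 n1595 (.cons 1003 n1648 (.cons 922 n1650 (.cons 920 n1652 (.cons 963 n1654 (.cons 798 n1656 (.cons 961 n1658 (.cons 797 n1660 (.cons 962 n1776 (.cons 839 n1934 .nil)))))))))
noncomputable def n1936 : Strat := .move 879 n20 (.cons 922 n180 (.cons 837 n980 .nil))
noncomputable def n1937 : Strat := .move 879 n4 (.cons 839 n180 (.cons 918 n15 .nil))
noncomputable def n1938 : Strat := .move 922 n17 (.cons 923 n148 .nil)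
noncomputable def n1939 : Strat := .move 837 n6 (.cons 836 n1938 .nil)
noncomputable def n1940 : Strat := .move 879 n5 (.cons 918 n1939 .nil)
noncomputable def n1941 : Strat := .move 838 n37 (.cons 960 n363 .nil)
noncomputable def n1942 : Strat := .move 797 n135 (.cons 756 n1941 .nil)
noncomputable def n1943 : Strat := .move 795 n364 (.cons 754 n1942 .nil)
noncomputable def n1944 : Strat := .move 960 n1707 (.cons 836 n1798 .nil)
noncomputable def n1945 : Strat := .move 795 n364 (.cons 754 n1944 .nil)
noncomputable def n1946 : Strat := .move 959 n1708 (.cons 918 n141 .nil)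
noncomputable def n1947 : Strat := .move 960 n163 (.cons 838 n1946 .nil)
noncomputable def n1948 : Strat := .move 797 n135 (.cons 756 n1947 .nil)
noncomputable def n1949 : Strat := .move 960 n1707 (.cons 836 n1946 .nil)
noncomputable def n1950 : Strat := .move 795 n364 (.cons 754 n1949 .nil)
noncomputable def n1951 : Strat := .move 797 n135 (.cons 756 n1700 .nil)
noncomputable def n1952 : Strat := .move 839 n716 (.cons 838 n1951 .nil)
noncomputable def n1953 : Strat := .move 795 n364 (.cons 754 n1952 .nil)
noncomputable def n1954 : Strat := .move 796 n1943 (.cons 839 n1945 (.cons 795 n1948 (.cons 797 n1950 (.cons 960 n1953 .nil))))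
noncomputable def n1955 : Strat := .win 920 6 796
noncomputable def n1956 : Strat := .move 796 n1955 (.cons 920 n1800 .nil)
noncomputable def n1957 : Strat := .move 961 n684 (.cons 1002 n1956 .nil)
noncomputable def n1958 : Strat := .move 796 n1955 (.cons 920 n1798 .nil)
noncomputable def n1959 : Strat := .move 961 n684 (.cons 1002 n1958 .nil)
noncomputable def n1960 : Strat := .move 960 n1957 (.cons 920 n1751 (.cons 836 n1959 .nil))
noncomputable def n1961 : Strat := .move 918 n207 (.cons 921 n1728 .nil)
noncomputable def n1962 : Strat := .move 920 n130 (.cons 961 n1961 .nil)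
noncomputable def n1963 : Strat := .move 796 n1953 (.cons 838 n1962 .nil)
noncomputable def n1964 : Strat := .move 796 n1708 (.cons 918 n1955 .nil)
noncomputable def n1965 : Strat := .move 959 n141 (.cons 1000 n1964 .nil)
noncomputable def n1966 : Strat := .move 961 n684 (.cons 1002 n1965 .nil)
noncomputable def n1967 : Strat := .move 920 n122 (.cons 796 n239 .nil)
noncomputable def n1968 : Strat := .move 959 n141 (.cons 1000 n1967 .nil)
noncomputable def n1969 : Strat := .move 961 n684 (.cons 1002 n1968 .nil)
noncomputable def n1970 : Strat := .move 920 n207 (.cons 921 n1680 .nil)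
noncomputable def n1971 : Strat := .move 918 n1742 (.cons 796 n1970 .nil)
noncomputable def n1972 : Strat := .move 959 n141 (.cons 1000 n1971 .nil)
noncomputable def n1973 : Strat := .win 962 0 917
noncomputable def n1974 : Strat := .move 917 n1973 (.cons 962 n1790 .nil)
noncomputable def n1975 : Strat := .move 918 n207 (.cons 921 n1974 .nil)
noncomputable def n1976 : Strat := .move 920 n122 (.cons 796 n1975 .nil)
noncomputable def n1977 : Strat := .move 961 n684 (.cons 1002 n1976 .nil)
noncomputable def n1978 : Strat := .win 1004 0 959
noncomputable def n1979 : Strat := .move 1003 n1978 (.cons 1004 n845 .nil)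
noncomputable def n1980 : Strat := .move 962 n1979 (.cons 921 n1828 .nil)
noncomputable def n1981 : Strat := .move 959 n141 (.cons 1000 n1980 .nil)
noncomputable def n1982 : Strat := .move 961 n684 (.cons 1002 n1981 .nil)
noncomputable def n1983 : Strat := .move 960 n1966 (.cons 918 n1969 (.cons 961 n1972 (.cons 959 n1977 (.cons 796 n1982 .nil))))
noncomputable def n1984 : Strat := .move 960 n1982 (.cons 961 n1721 .nil)
noncomputable def n1985 : Strat := .move 796 n1950 (.cons 960 n1962 (.cons 959 n1717 .nil))
noncomputable def n1986 : Strat := .move 796 n1708 (.cons 918 n1800 .nil)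
noncomputable def n1987 : Strat := .move 959 n141 (.cons 1000 n1986 .nil)
noncomputable def n1988 : Strat := .move 960 n1966 (.cons 920 n1987 (.cons 959 n1957 (.cons 796 n1982 .nil)))
noncomputable def n1989 : Strat := .win 962 2 917
noncomputable def n1990 : Strat := .move 917 n1989 (.cons 962 n1790 .nil)
noncomputable def n1991 : Strat := .move 918 n1742 (.cons 796 n1990 .nil)
noncomputable def n1992 : Strat := .move 961 n684 (.cons 1002 n1991 .nil)
noncomputable def n1993 : Strat := .move 959 n141 (.cons 1000 n1992 .nil)
noncomputable def n1994 : Strat := .move 961 n1788 (.cons 963 n1827 .nil)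
noncomputable def n1995 : Strat := .move 962 n23 (.cons 1003 n1994 .nil)
noncomputable def n1996 : Strat := .move 921 n1787 (.cons 920 n1995 .nil)
noncomputable def n1997 : Strat := .move 918 n1742 (.cons 796 n1996 .nil)
noncomputable def n1998 : Strat := .move 959 n141 (.cons 1000 n1997 .nil)
noncomputable def n1999 : Strat := .move 960 n1966 (.cons 920 n1993 (.cons 959 n1977 (.cons 1002 n1998 (.cons 796 n1982 (.cons 918 n1969 (.cons 961 n1893 .nil))))))
noncomputable def n2000 : Strat := .move 837 n1954 (.cons 918 n1960 (.cons 960 n1963 (.cons 756 n1983 (.cons 796 n1984 (.cons 838 n1985 (.cons 839 n1988 (.cons 795 n1999 .nil)))))))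
noncomputable def n2001 : Strat := .move 879 n6 (.cons 836 n1938 .nil)
noncomputable def n2002 : Strat := .move 922 n17 (.cons 923 n1341 .nil)
noncomputable def n2003 : Strat := .move 879 n6 (.cons 836 n2002 .nil)
noncomputable def n2004 : Strat := .move 920 n131 (.cons 961 n654 .nil)
noncomputable def n2005 : Strat := .move 839 n543 (.cons 798 n2004 .nil)
noncomputable def n2006 : Strat := .move 963 n545 (.cons 798 n1161 (.cons 839 n946 (.cons 1004 n2005 .nil)))
noncomputable def n2007 : Strat := .move 922 n17 (.cons 923 n2006 .nil)
noncomputable def n2008 : Strat := .move 879 n6 (.cons 836 n2007 .nil)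
noncomputable def n2009 : Strat := .move 879 n6 (.cons 836 n815 .nil)
noncomputable def n2010 : Strat := .win 879 2 836
noncomputable def n2011 : Strat := .move 960 n1674 (.cons 795 n1720 .nil)
noncomputable def n2012 : Strat := .move 836 n2010 (.cons 879 n2011 .nil)
noncomputable def n2013 : Strat := .move 795 n364 (.cons 754 n1941 .nil)
noncomputable def n2014 : Strat := .move 797 n135 (.cons 756 n2013 .nil)
noncomputable def n2015 : Strat := .move 961 n1955 (.cons 920 n684 .nil)
noncomputable def n2016 : Strat := .move 960 n163 (.cons 838 n2015 .nil)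
noncomputable def n2017 : Strat := .move 797 n135 (.cons 756 n2016 .nil)
noncomputable def n2018 : Strat := .win 879 6 755
noncomputable def n2019 : Strat := .move 754 n1332 (.cons 795 n1331 .nil)
noncomputable def n2020 : Strat := .move 755 n2018 (.cons 879 n2019 .nil)
noncomputable def n2021 : Strat := .move 920 n130 (.cons 961 n2020 .nil)
noncomputable def n2022 : Strat := .move 796 n2014 (.cons 839 n2017 (.cons 797 n2021 .nil))
noncomputable def n2023 : Strat := .move 837 n2001 (.cons 960 n2003 (.cons 838 n2008 (.cons 923 n2009 (.cons 755 n2012 (.cons 879 n1960 (.cons 836 n2022 .nil))))))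
noncomputable def n2024 : Strat := .move 837 n6 (.cons 836 n2006 .nil)
noncomputable def n2025 : Strat := .move 922 n17 (.cons 923 n2024 .nil)
noncomputable def n2026 : Strat := .move 879 n5 (.cons 918 n2025 .nil)
noncomputable def n2027 : Strat := .move 796 n365 (.cons 754 n575 .nil)
noncomputable def n2028 : Strat := .move 960 n26 (.cons 1001 n2027 .nil)
noncomputable def n2029 : Strat := .move 797 n36 (.cons 756 n2027 .nil)
noncomputable def n2030 : Strat := .move 838 n38 (.cons 756 n914 (.cons 797 n2028 (.cons 960 n2029 .nil)))
noncomputable def n2031 : Strat := .move 922 n17 (.cons 923 n2030 .nil)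
noncomputable def n2032 : Strat := .move 837 n6 (.cons 836 n2031 .nil)
noncomputable def n2033 : Strat := .move 879 n5 (.cons 918 n2032 .nil)
noncomputable def n2034 : Strat := .move 963 n545 (.cons 1004 n952 (.cons 839 n946 .nil))
noncomputable def n2035 : Strat := .move 922 n17 (.cons 923 n2034 .nil)
noncomputable def n2036 : Strat := .move 879 n5 (.cons 918 n2035 .nil)
noncomputable def n2037 : Strat := .win 879 4 877
noncomputable def n2038 : Strat := .move 960 n1707 (.cons 836 n163 .nil)
noncomputable def n2039 : Strat := .move 797 n135 (.cons 756 n2038 .nil)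
noncomputable def n2040 : Strat := .move 795 n364 (.cons 754 n2039 .nil)
noncomputable def n2041 : Strat := .move 796 n1728 (.cons 959 n2040 .nil)
noncomputable def n2042 : Strat := .move 962 n1827 (.cons 917 n1788 .nil)
noncomputable def n2043 : Strat := .move 961 n684 (.cons 1002 n2042 .nil)
noncomputable def n2044 : Strat := .move 959 n141 (.cons 1000 n2043 .nil)
noncomputable def n2045 : Strat := .move 961 n684 (.cons 1002 n1990 .nil)
noncomputable def n2046 : Strat := .move 959 n141 (.cons 1000 n2045 .nil)
noncomputable def n2047 : Strat := .move 962 n1788 (.cons 963 n1680 .nil)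
noncomputable def n2048 : Strat := .move 961 n684 (.cons 1002 n2047 .nil)
noncomputable def n2049 : Strat := .move 959 n141 (.cons 1000 n1680 .nil)
noncomputable def n2050 : Strat := .move 960 n2044 (.cons 963 n2046 (.cons 959 n2048 (.cons 961 n2049 .nil)))
noncomputable def n2051 : Strat := .move 796 n1728 (.cons 959 n1703 .nil)
noncomputable def n2052 : Strat := .win 1041 3 877
noncomputable def n2053 : Strat := .win 960 1 836
noncomputable def n2054 : Strat := .move 1000 n2052 (.cons 1041 n2053 .nil)
noncomputable def n2055 : Strat := .move 959 n1742 (.cons 796 n2054 .nil)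
noncomputable def n2056 : Strat := .move 756 n1683 (.cons 796 n746 .nil)
noncomputable def n2057 : Strat := .move 797 n37 (.cons 960 n2056 .nil)
noncomputable def n2058 : Strat := .win 713 6 713
noncomputable def n2059 : Strat := .win 796 7 754
noncomputable def n2060 : Strat := .move 754 n2058 (.cons 713 n2059 .nil)
noncomputable def n2061 : Strat := .move 795 n1713 (.cons 960 n2060 .nil)
noncomputable def n2062 : Strat := .move 836 n304 (.cons 839 n2061 .nil)
noncomputable def n2063 : Strat := .win 798 5 794
noncomputable def n2064 : Strat := .move 797 n2063 (.cons 798 n1684 .nil)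
noncomputable def n2065 : Strat := .win 792 2 792
noncomputable def n2066 : Strat := .win 794 2 793
noncomputable def n2067 : Strat := .move 793 n2065 (.cons 792 n2066 .nil)
noncomputable def n2068 : Strat := .win 874 4 833
noncomputable def n2069 : Strat := .win 876 4 834
noncomputable def n2070 : Strat := .move 875 n2068 (.cons 874 n2069 .nil)
noncomputable def n2071 : Strat := .move 834 n2067 (.cons 794 n2070 .nil)
noncomputable def n2072 : Strat := .move 835 n2064 (.cons 797 n2071 .nil)
noncomputable def n2073 : Strat := .move 836 n304 (.cons 839 n2072 .nil)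
noncomputable def n2074 : Strat := .move 838 n2057 (.cons 756 n1764 (.cons 797 n2062 (.cons 960 n2073 .nil)))
noncomputable def n2075 : Strat := .move 837 n2041 (.cons 796 n2050 (.cons 960 n2051 (.cons 795 n2055 (.cons 959 n2074 .nil))))
noncomputable def n2076 : Strat := .move 918 n2037 (.cons 879 n2075 .nil)
noncomputable def n2077 : Strat := .move 919 n1940 (.cons 879 n2000 (.cons 918 n2023 (.cons 838 n2026 (.cons 961 n2033 (.cons 796 n2036 (.cons 920 n2076 .nil))))))
noncomputable def n2078 : Strat := .move 919 n5 (.cons 918 n2034 .nil)
noncomputable def n2079 : Strat := .move 922 n17 (.cons 923 n2078 .nil)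
noncomputable def n2080 : Strat := .move 879 n121 (.cons 839 n980 (.cons 923 n814 (.cons 921 n4 (.cons 877 n2079 .nil))))
noncomputable def n2081 : Strat := .win 919 6 796
noncomputable def n2082 : Strat := .move 796 n2081 (.cons 919 n129 .nil)
noncomputable def n2083 : Strat := .move 961 n123 (.cons 1002 n2082 .nil)
noncomputable def n2084 : Strat := .move 964 n1372 (.cons 919 n546 .nil)
noncomputable def n2085 : Strat := .move 963 n1777 (.cons 1045 n2084 .nil)
noncomputable def n2086 : Strat := .win 838 7 796
noncomputable def n2087 : Strat := .move 796 n2086 (.cons 838 n129 .nil)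
noncomputable def n2088 : Strat := .move 961 n123 (.cons 1002 n2087 .nil)
noncomputable def n2089 : Strat := .move 920 n2083 (.cons 961 n2085 (.cons 919 n2088 .nil))
noncomputable def n2090 : Strat := .move 837 n6 (.cons 836 n2089 .nil)
noncomputable def n2091 : Strat := .move 1003 n1782 (.cons 962 n2090 .nil)
noncomputable def n2092 : Strat := .move 921 n22 (.cons 877 n2091 .nil)
noncomputable def n2093 : Strat := .move 922 n17 (.cons 923 n2092 .nil)
noncomputable def n2094 : Strat := .move 919 n124 (.cons 1002 n131 (.cons 961 n144 (.cons 796 n147 .nil)))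
noncomputable def n2095 : Strat := .move 796 n129 (.cons 755 n2081 .nil)
noncomputable def n2096 : Strat := .move 961 n123 (.cons 1002 n2095 .nil)
noncomputable def n2097 : Strat := .move 796 n129 (.cons 755 n2086 .nil)
noncomputable def n2098 : Strat := .move 961 n123 (.cons 1002 n2097 .nil)
noncomputable def n2099 : Strat := .move 756 n747 (.cons 919 n746 .nil)
noncomputable def n2100 : Strat := .move 919 n211 (.cons 960 n36 .nil)
noncomputable def n2101 : Strat := .move 798 n102 (.cons 757 n447 .nil)
noncomputable def n2102 : Strat := .move 797 n2099 (.cons 715 n2100 (.cons 919 n2101 .nil))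
noncomputable def n2103 : Strat := .move 838 n227 (.cons 796 n2102 .nil)
noncomputable def n2104 : Strat := .move 961 n123 (.cons 1002 n2103 .nil)
noncomputable def n2105 : Strat := .move 961 n2081 (.cons 919 n2086 .nil)
noncomputable def n2106 : Strat := .move 796 n129 (.cons 755 n2105 .nil)
noncomputable def n2107 : Strat := .move 921 n1013 (.cons 965 n1372 .nil)
noncomputable def n2108 : Strat := .move 964 n546 (.cons 1005 n2107 .nil)
noncomputable def n2109 : Strat := .move 962 n947 (.cons 1003 n2108 .nil)
noncomputable def n2110 : Strat := .move 963 n545 (.cons 798 n1161 (.cons 839 n946 (.cons 1004 n2109 .nil)))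
noncomputable def n2111 : Strat := .move 920 n2094 (.cons 838 n2096 (.cons 919 n2098 (.cons 755 n2104 (.cons 1002 n2106 (.cons 961 n2110 .nil)))))
noncomputable def n2112 : Strat := .move 837 n6 (.cons 836 n2111 .nil)
noncomputable def n2113 : Strat := .move 922 n17 (.cons 923 n2112 .nil)
noncomputable def n2114 : Strat := .move 879 n15 (.cons 839 n2093 (.cons 837 n48 (.cons 877 n2113 .nil)))
noncomputable def n2115 : Strat := .win 838 6 714
noncomputable def n2116 : Strat := .move 715 n344 (.cons 674 n343 .nil)
noncomputable def n2117 : Strat := .move 714 n2115 (.cons 838 n2116 .nil)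
noncomputable def n2118 : Strat := .move 755 n1333 (.cons 795 n2117 .nil)
noncomputable def n2119 : Strat := .move 838 n363 (.cons 839 n914 .nil)
noncomputable def n2120 : Strat := .move 795 n364 (.cons 754 n2119 .nil)
noncomputable def n2121 : Strat := .move 838 n26 (.cons 1001 n681 .nil)
noncomputable def n2122 : Strat := .move 960 n1733 (.cons 756 n2121 (.cons 838 n170 .nil))
noncomputable def n2123 : Strat := .move 796 n367 (.cons 839 n1335 (.cons 797 n2118 (.cons 756 n2120 (.cons 795 n2122 .nil))))
noncomputable def n2124 : Strat := .move 923 n49 (.cons 922 n2123 .nil)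
noncomputable def n2125 : Strat := .move 919 n5 (.cons 918 n2124 .nil)
noncomputable def n2126 : Strat := .move 837 n6 (.cons 836 n2125 .nil)
noncomputable def n2127 : Strat := .move 879 n15 (.cons 839 n20 (.cons 837 n4 (.cons 877 n2126 .nil)))
noncomputable def n2128 : Strat := .move 879 n4 (.cons 839 n20 (.cons 877 n1225 .nil))
noncomputable def n2129 : Strat := .move 879 n17 (.cons 923 n120 .nil)
noncomputable def n2130 : Strat := .win 835 2 834
noncomputable def n2131 : Strat := .win 833 2 833
noncomputable def n2132 : Strat := .win 837 5 834
noncomputable def n2133 : Strat := .move 875 n2131 (.cons 833 n2132 .nil)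
noncomputable def n2134 : Strat := .move 834 n2130 (.cons 835 n2133 .nil)
noncomputable def n2135 : Strat := .move 876 n281 (.cons 916 n2134 .nil)
noncomputable def n2136 : Strat := .move 917 n280 (.cons 918 n2135 .nil)
noncomputable def n2137 : Strat := .move 837 n6 (.cons 836 n740 .nil)
noncomputable def n2138 : Strat := .move 876 n279 (.cons 834 n739 .nil)
noncomputable def n2139 : Strat := .move 835 n278 (.cons 836 n2138 .nil)
noncomputable def n2140 : Strat := .move 838 n14 (.cons 836 n2136 (.cons 835 n2137 (.cons 837 n2139 .nil)))
noncomputable def n2141 : Strat := .move 877 n18 (.cons 921 n2140 .nil)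
noncomputable def n2142 : Strat := .move 879 n17 (.cons 923 n2141 .nil)
noncomputable def n2143 : Strat := .move 879 n17 (.cons 923 n1365 .nil)
noncomputable def n2144 : Strat := .move 966 n1480 (.cons 926 n1436 .nil)
noncomputable def n2145 : Strat := .move 925 n1481 (.cons 924 n2144 .nil)
noncomputable def n2146 : Strat := .move 921 n981 (.cons 920 n109 .nil)
noncomputable def n2147 : Strat := .win 924 5 920
noncomputable def n2148 : Strat := .move 923 n2147 (.cons 924 n1440 .nil)
noncomputable def n2149 : Strat := .move 961 n2146 (.cons 1002 n2148 .nil)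
noncomputable def n2150 : Strat := .move 965 n1563 (.cons 920 n2145 (.cons 966 n2149 (.cons 921 n1483 .nil)))
noncomputable def n2151 : Strat := .move 964 n546 (.cons 1005 n2150 .nil)
noncomputable def n2152 : Strat := .move 962 n947 (.cons 1003 n2151 .nil)
noncomputable def n2153 : Strat := .move 839 n543 (.cons 798 n2152 .nil)
noncomputable def n2154 : Strat := .move 963 n545 (.cons 1004 n2153 (.cons 798 n1371 (.cons 839 n1023 .nil)))
noncomputable def n2155 : Strat := .win 879 5 836
noncomputable def n2156 : Strat := .win 837 4 836
noncomputable def n2157 : Strat := .move 838 n556 (.cons 797 n2156 .nil)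
noncomputable def n2158 : Strat := .move 965 n982 (.cons 966 n981 .nil)
noncomputable def n2159 : Strat := .move 921 n2157 (.cons 837 n2158 .nil)
noncomputable def n2160 : Strat := .move 964 n546 (.cons 1005 n2159 .nil)
noncomputable def n2161 : Strat := .move 962 n947 (.cons 1003 n2160 .nil)
noncomputable def n2162 : Strat := .move 877 n2155 (.cons 879 n2161 .nil)
noncomputable def n2163 : Strat := .move 839 n543 (.cons 798 n2162 .nil)
noncomputable def n2164 : Strat := .move 963 n545 (.cons 839 n1023 (.cons 1004 n2163 .nil))
noncomputable def n2165 : Strat := .move 922 n2129 (.cons 839 n2142 (.cons 921 n2143 (.cons 879 n2154 (.cons 923 n2164 .nil))))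
noncomputable def n2166 : Strat := .move 878 n1589 (.cons 879 n1935 (.cons 839 n1936 (.cons 922 n1937 (.cons 877 n2077 (.cons 837 n2080 (.cons 918 n2114 (.cons 920 n2127 (.cons 961 n2128 (.cons 919 n2165 .nil)))))))))
noncomputable def n2167 : Strat := .move 838 n556 (.cons 797 n513 .nil)
noncomputable def n2168 : Strat := .move 839 n1591 (.cons 963 n2167 .nil)
noncomputable def n2169 : Strat := .move 921 n23 (.cons 1003 n2168 .nil)
noncomputable def n2170 : Strat := .move 839 n2167 (.cons 838 n1606 .nil)
noncomputable def n2171 : Strat := .move 921 n23 (.cons 1003 n2170 .nil)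
noncomputable def n2172 : Strat := .win 922 1 839
noncomputable def n2173 : Strat := .win 965 4 961
noncomputable def n2174 : Strat := .win 1000 5 959
noncomputable def n2175 : Strat := .win 961 4 960
noncomputable def n2176 : Strat := .move 1001 n2174 (.cons 1000 n2175 .nil)
noncomputable def n2177 : Strat := .move 1002 n2173 (.cons 965 n2176 .nil)
noncomputable def n2178 : Strat := .win 882 7 840
noncomputable def n2179 : Strat := .move 923 n2178 (.cons 882 n2147 .nil)
noncomputable def n2180 : Strat := .move 1005 n1607 (.cons 1006 n2179 .nil)
noncomputable def n2181 : Strat := .move 961 n1383 (.cons 1001 n2180 .nil)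
noncomputable def n2182 : Strat := .move 1002 n2173 (.cons 965 n2181 .nil)
noncomputable def n2183 : Strat := .win 920 2 919
noncomputable def n2184 : Strat := .move 919 n1812 (.cons 918 n2183 .nil)
noncomputable def n2185 : Strat := .move 960 n1876 (.cons 1004 n2184 .nil)
noncomputable def n2186 : Strat := .move 1005 n1607 (.cons 1006 n2185 .nil)
noncomputable def n2187 : Strat := .move 959 n1978 (.cons 1004 n435 .nil)
noncomputable def n2188 : Strat := .move 960 n1812 (.cons 918 n2187 .nil)
noncomputable def n2189 : Strat := .move 919 n2183 (.cons 920 n2188 .nil)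
noncomputable def n2190 : Strat := .move 961 n2180 (.cons 882 n2186 (.cons 1005 n2189 .nil))
noncomputable def n2191 : Strat := .move 1002 n2173 (.cons 965 n2190 .nil)
noncomputable def n2192 : Strat := .win 1002 4 961
noncomputable def n2193 : Strat := .win 1004 4 962
noncomputable def n2194 : Strat := .move 925 n1481 (.cons 924 n1480 .nil)
noncomputable def n2195 : Strat := .move 966 n2193 (.cons 1004 n2194 .nil)
noncomputable def n2196 : Strat := .move 965 n2192 (.cons 1002 n2195 .nil)
noncomputable def n2197 : Strat := .move 923 n2147 (.cons 924 n2178 .nil)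
noncomputable def n2198 : Strat := .move 1005 n1607 (.cons 1006 n2197 .nil)
noncomputable def n2199 : Strat := .move 1002 n1383 (.cons 1001 n2186 .nil)
noncomputable def n2200 : Strat := .win 959 0 959
noncomputable def n2201 : Strat := .move 1004 n1927 (.cons 1005 n2200 .nil)
noncomputable def n2202 : Strat := .move 960 n1812 (.cons 918 n2201 .nil)
noncomputable def n2203 : Strat := .move 919 n2183 (.cons 920 n2202 .nil)
noncomputable def n2204 : Strat := .move 1002 n1383 (.cons 1001 n2203 .nil)
noncomputable def n2205 : Strat := .move 1002 n1383 (.cons 1001 n2189 .nil)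
noncomputable def n2206 : Strat := .move 961 n2198 (.cons 882 n2199 (.cons 1006 n2204 (.cons 1005 n2205 .nil)))
noncomputable def n2207 : Strat := .win 923 5 920
noncomputable def n2208 : Strat := .move 966 n2193 (.cons 1004 n1445 .nil)
noncomputable def n2209 : Strat := .move 965 n1377 (.cons 925 n2208 .nil)
noncomputable def n2210 : Strat := .move 924 n2207 (.cons 923 n2209 .nil)
noncomputable def n2211 : Strat := .move 1005 n2178 (.cons 882 n2185 .nil)
noncomputable def n2212 : Strat := .move 923 n2147 (.cons 924 n2211 .nil)
noncomputable def n2213 : Strat := .move 961 n2198 (.cons 924 n2186 (.cons 1005 n2210 (.cons 1006 n2212 .nil)))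
noncomputable def n2214 : Strat := .move 964 n2177 (.cons 1000 n2182 (.cons 1001 n2191 (.cons 961 n2196 (.cons 965 n2206 (.cons 1002 n2213 .nil)))))
noncomputable def n2215 : Strat := .move 963 n2172 (.cons 922 n2214 .nil)
noncomputable def n2216 : Strat := .move 1003 n845 (.cons 921 n2215 .nil)
noncomputable def n2217 : Strat := .move 797 n1600 (.cons 838 n327 .nil)
noncomputable def n2218 : Strat := .move 798 n329 (.cons 920 n2217 .nil)
noncomputable def n2219 : Strat := .move 961 n109 (.cons 1002 n2218 .nil)
noncomputable def n2220 : Strat := .win 918 0 918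
noncomputable def n2221 : Strat := .move 919 n2220 (.cons 918 n609 .nil)
noncomputable def n2222 : Strat := .move 963 n608 (.cons 1004 n2221 .nil)
noncomputable def n2223 : Strat := .move 920 n91 (.cons 798 n2222 .nil)
noncomputable def n2224 : Strat := .move 961 n109 (.cons 1002 n2223 .nil)
noncomputable def n2225 : Strat := .move 839 n2167 (.cons 882 n2219 (.cons 838 n2224 .nil))
noncomputable def n2226 : Strat := .move 921 n23 (.cons 1003 n2225 .nil)
noncomputable def n2227 : Strat := .move 920 n1013 (.cons 965 n1439 .nil)
noncomputable def n2228 : Strat := .move 922 n546 (.cons 1005 n1623 .nil)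
noncomputable def n2229 : Strat := .move 964 n2227 (.cons 965 n2228 .nil)
noncomputable def n2230 : Strat := .move 961 n109 (.cons 1002 n2229 .nil)
noncomputable def n2231 : Strat := .move 963 n608 (.cons 1004 n2230 .nil)
noncomputable def n2232 : Strat := .move 798 n706 (.cons 922 n2217 .nil)
noncomputable def n2233 : Strat := .move 963 n608 (.cons 1004 n2232 .nil)
noncomputable def n2234 : Strat := .move 839 n1591 (.cons 798 n2231 (.cons 922 n2219 (.cons 920 n2233 .nil)))
noncomputable def n2235 : Strat := .move 921 n23 (.cons 1003 n2234 .nil)
noncomputable def n2236 : Strat := .move 922 n1103 (.cons 798 n1492 .nil)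
noncomputable def n2237 : Strat := .move 963 n608 (.cons 1004 n2236 .nil)
noncomputable def n2238 : Strat := .move 837 n295 (.cons 836 n264 .nil)
noncomputable def n2239 : Strat := .move 838 n556 (.cons 797 n2238 .nil)
noncomputable def n2240 : Strat := .move 839 n2237 (.cons 963 n2239 .nil)
noncomputable def n2241 : Strat := .move 921 n23 (.cons 1003 n2240 .nil)
noncomputable def n2242 : Strat := .move 920 n1013 (.cons 965 n1372 .nil)
noncomputable def n2243 : Strat := .move 964 n546 (.cons 1005 n2242 .nil)
noncomputable def n2244 : Strat := .move 922 n1103 (.cons 798 n2243 .nil)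
noncomputable def n2245 : Strat := .move 963 n608 (.cons 1004 n2244 .nil)
noncomputable def n2246 : Strat := .move 839 n2233 (.cons 1004 n2167 (.cons 797 n2245 .nil))
noncomputable def n2247 : Strat := .move 921 n23 (.cons 1003 n2246 .nil)
noncomputable def n2248 : Strat := .move 922 n947 (.cons 1003 n545 .nil)
noncomputable def n2249 : Strat := .move 961 n1607 (.cons 1006 n2197 .nil)
noncomputable def n2250 : Strat := .move 1005 n1608 (.cons 922 n2249 .nil)
noncomputable def n2251 : Strat := .win 1002 4 960
noncomputable def n2252 : Strat := .move 1001 n1818 (.cons 1000 n2251 .nil)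
noncomputable def n2253 : Strat := .move 960 n2184 (.cons 920 n2252 .nil)
noncomputable def n2254 : Strat := .move 1007 n1444 (.cons 1006 n2253 .nil)
noncomputable def n2255 : Strat := .move 965 n1377 (.cons 925 n2254 .nil)
noncomputable def n2256 : Strat := .move 924 n2207 (.cons 923 n2255 .nil)
noncomputable def n2257 : Strat := .move 919 n2183 (.cons 920 n1812 .nil)
noncomputable def n2258 : Strat := .move 960 n1876 (.cons 1004 n2257 .nil)
noncomputable def n2259 : Strat := .move 1005 n1607 (.cons 1006 n2258 .nil)
noncomputable def n2260 : Strat := .move 961 n2198 (.cons 1005 n2256 (.cons 923 n2259 (.cons 1006 n2212 .nil)))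
noncomputable def n2261 : Strat := .move 922 n546 (.cons 1005 n545 .nil)
noncomputable def n2262 : Strat := .win 965 5 921
noncomputable def n2263 : Strat := .win 922 2 880
noncomputable def n2264 : Strat := .move 923 n1460 (.cons 961 n2263 .nil)
noncomputable def n2265 : Strat := .move 925 n2262 (.cons 965 n2264 .nil)
noncomputable def n2266 : Strat := .move 961 n2207 (.cons 923 n2255 .nil)
noncomputable def n2267 : Strat := .win 926 4 922
noncomputable def n2268 : Strat := .move 925 n2263 (.cons 922 n2267 .nil)
noncomputable def n2269 : Strat := .move 923 n1460 (.cons 961 n2268 .nil)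
noncomputable def n2270 : Strat := .move 923 n2263 (.cons 922 n2267 .nil)
noncomputable def n2271 : Strat := .move 925 n2262 (.cons 965 n2270 .nil)
noncomputable def n2272 : Strat := .move 960 n1812 (.cons 918 n2252 .nil)
noncomputable def n2273 : Strat := .move 919 n2183 (.cons 920 n2272 .nil)
noncomputable def n2274 : Strat := .move 961 n2207 (.cons 923 n2273 .nil)
noncomputable def n2275 : Strat := .move 922 n544 (.cons 1004 n543 .nil)
noncomputable def n2276 : Strat := .win 842 6 842
noncomputable def n2277 : Strat := .move 966 n2276 (.cons 842 n1443 .nil)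
noncomputable def n2278 : Strat := .move 882 n272 (.cons 884 n271 .nil)
noncomputable def n2279 : Strat := .move 883 n2277 (.cons 1008 n2278 .nil)
noncomputable def n2280 : Strat := .move 839 n2275 (.cons 798 n2279 .nil)
noncomputable def n2281 : Strat := .move 1007 n1444 (.cons 1006 n2280 .nil)
noncomputable def n2282 : Strat := .move 965 n1377 (.cons 925 n2281 .nil)
noncomputable def n2283 : Strat := .move 924 n2265 (.cons 922 n2266 (.cons 965 n2269 (.cons 961 n2271 (.cons 925 n2274 (.cons 923 n2282 .nil)))))
noncomputable def n2284 : Strat := .move 964 n2250 (.cons 922 n2260 (.cons 961 n2261 (.cons 1005 n2283 .nil)))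
noncomputable def n2285 : Strat := .move 1003 n2172 (.cons 922 n2214 .nil)
noncomputable def n2286 : Strat := .move 922 n947 (.cons 1003 n546 .nil)
noncomputable def n2287 : Strat := .move 1002 n1383 (.cons 1001 n2173 .nil)
noncomputable def n2288 : Strat := .win 1005 0 961
noncomputable def n2289 : Strat := .move 1006 n1504 (.cons 1007 n2288 .nil)
noncomputable def n2290 : Strat := .move 965 n1377 (.cons 925 n2289 .nil)
noncomputable def n2291 : Strat := .move 924 n2207 (.cons 923 n2290 .nil)
noncomputable def n2292 : Strat := .move 1005 n2178 (.cons 882 n1607 .nil)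
noncomputable def n2293 : Strat := .move 923 n2147 (.cons 924 n2292 .nil)
noncomputable def n2294 : Strat := .move 919 n2183 (.cons 920 n2293 .nil)
noncomputable def n2295 : Strat := .move 1002 n1383 (.cons 1001 n2294 .nil)
noncomputable def n2296 : Strat := .move 1003 n2287 (.cons 1002 n2291 (.cons 965 n2295 .nil))
noncomputable def n2297 : Strat := .move 1006 n2288 (.cons 1005 n1504 .nil)
noncomputable def n2298 : Strat := .move 965 n1377 (.cons 925 n2297 .nil)
noncomputable def n2299 : Strat := .move 924 n2207 (.cons 923 n2298 .nil)
noncomputable def n2300 : Strat := .win 1003 4 961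
noncomputable def n2301 : Strat := .move 965 n2300 (.cons 1003 n2289 .nil)
noncomputable def n2302 : Strat := .move 960 n1812 (.cons 918 n2301 .nil)
noncomputable def n2303 : Strat := .move 919 n2183 (.cons 920 n2302 .nil)
noncomputable def n2304 : Strat := .move 1002 n1383 (.cons 1001 n2303 .nil)
noncomputable def n2305 : Strat := .move 924 n2207 (.cons 923 n1377 .nil)
noncomputable def n2306 : Strat := .move 965 n2300 (.cons 1003 n2305 .nil)
noncomputable def n2307 : Strat := .move 1002 n1383 (.cons 1001 n2306 .nil)
noncomputable def n2308 : Strat := .move 961 n2296 (.cons 1002 n2299 (.cons 924 n2304 (.cons 1005 n2307 (.cons 965 n2198 .nil))))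
noncomputable def n2309 : Strat := .move 966 n1480 (.cons 926 n1445 .nil)
noncomputable def n2310 : Strat := .move 925 n1481 (.cons 924 n2309 .nil)
noncomputable def n2311 : Strat := .move 965 n2192 (.cons 1002 n2310 .nil)
noncomputable def n2312 : Strat := .move 1003 n2172 (.cons 922 n2311 .nil)
noncomputable def n2313 : Strat := .move 964 n2286 (.cons 922 n2308 (.cons 1003 n2250 (.cons 1005 n2312 .nil)))
noncomputable def n2314 : Strat := .move 1001 n2175 (.cons 961 n2174 .nil)
noncomputable def n2315 : Strat := .move 1002 n2173 (.cons 965 n2314 .nil)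
noncomputable def n2316 : Strat := .move 961 n2180 (.cons 882 n2186 (.cons 1006 n2189 .nil))
noncomputable def n2317 : Strat := .move 1002 n2173 (.cons 965 n2316 .nil)
noncomputable def n2318 : Strat := .move 961 n2198 (.cons 882 n2199 (.cons 1006 n2205 .nil))
noncomputable def n2319 : Strat := .move 1003 n2315 (.cons 1001 n2317 (.cons 965 n2318 (.cons 1002 n2213 (.cons 961 n2196 .nil))))
noncomputable def n2320 : Strat := .move 1003 n2198 (.cons 882 n2199 (.cons 1006 n2205 .nil))
noncomputable def n2321 : Strat := .move 960 n1818 (.cons 1000 n2257 .nil)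
noncomputable def n2322 : Strat := .move 1001 n2251 (.cons 1002 n2321 .nil)
noncomputable def n2323 : Strat := .move 961 n2320 (.cons 1005 n2322 (.cons 918 n2198 .nil))
noncomputable def n2324 : Strat := .move 1002 n1383 (.cons 1001 n2300 .nil)
noncomputable def n2325 : Strat := .move 961 n2207 (.cons 923 n2324 .nil)
noncomputable def n2326 : Strat := .move 924 n1377 (.cons 925 n2325 .nil)
noncomputable def n2327 : Strat := .move 1003 n2192 (.cons 1002 n2195 .nil)
noncomputable def n2328 : Strat := .move 1007 n1444 (.cons 1006 n1443 .nil)
noncomputable def n2329 : Strat := .move 966 n2193 (.cons 1004 n2328 .nil)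
noncomputable def n2330 : Strat := .move 1003 n2192 (.cons 1002 n2329 .nil)
noncomputable def n2331 : Strat := .move 961 n2207 (.cons 923 n2254 .nil)
noncomputable def n2332 : Strat := .move 924 n1377 (.cons 925 n2331 .nil)
noncomputable def n2333 : Strat := .move 923 n1460 (.cons 961 n1507 .nil)
noncomputable def n2334 : Strat := .move 1006 n1504 (.cons 1007 n2333 .nil)
noncomputable def n2335 : Strat := .move 924 n1377 (.cons 925 n2334 .nil)
noncomputable def n2336 : Strat := .move 965 n2326 (.cons 923 n2327 (.cons 924 n2330 (.cons 1003 n2332 (.cons 1002 n2335 .nil))))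
noncomputable def n2337 : Strat := .move 961 n2288 (.cons 1005 n2324 .nil)
noncomputable def n2338 : Strat := .move 1006 n1504 (.cons 1007 n2337 .nil)
noncomputable def n2339 : Strat := .win 961 0 961
noncomputable def n2340 : Strat := .win 1046 1 882
noncomputable def n2341 : Strat := .win 842 1 841
noncomputable def n2342 : Strat := .move 883 n2340 (.cons 1046 n2341 .nil)
noncomputable def n2343 : Strat := .move 924 n1377 (.cons 925 n2342 .nil)
noncomputable def n2344 : Strat := .move 1005 n2339 (.cons 961 n2343 .nil)
noncomputable def n2345 : Strat := .move 1006 n1504 (.cons 1007 n2344 .nil)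
noncomputable def n2346 : Strat := .move 965 n2338 (.cons 1005 n2327 (.cons 1002 n2345 .nil))
noncomputable def n2347 : Strat := .move 1003 n2173 (.cons 965 n2189 .nil)
noncomputable def n2348 : Strat := .move 1002 n1383 (.cons 1001 n2347 .nil)
noncomputable def n2349 : Strat := .move 1001 n2251 (.cons 1002 n1818 .nil)
noncomputable def n2350 : Strat := .move 960 n1876 (.cons 1004 n2349 .nil)
noncomputable def n2351 : Strat := .move 1005 n1607 (.cons 1006 n2350 .nil)
noncomputable def n2352 : Strat := .move 965 n2300 (.cons 1003 n2297 .nil)
noncomputable def n2353 : Strat := .move 1002 n1383 (.cons 1001 n2352 .nil)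
noncomputable def n2354 : Strat := .move 961 n2259 (.cons 1006 n2348 (.cons 920 n2351 (.cons 1004 n2304 (.cons 960 n2353 .nil))))
noncomputable def n2355 : Strat := .move 965 n1377 (.cons 925 n2300 .nil)
noncomputable def n2356 : Strat := .move 924 n2207 (.cons 923 n2355 .nil)
noncomputable def n2357 : Strat := .move 960 n1812 (.cons 918 n2356 .nil)
noncomputable def n2358 : Strat := .move 919 n2183 (.cons 920 n2357 .nil)
noncomputable def n2359 : Strat := .move 1002 n1383 (.cons 1001 n2358 .nil)
noncomputable def n2360 : Strat := .move 961 n2348 (.cons 1001 n2212 (.cons 1004 n2359 (.cons 920 n2307 .nil)))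
noncomputable def n2361 : Strat := .move 961 n1607 (.cons 1006 n2258 .nil)
noncomputable def n2362 : Strat := .win 923 7 840
noncomputable def n2363 : Strat := .win 965 1 841
noncomputable def n2364 : Strat := .move 842 n2363 (.cons 965 n1136 .nil)
noncomputable def n2365 : Strat := .move 924 n63 (.cons 925 n2364 .nil)
noncomputable def n2366 : Strat := .move 883 n273 (.cons 838 n2365 .nil)
noncomputable def n2367 : Strat := .move 882 n2362 (.cons 923 n2366 .nil)
noncomputable def n2368 : Strat := .move 1005 n2249 (.cons 882 n2361 (.cons 961 n2367 .nil))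
noncomputable def n2369 : Strat := .move 966 n1480 (.cons 926 n2328 .nil)
noncomputable def n2370 : Strat := .move 925 n1481 (.cons 924 n2369 .nil)
noncomputable def n2371 : Strat := .move 1005 n2340 (.cons 1046 n2341 .nil)
noncomputable def n2372 : Strat := .move 1005 n2340 (.cons 1046 n2362 .nil)
noncomputable def n2373 : Strat := .win 843 3 842
noncomputable def n2374 : Strat := .move 884 n307 (.cons 839 n2373 .nil)
noncomputable def n2375 : Strat := .move 882 n2372 (.cons 923 n2374 .nil)
noncomputable def n2376 : Strat := .win 1005 1 841
noncomputable def n2377 : Strat := .win 802 3 801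
noncomputable def n2378 : Strat := .win 884 3 842
noncomputable def n2379 : Strat := .move 843 n2377 (.cons 802 n2378 .nil)
noncomputable def n2380 : Strat := .move 842 n2376 (.cons 1005 n2379 .nil)
noncomputable def n2381 : Strat := .win 882 5 839
noncomputable def n2382 : Strat := .move 842 n2381 (.cons 882 n2377 .nil)
noncomputable def n2383 : Strat := .move 843 n2378 (.cons 884 n2382 .nil)
noncomputable def n2384 : Strat := .move 883 n2371 (.cons 842 n2375 (.cons 1046 n2380 (.cons 1005 n2383 .nil)))
noncomputable def n2385 : Strat := .move 1006 n1504 (.cons 1007 n2384 .nil)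
noncomputable def n2386 : Strat := .move 924 n1377 (.cons 925 n2385 .nil)
noncomputable def n2387 : Strat := .move 965 n2327 (.cons 924 n2330 (.cons 1003 n2370 (.cons 966 n2386 .nil)))
noncomputable def n2388 : Strat := .move 964 n2319 (.cons 965 n2323 (.cons 1005 n2336 (.cons 923 n2346 (.cons 924 n2354 (.cons 1006 n2360 (.cons 1002 n2368 (.cons 1004 n2308 (.cons 961 n2387 .nil))))))))
noncomputable def n2389 : Strat := .move 963 n2248 (.cons 1003 n2284 (.cons 839 n2285 (.cons 1004 n2313 (.cons 922 n2388 .nil))))
noncomputable def n2390 : Strat := .move 921 n608 (.cons 1004 n1590 .nil)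
noncomputable def n2391 : Strat := .move 922 n543 (.cons 798 n544 .nil)
noncomputable def n2392 : Strat := .move 1004 n853 (.cons 921 n852 .nil)
noncomputable def n2393 : Strat := .move 921 n608 (.cons 1004 n2167 .nil)
noncomputable def n2394 : Strat := .move 921 n1126 (.cons 797 n1597 .nil)
noncomputable def n2395 : Strat := .move 756 n334 (.cons 715 n2394 .nil)
noncomputable def n2396 : Strat := .move 757 n321 (.cons 716 n2395 .nil)
noncomputable def n2397 : Strat := .move 798 n616 (.cons 922 n2396 .nil)
noncomputable def n2398 : Strat := .move 839 n2390 (.cons 921 n2391 (.cons 798 n2392 (.cons 922 n2393 (.cons 1004 n2397 .nil))))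
noncomputable def n2399 : Strat := .move 923 n1440 (.cons 960 n1490 .nil)
noncomputable def n2400 : Strat := .move 961 n109 (.cons 1002 n2399 .nil)
noncomputable def n2401 : Strat := .move 921 n2242 (.cons 919 n983 (.cons 920 n2400 .nil))
noncomputable def n2402 : Strat := .move 839 n543 (.cons 798 n2401 .nil)
noncomputable def n2403 : Strat := .move 922 n546 (.cons 1005 n2402 .nil)
noncomputable def n2404 : Strat := .move 924 n1460 (.cons 961 n1367 .nil)
noncomputable def n2405 : Strat := .move 961 n2147 (.cons 924 n1440 .nil)
noncomputable def n2406 : Strat := .move 923 n2404 (.cons 925 n2405 (.cons 924 n1499 (.cons 961 n1510 .nil)))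
noncomputable def n2407 : Strat := .move 922 n546 (.cons 1005 n2406 .nil)
noncomputable def n2408 : Strat := .move 1002 n1383 (.cons 1001 n111 .nil)
noncomputable def n2409 : Strat := .move 921 n1013 (.cons 965 n2408 .nil)
noncomputable def n2410 : Strat := .move 920 n1439 (.cons 919 n2409 .nil)
noncomputable def n2411 : Strat := .move 920 n1439 (.cons 919 n93 .nil)
noncomputable def n2412 : Strat := .move 921 n111 (.cons 839 n2411 .nil)
noncomputable def n2413 : Strat := .move 1002 n1383 (.cons 1001 n2412 .nil)
noncomputable def n2414 : Strat := .move 961 n2410 (.cons 920 n2299 (.cons 965 n2413 .nil))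
noncomputable def n2415 : Strat := .move 960 n1812 (.cons 918 n2349 .nil)
noncomputable def n2416 : Strat := .move 919 n2183 (.cons 920 n2415 .nil)
noncomputable def n2417 : Strat := .move 1002 n111 (.cons 839 n1383 .nil)
noncomputable def n2418 : Strat := .win 922 2 921
noncomputable def n2419 : Strat := .move 966 n2418 (.cons 922 n1443 .nil)
noncomputable def n2420 : Strat := .move 921 n2417 (.cons 1001 n2419 .nil)
noncomputable def n2421 : Strat := .move 1007 n1444 (.cons 1006 n2420 .nil)
noncomputable def n2422 : Strat := .move 965 n1377 (.cons 925 n2421 .nil)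
noncomputable def n2423 : Strat := .move 924 n2207 (.cons 923 n2422 .nil)
noncomputable def n2424 : Strat := .move 838 n556 (.cons 797 n512 .nil)
noncomputable def n2425 : Strat := .move 839 n91 (.cons 798 n2424 .nil)
noncomputable def n2426 : Strat := .move 921 n1013 (.cons 965 n2425 .nil)
noncomputable def n2427 : Strat := .move 920 n1439 (.cons 919 n2426 .nil)
noncomputable def n2428 : Strat := .move 961 n2410 (.cons 965 n2416 (.cons 920 n2423 (.cons 1002 n2427 .nil)))
noncomputable def n2429 : Strat := .move 921 n2242 (.cons 920 n2424 .nil)
noncomputable def n2430 : Strat := .move 839 n543 (.cons 798 n2429 .nil)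
noncomputable def n2431 : Strat := .move 922 n546 (.cons 1005 n2430 .nil)
noncomputable def n2432 : Strat := .move 964 n2403 (.cons 839 n2407 (.cons 960 n2250 (.cons 922 n2414 (.cons 1005 n2428 (.cons 961 n2431 .nil)))))
noncomputable def n2433 : Strat := .move 922 n545 (.cons 839 n1512 .nil)
noncomputable def n2434 : Strat := .move 1004 n1100 (.cons 839 n993 .nil)
noncomputable def n2435 : Strat := .move 882 n412 (.cons 883 n1492 .nil)
noncomputable def n2436 : Strat := .move 921 n556 (.cons 797 n2435 .nil)
noncomputable def n2437 : Strat := .move 921 n556 (.cons 797 n1492 .nil)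
noncomputable def n2438 : Strat := .move 837 n295 (.cons 836 n2437 .nil)
noncomputable def n2439 : Strat := .move 838 n2238 (.cons 836 n513 (.cons 837 n2436 (.cons 882 n2438 .nil)))
noncomputable def n2440 : Strat := .move 839 n544 (.cons 1004 n2439 .nil)
noncomputable def n2441 : Strat := .move 922 n2434 (.cons 964 n2440 (.cons 839 n1512 .nil))
noncomputable def n2442 : Strat := .move 921 n608 (.cons 1004 n2244 .nil)
noncomputable def n2443 : Strat := .win 717 3 716
noncomputable def n2444 : Strat := .win 759 4 755
noncomputable def n2445 : Strat := .move 796 n2444 (.cons 759 n189 .nil)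
noncomputable def n2446 : Strat := .move 758 n2443 (.cons 717 n2445 .nil)
noncomputable def n2447 : Strat := .move 797 n333 (.cons 921 n2446 .nil)
noncomputable def n2448 : Strat := .move 756 n334 (.cons 715 n2447 .nil)
noncomputable def n2449 : Strat := .move 757 n321 (.cons 716 n2448 .nil)
noncomputable def n2450 : Strat := .move 798 n616 (.cons 922 n2449 .nil)
noncomputable def n2451 : Strat := .move 839 n2442 (.cons 1004 n2450 (.cons 798 n2392 (.cons 921 n2391 (.cons 922 n2393 .nil))))
noncomputable def n2452 : Strat := .move 921 n608 (.cons 1004 n2230 .nil)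
noncomputable def n2453 : Strat := .move 920 n91 (.cons 798 n2221 .nil)
noncomputable def n2454 : Strat := .move 961 n109 (.cons 1002 n2453 .nil)
noncomputable def n2455 : Strat := .move 921 n608 (.cons 1004 n2454 .nil)
noncomputable def n2456 : Strat := .move 839 n2391 (.cons 798 n2452 (.cons 1004 n2397 (.cons 922 n2455 .nil)))
noncomputable def n2457 : Strat := .move 921 n608 (.cons 1004 n2236 .nil)
noncomputable def n2458 : Strat := .move 921 n608 (.cons 1004 n2239 .nil)
noncomputable def n2459 : Strat := .move 839 n2457 (.cons 798 n2392 (.cons 921 n2391 (.cons 922 n2458 (.cons 1004 n2450 .nil))))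
noncomputable def n2460 : Strat := .move 839 n608 (.cons 1004 n2167 .nil)
noncomputable def n2461 : Strat := .move 839 n2167 (.cons 838 n2454 .nil)
noncomputable def n2462 : Strat := .move 839 n608 (.cons 1004 n2454 .nil)
noncomputable def n2463 : Strat := .move 919 n2220 (.cons 918 n948 .nil)
noncomputable def n2464 : Strat := .move 920 n1013 (.cons 965 n2463 .nil)
noncomputable def n2465 : Strat := .move 1002 n1383 (.cons 1001 n93 .nil)
noncomputable def n2466 : Strat := .move 920 n1439 (.cons 919 n2465 .nil)
noncomputable def n2467 : Strat := .move 920 n1439 (.cons 919 n2180 .nil)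
noncomputable def n2468 : Strat := .move 961 n2466 (.cons 1001 n2467 (.cons 920 n2198 .nil))
noncomputable def n2469 : Strat := .move 961 n2207 (.cons 923 n2288 .nil)
noncomputable def n2470 : Strat := .move 1006 n1504 (.cons 1007 n2469 .nil)
noncomputable def n2471 : Strat := .move 924 n1377 (.cons 925 n2470 .nil)
noncomputable def n2472 : Strat := .move 965 n981 (.cons 920 n2471 .nil)
noncomputable def n2473 : Strat := .move 960 n1876 (.cons 1004 n2252 .nil)
noncomputable def n2474 : Strat := .move 961 n1607 (.cons 1006 n2473 .nil)
noncomputable def n2475 : Strat := .move 925 n2267 (.cons 926 n2262 .nil)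
noncomputable def n2476 : Strat := .move 924 n1460 (.cons 961 n2475 .nil)
noncomputable def n2477 : Strat := .move 923 n2178 (.cons 882 n2476 .nil)
noncomputable def n2478 : Strat := .win 883 3 882
noncomputable def n2479 : Strat := .move 924 n2478 (.cons 883 n2475 .nil)
noncomputable def n2480 : Strat := .win 1127 1 963
noncomputable def n2481 : Strat := .win 1045 1 922
noncomputable def n2482 : Strat := .move 1086 n2480 (.cons 1127 n2481 .nil)
noncomputable def n2483 : Strat := .win 1129 6 964
noncomputable def n2484 : Strat := .win 1047 6 923
noncomputable def n2485 : Strat := .move 1088 n2483 (.cons 1129 n2484 .nil)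
noncomputable def n2486 : Strat := .move 1087 n2482 (.cons 1045 n2485 .nil)
noncomputable def n2487 : Strat := .move 1046 n2479 (.cons 924 n2486 .nil)
noncomputable def n2488 : Strat := .move 923 n2178 (.cons 882 n2487 .nil)
noncomputable def n2489 : Strat := .move 1005 n2249 (.cons 923 n2474 (.cons 1006 n2477 (.cons 961 n2488 .nil)))
noncomputable def n2490 : Strat := .move 965 n981 (.cons 920 n2310 .nil)
noncomputable def n2491 : Strat := .move 964 n2464 (.cons 965 n2468 (.cons 919 n2472 (.cons 920 n2489 (.cons 961 n2490 .nil))))
noncomputable def n2492 : Strat := .move 921 n2460 (.cons 1004 n2461 (.cons 797 n2462 (.cons 839 n2491 .nil)))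
noncomputable def n2493 : Strat := .move 923 n2404 (.cons 924 n1499 (.cons 961 n1510 .nil))
noncomputable def n2494 : Strat := .move 922 n546 (.cons 1005 n2493 .nil)
noncomputable def n2495 : Strat := .move 921 n2464 (.cons 965 n2468 (.cons 919 n2472 (.cons 920 n2489 (.cons 961 n2490 .nil))))
noncomputable def n2496 : Strat := .win 965 0 962
noncomputable def n2497 : Strat := .win 1004 2 962
noncomputable def n2498 : Strat := .move 1007 n2496 (.cons 965 n2497 .nil)
noncomputable def n2499 : Strat := .move 1006 n2339 (.cons 961 n2498 .nil)
noncomputable def n2500 : Strat := .move 1005 n1608 (.cons 922 n2499 .nil)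
noncomputable def n2501 : Strat := .move 924 n1367 (.cons 925 n1418 .nil)
noncomputable def n2502 : Strat := .win 882 4 879
noncomputable def n2503 : Strat := .move 924 n1420 (.cons 884 n1367 .nil)
noncomputable def n2504 : Strat := .move 883 n2502 (.cons 882 n2503 .nil)
noncomputable def n2505 : Strat := .move 961 n96 (.cons 960 n1490 .nil)
noncomputable def n2506 : Strat := .move 961 n96 (.cons 960 n1384 .nil)
noncomputable def n2507 : Strat := .move 923 n2501 (.cons 961 n2504 (.cons 925 n2505 (.cons 924 n2506 .nil)))
noncomputable def n2508 : Strat := .move 920 n1372 (.cons 919 n2507 .nil)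
noncomputable def n2509 : Strat := .move 923 n1418 (.cons 961 n1367 .nil)
noncomputable def n2510 : Strat := .win 923 2 880
noncomputable def n2511 : Strat := .move 925 n2262 (.cons 965 n2510 .nil)
noncomputable def n2512 : Strat := .win 923 4 920
noncomputable def n2513 : Strat := .move 960 n971 (.cons 959 n2252 .nil)
noncomputable def n2514 : Strat := .move 961 n2512 (.cons 923 n2513 .nil)
noncomputable def n2515 : Strat := .move 924 n2509 (.cons 961 n2511 (.cons 923 n1378 (.cons 925 n2514 .nil)))
noncomputable def n2516 : Strat := .move 921 n2242 (.cons 965 n2508 (.cons 919 n983 (.cons 920 n2515 .nil)))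
noncomputable def n2517 : Strat := .move 922 n546 (.cons 1005 n2516 .nil)
noncomputable def n2518 : Strat := .move 921 n1013 (.cons 965 n2465 .nil)
noncomputable def n2519 : Strat := .move 920 n1439 (.cons 919 n2518 .nil)
noncomputable def n2520 : Strat := .win 922 5 919
noncomputable def n2521 : Strat := .move 960 n2520 (.cons 922 n2257 .nil)
noncomputable def n2522 : Strat := .move 923 n2147 (.cons 924 n2521 .nil)
noncomputable def n2523 : Strat := .move 960 n2520 (.cons 922 n2349 .nil)
noncomputable def n2524 : Strat := .move 923 n2147 (.cons 924 n2523 .nil)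
noncomputable def n2525 : Strat := .move 961 n2519 (.cons 1002 n2522 (.cons 920 n2524 .nil))
noncomputable def n2526 : Strat := .win 1087 3 923
noncomputable def n2527 : Strat := .move 965 n2526 (.cons 1087 n1377 .nil)
noncomputable def n2528 : Strat := .move 924 n2478 (.cons 883 n2527 .nil)
noncomputable def n2529 : Strat := .move 1087 n2480 (.cons 1127 n2485 .nil)
noncomputable def n2530 : Strat := .move 1086 n2481 (.cons 1045 n2529 .nil)
noncomputable def n2531 : Strat := .move 1046 n2479 (.cons 926 n2528 (.cons 924 n2530 .nil))
noncomputable def n2532 : Strat := .move 923 n2178 (.cons 882 n2531 .nil)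
noncomputable def n2533 : Strat := .move 1005 n1608 (.cons 922 n2532 .nil)
noncomputable def n2534 : Strat := .move 964 n2494 (.cons 922 n2495 (.cons 924 n2500 (.cons 1006 n2517 (.cons 1005 n2525 (.cons 961 n2533 (.cons 965 n2250 .nil))))))
noncomputable def n2535 : Strat := .move 963 n2398 (.cons 921 n2284 (.cons 1004 n2432 (.cons 838 n2433 (.cons 798 n2441 (.cons 961 n2451 (.cons 882 n2456 (.cons 920 n2459 (.cons 922 n2492 (.cons 839 n2534 .nil)))))))))
noncomputable def n2536 : Strat := .move 962 n2169 (.cons 963 n2171 (.cons 839 n2216 (.cons 922 n2226 (.cons 882 n2235 (.cons 920 n2241 (.cons 1002 n2247 (.cons 921 n2389 (.cons 1003 n2535 .nil))))))))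
noncomputable def n2537 : Strat := .move 838 n78 (.cons 756 n79 (.cons 962 n80 .nil))
noncomputable def n2538 : Strat := .move 921 n67 (.cons 883 n2537 .nil)
noncomputable def n2539 : Strat := .move 920 n57 (.cons 919 n2538 .nil)
noncomputable def n2540 : Strat := .move 922 n68 (.cons 878 n2539 .nil)
noncomputable def n2541 : Strat := .move 923 n50 (.cons 924 n2540 .nil)
noncomputable def n2542 : Strat := .move 919 n8 (.cons 920 n5 .nil)
noncomputable def n2543 : Strat := .move 878 n49 (.cons 922 n2542 .nil)
noncomputable def n2544 : Strat := .move 923 n50 (.cons 924 n2543 .nil)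
noncomputable def n2545 : Strat := .move 798 n1080 (.cons 963 n506 .nil)
noncomputable def n2546 : Strat := .move 839 n271 (.cons 838 n2545 .nil)
noncomputable def n2547 : Strat := .move 921 n405 (.cons 920 n2546 .nil)
noncomputable def n2548 : Strat := .move 883 n407 (.cons 921 n273 (.cons 884 n2547 .nil))
noncomputable def n2549 : Strat := .move 922 n68 (.cons 878 n2548 .nil)
noncomputable def n2550 : Strat := .move 923 n50 (.cons 924 n2549 .nil)
noncomputable def n2551 : Strat := .move 878 n49 (.cons 922 n4 .nil)
noncomputable def n2552 : Strat := .move 923 n50 (.cons 924 n2551 .nil)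
noncomputable def n2553 : Strat := .move 879 n2541 (.cons 883 n2544 (.cons 922 n398 (.cons 919 n2550 (.cons 920 n2552 .nil))))
noncomputable def n2554 : Strat := .move 835 n278 (.cons 836 n279 .nil)
noncomputable def n2555 : Strat := .move 876 n736 (.cons 920 n2554 .nil)
noncomputable def n2556 : Strat := .move 921 n734 (.cons 922 n2555 .nil)
noncomputable def n2557 : Strat := .move 877 n0 (.cons 839 n2556 .nil)
noncomputable def n2558 : Strat := .move 878 n2542 (.cons 919 n2557 (.cons 920 n4 .nil))
noncomputable def n2559 : Strat := .move 876 n281 (.cons 916 n373 .nil)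
noncomputable def n2560 : Strat := .move 917 n280 (.cons 918 n2559 .nil)
noncomputable def n2561 : Strat := .move 877 n0 (.cons 839 n2560 .nil)
noncomputable def n2562 : Strat := .move 878 n49 (.cons 922 n2561 .nil)
noncomputable def n2563 : Strat := .move 923 n50 (.cons 924 n2562 .nil)
noncomputable def n2564 : Strat := .move 838 n78 (.cons 756 n79 (.cons 962 n98 .nil))
noncomputable def n2565 : Strat := .move 961 n91 (.cons 798 n90 .nil)
noncomputable def n2566 : Strat := .move 839 n1010 (.cons 757 n2565 (.cons 961 n1149 (.cons 798 n1151 .nil)))
noncomputable def n2567 : Strat := .move 922 n70 (.cons 965 n2566 .nil)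
noncomputable def n2568 : Strat := .move 961 n91 (.cons 798 n109 .nil)
noncomputable def n2569 : Strat := .move 839 n1010 (.cons 757 n2568 (.cons 961 n1014 .nil))
noncomputable def n2570 : Strat := .move 962 n23 (.cons 1003 n2569 .nil)
noncomputable def n2571 : Strat := .move 960 n105 (.cons 1001 n104 .nil)
noncomputable def n2572 : Strat := .move 838 n78 (.cons 756 n79 (.cons 962 n2571 .nil))
noncomputable def n2573 : Strat := .move 961 n1404 (.cons 1002 n2572 .nil)
noncomputable def n2574 : Strat := .move 962 n23 (.cons 1003 n671 .nil)
noncomputable def n2575 : Strat := .move 921 n2564 (.cons 962 n2567 (.cons 922 n2570 (.cons 965 n2573 (.cons 961 n2574 .nil))))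
noncomputable def n2576 : Strat := .move 920 n57 (.cons 919 n2575 .nil)
noncomputable def n2577 : Strat := .move 964 n69 (.cons 1005 n2576 .nil)
noncomputable def n2578 : Strat := .move 923 n50 (.cons 924 n2577 .nil)
noncomputable def n2579 : Strat := .move 876 n286 (.cons 921 n373 .nil)
noncomputable def n2580 : Strat := .move 920 n57 (.cons 919 n2579 .nil)
noncomputable def n2581 : Strat := .move 877 n0 (.cons 839 n2580 .nil)
noncomputable def n2582 : Strat := .move 878 n2542 (.cons 920 n4 (.cons 919 n2561 (.cons 918 n2581 .nil)))
noncomputable def n2583 : Strat := .move 964 n69 (.cons 1005 n2582 .nil)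
noncomputable def n2584 : Strat := .move 923 n50 (.cons 924 n2583 .nil)
noncomputable def n2585 : Strat := .move 879 n2544 (.cons 923 n2558 (.cons 920 n2552 (.cons 919 n2563 (.cons 878 n2578 (.cons 922 n2584 .nil)))))
noncomputable def n2586 : Strat := .win 1005 3 841
noncomputable def n2587 : Strat := .move 964 n2586 (.cons 1005 n1137 .nil)
noncomputable def n2588 : Strat := .move 842 n1136 (.cons 843 n2587 .nil)
noncomputable def n2589 : Strat := .move 923 n1135 (.cons 879 n2588 .nil)
noncomputable def n2590 : Strat := .move 924 n63 (.cons 925 n2589 .nil)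
noncomputable def n2591 : Strat := .move 883 n273 (.cons 838 n1123 (.cons 839 n2590 .nil))
noncomputable def n2592 : Strat := .move 884 n307 (.cons 839 n1093 .nil)
noncomputable def n2593 : Strat := .move 921 n405 (.cons 920 n2592 .nil)
noncomputable def n2594 : Strat := .move 883 n1123 (.cons 925 n2593 (.cons 839 n1125 (.cons 884 n1141 .nil)))
noncomputable def n2595 : Strat := .move 883 n273 (.cons 884 n1133 (.cons 838 n1123 (.cons 839 n1125 .nil)))
noncomputable def n2596 : Strat := .move 838 n56 (.cons 839 n1147 .nil)
noncomputable def n2597 : Strat := .move 839 n271 (.cons 838 n1131 .nil)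
noncomputable def n2598 : Strat := .move 921 n405 (.cons 920 n2597 .nil)
noncomputable def n2599 : Strat := .move 883 n2596 (.cons 921 n273 (.cons 838 n1144 (.cons 839 n1147 (.cons 884 n2598 .nil))))
noncomputable def n2600 : Strat := .move 884 n402 (.cons 921 n390 .nil)
noncomputable def n2601 : Strat := .move 922 n68 (.cons 878 n2600 .nil)
noncomputable def n2602 : Strat := .move 923 n50 (.cons 924 n2601 .nil)
noncomputable def n2603 : Strat := .move 923 n68 (.cons 878 n390 .nil)
noncomputable def n2604 : Strat := .move 922 n402 (.cons 921 n2603 .nil)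
noncomputable def n2605 : Strat := .move 884 n309 (.cons 844 n2604 .nil)
noncomputable def n2606 : Strat := .move 843 n308 (.cons 842 n2605 .nil)
noncomputable def n2607 : Strat := .move 879 n64 (.cons 923 n787 (.cons 925 n2602 (.cons 924 n2606 .nil)))
noncomputable def n2608 : Strat := .move 883 n1125 (.cons 924 n1147 (.cons 920 n2607 (.cons 922 n2590 .nil)))
noncomputable def n2609 : Strat := .move 882 n2553 (.cons 883 n2585 (.cons 962 n2591 (.cons 838 n2594 (.cons 879 n2595 (.cons 924 n2599 (.cons 839 n2608 .nil))))))
noncomputable def n2610 : Strat := .move 878 n263 (.cons 877 n17 .nil)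
noncomputable def n2611 : Strat := .move 797 n182 (.cons 962 n526 (.cons 756 n527 .nil))
noncomputable def n2612 : Strat := .move 920 n188 (.cons 961 n2611 .nil)
noncomputable def n2613 : Strat := .move 879 n1081 (.cons 924 n2610 (.cons 923 n2612 .nil))
noncomputable def n2614 : Strat := .move 922 n507 (.cons 963 n2613 .nil)
noncomputable def n2615 : Strat := .move 758 n2444 (.cons 759 n2443 .nil)
noncomputable def n2616 : Strat := .move 796 n189 (.cons 795 n2615 .nil)
noncomputable def n2617 : Strat := .move 797 n333 (.cons 921 n2616 .nil)
noncomputable def n2618 : Strat := .move 756 n334 (.cons 715 n2617 .nil)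
noncomputable def n2619 : Strat := .move 757 n321 (.cons 716 n2618 .nil)
noncomputable def n2620 : Strat := .move 798 n1604 (.cons 757 n2614 (.cons 922 n2619 .nil))
noncomputable def n2621 : Strat := .move 838 n411 (.cons 837 n2620 .nil)
noncomputable def n2622 : Strat := .move 923 n1418 (.cons 961 n1135 .nil)
noncomputable def n2623 : Strat := .move 924 n63 (.cons 925 n2622 .nil)
noncomputable def n2624 : Strat := .move 922 n1103 (.cons 798 n2623 .nil)
noncomputable def n2625 : Strat := .move 963 n608 (.cons 1004 n2624 .nil)
noncomputable def n2626 : Strat := .move 962 n23 (.cons 1003 n2625 .nil)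
noncomputable def n2627 : Strat := .move 921 n405 (.cons 920 n2626 .nil)
noncomputable def n2628 : Strat := .move 883 n272 (.cons 884 n2627 .nil)
noncomputable def n2629 : Strat := .move 839 n1006 (.cons 883 n2621 (.cons 838 n2628 .nil))
noncomputable def n2630 : Strat := .move 883 n1125 (.cons 884 n1141 (.cons 924 n1147 .nil))
noncomputable def n2631 : Strat := .move 920 n454 (.cons 757 n490 (.cons 798 n907 .nil))
noncomputable def n2632 : Strat := .move 839 n412 (.cons 883 n2631 .nil)
noncomputable def n2633 : Strat := .move 838 n55 (.cons 837 n2632 .nil)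
noncomputable def n2634 : Strat := .move 923 n50 (.cons 924 n2633 .nil)
noncomputable def n2635 : Strat := .move 878 n49 (.cons 922 n15 .nil)
noncomputable def n2636 : Strat := .move 923 n50 (.cons 924 n2635 .nil)
noncomputable def n2637 : Strat := .move 757 n514 (.cons 716 n320 .nil)
noncomputable def n2638 : Strat := .move 757 n320 (.cons 920 n516 .nil)
noncomputable def n2639 : Strat := .move 922 n507 (.cons 963 n1550 .nil)
noncomputable def n2640 : Strat := .move 798 n2637 (.cons 716 n2638 (.cons 920 n517 (.cons 757 n2639 .nil)))
noncomputable def n2641 : Strat := .move 839 n412 (.cons 883 n2640 .nil)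
noncomputable def n2642 : Strat := .move 838 n55 (.cons 837 n2641 .nil)
noncomputable def n2643 : Strat := .move 839 n508 (.cons 757 n1006 .nil)
noncomputable def n2644 : Strat := .move 964 n69 (.cons 1005 n2643 .nil)
noncomputable def n2645 : Strat := .move 922 n68 (.cons 878 n2644 .nil)
noncomputable def n2646 : Strat := .move 923 n50 (.cons 924 n2645 .nil)
noncomputable def n2647 : Strat := .move 879 n2634 (.cons 838 n2636 (.cons 923 n789 (.cons 839 n1121 (.cons 924 n2642 (.cons 837 n2646 .nil)))))
noncomputable def n2648 : Strat := .move 839 n271 (.cons 838 n2627 .nil)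
noncomputable def n2649 : Strat := .move 883 n2648 (.cons 839 n1141 (.cons 924 n1133 .nil))
noncomputable def n2650 : Strat := .move 839 n271 (.cons 838 n1141 .nil)
noncomputable def n2651 : Strat := .move 839 n272 (.cons 884 n1141 .nil)
noncomputable def n2652 : Strat := .move 883 n273 (.cons 884 n2650 (.cons 838 n2651 (.cons 839 n1141 .nil)))
noncomputable def n2653 : Strat := .move 876 n736 (.cons 920 n739 .nil)
noncomputable def n2654 : Strat := .move 921 n734 (.cons 922 n2653 .nil)
noncomputable def n2655 : Strat := .move 877 n0 (.cons 839 n2654 .nil)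
noncomputable def n2656 : Strat := .move 878 n6 (.cons 836 n2655 .nil)
noncomputable def n2657 : Strat := .move 837 n7 (.cons 838 n2656 .nil)
noncomputable def n2658 : Strat := .move 877 n0 (.cons 839 n2139 .nil)
noncomputable def n2659 : Strat := .move 839 n556 (.cons 797 n263 .nil)
noncomputable def n2660 : Strat := .move 962 n23 (.cons 1003 n2659 .nil)
noncomputable def n2661 : Strat := .move 877 n0 (.cons 839 n2653 .nil)
noncomputable def n2662 : Strat := .move 921 n730 (.cons 920 n2660 (.cons 962 n2661 .nil))
noncomputable def n2663 : Strat := .move 838 n55 (.cons 837 n2662 .nil)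
noncomputable def n2664 : Strat := .move 878 n1119 (.cons 837 n2658 (.cons 836 n2663 .nil))
noncomputable def n2665 : Strat := .move 924 n62 (.cons 923 n2664 .nil)
noncomputable def n2666 : Strat := .move 921 n23 (.cons 1003 n732 .nil)
noncomputable def n2667 : Strat := .move 921 n77 (.cons 756 n728 .nil)
noncomputable def n2668 : Strat := .move 921 n728 (.cons 920 n1108 .nil)
noncomputable def n2669 : Strat := .move 921 n77 (.cons 756 n1108 .nil)
noncomputable def n2670 : Strat := .win 675 3 674
noncomputable def n2671 : Strat := .win 757 3 715
noncomputable def n2672 : Strat := .move 716 n2670 (.cons 675 n2671 .nil)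
noncomputable def n2673 : Strat := .move 715 n1261 (.cons 839 n2672 .nil)
noncomputable def n2674 : Strat := .move 755 n462 (.cons 796 n463 .nil)
noncomputable def n2675 : Strat := .move 920 n186 (.cons 716 n2674 .nil)
noncomputable def n2676 : Strat := .move 714 n1263 (.cons 673 n1262 .nil)
noncomputable def n2677 : Strat := .move 715 n1261 (.cons 839 n2676 .nil)
noncomputable def n2678 : Strat := .move 756 n2673 (.cons 715 n2675 (.cons 757 n2677 .nil))
noncomputable def n2679 : Strat := .move 797 n2667 (.cons 756 n2668 (.cons 920 n2669 (.cons 921 n2678 .nil)))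
noncomputable def n2680 : Strat := .move 923 n50 (.cons 924 n2679 .nil)
noncomputable def n2681 : Strat := .win 920 6 838
noncomputable def n2682 : Strat := .move 1005 n1607 (.cons 1006 n2362 .nil)
noncomputable def n2683 : Strat := .move 964 n1012 (.cons 924 n2682 (.cons 1005 n2287 .nil))
noncomputable def n2684 : Strat := .move 961 n2681 (.cons 920 n2683 .nil)
noncomputable def n2685 : Strat := .move 963 n2172 (.cons 922 n2684 .nil)
noncomputable def n2686 : Strat := .move 1003 n845 (.cons 921 n2685 .nil)
noncomputable def n2687 : Strat := .move 797 n77 (.cons 756 n1108 .nil)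
noncomputable def n2688 : Strat := .move 921 n23 (.cons 1003 n2687 .nil)
noncomputable def n2689 : Strat := .move 920 n220 (.cons 1003 n633 .nil)
noncomputable def n2690 : Strat := .move 1002 n1835 (.cons 964 n94 .nil)
noncomputable def n2691 : Strat := .move 1001 n231 (.cons 960 n2690 .nil)
noncomputable def n2692 : Strat := .move 920 n220 (.cons 1003 n2691 .nil)
noncomputable def n2693 : Strat := .move 1002 n2300 (.cons 1003 n1383 .nil)
noncomputable def n2694 : Strat := .move 924 n1377 (.cons 925 n62 .nil)
noncomputable def n2695 : Strat := .move 965 n2693 (.cons 1001 n2694 .nil)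
noncomputable def n2696 : Strat := .move 965 n2289 (.cons 1005 n2693 .nil)
noncomputable def n2697 : Strat := .move 964 n1012 (.cons 924 n2682 (.cons 1005 n2695 (.cons 923 n2696 .nil)))
noncomputable def n2698 : Strat := .win 964 7 840
noncomputable def n2699 : Strat := .move 1005 n1876 (.cons 1004 n2698 .nil)
noncomputable def n2700 : Strat := .win 920 1 837
noncomputable def n2701 : Strat := .move 1001 n1818 (.cons 1000 n2700 .nil)
noncomputable def n2702 : Strat := .move 960 n2699 (.cons 964 n2701 .nil)
noncomputable def n2703 : Strat := .move 923 n50 (.cons 924 n2702 .nil)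
noncomputable def n2704 : Strat := .move 961 n2689 (.cons 798 n2692 (.cons 920 n2697 (.cons 1003 n2703 .nil)))
noncomputable def n2705 : Strat := .move 1004 n942 (.cons 1046 n1101 .nil)
noncomputable def n2706 : Strat := .move 1005 n943 (.cons 964 n2705 .nil)
noncomputable def n2707 : Strat := .move 923 n50 (.cons 924 n2706 .nil)
noncomputable def n2708 : Strat := .move 922 n947 (.cons 1003 n2707 .nil)
noncomputable def n2709 : Strat := .move 1003 n2172 (.cons 922 n2684 .nil)
noncomputable def n2710 : Strat := .move 923 n50 (.cons 924 n69 .nil)
noncomputable def n2711 : Strat := .move 1005 n2362 (.cons 923 n1608 .nil)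
noncomputable def n2712 : Strat := .move 839 n544 (.cons 1004 n543 .nil)
noncomputable def n2713 : Strat := .move 922 n546 (.cons 1005 n2712 .nil)
noncomputable def n2714 : Strat := .move 960 n1818 (.cons 1000 n2700 .nil)
noncomputable def n2715 : Strat := .move 1001 n2251 (.cons 1002 n2714 .nil)
noncomputable def n2716 : Strat := .move 923 n1440 (.cons 960 n50 .nil)
noncomputable def n2717 : Strat := .move 922 n2712 (.cons 798 n2716 .nil)
noncomputable def n2718 : Strat := .move 839 n2275 (.cons 798 n1463 .nil)
noncomputable def n2719 : Strat := .move 961 n2715 (.cons 1001 n2717 (.cons 960 n2718 .nil))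
noncomputable def n2720 : Strat := .move 964 n2710 (.cons 924 n2711 (.cons 923 n2713 (.cons 1005 n2719 .nil)))
noncomputable def n2721 : Strat := .move 963 n2248 (.cons 922 n2704 (.cons 839 n2708 (.cons 1004 n2709 (.cons 1003 n2720 .nil))))
noncomputable def n2722 : Strat := .move 962 n2666 (.cons 1003 n2680 (.cons 797 n2686 (.cons 920 n2688 (.cons 921 n2721 .nil))))
noncomputable def n2723 : Strat := .move 838 n55 (.cons 837 n2722 .nil)
noncomputable def n2724 : Strat := .move 879 n1121 (.cons 923 n2657 (.cons 838 n2636 (.cons 837 n2563 (.cons 922 n2665 (.cons 836 n1115 (.cons 878 n2723 .nil))))))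
noncomputable def n2725 : Strat := .move 882 n2629 (.cons 839 n2630 (.cons 923 n1148 (.cons 921 n2647 (.cons 884 n2649 (.cons 920 n2652 (.cons 883 n2724 .nil))))))
noncomputable def n2726 : Strat := .move 878 n20 (.cons 922 n180 (.cons 837 n980 .nil))
noncomputable def n2727 : Strat := .move 960 n684 (.cons 1002 n1733 .nil)
noncomputable def n2728 : Strat := .move 961 n1955 (.cons 920 n2727 .nil)
noncomputable def n2729 : Strat := .move 796 n162 (.cons 755 n2728 (.cons 920 n172 (.cons 961 n177 .nil)))
noncomputable def n2730 : Strat := .move 919 n5 (.cons 918 n2729 .nil)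
noncomputable def n2731 : Strat := .move 837 n6 (.cons 836 n2730 .nil)
noncomputable def n2732 : Strat := .move 878 n666 (.cons 919 n154 (.cons 882 n2731 (.cons 836 n53 .nil)))
noncomputable def n2733 : Strat := .move 838 n35 (.cons 882 n913 .nil)
noncomputable def n2734 : Strat := .move 878 n6 (.cons 836 n2733 .nil)
noncomputable def n2735 : Strat := .move 963 n1778 (.cons 1044 n985 (.cons 1003 n987 .nil))
noncomputable def n2736 : Strat := .move 921 n22 (.cons 877 n2735 .nil)
noncomputable def n2737 : Strat := .move 922 n17 (.cons 923 n2736 .nil)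
noncomputable def n2738 : Strat := .move 878 n6 (.cons 836 n2737 .nil)
noncomputable def n2739 : Strat := .move 921 n405 (.cons 920 n1095 .nil)
noncomputable def n2740 : Strat := .move 883 n63 (.cons 925 n2739 .nil)
noncomputable def n2741 : Strat := .move 924 n62 (.cons 923 n2740 .nil)
noncomputable def n2742 : Strat := .move 882 n7 (.cons 838 n2741 .nil)
noncomputable def n2743 : Strat := .move 878 n6 (.cons 836 n153 .nil)
noncomputable def n2744 : Strat := .move 837 n2734 (.cons 838 n2738 (.cons 836 n2742 (.cons 923 n871 (.cons 921 n2743 (.cons 922 n316 .nil)))))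
noncomputable def n2745 : Strat := .move 878 n269 (.cons 837 n980 (.cons 919 n20 .nil))
noncomputable def n2746 : Strat := .move 877 n18 (.cons 921 n284 .nil)
noncomputable def n2747 : Strat := .move 922 n17 (.cons 923 n2746 .nil)
noncomputable def n2748 : Strat := .move 921 n22 (.cons 877 n985 .nil)
noncomputable def n2749 : Strat := .move 962 n947 (.cons 1003 n2243 .nil)
noncomputable def n2750 : Strat := .move 921 n22 (.cons 877 n2749 .nil)
noncomputable def n2751 : Strat := .move 921 n22 (.cons 877 n990 .nil)
noncomputable def n2752 : Strat := .move 921 n22 (.cons 877 n1778 .nil)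
noncomputable def n2753 : Strat := .win 962 2 920
noncomputable def n2754 : Strat := .move 965 n2753 (.cons 962 n982 .nil)
noncomputable def n2755 : Strat := .move 920 n1372 (.cons 919 n2754 .nil)
noncomputable def n2756 : Strat := .move 964 n546 (.cons 1005 n2755 .nil)
noncomputable def n2757 : Strat := .move 921 n22 (.cons 877 n2756 .nil)
noncomputable def n2758 : Strat := .move 963 n2748 (.cons 966 n2750 (.cons 962 n2751 (.cons 921 n1023 (.cons 964 n2752 (.cons 1003 n2757 .nil)))))
noncomputable def n2759 : Strat := .move 922 n17 (.cons 923 n2758 .nil)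
noncomputable def n2760 : Strat := .move 878 n46 (.cons 919 n2747 (.cons 922 n293 (.cons 921 n53 (.cons 918 n2759 .nil))))
noncomputable def n2761 : Strat := .move 921 n22 (.cons 877 n1393 .nil)
noncomputable def n2762 : Strat := .move 922 n17 (.cons 923 n2761 .nil)
noncomputable def n2763 : Strat := .move 919 n5 (.cons 918 n2762 .nil)
noncomputable def n2764 : Strat := .move 878 n2763 (.cons 920 n20 (.cons 877 n53 (.cons 922 n200 .nil)))
noncomputable def n2765 : Strat := .move 922 n68 (.cons 878 n1400 .nil)
noncomputable def n2766 : Strat := .move 923 n50 (.cons 924 n2765 .nil)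
noncomputable def n2767 : Strat := .move 923 n50 (.cons 924 n1002 .nil)
noncomputable def n2768 : Strat := .move 882 n2766 (.cons 878 n2767 (.cons 921 n1172 (.cons 924 n1002 .nil)))
noncomputable def n2769 : Strat := .move 882 n57 (.cons 919 n1001 .nil)
noncomputable def n2770 : Strat := .win 922 4 918
noncomputable def n2771 : Strat := .move 959 n2770 (.cons 922 n795 .nil)
noncomputable def n2772 : Strat := .move 960 n105 (.cons 1001 n2771 .nil)
noncomputable def n2773 : Strat := .move 838 n24 (.cons 797 n2772 .nil)
noncomputable def n2774 : Strat := .move 919 n607 (.cons 918 n2773 .nil)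
noncomputable def n2775 : Strat := .move 921 n23 (.cons 1003 n2774 .nil)
noncomputable def n2776 : Strat := .move 919 n607 (.cons 918 n2772 .nil)
noncomputable def n2777 : Strat := .move 921 n24 (.cons 797 n2776 .nil)
noncomputable def n2778 : Strat := .move 963 n1812 (.cons 918 n609 .nil)
noncomputable def n2779 : Strat := .move 919 n132 (.cons 797 n2778 .nil)
noncomputable def n2780 : Strat := .move 960 n105 (.cons 1001 n2779 .nil)
noncomputable def n2781 : Strat := .win 917 0 917
noncomputable def n2782 : Strat := .move 919 n207 (.cons 921 n2781 .nil)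
noncomputable def n2783 : Strat := .move 919 n1788 (.cons 963 n207 .nil)
noncomputable def n2784 : Strat := .win 919 0 917
noncomputable def n2785 : Strat := .move 917 n1789 (.cons 959 n2784 .nil)
noncomputable def n2786 : Strat := .move 921 n794 (.cons 922 n795 .nil)
noncomputable def n2787 : Strat := .move 959 n1827 (.cons 917 n2786 .nil)
noncomputable def n2788 : Strat := .move 918 n2782 (.cons 917 n2783 (.cons 921 n2785 (.cons 919 n2787 .nil)))
noncomputable def n2789 : Strat := .move 960 n105 (.cons 1001 n2788 .nil)
noncomputable def n2790 : Strat := .move 837 n227 (.cons 796 n797 .nil)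
noncomputable def n2791 : Strat := .move 921 n24 (.cons 797 n2790 .nil)
noncomputable def n2792 : Strat := .move 797 n219 (.cons 921 n222 .nil)
noncomputable def n2793 : Strat := .move 838 n2777 (.cons 921 n2780 (.cons 797 n2789 (.cons 919 n2791 (.cons 1001 n2792 .nil))))
noncomputable def n2794 : Strat := .win 1002 6 879
noncomputable def n2795 : Strat := .win 1085 7 920
noncomputable def n2796 : Strat := .move 1044 n2794 (.cons 1002 n2795 .nil)
noncomputable def n2797 : Strat := .move 1003 n846 (.cons 838 n2796 .nil)
noncomputable def n2798 : Strat := .move 922 n25 (.cons 959 n1381 .nil)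
noncomputable def n2799 : Strat := .move 1001 n1818 (.cons 1000 n137 .nil)
noncomputable def n2800 : Strat := .move 960 n2771 (.cons 958 n2798 (.cons 922 n2799 .nil))
noncomputable def n2801 : Strat := .move 963 n609 (.cons 964 n2800 .nil)
noncomputable def n2802 : Strat := .move 919 n607 (.cons 918 n2801 .nil)
noncomputable def n2803 : Strat := .move 921 n23 (.cons 1003 n2802 .nil)
noncomputable def n2804 : Strat := .move 962 n2775 (.cons 1003 n2793 (.cons 921 n2797 (.cons 838 n2803 .nil)))
noncomputable def n2805 : Strat := .move 797 n219 (.cons 921 n448 .nil)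
noncomputable def n2806 : Strat := .move 962 n220 (.cons 1003 n2805 .nil)
noncomputable def n2807 : Strat := .move 962 n220 (.cons 1003 n2789 .nil)
noncomputable def n2808 : Strat := .move 962 n220 (.cons 1003 n2792 .nil)
noncomputable def n2809 : Strat := .move 838 n2806 (.cons 962 n446 (.cons 797 n2807 (.cons 919 n2808 .nil)))
noncomputable def n2810 : Strat := .move 1003 n1782 (.cons 962 n255 .nil)
noncomputable def n2811 : Strat := .move 921 n93 (.cons 1043 n2810 .nil)
noncomputable def n2812 : Strat := .move 962 n1835 (.cons 964 n2172 .nil)
noncomputable def n2813 : Strat := .move 962 n2174 (.cons 1000 n1835 .nil)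
noncomputable def n2814 : Strat := .move 962 n2174 (.cons 1000 n2172 .nil)
noncomputable def n2815 : Strat := .win 964 5 960
noncomputable def n2816 : Strat := .win 1005 2 960
noncomputable def n2817 : Strat := .move 960 n1859 (.cons 959 n2816 .nil)
noncomputable def n2818 : Strat := .move 1004 n2815 (.cons 964 n2817 .nil)
noncomputable def n2819 : Strat := .move 963 n2812 (.cons 922 n2813 (.cons 964 n2814 (.cons 962 n2818 .nil)))
noncomputable def n2820 : Strat := .move 1001 n233 (.cons 1042 n2819 .nil)
noncomputable def n2821 : Strat := .move 1003 n255 (.cons 1044 n2820 .nil)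
noncomputable def n2822 : Strat := .move 1004 n1859 (.cons 959 n2816 .nil)
noncomputable def n2823 : Strat := .win 1125 7 960
noncomputable def n2824 : Strat := .win 919 7 919
noncomputable def n2825 : Strat := .move 1084 n2823 (.cons 1125 n2824 .nil)
noncomputable def n2826 : Strat := .move 960 n2822 (.cons 1005 n436 (.cons 959 n2825 .nil))
noncomputable def n2827 : Strat := .move 1043 n244 (.cons 921 n2826 .nil)
noncomputable def n2828 : Strat := .move 1001 n233 (.cons 1042 n2827 .nil)
noncomputable def n2829 : Strat := .move 1003 n255 (.cons 1044 n2828 .nil)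
noncomputable def n2830 : Strat := .move 1002 n2811 (.cons 921 n2821 (.cons 962 n2829 (.cons 1003 n427 .nil)))
noncomputable def n2831 : Strat := .move 1001 n231 (.cons 960 n233 .nil)
noncomputable def n2832 : Strat := .move 1002 n255 (.cons 1044 n2831 .nil)
noncomputable def n2833 : Strat := .move 1003 n254 (.cons 962 n2832 .nil)
noncomputable def n2834 : Strat := .move 838 n2806 (.cons 962 n446 (.cons 960 n2808 (.cons 797 n2833 .nil)))
noncomputable def n2835 : Strat := .move 962 n845 (.cons 921 n846 .nil)
noncomputable def n2836 : Strat := .move 1002 n255 (.cons 1044 n427 .nil)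
noncomputable def n2837 : Strat := .move 964 n1383 (.cons 1001 n1439 .nil)
noncomputable def n2838 : Strat := .move 963 n2172 (.cons 922 n2837 .nil)
noncomputable def n2839 : Strat := .move 962 n846 (.cons 838 n2838 .nil)
noncomputable def n2840 : Strat := .move 1002 n255 (.cons 1044 n2839 .nil)
noncomputable def n2841 : Strat := .move 1003 n2835 (.cons 962 n2836 (.cons 921 n2840 .nil))
noncomputable def n2842 : Strat := .move 962 n846 (.cons 838 n2796 .nil)
noncomputable def n2843 : Strat := .win 960 2 918
noncomputable def n2844 : Strat := .move 918 n2843 (.cons 960 n2781 .nil)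
noncomputable def n2845 : Strat := .move 919 n609 (.cons 964 n2844 .nil)
noncomputable def n2846 : Strat := .move 963 n2172 (.cons 922 n2845 .nil)
noncomputable def n2847 : Strat := .move 962 n846 (.cons 838 n2846 .nil)
noncomputable def n2848 : Strat := .move 1002 n255 (.cons 1044 n2820 .nil)
noncomputable def n2849 : Strat := .move 960 n433 (.cons 838 n2822 .nil)
noncomputable def n2850 : Strat := .move 1001 n233 (.cons 1042 n2849 .nil)
noncomputable def n2851 : Strat := .move 1002 n255 (.cons 1044 n2850 .nil)
noncomputable def n2852 : Strat := .move 1003 n2842 (.cons 1002 n2847 (.cons 838 n2848 (.cons 962 n2851 .nil)))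
noncomputable def n2853 : Strat := .move 963 n609 (.cons 964 n2843 .nil)
noncomputable def n2854 : Strat := .move 963 n2172 (.cons 922 n2843 .nil)
noncomputable def n2855 : Strat := .move 1003 n846 (.cons 838 n2854 .nil)
noncomputable def n2856 : Strat := .move 796 n190 (.cons 755 n221 .nil)
noncomputable def n2857 : Strat := .move 797 n211 (.cons 960 n2856 .nil)
noncomputable def n2858 : Strat := .move 838 n220 (.cons 1003 n2857 .nil)
noncomputable def n2859 : Strat := .move 963 n2172 (.cons 922 n609 .nil)
noncomputable def n2860 : Strat := .move 1003 n846 (.cons 838 n2859 .nil)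
noncomputable def n2861 : Strat := .move 962 n2853 (.cons 964 n2855 (.cons 963 n2858 (.cons 960 n2860 .nil)))
noncomputable def n2862 : Strat := .move 918 n206 (.cons 917 n2861 .nil)
noncomputable def n2863 : Strat := .move 1002 n93 (.cons 1043 n255 .nil)
noncomputable def n2864 : Strat := .move 1003 n1782 (.cons 962 n2863 .nil)
noncomputable def n2865 : Strat := .move 921 n607 (.cons 918 n2864 .nil)
noncomputable def n2866 : Strat := .win 960 7 919
noncomputable def n2867 : Strat := .win 1124 1 960
noncomputable def n2868 : Strat := .win 1042 1 919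
noncomputable def n2869 : Strat := .move 1083 n2867 (.cons 1124 n2868 .nil)
noncomputable def n2870 : Strat := .move 1084 n2866 (.cons 960 n2869 .nil)
noncomputable def n2871 : Strat := .move 1043 n244 (.cons 921 n2870 .nil)
noncomputable def n2872 : Strat := .move 1002 n255 (.cons 1044 n2871 .nil)
noncomputable def n2873 : Strat := .move 963 n609 (.cons 964 n2172 .nil)
noncomputable def n2874 : Strat := .move 962 n846 (.cons 838 n2873 .nil)
noncomputable def n2875 : Strat := .move 1003 n2835 (.cons 962 n2872 (.cons 921 n2874 .nil))
noncomputable def n2876 : Strat := .move 919 n208 (.cons 921 n2862 (.cons 917 n2865 (.cons 918 n2875 .nil)))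
noncomputable def n2877 : Strat := .move 962 n2777 (.cons 921 n2780 (.cons 797 n2789 (.cons 919 n2791 (.cons 1001 n2792 .nil))))
noncomputable def n2878 : Strat := .move 962 n219 (.cons 921 n222 .nil)
noncomputable def n2879 : Strat := .move 797 n2878 (.cons 796 n182 (.cons 962 n222 .nil))
noncomputable def n2880 : Strat := .move 919 n132 (.cons 797 n208 .nil)
noncomputable def n2881 : Strat := .move 960 n105 (.cons 1001 n2880 .nil)
noncomputable def n2882 : Strat := .move 1042 n425 (.cons 1083 n424 .nil)
noncomputable def n2883 : Strat := .move 1043 n244 (.cons 921 n2882 .nil)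
noncomputable def n2884 : Strat := .win 1126 6 961
noncomputable def n2885 : Strat := .win 1044 6 920
noncomputable def n2886 : Strat := .move 1085 n2884 (.cons 1126 n2885 .nil)
noncomputable def n2887 : Strat := .move 1084 n2869 (.cons 1042 n2886 .nil)
noncomputable def n2888 : Strat := .move 1043 n244 (.cons 921 n2887 .nil)
noncomputable def n2889 : Strat := .move 960 n2824 (.cons 919 n105 .nil)
noncomputable def n2890 : Strat := .move 1084 n2886 (.cons 1044 n2889 .nil)
noncomputable def n2891 : Strat := .move 1043 n244 (.cons 921 n2890 .nil)
noncomputable def n2892 : Strat := .move 1002 n2831 (.cons 960 n2883 (.cons 1001 n2888 (.cons 1042 n2891 .nil)))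
noncomputable def n2893 : Strat := .move 796 n221 (.cons 837 n2892 .nil)
noncomputable def n2894 : Strat := .move 838 n2877 (.cons 1001 n2879 (.cons 921 n446 (.cons 755 n2881 (.cons 797 n2893 .nil))))
noncomputable def n2895 : Strat := .move 961 n2804 (.cons 962 n440 (.cons 1002 n2809 (.cons 838 n2830 (.cons 959 n2834 (.cons 960 n2841 (.cons 921 n2852 (.cons 1001 n2876 (.cons 1003 n2894 .nil))))))))
noncomputable def n2896 : Strat := .move 882 n55 (.cons 837 n1275 .nil)
noncomputable def n2897 : Strat := .move 961 n220 (.cons 1003 n2856 .nil)
noncomputable def n2898 : Strat := .move 962 n219 (.cons 921 n2897 .nil)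
noncomputable def n2899 : Strat := .move 1002 n256 (.cons 960 n635 .nil)
noncomputable def n2900 : Strat := .move 757 n184 (.cons 798 n2899 .nil)
noncomputable def n2901 : Strat := .move 961 n221 (.cons 837 n2900 .nil)
noncomputable def n2902 : Strat := .move 796 n190 (.cons 755 n2901 .nil)
noncomputable def n2903 : Strat := .move 797 n182 (.cons 756 n2898 (.cons 921 n2902 (.cons 962 n187 .nil)))
noncomputable def n2904 : Strat := .move 756 n185 (.cons 716 n2674 .nil)
noncomputable def n2905 : Strat := .move 757 n184 (.cons 798 n2904 .nil)
noncomputable def n2906 : Strat := .move 962 n219 (.cons 921 n220 .nil)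
noncomputable def n2907 : Strat := .move 1002 n93 (.cons 1043 n233 .nil)
noncomputable def n2908 : Strat := .move 1001 n231 (.cons 960 n2907 .nil)
noncomputable def n2909 : Strat := .move 921 n76 (.cons 962 n2908 .nil)
noncomputable def n2910 : Strat := .move 1044 n430 (.cons 1085 n429 .nil)
noncomputable def n2911 : Strat := .move 1043 n244 (.cons 921 n2910 .nil)
noncomputable def n2912 : Strat := .move 1002 n256 (.cons 960 n2883 (.cons 1042 n2911 .nil))
noncomputable def n2913 : Strat := .move 1002 n255 (.cons 1044 n233 .nil)
noncomputable def n2914 : Strat := .move 1001 n231 (.cons 960 n2913 .nil)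
noncomputable def n2915 : Strat := .move 1003 n254 (.cons 962 n2914 .nil)
noncomputable def n2916 : Strat := .move 961 n2906 (.cons 1003 n2909 (.cons 962 n2912 (.cons 921 n2915 .nil)))
noncomputable def n2917 : Strat := .move 796 n190 (.cons 755 n2916 .nil)
noncomputable def n2918 : Strat := .move 797 n182 (.cons 921 n2905 (.cons 756 n2917 .nil))
noncomputable def n2919 : Strat := .move 796 n298 (.cons 961 n521 .nil)
noncomputable def n2920 : Strat := .move 837 n35 (.cons 882 n2919 .nil)
noncomputable def n2921 : Strat := .move 965 n670 (.cons 922 n669 .nil)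
noncomputable def n2922 : Strat := .move 964 n69 (.cons 1005 n2921 .nil)
noncomputable def n2923 : Strat := .move 923 n50 (.cons 924 n2922 .nil)
noncomputable def n2924 : Strat := .move 962 n23 (.cons 1003 n2923 .nil)
noncomputable def n2925 : Strat := .move 921 n67 (.cons 883 n2924 .nil)
noncomputable def n2926 : Strat := .move 882 n55 (.cons 837 n2925 .nil)
noncomputable def n2927 : Strat := .move 838 n2896 (.cons 882 n2903 (.cons 837 n2918 (.cons 921 n2920 (.cons 797 n2926 .nil))))
noncomputable def n2928 : Strat := .move 961 n254 (.cons 962 n257 .nil)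
noncomputable def n2929 : Strat := .move 838 n55 (.cons 837 n2928 .nil)
noncomputable def n2930 : Strat := .move 882 n57 (.cons 919 n2929 .nil)
noncomputable def n2931 : Strat := .move 961 n2842 (.cons 1002 n2847 (.cons 838 n2848 (.cons 962 n2851 .nil)))
noncomputable def n2932 : Strat := .move 837 n35 (.cons 882 n227 .nil)
noncomputable def n2933 : Strat := .move 838 n254 (.cons 962 n2932 .nil)
noncomputable def n2934 : Strat := .move 838 n254 (.cons 962 n2832 .nil)
noncomputable def n2935 : Strat := .move 963 n2815 (.cons 964 n2814 .nil)
noncomputable def n2936 : Strat := .move 1004 n2817 (.cons 1005 n2935 .nil)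
noncomputable def n2937 : Strat := .move 1001 n233 (.cons 1042 n2936 .nil)
noncomputable def n2938 : Strat := .move 1002 n255 (.cons 1044 n2937 .nil)
noncomputable def n2939 : Strat := .move 961 n2933 (.cons 837 n2934 (.cons 838 n2938 (.cons 962 n2851 .nil)))
noncomputable def n2940 : Strat := .move 923 n2698 (.cons 964 n50 .nil)
noncomputable def n2941 : Strat := .win 1004 2 960
noncomputable def n2942 : Strat := .move 960 n2941 (.cons 1004 n105 .nil)
noncomputable def n2943 : Strat := .move 1005 n2940 (.cons 924 n2942 .nil)
noncomputable def n2944 : Strat := .move 1002 n255 (.cons 1044 n2943 .nil)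
noncomputable def n2945 : Strat := .move 961 n254 (.cons 962 n2944 .nil)
noncomputable def n2946 : Strat := .move 838 n55 (.cons 837 n2945 .nil)
noncomputable def n2947 : Strat := .move 882 n57 (.cons 919 n2946 .nil)
noncomputable def n2948 : Strat := .move 838 n55 (.cons 837 n254 .nil)
noncomputable def n2949 : Strat := .win 1004 4 1001
noncomputable def n2950 : Strat := .move 1043 n2949 (.cons 1004 n425 .nil)
noncomputable def n2951 : Strat := .move 1005 n2940 (.cons 924 n2950 .nil)
noncomputable def n2952 : Strat := .move 1042 n424 (.cons 1001 n2951 .nil)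
noncomputable def n2953 : Strat := .move 1002 n255 (.cons 1044 n2952 .nil)
noncomputable def n2954 : Strat := .move 961 n2948 (.cons 837 n2842 (.cons 962 n2953 .nil))
noncomputable def n2955 : Strat := .move 882 n57 (.cons 919 n2954 .nil)
noncomputable def n2956 : Strat := .win 961 6 838
noncomputable def n2957 : Strat := .move 838 n55 (.cons 837 n2956 .nil)
noncomputable def n2958 : Strat := .win 960 0 960
noncomputable def n2959 : Strat := .win 1006 2 961
noncomputable def n2960 : Strat := .move 1004 n2958 (.cons 960 n2959 .nil)
noncomputable def n2961 : Strat := .move 1005 n2940 (.cons 924 n2960 .nil)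
noncomputable def n2962 : Strat := .move 963 n2172 (.cons 922 n2961 .nil)
noncomputable def n2963 : Strat := .move 961 n846 (.cons 838 n2962 .nil)
noncomputable def n2964 : Strat := .move 843 n309 (.cons 844 n308 .nil)
noncomputable def n2965 : Strat := .win 963 1 839
noncomputable def n2966 : Strat := .move 922 n390 (.cons 885 n2965 .nil)
noncomputable def n2967 : Strat := .move 884 n2964 (.cons 842 n2966 .nil)
noncomputable def n2968 : Strat := .move 923 n50 (.cons 924 n2967 .nil)
noncomputable def n2969 : Strat := .win 927 0 882
noncomputable def n2970 : Strat := .win 925 0 881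
noncomputable def n2971 : Strat := .move 926 n2969 (.cons 927 n2970 .nil)
noncomputable def n2972 : Strat := .win 923 4 881
noncomputable def n2973 : Strat := .move 922 n2972 (.cons 923 n2965 .nil)
noncomputable def n2974 : Strat := .move 885 n2971 (.cons 925 n2973 .nil)
noncomputable def n2975 : Strat := .move 884 n2964 (.cons 842 n2974 .nil)
noncomputable def n2976 : Strat := .move 883 n64 (.cons 925 n2968 (.cons 923 n805 (.cons 924 n2975 .nil)))
noncomputable def n2977 : Strat := .move 962 n2957 (.cons 837 n2963 (.cons 838 n2976 .nil))
noncomputable def n2978 : Strat := .move 882 n57 (.cons 919 n2977 .nil)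
noncomputable def n2979 : Strat := .move 1004 n1101 (.cons 1045 n941 .nil)
noncomputable def n2980 : Strat := .move 963 n940 (.cons 962 n2979 .nil)
noncomputable def n2981 : Strat := .move 923 n50 (.cons 924 n2980 .nil)
noncomputable def n2982 : Strat := .move 1004 n942 (.cons 1046 n941 .nil)
noncomputable def n2983 : Strat := .move 963 n940 (.cons 962 n2982 .nil)
noncomputable def n2984 : Strat := .move 1005 n2698 (.cons 964 n2983 .nil)
noncomputable def n2985 : Strat := .move 923 n50 (.cons 924 n2984 .nil)
noncomputable def n2986 : Strat := .move 1005 n943 (.cons 964 n2982 .nil)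
noncomputable def n2987 : Strat := .move 963 n940 (.cons 962 n2986 .nil)
noncomputable def n2988 : Strat := .move 963 n940 (.cons 962 n2705 .nil)
noncomputable def n2989 : Strat := .move 1005 n2698 (.cons 964 n2988 .nil)
noncomputable def n2990 : Strat := .move 923 n50 (.cons 924 n2989 .nil)
noncomputable def n2991 : Strat := .move 884 n309 (.cons 844 n390 .nil)
noncomputable def n2992 : Strat := .move 843 n308 (.cons 842 n2991 .nil)
noncomputable def n2993 : Strat := .move 923 n50 (.cons 924 n2992 .nil)
noncomputable def n2994 : Strat := .move 885 n2972 (.cons 923 n2971 .nil)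
noncomputable def n2995 : Strat := .move 884 n2964 (.cons 842 n2994 .nil)
noncomputable def n2996 : Strat := .move 883 n64 (.cons 925 n2993 (.cons 923 n805 (.cons 924 n2995 .nil)))
noncomputable def n2997 : Strat := .move 922 n2981 (.cons 1045 n2985 (.cons 923 n2987 (.cons 1044 n2990 (.cons 1004 n2996 .nil))))
noncomputable def n2998 : Strat := .move 882 n57 (.cons 919 n2997 .nil)
noncomputable def n2999 : Strat := .win 1043 4 1001
noncomputable def n3000 : Strat := .win 960 2 960
noncomputable def n3001 : Strat := .move 1004 n2999 (.cons 1043 n3000 .nil)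
noncomputable def n3002 : Strat := .move 1005 n3001 (.cons 960 n2950 (.cons 1043 n2940 .nil))
noncomputable def n3003 : Strat := .move 882 n57 (.cons 919 n3002 .nil)
noncomputable def n3004 : Strat := .move 1042 n424 (.cons 1001 n3003 .nil)
noncomputable def n3005 : Strat := .move 1002 n255 (.cons 1044 n3004 .nil)
noncomputable def n3006 : Strat := .move 1001 n233 (.cons 1042 n437 .nil)
noncomputable def n3007 : Strat := .move 1002 n255 (.cons 1044 n3006 .nil)
noncomputable def n3008 : Strat := .move 882 n57 (.cons 919 n2953 .nil)
noncomputable def n3009 : Strat := .move 838 n55 (.cons 837 n2944 .nil)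
noncomputable def n3010 : Strat := .move 882 n57 (.cons 919 n3009 .nil)
noncomputable def n3011 : Strat := .move 838 n55 (.cons 837 n256 .nil)
noncomputable def n3012 : Strat := .move 1002 n255 (.cons 1044 n3011 .nil)
noncomputable def n3013 : Strat := .move 882 n57 (.cons 919 n3012 .nil)
noncomputable def n3014 : Strat := .move 882 n55 (.cons 837 n57 .nil)
noncomputable def n3015 : Strat := .move 797 n444 (.cons 919 n2856 .nil)
noncomputable def n3016 : Strat := .move 960 n105 (.cons 1001 n3015 .nil)
noncomputable def n3017 : Strat := .move 919 n21 (.cons 882 n1061 .nil)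
noncomputable def n3018 : Strat := .move 838 n3014 (.cons 919 n2932 (.cons 882 n3016 (.cons 837 n3017 .nil)))
noncomputable def n3019 : Strat := .win 965 5 961
noncomputable def n3020 : Strat := .move 964 n2362 (.cons 923 n3019 .nil)
noncomputable def n3021 : Strat := .move 882 n57 (.cons 919 n3020 .nil)
noncomputable def n3022 : Strat := .move 1004 n3000 (.cons 960 n3021 .nil)
noncomputable def n3023 : Strat := .move 882 n57 (.cons 919 n2940 .nil)
noncomputable def n3024 : Strat := .win 1048 0 1003
noncomputable def n3025 : Strat := .win 1046 0 1002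
noncomputable def n3026 : Strat := .move 1047 n3024 (.cons 1048 n3025 .nil)
noncomputable def n3027 : Strat := .win 966 5 962
noncomputable def n3028 : Strat := .win 964 5 961
noncomputable def n3029 : Strat := .move 965 n3027 (.cons 966 n3028 .nil)
noncomputable def n3030 : Strat := .move 1006 n3026 (.cons 1046 n3029 .nil)
noncomputable def n3031 : Strat := .move 1004 n3000 (.cons 960 n3030 .nil)
noncomputable def n3032 : Strat := .move 882 n57 (.cons 919 n55 .nil)
noncomputable def n3033 : Strat := .move 960 n132 (.cons 797 n2941 .nil)
noncomputable def n3034 : Strat := .move 919 n21 (.cons 882 n3033 .nil)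
noncomputable def n3035 : Strat := .move 837 n227 (.cons 796 n35 .nil)
noncomputable def n3036 : Strat := .move 960 n444 (.cons 919 n2941 .nil)
noncomputable def n3037 : Strat := .move 797 n3036 (.cons 1004 n2856 .nil)
noncomputable def n3038 : Strat := .move 838 n3032 (.cons 837 n3034 (.cons 919 n3035 (.cons 882 n3037 .nil)))
noncomputable def n3039 : Strat := .move 1005 n3022 (.cons 965 n3023 (.cons 882 n3031 (.cons 964 n3038 .nil)))
noncomputable def n3040 : Strat := .move 1002 n255 (.cons 1044 n3039 .nil)
noncomputable def n3041 : Strat := .move 961 n2851 (.cons 838 n3005 (.cons 1005 n3007 (.cons 960 n3008 (.cons 1042 n3010 (.cons 1004 n3013 (.cons 1002 n3018 (.cons 1001 n3040 .nil)))))))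
noncomputable def n3042 : Strat := .move 1003 n2930 (.cons 882 n2931 (.cons 919 n2939 (.cons 1042 n2947 (.cons 960 n2955 (.cons 1002 n2978 (.cons 961 n2998 (.cons 962 n3041 .nil)))))))
noncomputable def n3043 : Strat := .move 920 n2769 (.cons 962 n453 (.cons 883 n582 (.cons 882 n2895 (.cons 919 n2927 (.cons 921 n3042 .nil)))))
noncomputable def n3044 : Strat := .move 879 n34 (.cons 882 n2726 (.cons 921 n2732 (.cons 923 n782 (.cons 919 n2744 (.cons 920 n2745 (.cons 922 n262 (.cons 837 n2760 (.cons 838 n2764 (.cons 918 n2768 (.cons 836 n998 (.cons 878 n3043 .nil)))))))))))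
noncomputable def n3045 : Strat := .move 878 n827 (.cons 839 n666 (.cons 838 n4 .nil))
noncomputable def n3046 : Strat := .move 878 n15 (.cons 839 n2731 (.cons 837 n4 .nil))
noncomputable def n3047 : Strat := .move 878 n542 (.cons 798 n4 (.cons 839 n53 .nil))
noncomputable def n3048 : Strat := .move 878 n1349 (.cons 839 n154 (.cons 838 n15 (.cons 836 n542 .nil)))
noncomputable def n3049 : Strat := .move 882 n57 (.cons 919 n313 .nil)
noncomputable def n3050 : Strat := .move 1002 n94 (.cons 839 n2821 .nil)
noncomputable def n3051 : Strat := .move 961 n423 (.cons 839 n2852 (.cons 1002 n451 (.cons 838 n3050 .nil)))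
noncomputable def n3052 : Strat := .move 882 n55 (.cons 837 n455 .nil)
noncomputable def n3053 : Strat := .move 796 n298 (.cons 961 n297 .nil)
noncomputable def n3054 : Strat := .move 837 n295 (.cons 836 n3053 .nil)
noncomputable def n3055 : Strat := .move 798 n323 (.cons 757 n646 .nil)
noncomputable def n3056 : Strat := .move 839 n454 (.cons 798 n3054 (.cons 961 n3055 .nil))
noncomputable def n3057 : Strat := .move 839 n188 (.cons 961 n596 .nil)
noncomputable def n3058 : Strat := .move 798 n102 (.cons 757 n3057 .nil)
noncomputable def n3059 : Strat := .move 839 n188 (.cons 961 n527 .nil)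
noncomputable def n3060 : Strat := .move 798 n102 (.cons 757 n3059 .nil)
noncomputable def n3061 : Strat := .move 756 n463 (.cons 714 n2673 .nil)
noncomputable def n3062 : Strat := .move 755 n462 (.cons 796 n3061 .nil)
noncomputable def n3063 : Strat := .move 839 n467 (.cons 715 n490 .nil)
noncomputable def n3064 : Strat := .move 756 n463 (.cons 714 n3063 .nil)
noncomputable def n3065 : Strat := .move 755 n462 (.cons 796 n3064 .nil)
noncomputable def n3066 : Strat := .move 961 n447 (.cons 839 n2915 .nil)
noncomputable def n3067 : Strat := .move 798 n102 (.cons 757 n3066 .nil)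
noncomputable def n3068 : Strat := .move 797 n3058 (.cons 839 n2905 (.cons 756 n3060 (.cons 798 n3062 (.cons 757 n3065 (.cons 755 n3067 .nil)))))
noncomputable def n3069 : Strat := .move 838 n3052 (.cons 839 n2920 (.cons 882 n3056 (.cons 961 n1278 (.cons 837 n3068 .nil))))
noncomputable def n3070 : Strat := .move 920 n457 (.cons 839 n3042 (.cons 838 n3049 (.cons 883 n650 (.cons 882 n3051 (.cons 919 n3069 .nil)))))
noncomputable def n3071 : Strat := .move 879 n3045 (.cons 882 n3046 (.cons 839 n2732 (.cons 837 n3047 (.cons 919 n3048 (.cons 920 n668 (.cons 878 n3070 .nil))))))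
noncomputable def n3072 : Strat := .move 758 n2443 (.cons 717 n2444 .nil)
noncomputable def n3073 : Strat := .move 796 n189 (.cons 795 n3072 .nil)
noncomputable def n3074 : Strat := .move 797 n333 (.cons 921 n3073 .nil)
noncomputable def n3075 : Strat := .move 756 n334 (.cons 715 n3074 .nil)
noncomputable def n3076 : Strat := .move 757 n321 (.cons 716 n3075 .nil)
noncomputable def n3077 : Strat := .move 921 n23 (.cons 1003 n608 .nil)
noncomputable def n3078 : Strat := .move 921 n23 (.cons 1003 n1601 .nil)
noncomputable def n3079 : Strat := .move 921 n608 (.cons 1004 n1601 .nil)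
noncomputable def n3080 : Strat := .move 964 n1460 (.cons 961 n69 .nil)
noncomputable def n3081 : Strat := .move 923 n1135 (.cons 879 n3080 .nil)
noncomputable def n3082 : Strat := .move 924 n63 (.cons 925 n3081 .nil)
noncomputable def n3083 : Strat := .move 883 n272 (.cons 884 n3082 .nil)
noncomputable def n3084 : Strat := .move 924 n1460 (.cons 961 n1135 .nil)
noncomputable def n3085 : Strat := .move 923 n69 (.cons 1005 n3084 .nil)
noncomputable def n3086 : Strat := .move 1007 n2497 (.cons 1004 n2496 .nil)
noncomputable def n3087 : Strat := .move 1006 n2339 (.cons 961 n3086 .nil)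
noncomputable def n3088 : Strat := .move 1005 n2362 (.cons 923 n3087 .nil)
noncomputable def n3089 : Strat := .move 1003 n2193 (.cons 1004 n2192 .nil)
noncomputable def n3090 : Strat := .move 966 n1445 (.cons 1006 n3089 .nil)
noncomputable def n3091 : Strat := .move 961 n2289 (.cons 1005 n2693 .nil)
noncomputable def n3092 : Strat := .move 966 n3089 (.cons 1002 n1482 .nil)
noncomputable def n3093 : Strat := .move 965 n3090 (.cons 966 n3091 (.cons 1002 n1483 (.cons 1006 n3092 .nil)))
noncomputable def n3094 : Strat := .move 923 n1460 (.cons 961 n1135 .nil)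
noncomputable def n3095 : Strat := .move 924 n1377 (.cons 925 n3094 .nil)
noncomputable def n3096 : Strat := .move 965 n3095 (.cons 924 n3090 .nil)
noncomputable def n3097 : Strat := .move 878 n6 (.cons 836 n263 .nil)
noncomputable def n3098 : Strat := .move 879 n1012 (.cons 924 n3097 .nil)
noncomputable def n3099 : Strat := .move 837 n1214 (.cons 838 n3098 .nil)
noncomputable def n3100 : Strat := .move 964 n3085 (.cons 924 n3088 (.cons 923 n3093 (.cons 1005 n3096 (.cons 961 n3099 .nil))))
noncomputable def n3101 : Strat := .move 882 n413 (.cons 838 n3083 (.cons 883 n3100 .nil))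
noncomputable def n3102 : Strat := .move 962 n3077 (.cons 1004 n3078 (.cons 1003 n3079 (.cons 921 n3101 .nil)))
noncomputable def n3103 : Strat := .move 963 n616 (.cons 922 n3102 .nil)
noncomputable def n3104 : Strat := .move 798 n555 (.cons 922 n3076 (.cons 757 n3103 .nil))
noncomputable def n3105 : Strat := .move 883 n272 (.cons 884 n1141 .nil)
noncomputable def n3106 : Strat := .move 883 n271 (.cons 838 n1141 .nil)
noncomputable def n3107 : Strat := .move 921 n23 (.cons 1003 n556 .nil)
noncomputable def n3108 : Strat := .win 926 2 881
noncomputable def n3109 : Strat := .move 925 n3108 (.cons 926 n2262 .nil)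
noncomputable def n3110 : Strat := .move 924 n1135 (.cons 879 n3109 .nil)
noncomputable def n3111 : Strat := .move 923 n69 (.cons 1005 n3110 .nil)
noncomputable def n3112 : Strat := .move 964 n3085 (.cons 879 n3088 (.cons 923 n3093 (.cons 1005 n3096 (.cons 961 n3111 .nil))))
noncomputable def n3113 : Strat := .move 921 n556 (.cons 797 n608 .nil)
noncomputable def n3114 : Strat := .move 962 n3107 (.cons 797 n3077 (.cons 921 n3112 (.cons 1003 n3113 .nil)))
noncomputable def n3115 : Strat := .move 879 n68 (.cons 878 n50 .nil)
noncomputable def n3116 : Strat := .move 961 n1440 (.cons 960 n109 .nil)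
noncomputable def n3117 : Strat := .move 921 n556 (.cons 797 n3116 .nil)
noncomputable def n3118 : Strat := .move 923 n3115 (.cons 924 n3117 .nil)
noncomputable def n3119 : Strat := .move 962 n947 (.cons 1003 n3118 .nil)
noncomputable def n3120 : Strat := .move 922 n543 (.cons 798 n3119 .nil)
noncomputable def n3121 : Strat := .move 963 n2391 (.cons 922 n3114 (.cons 1004 n3120 .nil))
noncomputable def n3122 : Strat := .move 838 n411 (.cons 837 n3121 .nil)
noncomputable def n3123 : Strat := .move 882 n1006 (.cons 838 n3105 (.cons 884 n3106 (.cons 883 n3122 .nil)))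
noncomputable def n3124 : Strat := .move 757 n516 (.cons 922 n3075 .nil)
noncomputable def n3125 : Strat := .move 838 n295 (.cons 836 n264 .nil)
noncomputable def n3126 : Strat := .move 879 n263 (.cons 877 n17 .nil)
noncomputable def n3127 : Strat := .move 879 n263 (.cons 877 n6 .nil)
noncomputable def n3128 : Strat := .win 919 3 755
noncomputable def n3129 : Strat := .move 756 n3128 (.cons 919 n333 .nil)
noncomputable def n3130 : Strat := .move 797 n189 (.cons 795 n3129 .nil)
noncomputable def n3131 : Strat := .win 919 7 754
noncomputable def n3132 : Strat := .win 672 6 672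
noncomputable def n3133 : Strat := .win 755 7 713
noncomputable def n3134 : Strat := .move 713 n3132 (.cons 672 n3133 .nil)
noncomputable def n3135 : Strat := .move 754 n3131 (.cons 919 n3134 .nil)
noncomputable def n3136 : Strat := .move 795 n1756 (.cons 797 n3135 .nil)
noncomputable def n3137 : Strat := .win 836 1 713
noncomputable def n3138 : Strat := .move 877 n3137 (.cons 836 n317 .nil)
noncomputable def n3139 : Strat := .move 714 n3138 (.cons 918 n2116 .nil)
noncomputable def n3140 : Strat := .move 918 n1728 (.cons 959 n1729 .nil)
noncomputable def n3141 : Strat := .move 919 n3140 (.cons 877 n2019 .nil)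
noncomputable def n3142 : Strat := .move 714 n2116 (.cons 756 n347 .nil)
noncomputable def n3143 : Strat := .move 755 n3139 (.cons 714 n3141 (.cons 918 n3142 .nil))
noncomputable def n3144 : Strat := .move 797 n3128 (.cons 919 n333 .nil)
noncomputable def n3145 : Strat := .move 756 n175 (.cons 715 n3144 .nil)
noncomputable def n3146 : Strat := .move 714 n3138 (.cons 918 n347 .nil)
noncomputable def n3147 : Strat := .move 755 n3145 (.cons 756 n3146 .nil)
noncomputable def n3148 : Strat := .win 674 1 673
noncomputable def n3149 : Strat := .win 755 3 714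
noncomputable def n3150 : Strat := .move 715 n3148 (.cons 674 n3149 .nil)
noncomputable def n3151 : Strat := .move 756 n333 (.cons 921 n3150 .nil)
noncomputable def n3152 : Strat := .move 797 n189 (.cons 795 n3151 .nil)
noncomputable def n3153 : Strat := .move 796 n3130 (.cons 921 n3136 (.cons 797 n3143 (.cons 795 n3147 (.cons 919 n3152 .nil))))
noncomputable def n3154 : Strat := .move 879 n17 (.cons 923 n6 .nil)
noncomputable def n3155 : Strat := .move 878 n3126 (.cons 923 n3127 (.cons 879 n3153 (.cons 877 n3154 .nil)))
noncomputable def n3156 : Strat := .move 756 n746 (.cons 715 n333 .nil)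
noncomputable def n3157 : Strat := .move 879 n747 (.cons 919 n17 .nil)
noncomputable def n3158 : Strat := .move 756 n746 (.cons 715 n3157 .nil)
noncomputable def n3159 : Strat := .move 921 n704 (.cons 962 n327 .nil)
noncomputable def n3160 : Strat := .move 919 n5 (.cons 918 n37 .nil)
noncomputable def n3161 : Strat := .move 879 n17 (.cons 923 n3160 .nil)
noncomputable def n3162 : Strat := .move 797 n3156 (.cons 921 n3158 (.cons 715 n3159 (.cons 756 n3161 .nil)))
noncomputable def n3163 : Strat := .move 878 n296 (.cons 877 n3162 .nil)
noncomputable def n3164 : Strat := .move 838 n264 (.cons 882 n3163 .nil)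
noncomputable def n3165 : Strat := .move 837 n3125 (.cons 838 n3155 (.cons 836 n3164 .nil))
noncomputable def n3166 : Strat := .move 922 n507 (.cons 963 n3165 .nil)
noncomputable def n3167 : Strat := .move 798 n1604 (.cons 922 n3076 (.cons 716 n3124 (.cons 757 n3166 .nil)))
noncomputable def n3168 : Strat := .move 796 n189 (.cons 795 n2444 .nil)
noncomputable def n3169 : Strat := .move 758 n2443 (.cons 717 n3168 .nil)
noncomputable def n3170 : Strat := .move 797 n333 (.cons 921 n3169 .nil)
noncomputable def n3171 : Strat := .move 756 n334 (.cons 715 n3170 .nil)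
noncomputable def n3172 : Strat := .move 757 n321 (.cons 716 n3171 .nil)
noncomputable def n3173 : Strat := .move 757 n516 (.cons 922 n3171 .nil)
noncomputable def n3174 : Strat := .move 883 n271 (.cons 838 n3082 .nil)
noncomputable def n3175 : Strat := .move 964 n3085 (.cons 923 n3093 (.cons 1005 n3096 (.cons 961 n3111 (.cons 924 n3088 .nil))))
noncomputable def n3176 : Strat := .move 882 n1006 (.cons 884 n3174 (.cons 838 n3083 (.cons 883 n3175 .nil)))
noncomputable def n3177 : Strat := .move 962 n3077 (.cons 1003 n3079 (.cons 1004 n3078 (.cons 921 n3176 .nil)))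
noncomputable def n3178 : Strat := .move 963 n616 (.cons 922 n3177 .nil)
noncomputable def n3179 : Strat := .move 798 n1604 (.cons 922 n3172 (.cons 716 n3173 (.cons 757 n3178 .nil)))
noncomputable def n3180 : Strat := .move 883 n272 (.cons 884 n2590 .nil)
noncomputable def n3181 : Strat := .move 883 n271 (.cons 838 n2590 .nil)
noncomputable def n3182 : Strat := .move 923 n50 (.cons 924 n49 .nil)
noncomputable def n3183 : Strat := .move 879 n6 (.cons 836 n3182 .nil)
noncomputable def n3184 : Strat := .move 879 n263 (.cons 877 n3182 .nil)
noncomputable def n3185 : Strat := .move 796 n3128 (.cons 919 n189 .nil)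
noncomputable def n3186 : Strat := .move 797 n333 (.cons 921 n3185 .nil)
noncomputable def n3187 : Strat := .move 756 n334 (.cons 715 n3186 .nil)
noncomputable def n3188 : Strat := .move 757 n516 (.cons 922 n3187 .nil)
noncomputable def n3189 : Strat := .move 757 n321 (.cons 716 n3187 .nil)
noncomputable def n3190 : Strat := .move 796 n3130 (.cons 797 n3143 (.cons 795 n3147 (.cons 919 n3152 (.cons 756 n3136 .nil))))
noncomputable def n3191 : Strat := .move 798 n1604 (.cons 716 n3188 (.cons 922 n3189 (.cons 757 n3190 .nil)))
noncomputable def n3192 : Strat := .move 878 n3127 (.cons 877 n3183 (.cons 836 n3184 (.cons 879 n3191 .nil)))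
noncomputable def n3193 : Strat := .move 837 n1214 (.cons 838 n3192 .nil)
noncomputable def n3194 : Strat := .move 882 n1006 (.cons 838 n3180 (.cons 884 n3181 (.cons 883 n3193 .nil)))
noncomputable def n3195 : Strat := .move 923 n1440 (.cons 960 n2147 .nil)
noncomputable def n3196 : Strat := .move 923 n1440 (.cons 960 n1574 .nil)
noncomputable def n3197 : Strat := .move 924 n2207 (.cons 923 n1574 .nil)
noncomputable def n3198 : Strat := .move 1002 n1527 (.cons 921 n1383 .nil)
noncomputable def n3199 : Strat := .move 961 n3195 (.cons 924 n3196 (.cons 960 n3197 (.cons 923 n3198 .nil)))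
noncomputable def n3200 : Strat := .move 964 n546 (.cons 1005 n3199 .nil)
noncomputable def n3201 : Strat := .move 962 n947 (.cons 1003 n3200 .nil)
noncomputable def n3202 : Strat := .move 922 n544 (.cons 1004 n3201 .nil)
noncomputable def n3203 : Strat := .move 922 n543 (.cons 798 n3201 .nil)
noncomputable def n3204 : Strat := .move 838 n411 (.cons 837 n3107 .nil)
noncomputable def n3205 : Strat := .move 921 n608 (.cons 1004 n556 .nil)
noncomputable def n3206 : Strat := .move 838 n411 (.cons 837 n3205 .nil)
noncomputable def n3207 : Strat := .win 1047 7 882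
noncomputable def n3208 : Strat := .move 1006 n3207 (.cons 1047 n1504 .nil)
noncomputable def n3209 : Strat := .move 924 n1377 (.cons 925 n3208 .nil)
noncomputable def n3210 : Strat := .move 965 n3209 (.cons 924 n3090 (.cons 1007 n3092 .nil))
noncomputable def n3211 : Strat := .move 923 n69 (.cons 1005 n3210 .nil)
noncomputable def n3212 : Strat := .move 924 n1460 (.cons 961 n3109 .nil)
noncomputable def n3213 : Strat := .move 923 n69 (.cons 1005 n3212 .nil)
noncomputable def n3214 : Strat := .move 924 n1377 (.cons 925 n2207 .nil)
noncomputable def n3215 : Strat := .move 961 n2693 (.cons 1001 n3214 .nil)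
noncomputable def n3216 : Strat := .move 965 n3090 (.cons 966 n3215 (.cons 1002 n1483 .nil))
noncomputable def n3217 : Strat := .move 838 n411 (.cons 837 n3216 .nil)
noncomputable def n3218 : Strat := .move 838 n411 (.cons 837 n3093 .nil)
noncomputable def n3219 : Strat := .move 1005 n2362 (.cons 923 n2474 .nil)
noncomputable def n3220 : Strat := .move 964 n3088 (.cons 961 n3211 (.cons 1004 n3213 (.cons 1005 n3217 (.cons 923 n3218 (.cons 965 n3219 .nil)))))
noncomputable def n3221 : Strat := .move 962 n3077 (.cons 1004 n3204 (.cons 1003 n3206 (.cons 921 n3220 .nil)))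
noncomputable def n3222 : Strat := .move 923 n1460 (.cons 961 n69 .nil)
noncomputable def n3223 : Strat := .move 921 n109 (.cons 1002 n23 .nil)
noncomputable def n3224 : Strat := .move 961 n2207 (.cons 923 n3223 .nil)
noncomputable def n3225 : Strat := .move 923 n1137 (.cons 801 n2586 .nil)
noncomputable def n3226 : Strat := .move 842 n1136 (.cons 843 n3225 .nil)
noncomputable def n3227 : Strat := .move 842 n2376 (.cons 1005 n1136 .nil)
noncomputable def n3228 : Strat := .move 1003 n2192 (.cons 1002 n845 .nil)
noncomputable def n3229 : Strat := .move 965 n3227 (.cons 843 n3228 .nil)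
noncomputable def n3230 : Strat := .move 964 n3222 (.cons 1005 n3224 (.cons 961 n3226 (.cons 923 n3229 .nil)))
noncomputable def n3231 : Strat := .move 924 n63 (.cons 925 n3230 .nil)
noncomputable def n3232 : Strat := .move 883 n272 (.cons 884 n3231 .nil)
noncomputable def n3233 : Strat := .move 842 n1137 (.cons 801 n1136 .nil)
noncomputable def n3234 : Strat := .move 924 n63 (.cons 925 n3233 .nil)
noncomputable def n3235 : Strat := .move 923 n69 (.cons 1005 n3234 .nil)
noncomputable def n3236 : Strat := .move 883 n272 (.cons 884 n3235 .nil)
noncomputable def n3237 : Strat := .win 883 2 839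
noncomputable def n3238 : Strat := .move 884 n3237 (.cons 883 n3093 .nil)
noncomputable def n3239 : Strat := .move 923 n1137 (.cons 801 n1460 .nil)
noncomputable def n3240 : Strat := .move 842 n1136 (.cons 843 n3239 .nil)
noncomputable def n3241 : Strat := .move 924 n63 (.cons 925 n3240 .nil)
noncomputable def n3242 : Strat := .move 883 n272 (.cons 884 n3241 .nil)
noncomputable def n3243 : Strat := .move 964 n3088 (.cons 961 n3236 (.cons 923 n3238 (.cons 1005 n3242 .nil)))
noncomputable def n3244 : Strat := .move 921 n608 (.cons 1004 n109 .nil)
noncomputable def n3245 : Strat := .move 964 n1383 (.cons 1001 n2682 .nil)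
noncomputable def n3246 : Strat := .move 1002 n1527 (.cons 921 n3245 .nil)
noncomputable def n3247 : Strat := .move 964 n1607 (.cons 1006 n2362 .nil)
noncomputable def n3248 : Strat := .move 1005 n1876 (.cons 1004 n3247 .nil)
noncomputable def n3249 : Strat := .win 919 2 918
noncomputable def n3250 : Strat := .move 918 n1827 (.cons 917 n3249 .nil)
noncomputable def n3251 : Strat := .win 1001 4 959
noncomputable def n3252 : Strat := .move 1000 n1839 (.cons 999 n3251 .nil)
noncomputable def n3253 : Strat := .move 959 n3250 (.cons 919 n3252 .nil)
noncomputable def n3254 : Strat := .move 960 n3248 (.cons 1005 n3253 .nil)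
noncomputable def n3255 : Strat := .move 961 n3244 (.cons 1004 n3246 (.cons 921 n3254 .nil))
noncomputable def n3256 : Strat := .move 884 n3237 (.cons 883 n3255 .nil)
noncomputable def n3257 : Strat := .move 962 n3077 (.cons 1004 n3232 (.cons 921 n3243 (.cons 1003 n3256 .nil)))
noncomputable def n3258 : Strat := .move 882 n1006 (.cons 884 n413 (.cons 883 n3221 (.cons 838 n3257 .nil)))
noncomputable def n3259 : Strat := .move 963 n2391 (.cons 798 n3202 (.cons 1004 n3203 (.cons 922 n3258 .nil)))
noncomputable def n3260 : Strat := .move 918 n1728 (.cons 959 n2037 .nil)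
noncomputable def n3261 : Strat := .move 797 n37 (.cons 960 n3260 .nil)
noncomputable def n3262 : Strat := .move 756 n174 (.cons 797 n3260 .nil)
noncomputable def n3263 : Strat := .move 918 n2037 (.cons 879 n1728 .nil)
noncomputable def n3264 : Strat := .move 919 n1697 (.cons 756 n3261 (.cons 960 n3262 (.cons 797 n3263 .nil)))
noncomputable def n3265 : Strat := .move 796 n297 (.cons 795 n3264 .nil)
noncomputable def n3266 : Strat := .move 878 n296 (.cons 877 n3265 .nil)
noncomputable def n3267 : Strat := .move 838 n295 (.cons 836 n3266 .nil)
noncomputable def n3268 : Strat := .move 838 n264 (.cons 882 n3266 .nil)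
noncomputable def n3269 : Strat := .move 922 n507 (.cons 963 n3126 .nil)
noncomputable def n3270 : Strat := .move 879 n6 (.cons 836 n17 .nil)
noncomputable def n3271 : Strat := .move 922 n507 (.cons 963 n3270 .nil)
noncomputable def n3272 : Strat := .win 753 0 753
noncomputable def n3273 : Strat := .move 754 n3272 (.cons 753 n1331 .nil)
noncomputable def n3274 : Strat := .move 756 n175 (.cons 715 n3273 .nil)
noncomputable def n3275 : Strat := .move 755 n3274 (.cons 756 n3146 (.cons 713 n3139 .nil))
noncomputable def n3276 : Strat := .move 797 n189 (.cons 795 n3275 .nil)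
noncomputable def n3277 : Strat := .move 919 n3140 (.cons 877 n176 .nil)
noncomputable def n3278 : Strat := .move 755 n3139 (.cons 714 n3277 (.cons 756 n3146 (.cons 918 n3142 .nil)))
noncomputable def n3279 : Strat := .move 922 n507 (.cons 963 n3278 .nil)
noncomputable def n3280 : Strat := .move 922 n507 (.cons 963 n3143 .nil)
noncomputable def n3281 : Strat := .move 919 n364 (.cons 754 n1710 .nil)
noncomputable def n3282 : Strat := .move 795 n1756 (.cons 797 n3281 .nil)
noncomputable def n3283 : Strat := .move 756 n3128 (.cons 919 n3150 .nil)
noncomputable def n3284 : Strat := .move 797 n189 (.cons 795 n3283 .nil)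
noncomputable def n3285 : Strat := .move 796 n3136 (.cons 919 n3276 (.cons 795 n3279 (.cons 797 n3280 (.cons 755 n3282 (.cons 754 n3284 .nil)))))
noncomputable def n3286 : Strat := .move 878 n3127 (.cons 836 n3269 (.cons 877 n3271 (.cons 879 n3285 .nil)))
noncomputable def n3287 : Strat := .move 797 n3128 (.cons 919 n189 .nil)
noncomputable def n3288 : Strat := .move 879 n5 (.cons 918 n263 .nil)
noncomputable def n3289 : Strat := .move 919 n174 (.cons 797 n3288 .nil)
noncomputable def n3290 : Strat := .win 755 4 754
noncomputable def n3291 : Strat := .move 795 n3290 (.cons 755 n1756 .nil)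
noncomputable def n3292 : Strat := .move 758 n2443 (.cons 717 n3291 .nil)
noncomputable def n3293 : Strat := .move 877 n317 (.cons 918 n2155 .nil)
noncomputable def n3294 : Strat := .win 795 4 754
noncomputable def n3295 : Strat := .move 758 n3294 (.cons 795 n2443 .nil)
noncomputable def n3296 : Strat := .move 755 n3293 (.cons 879 n3295 .nil)
noncomputable def n3297 : Strat := .move 796 n3287 (.cons 795 n3289 (.cons 919 n3292 (.cons 797 n3296 .nil)))
noncomputable def n3298 : Strat := .move 756 n334 (.cons 715 n3297 .nil)
noncomputable def n3299 : Strat := .move 757 n321 (.cons 716 n3298 .nil)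
noncomputable def n3300 : Strat := .move 756 n334 (.cons 715 n2615 .nil)
noncomputable def n3301 : Strat := .move 797 n189 (.cons 795 n3300 .nil)
noncomputable def n3302 : Strat := .move 757 n321 (.cons 716 n3301 .nil)
noncomputable def n3303 : Strat := .win 757 6 716
noncomputable def n3304 : Strat := .move 716 n3303 (.cons 757 n3143 .nil)
noncomputable def n3305 : Strat := .move 797 n2444 (.cons 759 n3128 .nil)
noncomputable def n3306 : Strat := .move 758 n2443 (.cons 717 n3305 .nil)
noncomputable def n3307 : Strat := .move 756 n334 (.cons 715 n3306 .nil)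
noncomputable def n3308 : Strat := .move 757 n321 (.cons 716 n3307 .nil)
noncomputable def n3309 : Strat := .move 796 n3136 (.cons 919 n3302 (.cons 797 n3304 (.cons 795 n3308 .nil)))
noncomputable def n3310 : Strat := .move 879 n6 (.cons 836 n5 .nil)
noncomputable def n3311 : Strat := .move 797 n135 (.cons 756 n189 .nil)
noncomputable def n3312 : Strat := .move 796 n1728 (.cons 959 n3311 .nil)
noncomputable def n3313 : Strat := .move 918 n2037 (.cons 879 n3312 .nil)
noncomputable def n3314 : Strat := .move 796 n364 (.cons 754 n1756 .nil)
noncomputable def n3315 : Strat := .move 795 n1707 (.cons 836 n3314 .nil)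
noncomputable def n3316 : Strat := .move 960 n3315 (.cons 795 n170 .nil)
noncomputable def n3317 : Strat := .move 919 n3310 (.cons 836 n3313 (.cons 879 n3316 .nil))
noncomputable def n3318 : Strat := .move 716 n3303 (.cons 757 n3317 .nil)
noncomputable def n3319 : Strat := .move 878 n3127 (.cons 836 n3299 (.cons 879 n3309 (.cons 877 n3318 .nil)))
noncomputable def n3320 : Strat := .move 798 n1604 (.cons 716 n555 (.cons 757 n3286 (.cons 922 n3319 .nil)))
noncomputable def n3321 : Strat := .move 837 n3125 (.cons 882 n3267 (.cons 836 n3268 (.cons 838 n3320 .nil)))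
noncomputable def n3322 : Strat := .move 922 n544 (.cons 1004 n1578 .nil)
noncomputable def n3323 : Strat := .move 922 n543 (.cons 798 n1578 .nil)
noncomputable def n3324 : Strat := .move 882 n1135 (.cons 879 n69 .nil)
noncomputable def n3325 : Strat := .move 923 n1460 (.cons 961 n3324 .nil)
noncomputable def n3326 : Strat := .move 924 n1377 (.cons 925 n3325 .nil)
noncomputable def n3327 : Strat := .move 882 n2362 (.cons 923 n272 .nil)
noncomputable def n3328 : Strat := .move 924 n2340 (.cons 1046 n2341 .nil)
noncomputable def n3329 : Strat := .move 883 n3327 (.cons 884 n3328 .nil)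
noncomputable def n3330 : Strat := .move 1005 n2339 (.cons 961 n3329 .nil)
noncomputable def n3331 : Strat := .move 1006 n1504 (.cons 1007 n3330 .nil)
noncomputable def n3332 : Strat := .move 882 n1135 (.cons 879 n3208 .nil)
noncomputable def n3333 : Strat := .move 923 n1460 (.cons 961 n3332 .nil)
noncomputable def n3334 : Strat := .move 924 n1377 (.cons 925 n3333 .nil)
noncomputable def n3335 : Strat := .win 882 2 839
noncomputable def n3336 : Strat := .move 884 n2373 (.cons 843 n3335 .nil)
noncomputable def n3337 : Strat := .move 883 n2371 (.cons 842 n3336 .nil)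
noncomputable def n3338 : Strat := .move 1006 n1504 (.cons 1007 n3337 .nil)
noncomputable def n3339 : Strat := .move 924 n1377 (.cons 925 n3338 .nil)
noncomputable def n3340 : Strat := .move 924 n1377 (.cons 925 n2469 .nil)
noncomputable def n3341 : Strat := .move 1006 n1504 (.cons 1007 n3340 .nil)
noncomputable def n3342 : Strat := .move 1003 n2192 (.cons 1002 n2208 .nil)
noncomputable def n3343 : Strat := .move 965 n3326 (.cons 925 n3331 (.cons 1005 n3334 (.cons 961 n3339 (.cons 882 n3341 (.cons 924 n3342 .nil)))))
noncomputable def n3344 : Strat := .move 966 n2193 (.cons 1004 n1482 .nil)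
noncomputable def n3345 : Strat := .move 1003 n2192 (.cons 1002 n3344 .nil)
noncomputable def n3346 : Strat := .move 965 n3339 (.cons 924 n3342 (.cons 1006 n3345 .nil))
noncomputable def n3347 : Strat := .move 961 n2207 (.cons 923 n2693 .nil)
noncomputable def n3348 : Strat := .move 924 n1377 (.cons 925 n3347 .nil)
noncomputable def n3349 : Strat := .move 965 n3334 (.cons 924 n3342 (.cons 1007 n3348 .nil))
noncomputable def n3350 : Strat := .move 961 n2288 (.cons 1005 n2693 .nil)
noncomputable def n3351 : Strat := .move 1006 n1504 (.cons 1007 n3350 .nil)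
noncomputable def n3352 : Strat := .move 965 n3341 (.cons 1006 n3348 (.cons 924 n3351 (.cons 961 n3342 .nil)))
noncomputable def n3353 : Strat := .move 961 n1607 (.cons 1006 n2147 .nil)
noncomputable def n3354 : Strat := .move 923 n2178 (.cons 882 n3353 .nil)
noncomputable def n3355 : Strat := .move 883 n272 (.cons 884 n2365 .nil)
noncomputable def n3356 : Strat := .move 882 n2362 (.cons 923 n3355 .nil)
noncomputable def n3357 : Strat := .move 1005 n2499 (.cons 965 n3354 (.cons 1006 n2477 (.cons 961 n3356 .nil)))
noncomputable def n3358 : Strat := .move 1002 n1383 (.cons 1001 n2293 .nil)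
noncomputable def n3359 : Strat := .move 1002 n1383 (.cons 1001 n2301 .nil)
noncomputable def n3360 : Strat := .move 965 n2300 (.cons 1003 n3214 .nil)
noncomputable def n3361 : Strat := .move 1002 n1383 (.cons 1001 n3360 .nil)
noncomputable def n3362 : Strat := .move 961 n2291 (.cons 925 n3358 (.cons 924 n3359 (.cons 1005 n3361 .nil)))
noncomputable def n3363 : Strat := .move 1002 n1383 (.cons 1001 n2356 .nil)
noncomputable def n3364 : Strat := .move 1005 n1607 (.cons 1006 n2473 .nil)
noncomputable def n3365 : Strat := .move 961 n2198 (.cons 1006 n3363 (.cons 924 n3364 .nil))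
noncomputable def n3366 : Strat := .move 879 n2179 (.cons 924 n2473 .nil)
noncomputable def n3367 : Strat := .move 961 n1607 (.cons 1006 n3366 .nil)
noncomputable def n3368 : Strat := .move 961 n2147 (.cons 924 n2473 .nil)
noncomputable def n3369 : Strat := .move 923 n2178 (.cons 882 n3368 .nil)
noncomputable def n3370 : Strat := .win 924 1 841
noncomputable def n3371 : Strat := .move 842 n3370 (.cons 924 n1136 .nil)
noncomputable def n3372 : Strat := .move 883 n272 (.cons 884 n3371 .nil)
noncomputable def n3373 : Strat := .move 965 n3372 (.cons 883 n3090 .nil)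
noncomputable def n3374 : Strat := .move 882 n2362 (.cons 923 n3373 .nil)
noncomputable def n3375 : Strat := .move 1005 n3367 (.cons 1006 n3369 (.cons 1002 n2249 (.cons 924 n2474 (.cons 961 n3374 .nil))))
noncomputable def n3376 : Strat := .win 1009 0 964
noncomputable def n3377 : Strat := .win 1007 0 963
noncomputable def n3378 : Strat := .move 1008 n3376 (.cons 1009 n3377 .nil)
noncomputable def n3379 : Strat := .win 927 5 923
noncomputable def n3380 : Strat := .win 925 5 922
noncomputable def n3381 : Strat := .move 926 n3379 (.cons 927 n3380 .nil)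
noncomputable def n3382 : Strat := .move 967 n3378 (.cons 1007 n3381 .nil)
noncomputable def n3383 : Strat := .move 966 n2193 (.cons 1004 n3382 .nil)
noncomputable def n3384 : Strat := .move 1003 n2192 (.cons 1002 n3383 .nil)
noncomputable def n3385 : Strat := .win 966 4 962
noncomputable def n3386 : Strat := .move 1003 n3385 (.cons 966 n2192 .nil)
noncomputable def n3387 : Strat := .move 1005 n2958 (.cons 960 n2178 .nil)
noncomputable def n3388 : Strat := .move 1004 n3386 (.cons 1002 n3387 .nil)
noncomputable def n3389 : Strat := .move 923 n2147 (.cons 924 n3388 .nil)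
noncomputable def n3390 : Strat := .move 1005 n1876 (.cons 1004 n2178 .nil)
noncomputable def n3391 : Strat := .move 960 n3390 (.cons 882 n2252 .nil)
noncomputable def n3392 : Strat := .move 923 n2147 (.cons 924 n3391 .nil)
noncomputable def n3393 : Strat := .move 1003 n2200 (.cons 959 n3385 .nil)
noncomputable def n3394 : Strat := .move 1004 n1927 (.cons 1005 n3393 .nil)
noncomputable def n3395 : Strat := .move 923 n2147 (.cons 924 n3390 .nil)
noncomputable def n3396 : Strat := .move 960 n3394 (.cons 1004 n3253 (.cons 959 n3395 .nil))
noncomputable def n3397 : Strat := .move 961 n2324 (.cons 1001 n3389 (.cons 1003 n3392 (.cons 1002 n3396 .nil)))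
noncomputable def n3398 : Strat := .move 965 n3326 (.cons 924 n3384 (.cons 925 n3397 .nil))
noncomputable def n3399 : Strat := .move 882 n69 (.cons 1005 n3084 .nil)
noncomputable def n3400 : Strat := .move 1005 n2178 (.cons 882 n2474 .nil)
noncomputable def n3401 : Strat := .move 883 n63 (.cons 925 n272 .nil)
noncomputable def n3402 : Strat := .move 882 n1135 (.cons 879 n3401 .nil)
noncomputable def n3403 : Strat := .move 924 n1460 (.cons 961 n3402 .nil)
noncomputable def n3404 : Strat := .move 924 n1135 (.cons 879 n3401 .nil)
noncomputable def n3405 : Strat := .move 882 n69 (.cons 1005 n3404 .nil)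
noncomputable def n3406 : Strat := .move 961 n2147 (.cons 924 n3364 .nil)
noncomputable def n3407 : Strat := .move 923 n3399 (.cons 924 n3400 (.cons 1005 n3403 (.cons 961 n3405 (.cons 882 n3406 .nil))))
noncomputable def n3408 : Strat := .move 960 n1876 (.cons 1004 n3253 .nil)
noncomputable def n3409 : Strat := .move 1005 n1607 (.cons 1006 n3408 .nil)
noncomputable def n3410 : Strat := .win 1003 0 959
noncomputable def n3411 : Strat := .move 1004 n3410 (.cons 1003 n1927 .nil)
noncomputable def n3412 : Strat := .move 959 n3411 (.cons 1005 n3250 .nil)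
noncomputable def n3413 : Strat := .move 960 n1818 (.cons 1000 n3412 .nil)
noncomputable def n3414 : Strat := .move 1001 n2251 (.cons 1002 n3413 .nil)
noncomputable def n3415 : Strat := .move 1004 n2958 (.cons 960 n3386 .nil)
noncomputable def n3416 : Strat := .move 1005 n1607 (.cons 1006 n3415 .nil)
noncomputable def n3417 : Strat := .move 960 n2200 (.cons 959 n1927 .nil)
noncomputable def n3418 : Strat := .move 1004 n3385 (.cons 966 n3417 .nil)
noncomputable def n3419 : Strat := .move 1003 n2192 (.cons 1002 n3418 .nil)
noncomputable def n3420 : Strat := .move 965 n2297 (.cons 1007 n3416 (.cons 1005 n3342 (.cons 1006 n3419 .nil)))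
noncomputable def n3421 : Strat := .move 1002 n435 (.cons 958 n2173 .nil)
noncomputable def n3422 : Strat := .move 1003 n1978 (.cons 1004 n3421 .nil)
noncomputable def n3423 : Strat := .move 959 n3250 (.cons 919 n3422 .nil)
noncomputable def n3424 : Strat := .move 959 n1827 (.cons 917 n3252 .nil)
noncomputable def n3425 : Strat := .move 918 n3249 (.cons 919 n3424 .nil)
noncomputable def n3426 : Strat := .move 960 n2349 (.cons 1001 n3423 (.cons 1002 n3425 .nil))
noncomputable def n3427 : Strat := .move 961 n3364 (.cons 1002 n3409 (.cons 1006 n3414 (.cons 1004 n3359 (.cons 1001 n3420 (.cons 1005 n3426 .nil)))))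
noncomputable def n3428 : Strat := .move 964 n3343 (.cons 961 n3346 (.cons 1005 n3349 (.cons 882 n3352 (.cons 1002 n3357 (.cons 1004 n3362 (.cons 1007 n3365 (.cons 925 n3375 (.cons 1006 n3398 (.cons 965 n3407 (.cons 924 n3427 .nil))))))))))
noncomputable def n3429 : Strat := .move 964 n1383 (.cons 1001 n2291 .nil)
noncomputable def n3430 : Strat := .move 1002 n1527 (.cons 921 n3429 .nil)
noncomputable def n3431 : Strat := .move 1005 n1607 (.cons 1006 n1876 .nil)
noncomputable def n3432 : Strat := .move 964 n2251 (.cons 1002 n3431 .nil)
noncomputable def n3433 : Strat := .move 1001 n1818 (.cons 1000 n3432 .nil)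
noncomputable def n3434 : Strat := .move 1004 n1927 (.cons 1005 n3425 .nil)
noncomputable def n3435 : Strat := .move 964 n1607 (.cons 1006 n2179 .nil)
noncomputable def n3436 : Strat := .move 1005 n1876 (.cons 1004 n3435 .nil)
noncomputable def n3437 : Strat := .move 918 n3249 (.cons 919 n3436 .nil)
noncomputable def n3438 : Strat := .move 964 n2251 (.cons 1002 n2293 .nil)
noncomputable def n3439 : Strat := .move 1001 n1818 (.cons 1000 n3438 .nil)
noncomputable def n3440 : Strat := .move 878 n167 (.cons 1043 n1803 .nil)
noncomputable def n3441 : Strat := .move 1002 n1835 (.cons 964 n3440 .nil)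
noncomputable def n3442 : Strat := .move 919 n1812 (.cons 918 n3441 .nil)
noncomputable def n3443 : Strat := .move 1001 n1818 (.cons 1000 n3442 .nil)
noncomputable def n3444 : Strat := .move 960 n3433 (.cons 964 n3434 (.cons 1001 n3437 (.cons 1004 n3439 (.cons 1005 n3443 .nil))))
noncomputable def n3445 : Strat := .win 964 0 961
noncomputable def n3446 : Strat := .win 1007 2 962
noncomputable def n3447 : Strat := .move 1006 n3445 (.cons 964 n3446 .nil)
noncomputable def n3448 : Strat := .move 1005 n2958 (.cons 960 n3447 .nil)
noncomputable def n3449 : Strat := .move 1004 n853 (.cons 921 n3448 .nil)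
noncomputable def n3450 : Strat := .move 961 n3244 (.cons 1004 n3430 (.cons 921 n3444 (.cons 1002 n3449 .nil)))
noncomputable def n3451 : Strat := .move 965 n2192 (.cons 1002 n3326 .nil)
noncomputable def n3452 : Strat := .move 1003 n845 (.cons 921 n3451 .nil)
noncomputable def n3453 : Strat := .move 1003 n845 (.cons 921 n2315 .nil)
noncomputable def n3454 : Strat := .move 961 n109 (.cons 1002 n2293 .nil)
noncomputable def n3455 : Strat := .move 921 n23 (.cons 1003 n3454 .nil)
noncomputable def n3456 : Strat := .move 1003 n845 (.cons 921 n2311 .nil)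
noncomputable def n3457 : Strat := .move 921 n109 (.cons 1002 n2291 .nil)
noncomputable def n3458 : Strat := .move 1002 n1383 (.cons 1001 n2291 .nil)
noncomputable def n3459 : Strat := .move 921 n109 (.cons 1002 n2293 .nil)
noncomputable def n3460 : Strat := .move 961 n3457 (.cons 921 n3458 (.cons 965 n3459 (.cons 1005 n3198 (.cons 1002 n2291 .nil))))
noncomputable def n3461 : Strat := .move 924 n1135 (.cons 879 n1460 .nil)
noncomputable def n3462 : Strat := .move 882 n69 (.cons 1005 n3461 .nil)
noncomputable def n3463 : Strat := .win 1008 2 963
noncomputable def n3464 : Strat := .move 1007 n3463 (.cons 1008 n2496 .nil)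
noncomputable def n3465 : Strat := .move 1006 n2339 (.cons 961 n3464 .nil)
noncomputable def n3466 : Strat := .move 1005 n2178 (.cons 882 n3465 .nil)
noncomputable def n3467 : Strat := .move 882 n69 (.cons 1005 n3110 .nil)
noncomputable def n3468 : Strat := .move 923 n3462 (.cons 879 n2476 (.cons 924 n3466 (.cons 961 n3467 .nil)))
noncomputable def n3469 : Strat := .move 1003 n845 (.cons 921 n3468 .nil)
noncomputable def n3470 : Strat := .move 964 n3452 (.cons 921 n3362 (.cons 924 n3453 (.cons 965 n3455 (.cons 961 n3456 (.cons 1003 n3460 (.cons 1002 n3469 .nil))))))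
noncomputable def n3471 : Strat := .move 962 n3077 (.cons 921 n3428 (.cons 1003 n3450 (.cons 1004 n3470 .nil)))
noncomputable def n3472 : Strat := .move 963 n2391 (.cons 798 n3322 (.cons 1004 n3323 (.cons 922 n3471 .nil)))
noncomputable def n3473 : Strat := .move 756 n746 (.cons 715 n3128 .nil)
noncomputable def n3474 : Strat := .move 919 n37 (.cons 960 n3260 .nil)
noncomputable def n3475 : Strat := .win 879 6 756
noncomputable def n3476 : Strat := .move 921 n3475 (.cons 879 n704 .nil)
noncomputable def n3477 : Strat := .move 756 n746 (.cons 715 n3476 .nil)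
noncomputable def n3478 : Strat := .move 797 n3473 (.cons 756 n3474 (.cons 919 n3477 .nil))
noncomputable def n3479 : Strat := .move 796 n297 (.cons 795 n3478 .nil)
noncomputable def n3480 : Strat := .move 878 n296 (.cons 877 n3479 .nil)
noncomputable def n3481 : Strat := .move 838 n295 (.cons 836 n3480 .nil)
noncomputable def n3482 : Strat := .move 838 n264 (.cons 882 n3480 .nil)
noncomputable def n3483 : Strat := .move 798 n333 (.cons 921 n189 .nil)
noncomputable def n3484 : Strat := .move 797 n3128 (.cons 919 n3483 .nil)
noncomputable def n3485 : Strat := .move 756 n175 (.cons 715 n3484 .nil)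
noncomputable def n3486 : Strat := .move 798 n1756 (.cons 797 n321 .nil)
noncomputable def n3487 : Strat := .win 794 4 753
noncomputable def n3488 : Strat := .move 756 n889 (.cons 758 n3487 .nil)
noncomputable def n3489 : Strat := .move 757 n3486 (.cons 716 n3488 .nil)
noncomputable def n3490 : Strat := .move 795 n3131 (.cons 919 n3489 .nil)
noncomputable def n3491 : Strat := .move 754 n1331 (.cons 713 n3490 .nil)
noncomputable def n3492 : Strat := .win 798 0 753
noncomputable def n3493 : Strat := .win 752 0 752
noncomputable def n3494 : Strat := .move 753 n3492 (.cons 798 n3493 .nil)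
noncomputable def n3495 : Strat := .move 754 n1331 (.cons 713 n3494 .nil)
noncomputable def n3496 : Strat := .move 797 n3128 (.cons 919 n3495 .nil)
noncomputable def n3497 : Strat := .move 756 n175 (.cons 715 n3496 .nil)
noncomputable def n3498 : Strat := .move 795 n3487 (.cons 794 n889 .nil)
noncomputable def n3499 : Strat := .win 717 5 713
noncomputable def n3500 : Strat := .win 798 6 716
noncomputable def n3501 : Strat := .move 716 n3499 (.cons 717 n3500 .nil)
noncomputable def n3502 : Strat := .move 757 n3498 (.cons 758 n3501 .nil)
noncomputable def n3503 : Strat := .move 754 n1331 (.cons 713 n3502 .nil)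
noncomputable def n3504 : Strat := .move 756 n175 (.cons 715 n3503 .nil)
noncomputable def n3505 : Strat := .move 919 n1332 (.cons 795 n174 .nil)
noncomputable def n3506 : Strat := .move 756 n175 (.cons 715 n3505 .nil)
noncomputable def n3507 : Strat := .move 754 n1331 (.cons 713 n3506 .nil)
noncomputable def n3508 : Strat := .move 714 n3137 (.cons 836 n347 .nil)
noncomputable def n3509 : Strat := .move 877 n317 (.cons 918 n3508 .nil)
noncomputable def n3510 : Strat := .move 755 n3485 (.cons 715 n3491 (.cons 795 n3497 (.cons 919 n3504 (.cons 798 n3507 (.cons 756 n3509 .nil)))))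
noncomputable def n3511 : Strat := .move 714 n3137 (.cons 836 n2116 .nil)
noncomputable def n3512 : Strat := .move 877 n317 (.cons 918 n3511 .nil)
noncomputable def n3513 : Strat := .move 755 n3504 (.cons 756 n3509 (.cons 754 n3512 .nil))
noncomputable def n3514 : Strat := .move 919 n174 (.cons 797 n3140 .nil)
noncomputable def n3515 : Strat := .move 756 n175 (.cons 715 n3514 .nil)
noncomputable def n3516 : Strat := .move 755 n3497 (.cons 756 n3509 (.cons 713 n3515 .nil))
noncomputable def n3517 : Strat := .move 919 n1332 (.cons 795 n3140 .nil)
noncomputable def n3518 : Strat := .move 754 n1331 (.cons 713 n3517 .nil)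
noncomputable def n3519 : Strat := .move 755 n3507 (.cons 754 n3515 (.cons 756 n3518 (.cons 919 n3512 .nil)))
noncomputable def n3520 : Strat := .move 713 n3133 (.cons 755 n3132 .nil)
noncomputable def n3521 : Strat := .move 754 n3131 (.cons 919 n3520 .nil)
noncomputable def n3522 : Strat := .move 919 n135 (.cons 756 n364 .nil)
noncomputable def n3523 : Strat := .move 797 n1700 (.cons 798 n3522 .nil)
noncomputable def n3524 : Strat := .move 797 n1700 (.cons 798 n3283 .nil)
noncomputable def n3525 : Strat := .move 758 n3290 (.cons 755 n2443 .nil)
noncomputable def n3526 : Strat := .move 756 n334 (.cons 715 n3525 .nil)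
noncomputable def n3527 : Strat := .move 757 n321 (.cons 716 n3526 .nil)
noncomputable def n3528 : Strat := .move 798 n1756 (.cons 797 n3527 .nil)
noncomputable def n3529 : Strat := .move 795 n3521 (.cons 755 n3523 (.cons 754 n3524 (.cons 919 n3528 .nil)))
noncomputable def n3530 : Strat := .move 795 n364 (.cons 754 n1701 .nil)
noncomputable def n3531 : Strat := .move 755 n175 (.cons 715 n1729 .nil)
noncomputable def n3532 : Strat := .move 756 n174 (.cons 797 n3531 .nil)
noncomputable def n3533 : Strat := .move 918 n1728 (.cons 959 n3532 .nil)
noncomputable def n3534 : Strat := .move 919 n3530 (.cons 754 n3533 (.cons 756 n1718 .nil))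
noncomputable def n3535 : Strat := .move 921 n1951 (.cons 798 n1710 .nil)
noncomputable def n3536 : Strat := .move 919 n364 (.cons 754 n3535 .nil)
noncomputable def n3537 : Strat := .move 919 n135 (.cons 756 n1710 .nil)
noncomputable def n3538 : Strat := .move 797 n1700 (.cons 798 n3537 .nil)
noncomputable def n3539 : Strat := .move 919 n364 (.cons 754 n1701 .nil)
noncomputable def n3540 : Strat := .win 756 4 754
noncomputable def n3541 : Strat := .move 758 n3540 (.cons 756 n2443 .nil)
noncomputable def n3542 : Strat := .move 757 n321 (.cons 716 n3541 .nil)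
noncomputable def n3543 : Strat := .win 877 1 713
noncomputable def n3544 : Strat := .win 673 1 672
noncomputable def n3545 : Strat := .move 836 n3543 (.cons 877 n3544 .nil)
noncomputable def n3546 : Strat := .move 714 n3545 (.cons 673 n3138 (.cons 877 n347 .nil))
noncomputable def n3547 : Strat := .move 755 n3542 (.cons 757 n3546 .nil)
noncomputable def n3548 : Strat := .move 798 n1756 (.cons 797 n3547 .nil)
noncomputable def n3549 : Strat := .move 795 n3536 (.cons 754 n3538 (.cons 918 n3539 (.cons 756 n3281 (.cons 919 n3548 .nil))))
noncomputable def n3550 : Strat := .win 633 3 632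
noncomputable def n3551 : Strat := .win 715 3 673
noncomputable def n3552 : Strat := .move 674 n3550 (.cons 633 n3551 .nil)
noncomputable def n3553 : Strat := .win 631 7 631
noncomputable def n3554 : Strat := .win 713 7 672
noncomputable def n3555 : Strat := .move 672 n3553 (.cons 631 n3554 .nil)
noncomputable def n3556 : Strat := .move 673 n3552 (.cons 715 n3555 .nil)
noncomputable def n3557 : Strat := .move 714 n3137 (.cons 836 n3556 .nil)
noncomputable def n3558 : Strat := .move 877 n317 (.cons 918 n3557 .nil)
noncomputable def n3559 : Strat := .move 918 n1729 (.cons 877 n1728 .nil)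
noncomputable def n3560 : Strat := .win 714 1 713
noncomputable def n3561 : Strat := .move 877 n3560 (.cons 714 n317 .nil)
noncomputable def n3562 : Strat := .move 795 n1713 (.cons 960 n1700 .nil)
noncomputable def n3563 : Strat := .move 836 n3561 (.cons 918 n3562 .nil)
noncomputable def n3564 : Strat := .move 797 n135 (.cons 756 n3563 .nil)
noncomputable def n3565 : Strat := .move 795 n1707 (.cons 836 n1700 .nil)
noncomputable def n3566 : Strat := .move 960 n1709 (.cons 918 n3565 .nil)
noncomputable def n3567 : Strat := .move 797 n135 (.cons 756 n3566 .nil)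
noncomputable def n3568 : Strat := .win 1001 7 836
noncomputable def n3569 : Strat := .move 877 n3568 (.cons 1001 n3560 .nil)
noncomputable def n3570 : Strat := .move 836 n1674 (.cons 795 n3569 .nil)
noncomputable def n3571 : Strat := .move 795 n1707 (.cons 836 n1951 .nil)
noncomputable def n3572 : Strat := .move 960 n3570 (.cons 836 n170 (.cons 1001 n3571 .nil))
noncomputable def n3573 : Strat := .move 919 n3559 (.cons 959 n3564 (.cons 877 n3567 (.cons 918 n3572 .nil)))
noncomputable def n3574 : Strat := .move 755 n3485 (.cons 756 n3558 (.cons 715 n3573 .nil))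
noncomputable def n3575 : Strat := .move 798 n189 (.cons 795 n3129 .nil)
noncomputable def n3576 : Strat := .move 795 n1700 (.cons 798 n3281 .nil)
noncomputable def n3577 : Strat := .move 757 n334 (.cons 715 n321 .nil)
noncomputable def n3578 : Strat := .move 798 n333 (.cons 921 n3577 .nil)
noncomputable def n3579 : Strat := .move 756 n3128 (.cons 919 n3578 .nil)
noncomputable def n3580 : Strat := .move 756 n333 (.cons 921 n3577 .nil)
noncomputable def n3581 : Strat := .move 798 n189 (.cons 795 n3580 .nil)
noncomputable def n3582 : Strat := .move 919 n135 (.cons 756 n1718 .nil)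
noncomputable def n3583 : Strat := .move 797 n3575 (.cons 756 n3576 (.cons 795 n3579 (.cons 919 n3581 (.cons 798 n3582 .nil))))
noncomputable def n3584 : Strat := .move 960 n1707 (.cons 836 n170 .nil)
noncomputable def n3585 : Strat := .move 795 n364 (.cons 754 n3584 .nil)
noncomputable def n3586 : Strat := .move 1001 n169 (.cons 961 n1796 .nil)
noncomputable def n3587 : Strat := .move 960 n141 (.cons 1000 n3586 .nil)
noncomputable def n3588 : Strat := .move 959 n1708 (.cons 918 n3587 .nil)
noncomputable def n3589 : Strat := .move 755 n1729 (.cons 877 n2019 .nil)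
noncomputable def n3590 : Strat := .move 918 n1728 (.cons 959 n3589 .nil)
noncomputable def n3591 : Strat := .move 836 n1713 (.cons 960 n3561 .nil)
noncomputable def n3592 : Strat := .move 795 n364 (.cons 754 n3591 .nil)
noncomputable def n3593 : Strat := .move 960 n3568 (.cons 1001 n1674 .nil)
noncomputable def n3594 : Strat := .move 836 n3560 (.cons 714 n3593 .nil)
noncomputable def n3595 : Strat := .move 877 n317 (.cons 918 n3594 .nil)
noncomputable def n3596 : Strat := .move 755 n1333 (.cons 713 n3592 (.cons 795 n3509 (.cons 754 n3595 .nil)))
noncomputable def n3597 : Strat := .move 918 n1743 (.cons 1042 n340 .nil)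
noncomputable def n3598 : Strat := .move 877 n1856 (.cons 836 n3597 .nil)
noncomputable def n3599 : Strat := .move 1001 n169 (.cons 961 n3598 .nil)
noncomputable def n3600 : Strat := .move 1001 n167 (.cons 1043 n166 .nil)
noncomputable def n3601 : Strat := .move 1002 n168 (.cons 961 n3600 .nil)
noncomputable def n3602 : Strat := .move 960 n1946 (.cons 959 n3599 (.cons 918 n3601 .nil))
noncomputable def n3603 : Strat := .move 919 n1718 (.cons 918 n3585 (.cons 754 n3588 (.cons 836 n3590 (.cons 959 n3596 (.cons 795 n3602 .nil)))))
noncomputable def n3604 : Strat := .move 796 n3510 (.cons 919 n3513 (.cons 795 n3516 (.cons 798 n3519 (.cons 918 n3529 (.cons 713 n3534 (.cons 715 n3549 (.cons 754 n3574 (.cons 755 n3583 (.cons 756 n3603 .nil)))))))))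
noncomputable def n3605 : Strat := .move 755 n1331 (.cons 713 n175 .nil)
noncomputable def n3606 : Strat := .move 754 n1332 (.cons 795 n3605 .nil)
noncomputable def n3607 : Strat := .move 756 n174 (.cons 797 n3606 .nil)
noncomputable def n3608 : Strat := .move 796 n1728 (.cons 959 n3607 .nil)
noncomputable def n3609 : Strat := .move 918 n2037 (.cons 879 n3608 .nil)
noncomputable def n3610 : Strat := .move 1001 n167 (.cons 1043 n164 .nil)
noncomputable def n3611 : Strat := .move 1000 n165 (.cons 959 n3610 .nil)
noncomputable def n3612 : Strat := .move 1002 n168 (.cons 961 n3611 .nil)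
noncomputable def n3613 : Strat := .move 836 n1674 (.cons 795 n3612 .nil)
noncomputable def n3614 : Strat := .move 796 n364 (.cons 754 n1701 .nil)
noncomputable def n3615 : Strat := .move 795 n1707 (.cons 836 n3614 .nil)
noncomputable def n3616 : Strat := .move 1002 n168 (.cons 961 n3615 .nil)
noncomputable def n3617 : Strat := .move 796 n1708 (.cons 918 n3530 .nil)
noncomputable def n3618 : Strat := .move 959 n141 (.cons 1000 n3617 .nil)
noncomputable def n3619 : Strat := .move 960 n1754 (.cons 796 n3613 (.cons 959 n3616 (.cons 836 n3618 (.cons 795 n1993 .nil))))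
noncomputable def n3620 : Strat := .move 754 n2059 (.cons 796 n2058 .nil)
noncomputable def n3621 : Strat := .move 795 n1713 (.cons 960 n3620 .nil)
noncomputable def n3622 : Strat := .move 836 n2010 (.cons 879 n3621 .nil)
noncomputable def n3623 : Strat := .move 919 n3310 (.cons 836 n3609 (.cons 879 n3619 (.cons 918 n3622 .nil)))
noncomputable def n3624 : Strat := .move 755 n317 (.cons 918 n3485 .nil)
noncomputable def n3625 : Strat := .move 877 n2155 (.cons 879 n3624 .nil)
noncomputable def n3626 : Strat := .move 755 n175 (.cons 715 n3140 .nil)
noncomputable def n3627 : Strat := .move 756 n174 (.cons 797 n3626 .nil)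
noncomputable def n3628 : Strat := .move 795 n364 (.cons 754 n1700 .nil)
noncomputable def n3629 : Strat := .move 797 n135 (.cons 756 n3628 .nil)
noncomputable def n3630 : Strat := .move 918 n1728 (.cons 959 n3629 .nil)
noncomputable def n3631 : Strat := .move 755 n175 (.cons 715 n2019 .nil)
noncomputable def n3632 : Strat := .move 756 n174 (.cons 797 n3631 .nil)
noncomputable def n3633 : Strat := .move 919 n3627 (.cons 715 n3630 (.cons 756 n3590 (.cons 959 n3632 .nil)))
noncomputable def n3634 : Strat := .win 919 1 795
noncomputable def n3635 : Strat := .win 1000 3 836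
noncomputable def n3636 : Strat := .move 959 n3634 (.cons 919 n3635 .nil)
noncomputable def n3637 : Strat := .move 918 n340 (.cons 755 n3636 .nil)
noncomputable def n3638 : Strat := .move 877 n2155 (.cons 879 n3637 .nil)
noncomputable def n3639 : Strat := .move 919 n5 (.cons 918 n3629 .nil)
noncomputable def n3640 : Strat := .move 879 n263 (.cons 877 n3639 .nil)
noncomputable def n3641 : Strat := .move 714 n345 (.cons 672 n344 .nil)
noncomputable def n3642 : Strat := .move 713 n346 (.cons 754 n3641 .nil)
noncomputable def n3643 : Strat := .move 715 n343 (.cons 756 n3642 .nil)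
noncomputable def n3644 : Strat := .move 755 n317 (.cons 918 n3643 .nil)
noncomputable def n3645 : Strat := .move 877 n2155 (.cons 879 n3644 .nil)
noncomputable def n3646 : Strat := .move 879 n5 (.cons 918 n3607 .nil)
noncomputable def n3647 : Strat := .move 918 n1728 (.cons 959 n3607 .nil)
noncomputable def n3648 : Strat := .move 879 n5 (.cons 918 n3629 .nil)
noncomputable def n3649 : Strat := .move 919 n3646 (.cons 879 n3647 (.cons 755 n3648 (.cons 795 n3263 (.cons 918 n3632 .nil))))
noncomputable def n3650 : Strat := .move 756 n333 (.cons 921 n3128 .nil)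
noncomputable def n3651 : Strat := .move 798 n189 (.cons 795 n3650 .nil)
noncomputable def n3652 : Strat := .move 795 n1700 (.cons 798 n3135 .nil)
noncomputable def n3653 : Strat := .move 798 n189 (.cons 795 n3151 .nil)
noncomputable def n3654 : Strat := .move 797 n3651 (.cons 921 n3283 (.cons 756 n3652 (.cons 919 n3653 .nil)))
noncomputable def n3655 : Strat := .move 877 n2155 (.cons 879 n3654 .nil)
noncomputable def n3656 : Strat := .move 796 n3625 (.cons 879 n3633 (.cons 756 n3638 (.cons 755 n3640 (.cons 919 n3645 (.cons 877 n3649 (.cons 918 n3655 .nil))))))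
noncomputable def n3657 : Strat := .move 878 n3127 (.cons 879 n3604 (.cons 877 n3623 (.cons 836 n3656 .nil)))
noncomputable def n3658 : Strat := .move 837 n3125 (.cons 882 n3481 (.cons 836 n3482 (.cons 838 n3657 .nil)))
noncomputable def n3659 : Strat := .move 919 n37 (.cons 960 n135 .nil)
noncomputable def n3660 : Strat := .move 797 n3473 (.cons 715 n3659 (.cons 756 n3474 (.cons 919 n3477 .nil)))
noncomputable def n3661 : Strat := .move 796 n297 (.cons 795 n3660 .nil)
noncomputable def n3662 : Strat := .move 878 n296 (.cons 877 n3661 .nil)
noncomputable def n3663 : Strat := .move 837 n295 (.cons 836 n3662 .nil)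
noncomputable def n3664 : Strat := .move 837 n264 (.cons 882 n3662 .nil)
noncomputable def n3665 : Strat := .move 961 n109 (.cons 1002 n1609 .nil)
noncomputable def n3666 : Strat := .move 922 n546 (.cons 1005 n1624 .nil)
noncomputable def n3667 : Strat := .move 882 n412 (.cons 883 n2711 .nil)
noncomputable def n3668 : Strat := .move 1005 n2362 (.cons 923 n1607 .nil)
noncomputable def n3669 : Strat := .move 882 n412 (.cons 883 n3668 .nil)
noncomputable def n3670 : Strat := .move 961 n109 (.cons 1002 n3669 .nil)
noncomputable def n3671 : Strat := .move 961 n109 (.cons 1002 n3214 .nil)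
noncomputable def n3672 : Strat := .move 966 n2418 (.cons 922 n1445 .nil)
noncomputable def n3673 : Strat := .move 965 n3671 (.cons 961 n3672 .nil)
noncomputable def n3674 : Strat := .move 964 n3665 (.cons 1006 n3666 (.cons 961 n3667 (.cons 922 n3670 (.cons 1005 n3673 .nil))))
noncomputable def n3675 : Strat := .move 963 n608 (.cons 1004 n3674 .nil)
noncomputable def n3676 : Strat := .move 921 n556 (.cons 797 n3675 .nil)
noncomputable def n3677 : Strat := .win 1004 5 960
noncomputable def n3678 : Strat := .move 1001 n3677 (.cons 1004 n2174 .nil)
noncomputable def n3679 : Strat := .move 1002 n2173 (.cons 965 n3678 .nil)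
noncomputable def n3680 : Strat := .move 964 n2315 (.cons 1002 n3085 (.cons 961 n3679 .nil))
noncomputable def n3681 : Strat := .move 882 n412 (.cons 883 n3680 .nil)
noncomputable def n3682 : Strat := .move 963 n2172 (.cons 922 n3681 .nil)
noncomputable def n3683 : Strat := .move 1003 n845 (.cons 921 n3682 .nil)
noncomputable def n3684 : Strat := .move 922 n544 (.cons 1004 n947 .nil)
noncomputable def n3685 : Strat := .move 964 n3085 (.cons 879 n3213 (.cons 923 n3093 (.cons 1005 n3096 (.cons 961 n3111 (.cons 924 n3088 .nil)))))
noncomputable def n3686 : Strat := .move 882 n412 (.cons 883 n3685 .nil)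
noncomputable def n3687 : Strat := .move 923 n69 (.cons 1005 n1135 .nil)
noncomputable def n3688 : Strat := .move 965 n1377 (.cons 925 n2192 .nil)
noncomputable def n3689 : Strat := .move 924 n3687 (.cons 879 n3688 .nil)
noncomputable def n3690 : Strat := .move 964 n3085 (.cons 923 n2315 (.cons 961 n3689 .nil))
noncomputable def n3691 : Strat := .move 1003 n2172 (.cons 922 n3690 .nil)
noncomputable def n3692 : Strat := .move 882 n412 (.cons 883 n3691 .nil)
noncomputable def n3693 : Strat := .move 922 n544 (.cons 1004 n546 .nil)
noncomputable def n3694 : Strat := .move 923 n69 (.cons 1005 n3461 .nil)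
noncomputable def n3695 : Strat := .move 882 n412 (.cons 883 n3694 .nil)
noncomputable def n3696 : Strat := .move 923 n1135 (.cons 879 n1460 .nil)
noncomputable def n3697 : Strat := .move 882 n412 (.cons 883 n3696 .nil)
noncomputable def n3698 : Strat := .move 924 n1377 (.cons 925 n3697 .nil)
noncomputable def n3699 : Strat := .win 923 2 922
noncomputable def n3700 : Strat := .move 922 n3699 (.cons 923 n544 .nil)
noncomputable def n3701 : Strat := .move 967 n3378 (.cons 1007 n3700 .nil)
noncomputable def n3702 : Strat := .move 967 n3700 (.cons 1004 n3381 .nil)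
noncomputable def n3703 : Strat := .move 966 n1445 (.cons 1006 n3701 (.cons 1008 n3702 .nil))
noncomputable def n3704 : Strat := .move 961 n1440 (.cons 960 n2147 .nil)
noncomputable def n3705 : Strat := .move 922 n544 (.cons 1004 n3704 .nil)
noncomputable def n3706 : Strat := .move 882 n412 (.cons 883 n3461 .nil)
noncomputable def n3707 : Strat := .move 922 n1435 (.cons 967 n544 .nil)
noncomputable def n3708 : Strat := .move 966 n1445 (.cons 1006 n3707 .nil)
noncomputable def n3709 : Strat := .move 923 n3705 (.cons 922 n3706 (.cons 924 n3708 .nil))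
noncomputable def n3710 : Strat := .move 965 n3698 (.cons 879 n2310 (.cons 924 n3703 (.cons 925 n3709 .nil)))
noncomputable def n3711 : Strat := .move 964 n3693 (.cons 922 n3695 (.cons 1005 n3710 .nil))
noncomputable def n3712 : Strat := .move 963 n3684 (.cons 922 n3686 (.cons 1004 n3692 (.cons 1003 n3711 .nil)))
noncomputable def n3713 : Strat := .move 962 n3107 (.cons 1003 n3676 (.cons 797 n3683 (.cons 921 n3712 .nil)))
noncomputable def n3714 : Strat := .move 838 n2238 (.cons 882 n3663 (.cons 836 n3664 (.cons 837 n3713 .nil)))
noncomputable def n3715 : Strat := .move 879 n1036 (.cons 921 n68 .nil)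
noncomputable def n3716 : Strat := .move 924 n1367 (.cons 925 n3715 .nil)
noncomputable def n3717 : Strat := .move 923 n1461 (.cons 925 n3704 (.cons 924 n1575 (.cons 961 n3716 .nil)))
noncomputable def n3718 : Strat := .move 964 n546 (.cons 1005 n3717 .nil)
noncomputable def n3719 : Strat := .move 962 n947 (.cons 1003 n3718 .nil)
noncomputable def n3720 : Strat := .move 963 n544 (.cons 1004 n3719 .nil)
noncomputable def n3721 : Strat := .move 963 n543 (.cons 798 n3719 .nil)
noncomputable def n3722 : Strat := .move 919 n5 (.cons 918 n717 .nil)
noncomputable def n3723 : Strat := .move 797 n37 (.cons 960 n36 .nil)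
noncomputable def n3724 : Strat := .move 919 n5 (.cons 918 n3723 .nil)
noncomputable def n3725 : Strat := .move 838 n297 (.cons 795 n3724 .nil)
noncomputable def n3726 : Strat := .move 795 n1756 (.cons 797 n716 .nil)
noncomputable def n3727 : Strat := .move 798 n506 (.cons 757 n3726 .nil)
noncomputable def n3728 : Strat := .move 798 n506 (.cons 757 n3311 .nil)
noncomputable def n3729 : Strat := .move 919 n5 (.cons 918 n3728 .nil)
noncomputable def n3730 : Strat := .move 919 n5 (.cons 918 n176 .nil)
noncomputable def n3731 : Strat := .move 714 n2115 (.cons 838 n347 .nil)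
noncomputable def n3732 : Strat := .move 755 n2117 (.cons 714 n3730 (.cons 756 n3731 .nil))
noncomputable def n3733 : Strat := .move 796 n3722 (.cons 754 n3725 (.cons 919 n3727 (.cons 838 n3729 (.cons 795 n3732 .nil))))
noncomputable def n3734 : Strat := .move 837 n6 (.cons 836 n3733 .nil)
noncomputable def n3735 : Strat := .move 879 n17 (.cons 923 n3734 .nil)
noncomputable def n3736 : Strat := .win 838 4 836
noncomputable def n3737 : Strat := .win 836 3 795
noncomputable def n3738 : Strat := .move 959 n3737 (.cons 836 n3635 .nil)
noncomputable def n3739 : Strat := .move 918 n340 (.cons 755 n3738 .nil)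
noncomputable def n3740 : Strat := .move 796 n3637 (.cons 918 n3130 (.cons 919 n3739 .nil))
noncomputable def n3741 : Strat := .move 798 n506 (.cons 757 n3740 .nil)
noncomputable def n3742 : Strat := .move 837 n3736 (.cons 838 n3741 .nil)
noncomputable def n3743 : Strat := .move 877 n2155 (.cons 879 n3742 .nil)
noncomputable def n3744 : Strat := .move 838 n295 (.cons 836 n296 .nil)
noncomputable def n3745 : Strat := .move 796 n3130 (.cons 921 n3284 (.cons 797 n3143 (.cons 795 n3147 (.cons 919 n3152 (.cons 756 n3136 .nil)))))
noncomputable def n3746 : Strat := .move 798 n506 (.cons 757 n3745 .nil)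
noncomputable def n3747 : Strat := .move 797 n333 (.cons 921 n189 .nil)
noncomputable def n3748 : Strat := .move 755 n175 (.cons 715 n317 .nil)
noncomputable def n3749 : Strat := .move 756 n3747 (.cons 795 n3748 .nil)
noncomputable def n3750 : Strat := .move 796 n3130 (.cons 797 n3637 (.cons 919 n3749 .nil))
noncomputable def n3751 : Strat := .move 877 n3736 (.cons 838 n3750 .nil)
noncomputable def n3752 : Strat := .move 798 n506 (.cons 757 n3751 .nil)
noncomputable def n3753 : Strat := .move 838 n295 (.cons 836 n297 .nil)
noncomputable def n3754 : Strat := .move 797 n189 (.cons 795 n3650 .nil)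
noncomputable def n3755 : Strat := .move 798 n506 (.cons 757 n3754 .nil)
noncomputable def n3756 : Strat := .move 797 n333 (.cons 921 n3128 .nil)
noncomputable def n3757 : Strat := .move 798 n506 (.cons 757 n3756 .nil)
noncomputable def n3758 : Strat := .move 756 n175 (.cons 715 n3757 .nil)
noncomputable def n3759 : Strat := .win 797 6 673
noncomputable def n3760 : Strat := .move 838 n3759 (.cons 797 n295 .nil)
noncomputable def n3761 : Strat := .move 673 n3552 (.cons 715 n3760 .nil)
noncomputable def n3762 : Strat := .move 714 n347 (.cons 754 n3761 .nil)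
noncomputable def n3763 : Strat := .move 838 n295 (.cons 836 n3659 .nil)
noncomputable def n3764 : Strat := .move 798 n506 (.cons 757 n3650 .nil)
noncomputable def n3765 : Strat := .win 673 6 673
noncomputable def n3766 : Strat := .move 838 n3765 (.cons 673 n295 .nil)
noncomputable def n3767 : Strat := .move 714 n347 (.cons 754 n3766 .nil)
noncomputable def n3768 : Strat := .move 797 n3763 (.cons 838 n3764 (.cons 756 n3767 .nil))
noncomputable def n3769 : Strat := .move 755 n3758 (.cons 921 n3643 (.cons 756 n3762 (.cons 715 n3768 .nil)))
noncomputable def n3770 : Strat := .move 796 n3753 (.cons 838 n3755 (.cons 795 n3769 .nil))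
noncomputable def n3771 : Strat := .move 837 n3744 (.cons 838 n3746 (.cons 836 n3752 (.cons 877 n3770 .nil)))
noncomputable def n3772 : Strat := .move 878 n3126 (.cons 877 n3735 (.cons 923 n3743 (.cons 879 n3771 .nil)))
noncomputable def n3773 : Strat := .move 922 n574 (.cons 798 n3720 (.cons 1004 n3721 (.cons 963 n3772 .nil)))
noncomputable def n3774 : Strat := .move 839 n3104 (.cons 796 n3123 (.cons 964 n3167 (.cons 837 n3179 (.cons 963 n3194 (.cons 879 n3259 (.cons 921 n3321 (.cons 838 n3472 (.cons 922 n3658 (.cons 798 n3714 (.cons 882 n3773 .nil))))))))))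
noncomputable def n3775 : Strat := .move 880 n156 (.cons 922 n354 (.cons 962 n476 (.cons 1003 n536 (.cons 883 n652 (.cons 798 n694 (.cons 923 n903 (.cons 836 n1117 (.cons 877 n1159 (.cons 797 n1213 (.cons 961 n1294 (.cons 796 n1318 (.cons 960 n1361 (.cons 838 n1588 (.cons 882 n2166 (.cons 879 n2536 (.cons 837 n2609 (.cons 919 n2725 (.cons 839 n3044 (.cons 921 n3071 (.cons 920 n3774 .nil))))))))))))))))))))

theorem ok : checkS n3775 (pairBits 840 881) (pairBits 841 799) ≠ 0 := by decide +kernel

theorem reply : MakerWins {cellOf 881, cellOf 840} {cellOf 841, cellOf 799} :=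
  reply2 n3775 840 881 841 799 ok

end Vale.Agent.Snaky.Cert2.R799
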