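import Vale.Agent.Snaky.Cert2.Lem

namespace Vale.Agent.Snaky.Cert2.R800

open Vale.Agent.Snaky

noncomputable def n0 : Strat := .win 716 7 716
noncomputable def n1 : Strat := .win 798 7 757
noncomputable def n2 : Strat := .win 880 1 757
noncomputable def n3 : Strat := .win 962 1 798
noncomputable def n4 : Strat := .move 921 n2 (.cons 880 n3 .nil)
noncomputable def n5 : Strat := .move 922 n1 (.cons 798 n4 .nil)
noncomputable def n6 : Strat := .move 757 n0 (.cons 716 n5 .nil)
noncomputable def n7 : Strat := .win 921 1 757
noncomputable def n8 : Strat := .win 839 1 716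
noncomputable def n9 : Strat := .win 757 7 716
noncomputable def n10 : Strat := .win 675 7 675
noncomputable def n11 : Strat := .move 716 n9 (.cons 757 n10 .nil)
noncomputable def n12 : Strat := .move 717 n8 (.cons 839 n11 .nil)
noncomputable def n13 : Strat := .move 880 n7 (.cons 921 n12 .nil)
noncomputable def n14 : Strat := .win 759 3 717
noncomputable def n15 : Strat := .win 677 3 676
noncomputable def n16 : Strat := .move 718 n14 (.cons 759 n15 .nil)
noncomputable def n17 : Strat := .move 717 n8 (.cons 839 n16 .nil)
noncomputable def n18 : Strat := .move 880 n7 (.cons 921 n17 .nil)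
noncomputable def n19 : Strat := .win 882 6 758
noncomputable def n20 : Strat := .win 964 6 799
noncomputable def n21 : Strat := .move 923 n19 (.cons 882 n20 .nil)
noncomputable def n22 : Strat := .move 922 n1 (.cons 798 n21 .nil)
noncomputable def n23 : Strat := .move 757 n0 (.cons 716 n22 .nil)
noncomputable def n24 : Strat := .move 758 n6 (.cons 922 n13 (.cons 757 n18 (.cons 880 n23 .nil)))
noncomputable def n25 : Strat := .win 923 6 758
noncomputable def n26 : Strat := .win 717 1 716
noncomputable def n27 : Strat := .win 837 0 837
noncomputable def n28 : Strat := .win 883 2 838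
noncomputable def n29 : Strat := .move 838 n27 (.cons 837 n28 .nil)
noncomputable def n30 : Strat := .move 839 n26 (.cons 717 n29 .nil)
noncomputable def n31 : Strat := .move 882 n25 (.cons 923 n30 .nil)
noncomputable def n32 : Strat := .move 880 n7 (.cons 921 n31 .nil)
noncomputable def n33 : Strat := .move 758 n6 (.cons 880 n23 (.cons 798 n32 .nil))
noncomputable def n34 : Strat := .win 718 3 717
noncomputable def n35 : Strat := .win 922 7 757
noncomputable def n36 : Strat := .win 760 4 756
noncomputable def n37 : Strat := .win 796 5 755
noncomputable def n38 : Strat := .move 797 n36 (.cons 760 n37 .nil)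
noncomputable def n39 : Strat := .move 798 n35 (.cons 922 n38 .nil)
noncomputable def n40 : Strat := .move 759 n34 (.cons 718 n39 .nil)
noncomputable def n41 : Strat := .move 757 n0 (.cons 716 n40 .nil)
noncomputable def n42 : Strat := .move 758 n13 (.cons 757 n18 (.cons 839 n41 .nil))
noncomputable def n43 : Strat := .move 717 n10 (.cons 675 n16 .nil)
noncomputable def n44 : Strat := .move 716 n9 (.cons 757 n43 .nil)
noncomputable def n45 : Strat := .move 922 n3 (.cons 962 n21 .nil)
noncomputable def n46 : Strat := .move 921 n2 (.cons 880 n45 .nil)
noncomputable def n47 : Strat := .move 758 n13 (.cons 921 n44 (.cons 757 n18 (.cons 717 n46 .nil)))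
noncomputable def n48 : Strat := .win 757 7 757
noncomputable def n49 : Strat := .win 963 7 798
noncomputable def n50 : Strat := .win 878 0 878
noncomputable def n51 : Strat := .win 924 2 879
noncomputable def n52 : Strat := .move 879 n50 (.cons 878 n51 .nil)
noncomputable def n53 : Strat := .win 879 2 879
noncomputable def n54 : Strat := .win 925 2 880
noncomputable def n55 : Strat := .move 924 n53 (.cons 879 n54 .nil)
noncomputable def n56 : Strat := .win 961 1 797
noncomputable def n57 : Strat := .win 883 4 879
noncomputable def n58 : Strat := .win 919 5 878
noncomputable def n59 : Strat := .move 882 n57 (.cons 883 n58 .nil)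
noncomputable def n60 : Strat := .move 920 n56 (.cons 961 n59 .nil)
noncomputable def n61 : Strat := .move 880 n52 (.cons 878 n55 (.cons 879 n60 .nil))
noncomputable def n62 : Strat := .move 839 n49 (.cons 963 n61 .nil)
noncomputable def n63 : Strat := .move 798 n48 (.cons 757 n62 .nil)
noncomputable def n64 : Strat := .move 923 n20 (.cons 964 n63 .nil)
noncomputable def n65 : Strat := .move 921 n3 (.cons 962 n64 .nil)
noncomputable def n66 : Strat := .win 839 7 798
noncomputable def n67 : Strat := .win 923 6 799
noncomputable def n68 : Strat := .win 1005 6 840
noncomputable def n69 : Strat := .move 964 n67 (.cons 923 n68 .nil)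
noncomputable def n70 : Strat := .move 963 n66 (.cons 839 n69 .nil)
noncomputable def n71 : Strat := .move 798 n48 (.cons 757 n70 .nil)
noncomputable def n72 : Strat := .win 921 1 798
noncomputable def n73 : Strat := .win 1003 1 839
noncomputable def n74 : Strat := .move 962 n72 (.cons 921 n73 .nil)
noncomputable def n75 : Strat := .move 963 n66 (.cons 839 n74 .nil)
noncomputable def n76 : Strat := .move 798 n48 (.cons 757 n75 .nil)
noncomputable def n77 : Strat := .win 883 5 879
noncomputable def n78 : Strat := .move 882 n58 (.cons 919 n77 .nil)
noncomputable def n79 : Strat := .win 882 5 878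
noncomputable def n80 : Strat := .win 879 2 878
noncomputable def n81 : Strat := .win 877 2 877
noncomputable def n82 : Strat := .move 878 n80 (.cons 879 n81 .nil)
noncomputable def n83 : Strat := .move 919 n79 (.cons 882 n82 .nil)
noncomputable def n84 : Strat := .win 878 2 878
noncomputable def n85 : Strat := .win 880 2 879
noncomputable def n86 : Strat := .win 961 4 919
noncomputable def n87 : Strat := .win 967 0 922
noncomputable def n88 : Strat := .win 965 0 921
noncomputable def n89 : Strat := .move 966 n87 (.cons 967 n88 .nil)
noncomputable def n90 : Strat := .win 885 5 881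
noncomputable def n91 : Strat := .win 883 5 880
noncomputable def n92 : Strat := .move 884 n90 (.cons 885 n91 .nil)
noncomputable def n93 : Strat := .move 925 n89 (.cons 965 n92 .nil)
noncomputable def n94 : Strat := .move 960 n86 (.cons 961 n93 .nil)
noncomputable def n95 : Strat := .move 924 n85 (.cons 880 n94 .nil)
noncomputable def n96 : Strat := .move 879 n84 (.cons 878 n95 .nil)
noncomputable def n97 : Strat := .move 920 n78 (.cons 883 n83 (.cons 882 n96 .nil))
noncomputable def n98 : Strat := .move 923 n20 (.cons 964 n97 .nil)
noncomputable def n99 : Strat := .move 921 n3 (.cons 962 n98 .nil)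
noncomputable def n100 : Strat := .move 922 n65 (.cons 921 n71 (.cons 923 n76 (.cons 839 n99 .nil)))
noncomputable def n101 : Strat := .move 759 n34 (.cons 718 n38 .nil)
noncomputable def n102 : Strat := .move 798 n35 (.cons 922 n101 .nil)
noncomputable def n103 : Strat := .move 757 n0 (.cons 716 n102 .nil)
noncomputable def n104 : Strat := .win 880 1 716
noncomputable def n105 : Strat := .win 676 1 675
noncomputable def n106 : Strat := .move 798 n49 (.cons 963 n105 .nil)
noncomputable def n107 : Strat := .move 839 n104 (.cons 880 n106 .nil)
noncomputable def n108 : Strat := .move 717 n15 (.cons 677 n107 .nil)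
noncomputable def n109 : Strat := .move 718 n14 (.cons 759 n108 .nil)
noncomputable def n110 : Strat := .move 922 n20 (.cons 964 n109 .nil)
noncomputable def n111 : Strat := .move 923 n19 (.cons 882 n110 .nil)
noncomputable def n112 : Strat := .move 758 n103 (.cons 922 n44 (.cons 759 n23 (.cons 757 n111 .nil)))
noncomputable def n113 : Strat := .move 758 n6 (.cons 716 n46 (.cons 880 n23 (.cons 922 n44 .nil)))
noncomputable def n114 : Strat := .move 757 n0 (.cons 716 n1 .nil)
noncomputable def n115 : Strat := .move 758 n19 (.cons 882 n114 .nil)
noncomputable def n116 : Strat := .move 923 n20 (.cons 964 n115 .nil)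
noncomputable def n117 : Strat := .win 758 6 758
noncomputable def n118 : Strat := .win 884 4 880
noncomputable def n119 : Strat := .win 920 5 879
noncomputable def n120 : Strat := .move 883 n118 (.cons 884 n119 .nil)
noncomputable def n121 : Strat := .move 882 n117 (.cons 758 n120 .nil)
noncomputable def n122 : Strat := .move 921 n3 (.cons 962 n121 .nil)
noncomputable def n123 : Strat := .move 923 n20 (.cons 964 n122 .nil)
noncomputable def n124 : Strat := .move 922 n116 (.cons 923 n76 (.cons 757 n123 .nil))
noncomputable def n125 : Strat := .move 758 n2 (.cons 880 n19 .nil)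
noncomputable def n126 : Strat := .move 923 n20 (.cons 964 n125 .nil)
noncomputable def n127 : Strat := .move 921 n3 (.cons 962 n126 .nil)
noncomputable def n128 : Strat := .move 758 n19 (.cons 882 n109 .nil)
noncomputable def n129 : Strat := .move 923 n20 (.cons 964 n128 .nil)
noncomputable def n130 : Strat := .win 758 1 757
noncomputable def n131 : Strat := .win 884 5 880
noncomputable def n132 : Strat := .win 920 4 879
noncomputable def n133 : Strat := .win 838 2 838
noncomputable def n134 : Strat := .win 1004 7 839
noncomputable def n135 : Strat := .win 798 6 798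
noncomputable def n136 : Strat := .move 963 n134 (.cons 1004 n135 .nil)
noncomputable def n137 : Strat := .move 839 n133 (.cons 838 n136 .nil)
noncomputable def n138 : Strat := .move 882 n132 (.cons 920 n137 .nil)
noncomputable def n139 : Strat := .move 883 n131 (.cons 884 n138 .nil)
noncomputable def n140 : Strat := .move 924 n54 (.cons 925 n139 .nil)
noncomputable def n141 : Strat := .win 919 4 878
noncomputable def n142 : Strat := .move 882 n141 (.cons 919 n57 .nil)
noncomputable def n143 : Strat := .win 882 4 878
noncomputable def n144 : Strat := .win 918 5 877
noncomputable def n145 : Strat := .move 919 n143 (.cons 882 n144 .nil)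
noncomputable def n146 : Strat := .win 960 4 919
noncomputable def n147 : Strat := .win 1002 3 838
noncomputable def n148 : Strat := .win 798 1 797
noncomputable def n149 : Strat := .move 839 n147 (.cons 1002 n148 .nil)
noncomputable def n150 : Strat := .move 961 n146 (.cons 960 n149 .nil)
noncomputable def n151 : Strat := .move 920 n142 (.cons 883 n145 (.cons 882 n150 .nil))
noncomputable def n152 : Strat := .move 879 n50 (.cons 878 n151 .nil)
noncomputable def n153 : Strat := .move 923 n52 (.cons 878 n55 (.cons 879 n140 (.cons 924 n152 .nil)))
noncomputable def n154 : Strat := .move 880 n130 (.cons 758 n153 .nil)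
noncomputable def n155 : Strat := .move 921 n3 (.cons 962 n154 .nil)
noncomputable def n156 : Strat := .move 880 n52 (.cons 878 n55 (.cons 879 n140 (.cons 924 n152 .nil)))
noncomputable def n157 : Strat := .move 923 n20 (.cons 964 n156 .nil)
noncomputable def n158 : Strat := .move 921 n3 (.cons 962 n157 .nil)
noncomputable def n159 : Strat := .move 923 n20 (.cons 964 n52 .nil)
noncomputable def n160 : Strat := .move 880 n130 (.cons 758 n159 .nil)
noncomputable def n161 : Strat := .move 921 n3 (.cons 962 n160 .nil)
noncomputable def n162 : Strat := .win 798 7 798
noncomputable def n163 : Strat := .win 880 7 839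
noncomputable def n164 : Strat := .win 964 6 840
noncomputable def n165 : Strat := .win 1046 6 881
noncomputable def n166 : Strat := .move 1005 n164 (.cons 964 n165 .nil)
noncomputable def n167 : Strat := .move 1004 n163 (.cons 880 n166 .nil)
noncomputable def n168 : Strat := .move 839 n162 (.cons 798 n167 .nil)
noncomputable def n169 : Strat := .move 963 n73 (.cons 1003 n168 .nil)
noncomputable def n170 : Strat := .move 962 n72 (.cons 921 n169 .nil)
noncomputable def n171 : Strat := .move 922 n127 (.cons 921 n129 (.cons 964 n155 (.cons 758 n158 (.cons 880 n123 (.cons 882 n161 (.cons 923 n170 .nil))))))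
noncomputable def n172 : Strat := .win 796 4 755
noncomputable def n173 : Strat := .win 839 7 715
noncomputable def n174 : Strat := .win 714 2 714
noncomputable def n175 : Strat := .move 715 n173 (.cons 839 n174 .nil)
noncomputable def n176 : Strat := .move 798 n36 (.cons 760 n175 .nil)
noncomputable def n177 : Strat := .move 797 n172 (.cons 796 n176 .nil)
noncomputable def n178 : Strat := .win 797 4 755
noncomputable def n179 : Strat := .win 795 4 754
noncomputable def n180 : Strat := .win 713 2 713
noncomputable def n181 : Strat := .win 715 2 714
noncomputable def n182 : Strat := .move 714 n180 (.cons 713 n181 .nil)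
noncomputable def n183 : Strat := .move 755 n179 (.cons 795 n182 .nil)
noncomputable def n184 : Strat := .move 796 n178 (.cons 797 n183 .nil)
noncomputable def n185 : Strat := .win 798 0 754
noncomputable def n186 : Strat := .win 712 2 712
noncomputable def n187 : Strat := .win 714 2 713
noncomputable def n188 : Strat := .move 713 n186 (.cons 712 n187 .nil)
noncomputable def n189 : Strat := .move 754 n185 (.cons 798 n188 .nil)
noncomputable def n190 : Strat := .win 754 0 754
noncomputable def n191 : Strat := .move 798 n190 (.cons 754 n175 .nil)
noncomputable def n192 : Strat := .win 794 4 753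
noncomputable def n193 : Strat := .win 796 4 754
noncomputable def n194 : Strat := .move 795 n192 (.cons 794 n193 .nil)
noncomputable def n195 : Strat := .move 754 n185 (.cons 798 n194 .nil)
noncomputable def n196 : Strat := .move 755 n182 (.cons 715 n189 (.cons 713 n191 (.cons 714 n195 .nil)))
noncomputable def n197 : Strat := .win 761 4 757
noncomputable def n198 : Strat := .win 797 4 756
noncomputable def n199 : Strat := .move 760 n197 (.cons 761 n198 .nil)
noncomputable def n200 : Strat := .move 798 n173 (.cons 839 n199 .nil)
noncomputable def n201 : Strat := .move 715 n174 (.cons 714 n200 .nil)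
noncomputable def n202 : Strat := .win 798 4 756
noncomputable def n203 : Strat := .move 797 n202 (.cons 798 n172 .nil)
noncomputable def n204 : Strat := .move 798 n197 (.cons 761 n198 .nil)
noncomputable def n205 : Strat := .win 803 0 758
noncomputable def n206 : Strat := .win 801 0 757
noncomputable def n207 : Strat := .move 802 n205 (.cons 803 n206 .nil)
noncomputable def n208 : Strat := .win 721 5 717
noncomputable def n209 : Strat := .win 719 5 716
noncomputable def n210 : Strat := .move 720 n208 (.cons 721 n209 .nil)
noncomputable def n211 : Strat := .move 761 n207 (.cons 801 n210 .nil)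
noncomputable def n212 : Strat := .move 760 n203 (.cons 796 n204 (.cons 798 n211 .nil))
noncomputable def n213 : Strat := .move 756 n177 (.cons 839 n184 (.cons 797 n196 (.cons 796 n201 (.cons 715 n212 .nil))))
noncomputable def n214 : Strat := .move 923 n19 (.cons 882 n213 .nil)
noncomputable def n215 : Strat := .move 880 n7 (.cons 921 n214 .nil)
noncomputable def n216 : Strat := .move 759 n34 (.cons 718 n215 .nil)
noncomputable def n217 : Strat := .move 757 n0 (.cons 716 n216 .nil)
noncomputable def n218 : Strat := .move 758 n13 (.cons 880 n44 (.cons 757 n18 (.cons 717 n217 .nil)))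
noncomputable def n219 : Strat := .move 799 n24 (.cons 677 n33 (.cons 964 n42 (.cons 798 n47 (.cons 758 n100 (.cons 921 n112 (.cons 839 n113 (.cons 880 n124 (.cons 757 n171 (.cons 922 n218 .nil)))))))))

theorem ok : checkS n219 (pairBits 840 881) (pairBits 841 800) ≠ 0 := by decide +kernel

theorem reply : MakerWins {cellOf 881, cellOf 840} {cellOf 841, cellOf 800} :=
  reply2 n219 840 881 841 800 ok

end Vale.Agent.Snaky.Cert2.R800
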