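import Vale.Agent.Snaky.Cert2.Lem

namespace Vale.Agent.Snaky.Cert2.R801

open Vale.Agent.Snaky

noncomputable def n0 : Strat := .win 962 1 798
noncomputable def n1 : Strat := .win 880 1 757
noncomputable def n2 : Strat := .win 882 6 758
noncomputable def n3 : Strat := .win 964 6 799
noncomputable def n4 : Strat := .move 923 n2 (.cons 882 n3 .nil)
noncomputable def n5 : Strat := .move 758 n1 (.cons 880 n4 .nil)
noncomputable def n6 : Strat := .move 921 n0 (.cons 962 n5 .nil)
noncomputable def n7 : Strat := .win 716 7 716
noncomputable def n8 : Strat := .win 798 7 757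
noncomputable def n9 : Strat := .move 757 n7 (.cons 716 n8 .nil)
noncomputable def n10 : Strat := .move 758 n2 (.cons 882 n9 .nil)
noncomputable def n11 : Strat := .move 923 n3 (.cons 964 n10 .nil)
noncomputable def n12 : Strat := .move 758 n1 (.cons 880 n9 .nil)
noncomputable def n13 : Strat := .move 921 n0 (.cons 962 n12 .nil)
noncomputable def n14 : Strat := .win 757 7 757
noncomputable def n15 : Strat := .win 963 7 798
noncomputable def n16 : Strat := .win 878 0 878
noncomputable def n17 : Strat := .win 924 2 879
noncomputable def n18 : Strat := .move 879 n16 (.cons 878 n17 .nil)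
noncomputable def n19 : Strat := .win 961 1 797
noncomputable def n20 : Strat := .win 883 4 879
noncomputable def n21 : Strat := .win 919 5 878
noncomputable def n22 : Strat := .move 882 n20 (.cons 883 n21 .nil)
noncomputable def n23 : Strat := .move 920 n19 (.cons 961 n22 .nil)
noncomputable def n24 : Strat := .move 880 n18 (.cons 879 n23 .nil)
noncomputable def n25 : Strat := .move 839 n15 (.cons 963 n24 .nil)
noncomputable def n26 : Strat := .move 798 n14 (.cons 757 n25 .nil)
noncomputable def n27 : Strat := .move 923 n3 (.cons 964 n26 .nil)
noncomputable def n28 : Strat := .move 921 n0 (.cons 962 n27 .nil)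
noncomputable def n29 : Strat := .move 922 n6 (.cons 921 n11 (.cons 923 n13 (.cons 758 n28 .nil)))
noncomputable def n30 : Strat := .win 839 7 798
noncomputable def n31 : Strat := .win 921 1 798
noncomputable def n32 : Strat := .win 1003 1 839
noncomputable def n33 : Strat := .move 962 n31 (.cons 921 n32 .nil)
noncomputable def n34 : Strat := .move 963 n30 (.cons 839 n33 .nil)
noncomputable def n35 : Strat := .move 798 n14 (.cons 757 n34 .nil)
noncomputable def n36 : Strat := .win 718 3 717
noncomputable def n37 : Strat := .win 800 3 758
noncomputable def n38 : Strat := .move 759 n36 (.cons 718 n37 .nil)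
noncomputable def n39 : Strat := .move 758 n2 (.cons 882 n38 .nil)
noncomputable def n40 : Strat := .move 923 n3 (.cons 964 n39 .nil)
noncomputable def n41 : Strat := .move 922 n11 (.cons 923 n35 (.cons 798 n40 .nil))
noncomputable def n42 : Strat := .win 758 1 757
noncomputable def n43 : Strat := .move 923 n3 (.cons 964 n18 .nil)
noncomputable def n44 : Strat := .move 880 n42 (.cons 758 n43 .nil)
noncomputable def n45 : Strat := .move 921 n0 (.cons 962 n44 .nil)
noncomputable def n46 : Strat := .win 923 6 799
noncomputable def n47 : Strat := .win 1005 6 840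
noncomputable def n48 : Strat := .move 964 n46 (.cons 923 n47 .nil)
noncomputable def n49 : Strat := .move 963 n30 (.cons 839 n48 .nil)
noncomputable def n50 : Strat := .move 798 n14 (.cons 757 n49 .nil)
noncomputable def n51 : Strat := .move 922 n13 (.cons 757 n45 (.cons 921 n50 .nil))
noncomputable def n52 : Strat := .move 922 n37 (.cons 800 n8 .nil)
noncomputable def n53 : Strat := .move 759 n36 (.cons 718 n52 .nil)
noncomputable def n54 : Strat := .move 757 n7 (.cons 716 n53 .nil)
noncomputable def n55 : Strat := .move 921 n1 (.cons 880 n0 .nil)
noncomputable def n56 : Strat := .move 922 n37 (.cons 800 n55 .nil)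
noncomputable def n57 : Strat := .move 759 n36 (.cons 718 n56 .nil)
noncomputable def n58 : Strat := .win 921 1 757
noncomputable def n59 : Strat := .win 839 1 716
noncomputable def n60 : Strat := .win 757 7 716
noncomputable def n61 : Strat := .win 675 7 675
noncomputable def n62 : Strat := .move 716 n60 (.cons 757 n61 .nil)
noncomputable def n63 : Strat := .move 717 n59 (.cons 839 n62 .nil)
noncomputable def n64 : Strat := .move 880 n58 (.cons 921 n63 .nil)
noncomputable def n65 : Strat := .move 758 n54 (.cons 716 n57 (.cons 922 n64 .nil))
noncomputable def n66 : Strat := .move 880 n42 (.cons 758 n18 .nil)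
noncomputable def n67 : Strat := .move 923 n3 (.cons 964 n66 .nil)
noncomputable def n68 : Strat := .move 921 n0 (.cons 962 n67 .nil)
noncomputable def n69 : Strat := .win 963 6 798
noncomputable def n70 : Strat := .move 923 n18 (.cons 879 n23 .nil)
noncomputable def n71 : Strat := .move 839 n69 (.cons 963 n70 .nil)
noncomputable def n72 : Strat := .move 798 n14 (.cons 757 n71 .nil)
noncomputable def n73 : Strat := .move 880 n42 (.cons 758 n72 .nil)
noncomputable def n74 : Strat := .move 921 n0 (.cons 962 n73 .nil)
noncomputable def n75 : Strat := .move 882 n21 (.cons 919 n20 .nil)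
noncomputable def n76 : Strat := .move 920 n19 (.cons 961 n75 .nil)
noncomputable def n77 : Strat := .move 839 n69 (.cons 963 n76 .nil)
noncomputable def n78 : Strat := .move 798 n14 (.cons 757 n77 .nil)
noncomputable def n79 : Strat := .move 880 n42 (.cons 758 n78 .nil)
noncomputable def n80 : Strat := .move 921 n0 (.cons 962 n79 .nil)
noncomputable def n81 : Strat := .move 922 n68 (.cons 962 n40 (.cons 758 n28 (.cons 964 n74 (.cons 923 n80 .nil))))
noncomputable def n82 : Strat := .win 923 6 758
noncomputable def n83 : Strat := .win 922 7 757
noncomputable def n84 : Strat := .win 760 4 756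
noncomputable def n85 : Strat := .win 796 5 755
noncomputable def n86 : Strat := .move 797 n84 (.cons 760 n85 .nil)
noncomputable def n87 : Strat := .move 798 n83 (.cons 922 n86 .nil)
noncomputable def n88 : Strat := .move 759 n36 (.cons 718 n87 .nil)
noncomputable def n89 : Strat := .move 757 n7 (.cons 716 n88 .nil)
noncomputable def n90 : Strat := .move 882 n82 (.cons 923 n89 .nil)
noncomputable def n91 : Strat := .move 922 n8 (.cons 798 n38 .nil)
noncomputable def n92 : Strat := .move 757 n7 (.cons 716 n91 .nil)
noncomputable def n93 : Strat := .move 922 n37 (.cons 800 n4 .nil)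
noncomputable def n94 : Strat := .move 759 n36 (.cons 718 n93 .nil)
noncomputable def n95 : Strat := .move 922 n8 (.cons 798 n4 .nil)
noncomputable def n96 : Strat := .move 757 n7 (.cons 716 n95 .nil)
noncomputable def n97 : Strat := .win 759 3 717
noncomputable def n98 : Strat := .win 677 3 676
noncomputable def n99 : Strat := .move 718 n97 (.cons 759 n98 .nil)
noncomputable def n100 : Strat := .move 717 n61 (.cons 675 n99 .nil)
noncomputable def n101 : Strat := .move 716 n60 (.cons 757 n100 .nil)
noncomputable def n102 : Strat := .move 758 n90 (.cons 797 n92 (.cons 716 n94 (.cons 718 n96 (.cons 922 n101 .nil))))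
noncomputable def n103 : Strat := .win 883 5 879
noncomputable def n104 : Strat := .move 882 n21 (.cons 919 n103 .nil)
noncomputable def n105 : Strat := .win 882 5 878
noncomputable def n106 : Strat := .win 879 2 878
noncomputable def n107 : Strat := .win 877 2 877
noncomputable def n108 : Strat := .move 878 n106 (.cons 879 n107 .nil)
noncomputable def n109 : Strat := .move 919 n105 (.cons 882 n108 .nil)
noncomputable def n110 : Strat := .win 878 2 878
noncomputable def n111 : Strat := .win 880 2 879
noncomputable def n112 : Strat := .win 961 4 919
noncomputable def n113 : Strat := .win 967 0 922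
noncomputable def n114 : Strat := .win 965 0 921
noncomputable def n115 : Strat := .move 966 n113 (.cons 967 n114 .nil)
noncomputable def n116 : Strat := .win 885 5 881
noncomputable def n117 : Strat := .win 883 5 880
noncomputable def n118 : Strat := .move 884 n116 (.cons 885 n117 .nil)
noncomputable def n119 : Strat := .move 925 n115 (.cons 965 n118 .nil)
noncomputable def n120 : Strat := .move 960 n112 (.cons 961 n119 .nil)
noncomputable def n121 : Strat := .move 924 n111 (.cons 880 n120 .nil)
noncomputable def n122 : Strat := .move 879 n110 (.cons 878 n121 .nil)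
noncomputable def n123 : Strat := .move 920 n104 (.cons 883 n109 (.cons 882 n122 .nil))
noncomputable def n124 : Strat := .move 923 n3 (.cons 964 n123 .nil)
noncomputable def n125 : Strat := .move 921 n0 (.cons 962 n124 .nil)
noncomputable def n126 : Strat := .move 922 n28 (.cons 921 n50 (.cons 923 n35 (.cons 798 n125 .nil)))
noncomputable def n127 : Strat := .move 717 n59 (.cons 839 n99 .nil)
noncomputable def n128 : Strat := .move 880 n58 (.cons 921 n127 .nil)
noncomputable def n129 : Strat := .win 797 4 756
noncomputable def n130 : Strat := .win 761 4 757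
noncomputable def n131 : Strat := .move 760 n129 (.cons 797 n130 .nil)
noncomputable def n132 : Strat := .win 883 2 838
noncomputable def n133 : Strat := .win 837 0 837
noncomputable def n134 : Strat := .move 838 n132 (.cons 883 n133 .nil)
noncomputable def n135 : Strat := .win 884 2 839
noncomputable def n136 : Strat := .win 838 2 838
noncomputable def n137 : Strat := .move 883 n135 (.cons 884 n136 .nil)
noncomputable def n138 : Strat := .win 715 7 715
noncomputable def n139 : Strat := .win 754 0 754
noncomputable def n140 : Strat := .win 800 0 755
noncomputable def n141 : Strat := .move 755 n139 (.cons 754 n140 .nil)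
noncomputable def n142 : Strat := .move 756 n138 (.cons 715 n141 .nil)
noncomputable def n143 : Strat := .move 839 n134 (.cons 837 n137 (.cons 883 n142 .nil))
noncomputable def n144 : Strat := .move 798 n86 (.cons 796 n131 (.cons 797 n143 .nil))
noncomputable def n145 : Strat := .move 882 n82 (.cons 923 n144 .nil)
noncomputable def n146 : Strat := .move 880 n58 (.cons 921 n145 .nil)
noncomputable def n147 : Strat := .move 759 n36 (.cons 718 n146 .nil)
noncomputable def n148 : Strat := .move 757 n7 (.cons 716 n147 .nil)
noncomputable def n149 : Strat := .move 758 n64 (.cons 880 n101 (.cons 757 n128 (.cons 717 n148 .nil)))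
noncomputable def n150 : Strat := .move 758 n1 (.cons 880 n2 .nil)
noncomputable def n151 : Strat := .move 923 n3 (.cons 964 n150 .nil)
noncomputable def n152 : Strat := .move 921 n0 (.cons 962 n151 .nil)
noncomputable def n153 : Strat := .move 758 n1 (.cons 880 n38 .nil)
noncomputable def n154 : Strat := .move 921 n0 (.cons 962 n153 .nil)
noncomputable def n155 : Strat := .move 922 n152 (.cons 964 n154 (.cons 758 n125 (.cons 880 n40 .nil)))
noncomputable def n156 : Strat := .move 799 n29 (.cons 880 n41 (.cons 882 n51 (.cons 923 n65 (.cons 716 n81 (.cons 921 n102 (.cons 758 n126 (.cons 922 n149 (.cons 798 n155 .nil))))))))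

theorem ok : checkS n156 (pairBits 840 881) (pairBits 841 801) ≠ 0 := by decide +kernel

theorem reply : MakerWins {cellOf 881, cellOf 840} {cellOf 841, cellOf 801} :=
  reply2 n156 840 881 841 801 ok

end Vale.Agent.Snaky.Cert2.R801
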