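import Vale.Agent.Snaky.Cert2.Lem

namespace Vale.Agent.Snaky.Cert2.R837

open Vale.Agent.Snaky

noncomputable def n0 : Strat := .win 716 7 716
noncomputable def n1 : Strat := .win 798 7 757
noncomputable def n2 : Strat := .win 718 3 717
noncomputable def n3 : Strat := .win 800 3 758
noncomputable def n4 : Strat := .move 759 n2 (.cons 718 n3 .nil)
noncomputable def n5 : Strat := .move 922 n1 (.cons 798 n4 .nil)
noncomputable def n6 : Strat := .move 757 n0 (.cons 716 n5 .nil)
noncomputable def n7 : Strat := .win 880 1 757
noncomputable def n8 : Strat := .win 962 1 798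
noncomputable def n9 : Strat := .move 921 n7 (.cons 880 n8 .nil)
noncomputable def n10 : Strat := .move 922 n1 (.cons 798 n9 .nil)
noncomputable def n11 : Strat := .move 757 n0 (.cons 716 n10 .nil)
noncomputable def n12 : Strat := .move 922 n3 (.cons 800 n9 .nil)
noncomputable def n13 : Strat := .move 759 n2 (.cons 718 n12 .nil)
noncomputable def n14 : Strat := .win 921 1 757
noncomputable def n15 : Strat := .win 717 1 716
noncomputable def n16 : Strat := .win 923 6 758
noncomputable def n17 : Strat := .win 838 2 838
noncomputable def n18 : Strat := .win 884 2 839
noncomputable def n19 : Strat := .move 883 n17 (.cons 838 n18 .nil)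
noncomputable def n20 : Strat := .move 882 n16 (.cons 923 n19 .nil)
noncomputable def n21 : Strat := .move 839 n15 (.cons 717 n20 .nil)
noncomputable def n22 : Strat := .move 880 n14 (.cons 921 n21 .nil)
noncomputable def n23 : Strat := .move 759 n2 (.cons 718 n22 .nil)
noncomputable def n24 : Strat := .move 757 n0 (.cons 716 n23 .nil)
noncomputable def n25 : Strat := .move 758 n6 (.cons 759 n11 (.cons 757 n13 (.cons 922 n24 .nil)))
noncomputable def n26 : Strat := .win 922 7 757
noncomputable def n27 : Strat := .win 760 4 756
noncomputable def n28 : Strat := .win 796 5 755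
noncomputable def n29 : Strat := .move 797 n27 (.cons 760 n28 .nil)
noncomputable def n30 : Strat := .move 759 n2 (.cons 718 n29 .nil)
noncomputable def n31 : Strat := .move 798 n26 (.cons 922 n30 .nil)
noncomputable def n32 : Strat := .move 757 n0 (.cons 716 n31 .nil)
noncomputable def n33 : Strat := .win 839 1 716
noncomputable def n34 : Strat := .win 759 3 717
noncomputable def n35 : Strat := .win 677 3 676
noncomputable def n36 : Strat := .move 718 n34 (.cons 759 n35 .nil)
noncomputable def n37 : Strat := .move 717 n33 (.cons 839 n36 .nil)
noncomputable def n38 : Strat := .move 880 n14 (.cons 921 n37 .nil)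
noncomputable def n39 : Strat := .move 758 n11 (.cons 921 n32 (.cons 757 n38 .nil))
noncomputable def n40 : Strat := .win 964 6 799
noncomputable def n41 : Strat := .win 757 7 757
noncomputable def n42 : Strat := .win 963 7 798
noncomputable def n43 : Strat := .win 759 3 758
noncomputable def n44 : Strat := .win 838 4 797
noncomputable def n45 : Strat := .win 802 4 798
noncomputable def n46 : Strat := .move 801 n44 (.cons 838 n45 .nil)
noncomputable def n47 : Strat := .move 800 n43 (.cons 759 n46 .nil)
noncomputable def n48 : Strat := .move 839 n42 (.cons 963 n47 .nil)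
noncomputable def n49 : Strat := .move 798 n41 (.cons 757 n48 .nil)
noncomputable def n50 : Strat := .move 923 n40 (.cons 964 n49 .nil)
noncomputable def n51 : Strat := .move 921 n8 (.cons 962 n50 .nil)
noncomputable def n52 : Strat := .win 839 7 798
noncomputable def n53 : Strat := .win 921 1 798
noncomputable def n54 : Strat := .win 1003 1 839
noncomputable def n55 : Strat := .move 962 n53 (.cons 921 n54 .nil)
noncomputable def n56 : Strat := .move 963 n52 (.cons 839 n55 .nil)
noncomputable def n57 : Strat := .move 798 n41 (.cons 757 n56 .nil)
noncomputable def n58 : Strat := .win 923 6 799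
noncomputable def n59 : Strat := .win 1005 6 840
noncomputable def n60 : Strat := .move 964 n58 (.cons 923 n59 .nil)
noncomputable def n61 : Strat := .move 963 n52 (.cons 839 n60 .nil)
noncomputable def n62 : Strat := .move 798 n41 (.cons 757 n61 .nil)
noncomputable def n63 : Strat := .win 919 5 878
noncomputable def n64 : Strat := .win 883 5 879
noncomputable def n65 : Strat := .move 882 n63 (.cons 919 n64 .nil)
noncomputable def n66 : Strat := .win 882 5 878
noncomputable def n67 : Strat := .win 879 2 878
noncomputable def n68 : Strat := .win 877 2 877
noncomputable def n69 : Strat := .move 878 n67 (.cons 879 n68 .nil)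
noncomputable def n70 : Strat := .move 919 n66 (.cons 882 n69 .nil)
noncomputable def n71 : Strat := .win 878 2 878
noncomputable def n72 : Strat := .win 880 2 879
noncomputable def n73 : Strat := .win 961 4 919
noncomputable def n74 : Strat := .win 967 0 922
noncomputable def n75 : Strat := .win 965 0 921
noncomputable def n76 : Strat := .move 966 n74 (.cons 967 n75 .nil)
noncomputable def n77 : Strat := .win 885 5 881
noncomputable def n78 : Strat := .win 883 5 880
noncomputable def n79 : Strat := .move 884 n77 (.cons 885 n78 .nil)
noncomputable def n80 : Strat := .move 925 n76 (.cons 965 n79 .nil)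
noncomputable def n81 : Strat := .move 960 n73 (.cons 961 n80 .nil)
noncomputable def n82 : Strat := .move 924 n72 (.cons 880 n81 .nil)
noncomputable def n83 : Strat := .move 879 n71 (.cons 878 n82 .nil)
noncomputable def n84 : Strat := .move 920 n65 (.cons 883 n70 (.cons 882 n83 .nil))
noncomputable def n85 : Strat := .move 923 n40 (.cons 964 n84 .nil)
noncomputable def n86 : Strat := .move 921 n8 (.cons 962 n85 .nil)
noncomputable def n87 : Strat := .move 922 n51 (.cons 923 n57 (.cons 962 n62 (.cons 798 n86 .nil)))
noncomputable def n88 : Strat := .win 757 7 716
noncomputable def n89 : Strat := .win 675 7 675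
noncomputable def n90 : Strat := .move 716 n88 (.cons 757 n89 .nil)
noncomputable def n91 : Strat := .move 717 n33 (.cons 839 n90 .nil)
noncomputable def n92 : Strat := .move 880 n14 (.cons 921 n91 .nil)
noncomputable def n93 : Strat := .win 755 0 755
noncomputable def n94 : Strat := .win 801 0 756
noncomputable def n95 : Strat := .move 800 n93 (.cons 755 n94 .nil)
noncomputable def n96 : Strat := .win 800 0 755
noncomputable def n97 : Strat := .win 797 4 755
noncomputable def n98 : Strat := .win 795 4 754
noncomputable def n99 : Strat := .move 796 n97 (.cons 797 n98 .nil)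
noncomputable def n100 : Strat := .move 755 n96 (.cons 800 n99 .nil)
noncomputable def n101 : Strat := .win 796 4 755
noncomputable def n102 : Strat := .win 798 4 756
noncomputable def n103 : Strat := .win 715 2 714
noncomputable def n104 : Strat := .win 803 0 758
noncomputable def n105 : Strat := .win 801 0 757
noncomputable def n106 : Strat := .move 802 n104 (.cons 803 n105 .nil)
noncomputable def n107 : Strat := .win 721 5 717
noncomputable def n108 : Strat := .win 719 5 716
noncomputable def n109 : Strat := .move 720 n107 (.cons 721 n108 .nil)
noncomputable def n110 : Strat := .move 761 n106 (.cons 801 n109 .nil)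
noncomputable def n111 : Strat := .move 714 n103 (.cons 715 n110 .nil)
noncomputable def n112 : Strat := .move 760 n102 (.cons 798 n111 .nil)
noncomputable def n113 : Strat := .move 797 n101 (.cons 796 n112 .nil)
noncomputable def n114 : Strat := .move 756 n95 (.cons 801 n100 (.cons 800 n113 .nil))
noncomputable def n115 : Strat := .move 759 n2 (.cons 718 n114 .nil)
noncomputable def n116 : Strat := .move 757 n0 (.cons 716 n115 .nil)
noncomputable def n117 : Strat := .move 758 n24 (.cons 759 n92 (.cons 716 n38 (.cons 880 n116 .nil)))
noncomputable def n118 : Strat := .win 882 6 758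
noncomputable def n119 : Strat := .move 758 n7 (.cons 880 n118 .nil)
noncomputable def n120 : Strat := .move 923 n40 (.cons 964 n119 .nil)
noncomputable def n121 : Strat := .move 921 n8 (.cons 962 n120 .nil)
noncomputable def n122 : Strat := .move 757 n0 (.cons 716 n1 .nil)
noncomputable def n123 : Strat := .move 758 n118 (.cons 882 n122 .nil)
noncomputable def n124 : Strat := .move 923 n40 (.cons 964 n123 .nil)
noncomputable def n125 : Strat := .win 758 1 757
noncomputable def n126 : Strat := .win 878 0 878
noncomputable def n127 : Strat := .win 924 2 879
noncomputable def n128 : Strat := .move 879 n126 (.cons 878 n127 .nil)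
noncomputable def n129 : Strat := .move 923 n40 (.cons 964 n128 .nil)
noncomputable def n130 : Strat := .move 880 n125 (.cons 758 n129 .nil)
noncomputable def n131 : Strat := .move 921 n8 (.cons 962 n130 .nil)
noncomputable def n132 : Strat := .win 961 1 797
noncomputable def n133 : Strat := .win 883 4 879
noncomputable def n134 : Strat := .move 882 n63 (.cons 919 n133 .nil)
noncomputable def n135 : Strat := .move 920 n132 (.cons 961 n134 .nil)
noncomputable def n136 : Strat := .move 880 n125 (.cons 758 n135 .nil)
noncomputable def n137 : Strat := .move 839 n42 (.cons 963 n136 .nil)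
noncomputable def n138 : Strat := .move 798 n41 (.cons 757 n137 .nil)
noncomputable def n139 : Strat := .move 921 n8 (.cons 962 n138 .nil)
noncomputable def n140 : Strat := .win 879 2 879
noncomputable def n141 : Strat := .win 925 2 880
noncomputable def n142 : Strat := .move 924 n140 (.cons 879 n141 .nil)
noncomputable def n143 : Strat := .move 882 n133 (.cons 883 n63 .nil)
noncomputable def n144 : Strat := .move 920 n132 (.cons 961 n143 .nil)
noncomputable def n145 : Strat := .move 880 n128 (.cons 878 n142 (.cons 879 n144 .nil))
noncomputable def n146 : Strat := .move 839 n42 (.cons 963 n145 .nil)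
noncomputable def n147 : Strat := .move 798 n41 (.cons 757 n146 .nil)
noncomputable def n148 : Strat := .move 923 n40 (.cons 964 n147 .nil)
noncomputable def n149 : Strat := .move 921 n8 (.cons 962 n148 .nil)
noncomputable def n150 : Strat := .move 922 n121 (.cons 962 n124 (.cons 882 n131 (.cons 923 n139 (.cons 758 n149 .nil))))
noncomputable def n151 : Strat := .move 923 n118 (.cons 882 n40 .nil)
noncomputable def n152 : Strat := .move 922 n3 (.cons 800 n151 .nil)
noncomputable def n153 : Strat := .move 759 n2 (.cons 718 n152 .nil)
noncomputable def n154 : Strat := .move 758 n13 (.cons 759 n92 (.cons 880 n153 .nil))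
noncomputable def n155 : Strat := .move 758 n118 (.cons 882 n4 .nil)
noncomputable def n156 : Strat := .move 923 n40 (.cons 964 n155 .nil)
noncomputable def n157 : Strat := .move 922 n124 (.cons 923 n57 (.cons 798 n156 .nil))
noncomputable def n158 : Strat := .move 922 n3 (.cons 800 n1 .nil)
noncomputable def n159 : Strat := .move 759 n2 (.cons 718 n158 .nil)
noncomputable def n160 : Strat := .move 757 n0 (.cons 716 n159 .nil)
noncomputable def n161 : Strat := .move 758 n160 (.cons 759 n11 (.cons 798 n13 (.cons 922 n116 .nil)))
noncomputable def n162 : Strat := .win 716 7 675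
noncomputable def n163 : Strat := .win 634 7 634
noncomputable def n164 : Strat := .win 636 3 635
noncomputable def n165 : Strat := .win 718 3 676
noncomputable def n166 : Strat := .move 677 n164 (.cons 636 n165 .nil)
noncomputable def n167 : Strat := .move 676 n163 (.cons 634 n166 .nil)
noncomputable def n168 : Strat := .move 675 n162 (.cons 716 n167 .nil)
noncomputable def n169 : Strat := .move 922 n40 (.cons 964 n168 .nil)
noncomputable def n170 : Strat := .move 923 n118 (.cons 882 n169 .nil)
noncomputable def n171 : Strat := .move 717 n33 (.cons 839 n170 .nil)
noncomputable def n172 : Strat := .move 880 n14 (.cons 921 n171 .nil)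
noncomputable def n173 : Strat := .win 798 7 798
noncomputable def n174 : Strat := .win 1004 7 839
noncomputable def n175 : Strat := .move 963 n173 (.cons 798 n174 .nil)
noncomputable def n176 : Strat := .move 839 n15 (.cons 717 n175 .nil)
noncomputable def n177 : Strat := .move 922 n40 (.cons 964 n176 .nil)
noncomputable def n178 : Strat := .move 923 n118 (.cons 882 n177 .nil)
noncomputable def n179 : Strat := .move 880 n14 (.cons 921 n178 .nil)
noncomputable def n180 : Strat := .move 758 n13 (.cons 759 n172 (.cons 921 n153 (.cons 922 n38 (.cons 718 n179 .nil))))
noncomputable def n181 : Strat := .win 962 1 839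
noncomputable def n182 : Strat := .win 1044 1 880
noncomputable def n183 : Strat := .win 1046 6 881
noncomputable def n184 : Strat := .win 964 6 840
noncomputable def n185 : Strat := .move 1005 n183 (.cons 1046 n184 .nil)
noncomputable def n186 : Strat := .move 1004 n182 (.cons 1044 n185 .nil)
noncomputable def n187 : Strat := .move 1003 n181 (.cons 962 n186 .nil)
noncomputable def n188 : Strat := .move 758 n2 (.cons 718 n187 .nil)
noncomputable def n189 : Strat := .move 759 n3 (.cons 800 n188 .nil)
noncomputable def n190 : Strat := .move 963 n52 (.cons 839 n189 .nil)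
noncomputable def n191 : Strat := .move 798 n41 (.cons 757 n190 .nil)
noncomputable def n192 : Strat := .win 676 1 675
noncomputable def n193 : Strat := .win 880 1 716
noncomputable def n194 : Strat := .move 717 n192 (.cons 676 n193 .nil)
noncomputable def n195 : Strat := .move 839 n42 (.cons 963 n194 .nil)
noncomputable def n196 : Strat := .move 758 n2 (.cons 718 n195 .nil)
noncomputable def n197 : Strat := .move 759 n3 (.cons 800 n196 .nil)
noncomputable def n198 : Strat := .move 798 n41 (.cons 757 n197 .nil)
noncomputable def n199 : Strat := .move 922 n124 (.cons 923 n191 (.cons 757 n156 (.cons 758 n62 (.cons 964 n198 .nil))))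
noncomputable def n200 : Strat := .move 799 n25 (.cons 800 n39 (.cons 758 n87 (.cons 922 n117 (.cons 759 n150 (.cons 798 n154 (.cons 880 n157 (.cons 839 n161 (.cons 757 n180 (.cons 921 n199 .nil)))))))))

theorem ok : checkS n200 (pairBits 840 881) (pairBits 841 837) ≠ 0 := by decide +kernel

theorem reply : MakerWins {cellOf 881, cellOf 840} {cellOf 841, cellOf 837} :=
  reply2 n200 840 881 841 837 ok

end Vale.Agent.Snaky.Cert2.R837
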