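import Vale.Agent.Snaky.Cert2.Lem

namespace Vale.Agent.Snaky.Cert2.R838

open Vale.Agent.Snaky

noncomputable def n0 : Strat := .win 716 7 716
noncomputable def n1 : Strat := .win 798 7 757
noncomputable def n2 : Strat := .win 718 3 717
noncomputable def n3 : Strat := .win 800 3 758
noncomputable def n4 : Strat := .move 759 n2 (.cons 718 n3 .nil)
noncomputable def n5 : Strat := .move 922 n1 (.cons 798 n4 .nil)
noncomputable def n6 : Strat := .move 757 n0 (.cons 716 n5 .nil)
noncomputable def n7 : Strat := .win 880 1 757
noncomputable def n8 : Strat := .win 962 1 798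
noncomputable def n9 : Strat := .move 921 n7 (.cons 880 n8 .nil)
noncomputable def n10 : Strat := .move 922 n3 (.cons 800 n9 .nil)
noncomputable def n11 : Strat := .move 759 n2 (.cons 718 n10 .nil)
noncomputable def n12 : Strat := .move 922 n1 (.cons 798 n9 .nil)
noncomputable def n13 : Strat := .move 757 n0 (.cons 716 n12 .nil)
noncomputable def n14 : Strat := .win 921 1 757
noncomputable def n15 : Strat := .win 717 1 716
noncomputable def n16 : Strat := .win 760 4 756
noncomputable def n17 : Strat := .win 796 5 755
noncomputable def n18 : Strat := .move 797 n16 (.cons 760 n17 .nil)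
noncomputable def n19 : Strat := .win 715 7 715
noncomputable def n20 : Strat := .win 801 0 756
noncomputable def n21 : Strat := .win 755 0 755
noncomputable def n22 : Strat := .move 800 n20 (.cons 801 n21 .nil)
noncomputable def n23 : Strat := .move 756 n19 (.cons 715 n22 .nil)
noncomputable def n24 : Strat := .move 798 n18 (.cons 797 n23 .nil)
noncomputable def n25 : Strat := .move 839 n15 (.cons 717 n24 .nil)
noncomputable def n26 : Strat := .move 880 n14 (.cons 921 n25 .nil)
noncomputable def n27 : Strat := .move 759 n2 (.cons 718 n26 .nil)
noncomputable def n28 : Strat := .move 757 n0 (.cons 716 n27 .nil)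
noncomputable def n29 : Strat := .move 758 n6 (.cons 757 n11 (.cons 800 n13 (.cons 922 n28 .nil)))
noncomputable def n30 : Strat := .win 839 1 716
noncomputable def n31 : Strat := .win 759 3 717
noncomputable def n32 : Strat := .win 677 3 676
noncomputable def n33 : Strat := .move 718 n31 (.cons 759 n32 .nil)
noncomputable def n34 : Strat := .move 717 n30 (.cons 839 n33 .nil)
noncomputable def n35 : Strat := .move 880 n14 (.cons 921 n34 .nil)
noncomputable def n36 : Strat := .win 882 6 758
noncomputable def n37 : Strat := .win 964 6 799
noncomputable def n38 : Strat := .move 923 n36 (.cons 882 n37 .nil)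
noncomputable def n39 : Strat := .move 922 n1 (.cons 798 n38 .nil)
noncomputable def n40 : Strat := .move 757 n0 (.cons 716 n39 .nil)
noncomputable def n41 : Strat := .move 758 n13 (.cons 757 n35 (.cons 880 n40 .nil))
noncomputable def n42 : Strat := .win 757 7 757
noncomputable def n43 : Strat := .win 963 7 798
noncomputable def n44 : Strat := .win 878 0 878
noncomputable def n45 : Strat := .win 924 2 879
noncomputable def n46 : Strat := .move 879 n44 (.cons 878 n45 .nil)
noncomputable def n47 : Strat := .win 961 1 797
noncomputable def n48 : Strat := .win 883 4 879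
noncomputable def n49 : Strat := .win 919 5 878
noncomputable def n50 : Strat := .move 882 n48 (.cons 883 n49 .nil)
noncomputable def n51 : Strat := .move 920 n47 (.cons 961 n50 .nil)
noncomputable def n52 : Strat := .move 880 n46 (.cons 879 n51 .nil)
noncomputable def n53 : Strat := .move 839 n43 (.cons 963 n52 .nil)
noncomputable def n54 : Strat := .move 798 n42 (.cons 757 n53 .nil)
noncomputable def n55 : Strat := .move 923 n37 (.cons 964 n54 .nil)
noncomputable def n56 : Strat := .move 921 n8 (.cons 962 n55 .nil)
noncomputable def n57 : Strat := .win 883 5 879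
noncomputable def n58 : Strat := .move 882 n49 (.cons 919 n57 .nil)
noncomputable def n59 : Strat := .win 882 5 878
noncomputable def n60 : Strat := .win 879 2 878
noncomputable def n61 : Strat := .win 877 2 877
noncomputable def n62 : Strat := .move 878 n60 (.cons 879 n61 .nil)
noncomputable def n63 : Strat := .move 919 n59 (.cons 882 n62 .nil)
noncomputable def n64 : Strat := .win 878 2 878
noncomputable def n65 : Strat := .win 880 2 879
noncomputable def n66 : Strat := .win 961 4 919
noncomputable def n67 : Strat := .win 967 0 922
noncomputable def n68 : Strat := .win 965 0 921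
noncomputable def n69 : Strat := .move 966 n67 (.cons 967 n68 .nil)
noncomputable def n70 : Strat := .win 885 5 881
noncomputable def n71 : Strat := .win 883 5 880
noncomputable def n72 : Strat := .move 884 n70 (.cons 885 n71 .nil)
noncomputable def n73 : Strat := .move 925 n69 (.cons 965 n72 .nil)
noncomputable def n74 : Strat := .move 960 n66 (.cons 961 n73 .nil)
noncomputable def n75 : Strat := .move 924 n65 (.cons 880 n74 .nil)
noncomputable def n76 : Strat := .move 879 n64 (.cons 878 n75 .nil)
noncomputable def n77 : Strat := .move 920 n58 (.cons 883 n63 (.cons 882 n76 .nil))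
noncomputable def n78 : Strat := .move 923 n37 (.cons 964 n77 .nil)
noncomputable def n79 : Strat := .move 921 n8 (.cons 962 n78 .nil)
noncomputable def n80 : Strat := .win 839 7 798
noncomputable def n81 : Strat := .win 921 1 798
noncomputable def n82 : Strat := .win 1003 1 839
noncomputable def n83 : Strat := .move 962 n81 (.cons 921 n82 .nil)
noncomputable def n84 : Strat := .move 963 n80 (.cons 839 n83 .nil)
noncomputable def n85 : Strat := .move 798 n42 (.cons 757 n84 .nil)
noncomputable def n86 : Strat := .win 923 6 799
noncomputable def n87 : Strat := .win 1005 6 840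
noncomputable def n88 : Strat := .move 964 n86 (.cons 923 n87 .nil)
noncomputable def n89 : Strat := .move 963 n80 (.cons 839 n88 .nil)
noncomputable def n90 : Strat := .move 798 n42 (.cons 757 n89 .nil)
noncomputable def n91 : Strat := .move 922 n56 (.cons 798 n79 (.cons 923 n85 (.cons 962 n90 .nil)))
noncomputable def n92 : Strat := .move 800 n21 (.cons 755 n20 .nil)
noncomputable def n93 : Strat := .win 800 0 755
noncomputable def n94 : Strat := .win 797 4 755
noncomputable def n95 : Strat := .win 795 4 754
noncomputable def n96 : Strat := .move 796 n94 (.cons 797 n95 .nil)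
noncomputable def n97 : Strat := .move 755 n93 (.cons 800 n96 .nil)
noncomputable def n98 : Strat := .win 796 4 755
noncomputable def n99 : Strat := .win 798 4 756
noncomputable def n100 : Strat := .win 715 2 714
noncomputable def n101 : Strat := .win 803 0 758
noncomputable def n102 : Strat := .win 801 0 757
noncomputable def n103 : Strat := .move 802 n101 (.cons 803 n102 .nil)
noncomputable def n104 : Strat := .win 721 5 717
noncomputable def n105 : Strat := .win 719 5 716
noncomputable def n106 : Strat := .move 720 n104 (.cons 721 n105 .nil)
noncomputable def n107 : Strat := .move 761 n103 (.cons 801 n106 .nil)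
noncomputable def n108 : Strat := .move 714 n100 (.cons 715 n107 .nil)
noncomputable def n109 : Strat := .move 760 n99 (.cons 798 n108 .nil)
noncomputable def n110 : Strat := .move 797 n98 (.cons 796 n109 .nil)
noncomputable def n111 : Strat := .move 756 n92 (.cons 801 n97 (.cons 800 n110 .nil))
noncomputable def n112 : Strat := .move 759 n2 (.cons 718 n111 .nil)
noncomputable def n113 : Strat := .move 757 n0 (.cons 716 n112 .nil)
noncomputable def n114 : Strat := .win 757 7 716
noncomputable def n115 : Strat := .win 675 7 675
noncomputable def n116 : Strat := .move 716 n114 (.cons 757 n115 .nil)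
noncomputable def n117 : Strat := .move 717 n30 (.cons 839 n116 .nil)
noncomputable def n118 : Strat := .move 880 n14 (.cons 921 n117 .nil)
noncomputable def n119 : Strat := .move 758 n28 (.cons 880 n113 (.cons 759 n118 (.cons 716 n35 .nil)))
noncomputable def n120 : Strat := .move 922 n3 (.cons 800 n38 .nil)
noncomputable def n121 : Strat := .move 759 n2 (.cons 718 n120 .nil)
noncomputable def n122 : Strat := .win 798 7 798
noncomputable def n123 : Strat := .win 1004 7 839
noncomputable def n124 : Strat := .move 963 n122 (.cons 798 n123 .nil)
noncomputable def n125 : Strat := .move 839 n15 (.cons 717 n124 .nil)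
noncomputable def n126 : Strat := .move 922 n37 (.cons 964 n125 .nil)
noncomputable def n127 : Strat := .move 923 n36 (.cons 882 n126 .nil)
noncomputable def n128 : Strat := .move 880 n14 (.cons 921 n127 .nil)
noncomputable def n129 : Strat := .move 758 n11 (.cons 880 n121 (.cons 718 n128 (.cons 922 n35 .nil)))
noncomputable def n130 : Strat := .move 757 n0 (.cons 716 n1 .nil)
noncomputable def n131 : Strat := .move 758 n36 (.cons 882 n130 .nil)
noncomputable def n132 : Strat := .move 923 n37 (.cons 964 n131 .nil)
noncomputable def n133 : Strat := .move 758 n36 (.cons 882 n4 .nil)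
noncomputable def n134 : Strat := .move 923 n37 (.cons 964 n133 .nil)
noncomputable def n135 : Strat := .win 676 1 675
noncomputable def n136 : Strat := .win 880 1 716
noncomputable def n137 : Strat := .move 717 n135 (.cons 676 n136 .nil)
noncomputable def n138 : Strat := .move 839 n43 (.cons 963 n137 .nil)
noncomputable def n139 : Strat := .move 758 n2 (.cons 718 n138 .nil)
noncomputable def n140 : Strat := .move 759 n3 (.cons 800 n139 .nil)
noncomputable def n141 : Strat := .move 798 n42 (.cons 757 n140 .nil)
noncomputable def n142 : Strat := .move 922 n132 (.cons 798 n134 (.cons 964 n141 (.cons 758 n90 .nil)))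
noncomputable def n143 : Strat := .move 758 n11 (.cons 922 n35 (.cons 759 n118 (.cons 880 n121 .nil)))
noncomputable def n144 : Strat := .move 922 n132 (.cons 758 n90 (.cons 923 n85 (.cons 798 n134 .nil)))
noncomputable def n145 : Strat := .move 922 n3 (.cons 800 n1 .nil)
noncomputable def n146 : Strat := .move 759 n2 (.cons 718 n145 .nil)
noncomputable def n147 : Strat := .move 757 n0 (.cons 716 n146 .nil)
noncomputable def n148 : Strat := .move 758 n147 (.cons 757 n11 (.cons 759 n13 (.cons 922 n113 .nil)))
noncomputable def n149 : Strat := .move 799 n29 (.cons 800 n41 (.cons 758 n91 (.cons 922 n119 (.cons 757 n129 (.cons 921 n142 (.cons 798 n143 (.cons 880 n144 (.cons 839 n148 .nil))))))))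

theorem ok : checkS n149 (pairBits 840 881) (pairBits 841 838) ≠ 0 := by decide +kernel

theorem reply : MakerWins {cellOf 881, cellOf 840} {cellOf 841, cellOf 838} :=
  reply2 n149 840 881 841 838 ok

end Vale.Agent.Snaky.Cert2.R838
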