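import Vale.Agent.Snaky.Cert2.Lem

namespace Vale.Agent.Snaky.Cert2.R882

open Vale.Agent.Snaky

noncomputable def n0 : Strat := .win 757 7 757
noncomputable def n1 : Strat := .win 839 7 798
noncomputable def n2 : Strat := .win 921 1 798
noncomputable def n3 : Strat := .win 1003 1 839
noncomputable def n4 : Strat := .move 962 n2 (.cons 921 n3 .nil)
noncomputable def n5 : Strat := .move 963 n1 (.cons 839 n4 .nil)
noncomputable def n6 : Strat := .move 798 n0 (.cons 757 n5 .nil)
noncomputable def n7 : Strat := .win 962 1 798
noncomputable def n8 : Strat := .win 880 1 757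
noncomputable def n9 : Strat := .win 718 3 717
noncomputable def n10 : Strat := .win 800 3 758
noncomputable def n11 : Strat := .move 759 n9 (.cons 718 n10 .nil)
noncomputable def n12 : Strat := .move 758 n8 (.cons 880 n11 .nil)
noncomputable def n13 : Strat := .move 921 n7 (.cons 962 n12 .nil)
noncomputable def n14 : Strat := .win 923 6 799
noncomputable def n15 : Strat := .win 1005 6 840
noncomputable def n16 : Strat := .move 964 n14 (.cons 923 n15 .nil)
noncomputable def n17 : Strat := .move 963 n1 (.cons 839 n16 .nil)
noncomputable def n18 : Strat := .move 798 n0 (.cons 757 n17 .nil)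
noncomputable def n19 : Strat := .move 922 n6 (.cons 798 n13 (.cons 921 n18 .nil))
noncomputable def n20 : Strat := .win 716 7 716
noncomputable def n21 : Strat := .win 798 7 757
noncomputable def n22 : Strat := .move 757 n20 (.cons 716 n21 .nil)
noncomputable def n23 : Strat := .move 758 n8 (.cons 880 n22 .nil)
noncomputable def n24 : Strat := .move 921 n7 (.cons 962 n23 .nil)
noncomputable def n25 : Strat := .move 758 n20 (.cons 716 n11 .nil)
noncomputable def n26 : Strat := .move 757 n21 (.cons 798 n25 .nil)
noncomputable def n27 : Strat := .move 963 n3 (.cons 1003 n16 .nil)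
noncomputable def n28 : Strat := .move 962 n2 (.cons 921 n27 .nil)
noncomputable def n29 : Strat := .move 922 n24 (.cons 921 n26 (.cons 798 n13 (.cons 758 n28 .nil)))
noncomputable def n30 : Strat := .move 922 n6 (.cons 798 n28 (.cons 921 n18 (.cons 963 n26 .nil)))
noncomputable def n31 : Strat := .win 964 6 799
noncomputable def n32 : Strat := .win 758 1 757
noncomputable def n33 : Strat := .win 878 0 878
noncomputable def n34 : Strat := .win 924 2 879
noncomputable def n35 : Strat := .move 879 n33 (.cons 878 n34 .nil)
noncomputable def n36 : Strat := .move 880 n32 (.cons 758 n35 .nil)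
noncomputable def n37 : Strat := .move 923 n31 (.cons 964 n36 .nil)
noncomputable def n38 : Strat := .move 921 n7 (.cons 962 n37 .nil)
noncomputable def n39 : Strat := .move 922 n6 (.cons 921 n18 (.cons 839 n38 .nil))
noncomputable def n40 : Strat := .move 923 n31 (.cons 964 n35 .nil)
noncomputable def n41 : Strat := .move 880 n32 (.cons 758 n40 .nil)
noncomputable def n42 : Strat := .move 921 n7 (.cons 962 n41 .nil)
noncomputable def n43 : Strat := .win 798 7 798
noncomputable def n44 : Strat := .win 717 1 716
noncomputable def n45 : Strat := .win 1004 7 839
noncomputable def n46 : Strat := .move 880 n44 (.cons 717 n45 .nil)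
noncomputable def n47 : Strat := .move 839 n43 (.cons 798 n46 .nil)
noncomputable def n48 : Strat := .move 963 n15 (.cons 1005 n47 .nil)
noncomputable def n49 : Strat := .move 964 n14 (.cons 923 n48 .nil)
noncomputable def n50 : Strat := .move 758 n9 (.cons 718 n49 .nil)
noncomputable def n51 : Strat := .move 759 n10 (.cons 800 n50 .nil)
noncomputable def n52 : Strat := .move 922 n42 (.cons 923 n13 (.cons 758 n28 (.cons 921 n51 .nil)))
noncomputable def n53 : Strat := .win 759 3 758
noncomputable def n54 : Strat := .win 963 7 798
noncomputable def n55 : Strat := .win 801 4 797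
noncomputable def n56 : Strat := .win 837 5 796
noncomputable def n57 : Strat := .move 838 n55 (.cons 801 n56 .nil)
noncomputable def n58 : Strat := .move 839 n54 (.cons 963 n57 .nil)
noncomputable def n59 : Strat := .move 800 n53 (.cons 759 n58 .nil)
noncomputable def n60 : Strat := .move 798 n0 (.cons 757 n59 .nil)
noncomputable def n61 : Strat := .move 922 n24 (.cons 798 n13 (.cons 880 n60 .nil))
noncomputable def n62 : Strat := .win 921 1 757
noncomputable def n63 : Strat := .win 760 4 756
noncomputable def n64 : Strat := .win 796 5 755
noncomputable def n65 : Strat := .move 797 n63 (.cons 760 n64 .nil)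
noncomputable def n66 : Strat := .win 797 4 756
noncomputable def n67 : Strat := .win 761 4 757
noncomputable def n68 : Strat := .move 760 n66 (.cons 797 n67 .nil)
noncomputable def n69 : Strat := .win 715 7 715
noncomputable def n70 : Strat := .win 801 0 756
noncomputable def n71 : Strat := .win 755 0 755
noncomputable def n72 : Strat := .move 800 n70 (.cons 801 n71 .nil)
noncomputable def n73 : Strat := .move 756 n69 (.cons 715 n72 .nil)
noncomputable def n74 : Strat := .move 798 n65 (.cons 796 n68 (.cons 760 n73 .nil))
noncomputable def n75 : Strat := .move 839 n44 (.cons 717 n74 .nil)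
noncomputable def n76 : Strat := .move 880 n62 (.cons 921 n75 .nil)
noncomputable def n77 : Strat := .move 759 n9 (.cons 718 n76 .nil)
noncomputable def n78 : Strat := .move 757 n20 (.cons 716 n77 .nil)
noncomputable def n79 : Strat := .win 839 1 716
noncomputable def n80 : Strat := .win 759 3 717
noncomputable def n81 : Strat := .win 677 3 676
noncomputable def n82 : Strat := .move 718 n80 (.cons 759 n81 .nil)
noncomputable def n83 : Strat := .move 717 n79 (.cons 839 n82 .nil)
noncomputable def n84 : Strat := .move 880 n62 (.cons 921 n83 .nil)
noncomputable def n85 : Strat := .win 757 7 716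
noncomputable def n86 : Strat := .win 675 7 675
noncomputable def n87 : Strat := .move 716 n85 (.cons 757 n86 .nil)
noncomputable def n88 : Strat := .move 717 n79 (.cons 839 n87 .nil)
noncomputable def n89 : Strat := .move 880 n62 (.cons 921 n88 .nil)
noncomputable def n90 : Strat := .move 800 n71 (.cons 755 n70 .nil)
noncomputable def n91 : Strat := .win 800 0 755
noncomputable def n92 : Strat := .win 797 4 755
noncomputable def n93 : Strat := .win 795 4 754
noncomputable def n94 : Strat := .move 796 n92 (.cons 797 n93 .nil)
noncomputable def n95 : Strat := .move 755 n91 (.cons 800 n94 .nil)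
noncomputable def n96 : Strat := .win 796 4 755
noncomputable def n97 : Strat := .win 714 2 714
noncomputable def n98 : Strat := .win 839 6 674
noncomputable def n99 : Strat := .win 633 6 633
noncomputable def n100 : Strat := .move 674 n98 (.cons 839 n99 .nil)
noncomputable def n101 : Strat := .move 715 n97 (.cons 714 n100 .nil)
noncomputable def n102 : Strat := .move 798 n63 (.cons 760 n101 .nil)
noncomputable def n103 : Strat := .move 797 n96 (.cons 796 n102 .nil)
noncomputable def n104 : Strat := .move 756 n90 (.cons 801 n95 (.cons 800 n103 .nil))
noncomputable def n105 : Strat := .move 759 n9 (.cons 718 n104 .nil)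
noncomputable def n106 : Strat := .move 757 n20 (.cons 716 n105 .nil)
noncomputable def n107 : Strat := .win 798 4 756
noncomputable def n108 : Strat := .win 715 2 714
noncomputable def n109 : Strat := .win 803 0 758
noncomputable def n110 : Strat := .win 801 0 757
noncomputable def n111 : Strat := .move 802 n109 (.cons 803 n110 .nil)
noncomputable def n112 : Strat := .win 721 5 717
noncomputable def n113 : Strat := .win 719 5 716
noncomputable def n114 : Strat := .move 720 n112 (.cons 721 n113 .nil)
noncomputable def n115 : Strat := .move 761 n111 (.cons 801 n114 .nil)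
noncomputable def n116 : Strat := .move 714 n108 (.cons 715 n115 .nil)
noncomputable def n117 : Strat := .move 760 n107 (.cons 798 n116 .nil)
noncomputable def n118 : Strat := .move 797 n96 (.cons 796 n117 .nil)
noncomputable def n119 : Strat := .move 756 n90 (.cons 801 n95 (.cons 800 n118 .nil))
noncomputable def n120 : Strat := .move 759 n9 (.cons 718 n119 .nil)
noncomputable def n121 : Strat := .move 757 n20 (.cons 716 n120 .nil)
noncomputable def n122 : Strat := .move 758 n78 (.cons 716 n84 (.cons 759 n89 (.cons 717 n106 (.cons 839 n121 .nil))))
noncomputable def n123 : Strat := .move 921 n8 (.cons 880 n7 .nil)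
noncomputable def n124 : Strat := .move 922 n10 (.cons 800 n123 .nil)
noncomputable def n125 : Strat := .move 759 n9 (.cons 718 n124 .nil)
noncomputable def n126 : Strat := .win 922 3 758
noncomputable def n127 : Strat := .win 756 0 756
noncomputable def n128 : Strat := .win 802 2 757
noncomputable def n129 : Strat := .move 801 n127 (.cons 756 n128 .nil)
noncomputable def n130 : Strat := .move 800 n126 (.cons 922 n129 .nil)
noncomputable def n131 : Strat := .move 757 n20 (.cons 716 n130 .nil)
noncomputable def n132 : Strat := .move 759 n9 (.cons 718 n131 .nil)
noncomputable def n133 : Strat := .move 758 n125 (.cons 759 n89 (.cons 921 n132 .nil))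
noncomputable def n134 : Strat := .move 922 n10 (.cons 800 n21 .nil)
noncomputable def n135 : Strat := .move 759 n9 (.cons 718 n134 .nil)
noncomputable def n136 : Strat := .move 757 n20 (.cons 716 n135 .nil)
noncomputable def n137 : Strat := .move 922 n10 (.cons 800 n49 .nil)
noncomputable def n138 : Strat := .move 759 n9 (.cons 718 n137 .nil)
noncomputable def n139 : Strat := .win 922 7 757
noncomputable def n140 : Strat := .win 802 0 757
noncomputable def n141 : Strat := .win 800 0 756
noncomputable def n142 : Strat := .win 754 0 754
noncomputable def n143 : Strat := .win 713 2 713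
noncomputable def n144 : Strat := .move 714 n143 (.cons 713 n108 .nil)
noncomputable def n145 : Strat := .move 755 n142 (.cons 754 n144 .nil)
noncomputable def n146 : Strat := .move 756 n141 (.cons 800 n145 .nil)
noncomputable def n147 : Strat := .move 801 n140 (.cons 802 n146 .nil)
noncomputable def n148 : Strat := .move 760 n67 (.cons 761 n147 .nil)
noncomputable def n149 : Strat := .move 755 n91 (.cons 800 n142 .nil)
noncomputable def n150 : Strat := .move 756 n90 (.cons 801 n149 (.cons 800 n101 .nil))
noncomputable def n151 : Strat := .move 797 n64 (.cons 796 n150 .nil)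
noncomputable def n152 : Strat := .move 759 n65 (.cons 796 n68 (.cons 797 n148 (.cons 760 n151 .nil)))
noncomputable def n153 : Strat := .move 798 n139 (.cons 922 n152 .nil)
noncomputable def n154 : Strat := .move 757 n20 (.cons 716 n153 .nil)
noncomputable def n155 : Strat := .move 798 n65 (.cons 796 n68 (.cons 797 n148 (.cons 760 n151 .nil)))
noncomputable def n156 : Strat := .move 759 n9 (.cons 718 n155 .nil)
noncomputable def n157 : Strat := .move 757 n20 (.cons 716 n156 .nil)
noncomputable def n158 : Strat := .move 759 n9 (.cons 718 n65 .nil)
noncomputable def n159 : Strat := .move 798 n139 (.cons 922 n158 .nil)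
noncomputable def n160 : Strat := .move 757 n20 (.cons 716 n159 .nil)
noncomputable def n161 : Strat := .win 880 1 716
noncomputable def n162 : Strat := .win 798 1 675
noncomputable def n163 : Strat := .win 718 3 676
noncomputable def n164 : Strat := .win 636 3 635
noncomputable def n165 : Strat := .move 677 n163 (.cons 718 n164 .nil)
noncomputable def n166 : Strat := .move 676 n162 (.cons 798 n165 .nil)
noncomputable def n167 : Strat := .move 839 n161 (.cons 880 n166 .nil)
noncomputable def n168 : Strat := .move 717 n86 (.cons 675 n167 .nil)
noncomputable def n169 : Strat := .move 716 n85 (.cons 757 n168 .nil)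
noncomputable def n170 : Strat := .move 758 n136 (.cons 757 n138 (.cons 718 n154 (.cons 922 n157 (.cons 798 n132 (.cons 800 n160 (.cons 759 n169 .nil))))))
noncomputable def n171 : Strat := .win 838 4 796
noncomputable def n172 : Strat := .win 836 4 795
noncomputable def n173 : Strat := .win 754 2 754
noncomputable def n174 : Strat := .win 756 2 755
noncomputable def n175 : Strat := .move 755 n173 (.cons 754 n174 .nil)
noncomputable def n176 : Strat := .move 796 n172 (.cons 836 n175 .nil)
noncomputable def n177 : Strat := .move 837 n171 (.cons 838 n176 .nil)
noncomputable def n178 : Strat := .win 838 4 797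
noncomputable def n179 : Strat := .win 802 4 798
noncomputable def n180 : Strat := .move 839 n178 (.cons 838 n179 .nil)
noncomputable def n181 : Strat := .win 839 4 797
noncomputable def n182 : Strat := .win 837 4 796
noncomputable def n183 : Strat := .move 838 n181 (.cons 839 n182 .nil)
noncomputable def n184 : Strat := .win 839 4 798
noncomputable def n185 : Strat := .win 844 0 799
noncomputable def n186 : Strat := .win 842 0 798
noncomputable def n187 : Strat := .move 843 n185 (.cons 844 n186 .nil)
noncomputable def n188 : Strat := .move 802 n184 (.cons 839 n187 .nil)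
noncomputable def n189 : Strat := .win 762 5 758
noncomputable def n190 : Strat := .win 760 5 757
noncomputable def n191 : Strat := .move 761 n189 (.cons 762 n190 .nil)
noncomputable def n192 : Strat := .move 802 n187 (.cons 842 n191 .nil)
noncomputable def n193 : Strat := .move 801 n180 (.cons 802 n183 (.cons 838 n188 (.cons 839 n192 .nil)))
noncomputable def n194 : Strat := .move 801 n178 (.cons 838 n179 .nil)
noncomputable def n195 : Strat := .win 795 0 795
noncomputable def n196 : Strat := .move 796 n173 (.cons 754 n195 .nil)
noncomputable def n197 : Strat := .move 839 n194 (.cons 802 n196 .nil)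
noncomputable def n198 : Strat := .move 755 n174 (.cons 756 n197 .nil)
noncomputable def n199 : Strat := .win 839 0 795
noncomputable def n200 : Strat := .win 753 2 753
noncomputable def n201 : Strat := .win 755 2 754
noncomputable def n202 : Strat := .move 754 n200 (.cons 753 n201 .nil)
noncomputable def n203 : Strat := .move 795 n199 (.cons 839 n202 .nil)
noncomputable def n204 : Strat := .win 835 4 794
noncomputable def n205 : Strat := .win 837 4 795
noncomputable def n206 : Strat := .move 836 n204 (.cons 835 n205 .nil)
noncomputable def n207 : Strat := .move 795 n199 (.cons 839 n206 .nil)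
noncomputable def n208 : Strat := .move 796 n175 (.cons 756 n203 (.cons 754 n207 .nil))
noncomputable def n209 : Strat := .move 797 n177 (.cons 754 n193 (.cons 837 n198 (.cons 838 n208 .nil)))
noncomputable def n210 : Strat := .move 962 n2 (.cons 921 n209 .nil)
noncomputable def n211 : Strat := .move 923 n31 (.cons 964 n210 .nil)
noncomputable def n212 : Strat := .move 798 n0 (.cons 757 n211 .nil)
noncomputable def n213 : Strat := .move 800 n53 (.cons 759 n212 .nil)
noncomputable def n214 : Strat := .move 922 n6 (.cons 798 n28 (.cons 921 n18 (.cons 963 n213 .nil)))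
noncomputable def n215 : Strat := .move 799 n19 (.cons 839 n29 (.cons 880 n30 (.cons 718 n39 (.cons 757 n52 (.cons 1005 n61 (.cons 922 n122 (.cons 798 n133 (.cons 921 n170 (.cons 758 n214 .nil)))))))))

theorem ok : checkS n215 (pairBits 840 881) (pairBits 841 882) ≠ 0 := by decide +kernel

theorem reply : MakerWins {cellOf 881, cellOf 840} {cellOf 841, cellOf 882} :=
  reply2 n215 840 881 841 882 ok

end Vale.Agent.Snaky.Cert2.R882
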