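import Vale.Agent.Snaky.Cert2.Lem

namespace Vale.Agent.Snaky.Cert2.R919

open Vale.Agent.Snaky

noncomputable def n0 : Strat := .win 964 6 799
noncomputable def n1 : Strat := .win 882 6 758
noncomputable def n2 : Strat := .win 962 1 798
noncomputable def n3 : Strat := .win 880 1 757
noncomputable def n4 : Strat := .move 921 n2 (.cons 962 n3 .nil)
noncomputable def n5 : Strat := .move 758 n1 (.cons 882 n4 .nil)
noncomputable def n6 : Strat := .move 923 n0 (.cons 964 n5 .nil)
noncomputable def n7 : Strat := .win 757 7 757
noncomputable def n8 : Strat := .win 839 7 798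
noncomputable def n9 : Strat := .win 923 6 799
noncomputable def n10 : Strat := .win 1005 6 840
noncomputable def n11 : Strat := .move 964 n9 (.cons 923 n10 .nil)
noncomputable def n12 : Strat := .move 963 n8 (.cons 839 n11 .nil)
noncomputable def n13 : Strat := .move 798 n7 (.cons 757 n12 .nil)
noncomputable def n14 : Strat := .win 963 7 798
noncomputable def n15 : Strat := .win 759 3 758
noncomputable def n16 : Strat := .win 801 4 797
noncomputable def n17 : Strat := .win 837 5 796
noncomputable def n18 : Strat := .move 838 n16 (.cons 801 n17 .nil)
noncomputable def n19 : Strat := .move 800 n15 (.cons 759 n18 .nil)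
noncomputable def n20 : Strat := .move 839 n14 (.cons 963 n19 .nil)
noncomputable def n21 : Strat := .move 798 n7 (.cons 757 n20 .nil)
noncomputable def n22 : Strat := .move 799 n6 (.cons 921 n13 (.cons 923 n21 .nil))
noncomputable def n23 : Strat := .win 921 1 798
noncomputable def n24 : Strat := .win 1003 1 839
noncomputable def n25 : Strat := .move 962 n23 (.cons 921 n24 .nil)
noncomputable def n26 : Strat := .move 963 n8 (.cons 839 n25 .nil)
noncomputable def n27 : Strat := .move 798 n7 (.cons 757 n26 .nil)
noncomputable def n28 : Strat := .win 798 7 757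
noncomputable def n29 : Strat := .win 716 7 716
noncomputable def n30 : Strat := .move 757 n28 (.cons 798 n29 .nil)
noncomputable def n31 : Strat := .move 758 n1 (.cons 882 n30 .nil)
noncomputable def n32 : Strat := .move 923 n0 (.cons 964 n31 .nil)
noncomputable def n33 : Strat := .move 799 n6 (.cons 882 n27 (.cons 921 n32 .nil))
noncomputable def n34 : Strat := .win 800 3 758
noncomputable def n35 : Strat := .win 718 3 717
noncomputable def n36 : Strat := .move 759 n34 (.cons 800 n35 .nil)
noncomputable def n37 : Strat := .move 758 n3 (.cons 880 n36 .nil)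
noncomputable def n38 : Strat := .move 921 n2 (.cons 962 n37 .nil)
noncomputable def n39 : Strat := .move 758 n3 (.cons 880 n30 .nil)
noncomputable def n40 : Strat := .move 921 n2 (.cons 962 n39 .nil)
noncomputable def n41 : Strat := .move 799 n21 (.cons 798 n38 (.cons 800 n40 .nil))
noncomputable def n42 : Strat := .move 758 n1 (.cons 882 n36 .nil)
noncomputable def n43 : Strat := .move 923 n0 (.cons 964 n42 .nil)
noncomputable def n44 : Strat := .move 799 n13 (.cons 798 n43 (.cons 964 n21 .nil))
noncomputable def n45 : Strat := .move 799 n23 (.cons 921 n9 .nil)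
noncomputable def n46 : Strat := .move 964 n10 (.cons 1005 n45 .nil)
noncomputable def n47 : Strat := .move 962 n24 (.cons 1003 n46 .nil)
noncomputable def n48 : Strat := .win 798 7 798
noncomputable def n49 : Strat := .win 880 7 839
noncomputable def n50 : Strat := .win 964 6 840
noncomputable def n51 : Strat := .win 1046 6 881
noncomputable def n52 : Strat := .move 1005 n50 (.cons 964 n51 .nil)
noncomputable def n53 : Strat := .move 1004 n49 (.cons 880 n52 .nil)
noncomputable def n54 : Strat := .move 839 n48 (.cons 798 n53 .nil)
noncomputable def n55 : Strat := .win 799 1 798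
noncomputable def n56 : Strat := .win 1004 6 839
noncomputable def n57 : Strat := .win 1002 1 838
noncomputable def n58 : Strat := .win 960 5 919
noncomputable def n59 : Strat := .win 924 4 920
noncomputable def n60 : Strat := .move 923 n58 (.cons 960 n59 .nil)
noncomputable def n61 : Strat := .move 961 n57 (.cons 1002 n60 .nil)
noncomputable def n62 : Strat := .move 880 n56 (.cons 1004 n61 .nil)
noncomputable def n63 : Strat := .move 839 n48 (.cons 798 n62 .nil)
noncomputable def n64 : Strat := .move 921 n55 (.cons 799 n63 .nil)
noncomputable def n65 : Strat := .move 962 n24 (.cons 1003 n64 .nil)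
noncomputable def n66 : Strat := .move 963 n47 (.cons 799 n54 (.cons 1005 n65 .nil))
noncomputable def n67 : Strat := .move 758 n3 (.cons 880 n1 .nil)
noncomputable def n68 : Strat := .move 921 n2 (.cons 962 n67 .nil)
noncomputable def n69 : Strat := .move 923 n0 (.cons 964 n68 .nil)
noncomputable def n70 : Strat := .win 925 2 880
noncomputable def n71 : Strat := .win 879 2 879
noncomputable def n72 : Strat := .move 880 n70 (.cons 925 n71 .nil)
noncomputable def n73 : Strat := .win 880 2 880
noncomputable def n74 : Strat := .win 967 0 922
noncomputable def n75 : Strat := .win 965 0 921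
noncomputable def n76 : Strat := .move 966 n74 (.cons 967 n75 .nil)
noncomputable def n77 : Strat := .move 925 n73 (.cons 880 n76 .nil)
noncomputable def n78 : Strat := .win 884 5 880
noncomputable def n79 : Strat := .win 926 2 881
noncomputable def n80 : Strat := .win 920 5 879
noncomputable def n81 : Strat := .move 882 n79 (.cons 926 n80 .nil)
noncomputable def n82 : Strat := .move 925 n76 (.cons 965 n81 .nil)
noncomputable def n83 : Strat := .move 883 n78 (.cons 884 n82 .nil)
noncomputable def n84 : Strat := .win 880 2 879
noncomputable def n85 : Strat := .win 882 5 879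
noncomputable def n86 : Strat := .win 878 2 878
noncomputable def n87 : Strat := .move 920 n85 (.cons 882 n86 .nil)
noncomputable def n88 : Strat := .move 883 n78 (.cons 884 n87 .nil)
noncomputable def n89 : Strat := .move 879 n84 (.cons 880 n88 .nil)
noncomputable def n90 : Strat := .move 924 n72 (.cons 879 n77 (.cons 880 n83 (.cons 925 n89 .nil)))
noncomputable def n91 : Strat := .move 800 n15 (.cons 759 n90 .nil)
noncomputable def n92 : Strat := .move 798 n7 (.cons 757 n91 .nil)
noncomputable def n93 : Strat := .move 921 n2 (.cons 962 n92 .nil)
noncomputable def n94 : Strat := .move 923 n0 (.cons 964 n93 .nil)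
noncomputable def n95 : Strat := .move 799 n32 (.cons 923 n40 (.cons 716 n69 (.cons 758 n94 .nil)))
noncomputable def n96 : Strat := .win 962 1 839
noncomputable def n97 : Strat := .win 1044 1 880
noncomputable def n98 : Strat := .move 1003 n96 (.cons 962 n97 .nil)
noncomputable def n99 : Strat := .move 1004 n49 (.cons 880 n98 .nil)
noncomputable def n100 : Strat := .move 839 n48 (.cons 798 n99 .nil)
noncomputable def n101 : Strat := .move 1004 n51 (.cons 1046 n98 .nil)
noncomputable def n102 : Strat := .move 1005 n50 (.cons 964 n101 .nil)
noncomputable def n103 : Strat := .win 920 2 920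
noncomputable def n104 : Strat := .win 966 2 921
noncomputable def n105 : Strat := .move 921 n103 (.cons 920 n104 .nil)
noncomputable def n106 : Strat := .win 925 5 921
noncomputable def n107 : Strat := .win 961 5 920
noncomputable def n108 : Strat := .win 1007 0 962
noncomputable def n109 : Strat := .win 1088 7 923
noncomputable def n110 : Strat := .win 882 7 882
noncomputable def n111 : Strat := .move 1047 n109 (.cons 1088 n110 .nil)
noncomputable def n112 : Strat := .move 1006 n108 (.cons 1007 n111 .nil)
noncomputable def n113 : Strat := .move 923 n107 (.cons 961 n112 .nil)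
noncomputable def n114 : Strat := .move 924 n106 (.cons 925 n113 .nil)
noncomputable def n115 : Strat := .move 965 n105 (.cons 966 n114 .nil)
noncomputable def n116 : Strat := .move 839 n48 (.cons 798 n115 .nil)
noncomputable def n117 : Strat := .move 964 n10 (.cons 1005 n116 .nil)
noncomputable def n118 : Strat := .move 962 n24 (.cons 1003 n117 .nil)
noncomputable def n119 : Strat := .move 963 n54 (.cons 964 n100 (.cons 880 n102 (.cons 1004 n118 .nil)))
noncomputable def n120 : Strat := .win 883 5 880
noncomputable def n121 : Strat := .win 885 5 881
noncomputable def n122 : Strat := .move 884 n120 (.cons 883 n121 .nil)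
noncomputable def n123 : Strat := .move 925 n73 (.cons 880 n122 .nil)
noncomputable def n124 : Strat := .move 925 n79 (.cons 926 n76 .nil)
noncomputable def n125 : Strat := .move 882 n80 (.cons 920 n124 .nil)
noncomputable def n126 : Strat := .move 883 n78 (.cons 884 n125 .nil)
noncomputable def n127 : Strat := .move 920 n86 (.cons 878 n85 .nil)
noncomputable def n128 : Strat := .move 883 n78 (.cons 884 n127 .nil)
noncomputable def n129 : Strat := .move 879 n84 (.cons 880 n128 .nil)
noncomputable def n130 : Strat := .move 924 n72 (.cons 879 n123 (.cons 880 n126 (.cons 925 n129 .nil)))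
noncomputable def n131 : Strat := .move 921 n2 (.cons 962 n130 .nil)
noncomputable def n132 : Strat := .move 923 n0 (.cons 964 n131 .nil)
noncomputable def n133 : Strat := .move 799 n6 (.cons 923 n38 (.cons 921 n43 (.cons 758 n132 .nil)))
noncomputable def n134 : Strat := .move 922 n22 (.cons 801 n33 (.cons 923 n41 (.cons 921 n44 (.cons 757 n66 (.cons 963 n95 (.cons 799 n119 (.cons 798 n133 .nil)))))))

theorem ok : checkS n134 (pairBits 840 881) (pairBits 841 919) ≠ 0 := by decide +kernel

theorem reply : MakerWins {cellOf 881, cellOf 840} {cellOf 841, cellOf 919} :=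
  reply2 n134 840 881 841 919 ok

end Vale.Agent.Snaky.Cert2.R919
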