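import Vale.Agent.Snaky.Cert2.Lem

namespace Vale.Agent.Snaky.Cert2.R920

open Vale.Agent.Snaky

noncomputable def n0 : Strat := .win 757 7 757
noncomputable def n1 : Strat := .win 963 7 798
noncomputable def n2 : Strat := .win 759 3 758
noncomputable def n3 : Strat := .win 801 4 797
noncomputable def n4 : Strat := .win 837 5 796
noncomputable def n5 : Strat := .move 838 n3 (.cons 801 n4 .nil)
noncomputable def n6 : Strat := .move 800 n2 (.cons 759 n5 .nil)
noncomputable def n7 : Strat := .move 839 n1 (.cons 963 n6 .nil)
noncomputable def n8 : Strat := .move 798 n0 (.cons 757 n7 .nil)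
noncomputable def n9 : Strat := .win 964 6 799
noncomputable def n10 : Strat := .win 882 6 758
noncomputable def n11 : Strat := .win 962 1 798
noncomputable def n12 : Strat := .win 880 1 757
noncomputable def n13 : Strat := .move 921 n11 (.cons 962 n12 .nil)
noncomputable def n14 : Strat := .move 758 n10 (.cons 882 n13 .nil)
noncomputable def n15 : Strat := .move 923 n9 (.cons 964 n14 .nil)
noncomputable def n16 : Strat := .move 799 n8 (.cons 798 n15 .nil)
noncomputable def n17 : Strat := .win 798 7 757
noncomputable def n18 : Strat := .win 716 7 716
noncomputable def n19 : Strat := .move 757 n17 (.cons 798 n18 .nil)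
noncomputable def n20 : Strat := .move 758 n10 (.cons 882 n19 .nil)
noncomputable def n21 : Strat := .move 923 n9 (.cons 964 n20 .nil)
noncomputable def n22 : Strat := .move 758 n12 (.cons 880 n10 .nil)
noncomputable def n23 : Strat := .move 921 n11 (.cons 962 n22 .nil)
noncomputable def n24 : Strat := .move 923 n9 (.cons 964 n23 .nil)
noncomputable def n25 : Strat := .win 839 7 798
noncomputable def n26 : Strat := .win 921 1 798
noncomputable def n27 : Strat := .win 1003 1 839
noncomputable def n28 : Strat := .move 962 n26 (.cons 921 n27 .nil)
noncomputable def n29 : Strat := .move 963 n25 (.cons 839 n28 .nil)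
noncomputable def n30 : Strat := .move 798 n0 (.cons 757 n29 .nil)
noncomputable def n31 : Strat := .move 799 n21 (.cons 716 n24 (.cons 923 n30 .nil))
noncomputable def n32 : Strat := .move 758 n12 (.cons 880 n19 .nil)
noncomputable def n33 : Strat := .move 921 n11 (.cons 962 n32 .nil)
noncomputable def n34 : Strat := .win 800 3 758
noncomputable def n35 : Strat := .win 718 3 717
noncomputable def n36 : Strat := .move 759 n34 (.cons 800 n35 .nil)
noncomputable def n37 : Strat := .move 758 n12 (.cons 880 n36 .nil)
noncomputable def n38 : Strat := .move 921 n11 (.cons 962 n37 .nil)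
noncomputable def n39 : Strat := .move 799 n8 (.cons 837 n30 (.cons 839 n33 (.cons 798 n38 .nil)))
noncomputable def n40 : Strat := .move 758 n10 (.cons 882 n36 .nil)
noncomputable def n41 : Strat := .move 923 n9 (.cons 964 n40 .nil)
noncomputable def n42 : Strat := .win 923 6 799
noncomputable def n43 : Strat := .win 1005 6 840
noncomputable def n44 : Strat := .move 964 n42 (.cons 923 n43 .nil)
noncomputable def n45 : Strat := .move 963 n27 (.cons 1003 n44 .nil)
noncomputable def n46 : Strat := .move 962 n26 (.cons 921 n45 .nil)
noncomputable def n47 : Strat := .move 799 n15 (.cons 923 n38 (.cons 921 n41 (.cons 758 n46 .nil)))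
noncomputable def n48 : Strat := .move 963 n25 (.cons 839 n44 .nil)
noncomputable def n49 : Strat := .move 798 n0 (.cons 757 n48 .nil)
noncomputable def n50 : Strat := .move 799 n49 (.cons 798 n41 (.cons 964 n8 .nil))
noncomputable def n51 : Strat := .move 799 n26 (.cons 921 n42 .nil)
noncomputable def n52 : Strat := .move 964 n43 (.cons 1005 n51 .nil)
noncomputable def n53 : Strat := .move 962 n27 (.cons 1003 n52 .nil)
noncomputable def n54 : Strat := .win 798 7 798
noncomputable def n55 : Strat := .win 880 7 839
noncomputable def n56 : Strat := .win 964 6 840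
noncomputable def n57 : Strat := .win 1046 6 881
noncomputable def n58 : Strat := .move 1005 n56 (.cons 964 n57 .nil)
noncomputable def n59 : Strat := .move 1004 n55 (.cons 880 n58 .nil)
noncomputable def n60 : Strat := .move 839 n54 (.cons 798 n59 .nil)
noncomputable def n61 : Strat := .move 798 n0 (.cons 757 n25 .nil)
noncomputable def n62 : Strat := .move 799 n26 (.cons 921 n61 .nil)
noncomputable def n63 : Strat := .move 962 n27 (.cons 1003 n62 .nil)
noncomputable def n64 : Strat := .move 963 n53 (.cons 962 n60 (.cons 1005 n63 .nil))
noncomputable def n65 : Strat := .win 962 1 839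
noncomputable def n66 : Strat := .win 1044 1 880
noncomputable def n67 : Strat := .move 1003 n65 (.cons 962 n66 .nil)
noncomputable def n68 : Strat := .move 1004 n55 (.cons 880 n67 .nil)
noncomputable def n69 : Strat := .move 839 n54 (.cons 798 n68 .nil)
noncomputable def n70 : Strat := .move 1004 n57 (.cons 1046 n67 .nil)
noncomputable def n71 : Strat := .move 1005 n56 (.cons 964 n70 .nil)
noncomputable def n72 : Strat := .win 960 5 919
noncomputable def n73 : Strat := .win 924 5 920
noncomputable def n74 : Strat := .move 923 n72 (.cons 960 n73 .nil)
noncomputable def n75 : Strat := .win 923 5 920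
noncomputable def n76 : Strat := .win 925 5 921
noncomputable def n77 : Strat := .win 966 2 921
noncomputable def n78 : Strat := .win 880 1 838
noncomputable def n79 : Strat := .win 1001 4 960
noncomputable def n80 : Strat := .move 1002 n78 (.cons 880 n79 .nil)
noncomputable def n81 : Strat := .move 921 n77 (.cons 966 n80 .nil)
noncomputable def n82 : Strat := .move 965 n76 (.cons 925 n81 .nil)
noncomputable def n83 : Strat := .move 924 n75 (.cons 923 n82 .nil)
noncomputable def n84 : Strat := .win 1002 4 960
noncomputable def n85 : Strat := .win 1000 4 959
noncomputable def n86 : Strat := .win 919 2 918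
noncomputable def n87 : Strat := .win 917 2 917
noncomputable def n88 : Strat := .win 921 5 918
noncomputable def n89 : Strat := .move 959 n87 (.cons 917 n88 .nil)
noncomputable def n90 : Strat := .move 918 n86 (.cons 919 n89 .nil)
noncomputable def n91 : Strat := .move 960 n85 (.cons 1000 n90 .nil)
noncomputable def n92 : Strat := .move 1001 n84 (.cons 1002 n91 .nil)
noncomputable def n93 : Strat := .move 961 n74 (.cons 960 n83 (.cons 923 n92 .nil))
noncomputable def n94 : Strat := .move 839 n54 (.cons 798 n93 .nil)
noncomputable def n95 : Strat := .move 964 n43 (.cons 1005 n94 .nil)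
noncomputable def n96 : Strat := .move 962 n27 (.cons 1003 n95 .nil)
noncomputable def n97 : Strat := .move 963 n60 (.cons 964 n69 (.cons 880 n71 (.cons 1004 n96 .nil)))
noncomputable def n98 : Strat := .win 837 4 796
noncomputable def n99 : Strat := .win 880 7 756
noncomputable def n100 : Strat := .win 755 2 755
noncomputable def n101 : Strat := .move 756 n99 (.cons 880 n100 .nil)
noncomputable def n102 : Strat := .move 839 n3 (.cons 801 n101 .nil)
noncomputable def n103 : Strat := .move 838 n98 (.cons 837 n102 .nil)
noncomputable def n104 : Strat := .win 838 4 796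
noncomputable def n105 : Strat := .win 836 4 795
noncomputable def n106 : Strat := .win 754 2 754
noncomputable def n107 : Strat := .win 756 2 755
noncomputable def n108 : Strat := .move 755 n106 (.cons 754 n107 .nil)
noncomputable def n109 : Strat := .move 796 n105 (.cons 836 n108 .nil)
noncomputable def n110 : Strat := .move 837 n104 (.cons 838 n109 .nil)
noncomputable def n111 : Strat := .win 839 0 795
noncomputable def n112 : Strat := .win 753 2 753
noncomputable def n113 : Strat := .win 755 2 754
noncomputable def n114 : Strat := .move 754 n112 (.cons 753 n113 .nil)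
noncomputable def n115 : Strat := .move 795 n111 (.cons 839 n114 .nil)
noncomputable def n116 : Strat := .win 795 0 795
noncomputable def n117 : Strat := .move 839 n116 (.cons 795 n101 .nil)
noncomputable def n118 : Strat := .win 835 4 794
noncomputable def n119 : Strat := .win 837 4 795
noncomputable def n120 : Strat := .move 836 n118 (.cons 835 n119 .nil)
noncomputable def n121 : Strat := .move 795 n111 (.cons 839 n120 .nil)
noncomputable def n122 : Strat := .move 796 n108 (.cons 756 n115 (.cons 754 n117 (.cons 755 n121 .nil)))
noncomputable def n123 : Strat := .win 802 4 798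
noncomputable def n124 : Strat := .win 838 4 797
noncomputable def n125 : Strat := .move 801 n123 (.cons 802 n124 .nil)
noncomputable def n126 : Strat := .move 839 n99 (.cons 880 n125 .nil)
noncomputable def n127 : Strat := .move 756 n100 (.cons 755 n126 .nil)
noncomputable def n128 : Strat := .win 839 4 797
noncomputable def n129 : Strat := .move 838 n128 (.cons 839 n98 .nil)
noncomputable def n130 : Strat := .move 839 n123 (.cons 802 n124 .nil)
noncomputable def n131 : Strat := .win 844 0 799
noncomputable def n132 : Strat := .win 842 0 798
noncomputable def n133 : Strat := .move 843 n131 (.cons 844 n132 .nil)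
noncomputable def n134 : Strat := .win 762 5 758
noncomputable def n135 : Strat := .win 760 5 757
noncomputable def n136 : Strat := .move 761 n134 (.cons 762 n135 .nil)
noncomputable def n137 : Strat := .move 802 n133 (.cons 842 n136 .nil)
noncomputable def n138 : Strat := .move 801 n129 (.cons 837 n130 (.cons 839 n137 .nil))
noncomputable def n139 : Strat := .move 797 n103 (.cons 880 n110 (.cons 838 n122 (.cons 837 n127 (.cons 756 n138 .nil))))
noncomputable def n140 : Strat := .move 964 n42 (.cons 923 n139 .nil)
noncomputable def n141 : Strat := .move 921 n11 (.cons 962 n140 .nil)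
noncomputable def n142 : Strat := .move 800 n2 (.cons 759 n141 .nil)
noncomputable def n143 : Strat := .move 798 n0 (.cons 757 n142 .nil)
noncomputable def n144 : Strat := .move 799 n21 (.cons 923 n33 (.cons 716 n24 (.cons 758 n143 .nil)))
noncomputable def n145 : Strat := .move 922 n16 (.cons 837 n31 (.cons 923 n39 (.cons 798 n47 (.cons 921 n50 (.cons 758 n64 (.cons 799 n97 (.cons 963 n144 .nil)))))))

theorem ok : checkS n145 (pairBits 840 881) (pairBits 841 920) ≠ 0 := by decide +kernel

theorem reply : MakerWins {cellOf 881, cellOf 840} {cellOf 841, cellOf 920} :=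
  reply2 n145 840 881 841 920 ok

end Vale.Agent.Snaky.Cert2.R920
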