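import Vale.Agent.Snaky.Cert2.Lem

namespace Vale.Agent.Snaky.Cert2.R921

open Vale.Agent.Snaky

noncomputable def n0 : Strat := .win 757 7 757
noncomputable def n1 : Strat := .win 839 7 798
noncomputable def n2 : Strat := .win 923 6 799
noncomputable def n3 : Strat := .win 1005 6 840
noncomputable def n4 : Strat := .move 964 n2 (.cons 923 n3 .nil)
noncomputable def n5 : Strat := .move 963 n1 (.cons 839 n4 .nil)
noncomputable def n6 : Strat := .move 798 n0 (.cons 757 n5 .nil)
noncomputable def n7 : Strat := .win 964 6 799
noncomputable def n8 : Strat := .win 882 6 758
noncomputable def n9 : Strat := .win 718 3 717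
noncomputable def n10 : Strat := .win 800 3 758
noncomputable def n11 : Strat := .move 759 n9 (.cons 718 n10 .nil)
noncomputable def n12 : Strat := .move 758 n8 (.cons 882 n11 .nil)
noncomputable def n13 : Strat := .move 923 n7 (.cons 964 n12 .nil)
noncomputable def n14 : Strat := .win 963 7 798
noncomputable def n15 : Strat := .win 759 3 758
noncomputable def n16 : Strat := .win 801 4 797
noncomputable def n17 : Strat := .win 837 5 796
noncomputable def n18 : Strat := .move 838 n16 (.cons 801 n17 .nil)
noncomputable def n19 : Strat := .move 800 n15 (.cons 759 n18 .nil)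
noncomputable def n20 : Strat := .move 839 n14 (.cons 963 n19 .nil)
noncomputable def n21 : Strat := .move 798 n0 (.cons 757 n20 .nil)
noncomputable def n22 : Strat := .move 922 n6 (.cons 757 n13 (.cons 964 n21 .nil))
noncomputable def n23 : Strat := .win 716 7 716
noncomputable def n24 : Strat := .win 760 4 756
noncomputable def n25 : Strat := .win 796 5 755
noncomputable def n26 : Strat := .move 797 n24 (.cons 760 n25 .nil)
noncomputable def n27 : Strat := .win 797 4 756
noncomputable def n28 : Strat := .win 761 4 757
noncomputable def n29 : Strat := .move 760 n27 (.cons 797 n28 .nil)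
noncomputable def n30 : Strat := .win 802 0 757
noncomputable def n31 : Strat := .win 800 0 756
noncomputable def n32 : Strat := .win 754 0 754
noncomputable def n33 : Strat := .win 713 2 713
noncomputable def n34 : Strat := .win 715 2 714
noncomputable def n35 : Strat := .move 714 n33 (.cons 713 n34 .nil)
noncomputable def n36 : Strat := .move 755 n32 (.cons 754 n35 .nil)
noncomputable def n37 : Strat := .move 756 n31 (.cons 800 n36 .nil)
noncomputable def n38 : Strat := .move 801 n30 (.cons 802 n37 .nil)
noncomputable def n39 : Strat := .move 760 n28 (.cons 761 n38 .nil)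
noncomputable def n40 : Strat := .win 755 0 755
noncomputable def n41 : Strat := .win 801 0 756
noncomputable def n42 : Strat := .move 800 n40 (.cons 755 n41 .nil)
noncomputable def n43 : Strat := .win 800 0 755
noncomputable def n44 : Strat := .move 755 n43 (.cons 800 n32 .nil)
noncomputable def n45 : Strat := .win 714 2 714
noncomputable def n46 : Strat := .win 839 6 674
noncomputable def n47 : Strat := .win 633 6 633
noncomputable def n48 : Strat := .move 674 n46 (.cons 839 n47 .nil)
noncomputable def n49 : Strat := .move 715 n45 (.cons 714 n48 .nil)
noncomputable def n50 : Strat := .move 756 n42 (.cons 801 n44 (.cons 800 n49 .nil))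
noncomputable def n51 : Strat := .move 797 n25 (.cons 796 n50 .nil)
noncomputable def n52 : Strat := .move 798 n26 (.cons 796 n29 (.cons 797 n39 (.cons 760 n51 .nil)))
noncomputable def n53 : Strat := .move 759 n9 (.cons 718 n52 .nil)
noncomputable def n54 : Strat := .move 757 n23 (.cons 716 n53 .nil)
noncomputable def n55 : Strat := .win 759 3 717
noncomputable def n56 : Strat := .win 677 3 676
noncomputable def n57 : Strat := .win 880 1 716
noncomputable def n58 : Strat := .win 923 6 758
noncomputable def n59 : Strat := .win 837 0 837
noncomputable def n60 : Strat := .win 716 7 675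
noncomputable def n61 : Strat := .win 634 7 634
noncomputable def n62 : Strat := .win 798 1 675
noncomputable def n63 : Strat := .move 676 n61 (.cons 634 n62 .nil)
noncomputable def n64 : Strat := .move 675 n60 (.cons 716 n63 .nil)
noncomputable def n65 : Strat := .move 838 n59 (.cons 837 n64 .nil)
noncomputable def n66 : Strat := .move 882 n58 (.cons 923 n65 .nil)
noncomputable def n67 : Strat := .move 839 n57 (.cons 880 n66 .nil)
noncomputable def n68 : Strat := .move 717 n56 (.cons 677 n67 .nil)
noncomputable def n69 : Strat := .move 718 n55 (.cons 759 n68 .nil)
noncomputable def n70 : Strat := .win 717 1 716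
noncomputable def n71 : Strat := .win 883 2 838
noncomputable def n72 : Strat := .move 880 n70 (.cons 717 n71 .nil)
noncomputable def n73 : Strat := .move 838 n59 (.cons 837 n72 .nil)
noncomputable def n74 : Strat := .win 884 2 839
noncomputable def n75 : Strat := .win 880 2 838
noncomputable def n76 : Strat := .move 883 n74 (.cons 884 n75 .nil)
noncomputable def n77 : Strat := .move 838 n59 (.cons 837 n76 .nil)
noncomputable def n78 : Strat := .move 718 n55 (.cons 759 n56 .nil)
noncomputable def n79 : Strat := .move 717 n57 (.cons 880 n78 .nil)
noncomputable def n80 : Strat := .win 838 0 837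
noncomputable def n81 : Strat := .win 636 3 635
noncomputable def n82 : Strat := .win 718 3 676
noncomputable def n83 : Strat := .move 677 n81 (.cons 636 n82 .nil)
noncomputable def n84 : Strat := .move 676 n62 (.cons 798 n83 .nil)
noncomputable def n85 : Strat := .win 595 3 594
noncomputable def n86 : Strat := .win 677 3 635
noncomputable def n87 : Strat := .move 636 n85 (.cons 595 n86 .nil)
noncomputable def n88 : Strat := .win 593 7 593
noncomputable def n89 : Strat := .win 675 7 634
noncomputable def n90 : Strat := .move 634 n88 (.cons 593 n89 .nil)
noncomputable def n91 : Strat := .move 635 n87 (.cons 677 n90 .nil)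
noncomputable def n92 : Strat := .move 676 n62 (.cons 798 n91 .nil)
noncomputable def n93 : Strat := .win 800 6 635
noncomputable def n94 : Strat := .move 759 n93 (.cons 800 n9 .nil)
noncomputable def n95 : Strat := .move 635 n94 (.cons 718 n90 .nil)
noncomputable def n96 : Strat := .move 676 n62 (.cons 798 n95 .nil)
noncomputable def n97 : Strat := .move 717 n78 (.cons 759 n84 (.cons 718 n92 (.cons 677 n96 .nil)))
noncomputable def n98 : Strat := .move 883 n74 (.cons 884 n97 .nil)
noncomputable def n99 : Strat := .move 837 n80 (.cons 838 n98 .nil)
noncomputable def n100 : Strat := .move 839 n73 (.cons 717 n77 (.cons 837 n79 (.cons 880 n99 .nil)))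
noncomputable def n101 : Strat := .move 882 n58 (.cons 923 n100 .nil)
noncomputable def n102 : Strat := .win 757 7 716
noncomputable def n103 : Strat := .win 675 7 675
noncomputable def n104 : Strat := .move 838 n59 (.cons 837 n84 .nil)
noncomputable def n105 : Strat := .move 882 n58 (.cons 923 n104 .nil)
noncomputable def n106 : Strat := .move 839 n57 (.cons 880 n105 .nil)
noncomputable def n107 : Strat := .move 717 n103 (.cons 675 n106 .nil)
noncomputable def n108 : Strat := .move 716 n102 (.cons 757 n107 .nil)
noncomputable def n109 : Strat := .win 798 4 756
noncomputable def n110 : Strat := .win 796 4 755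
noncomputable def n111 : Strat := .move 797 n109 (.cons 798 n110 .nil)
noncomputable def n112 : Strat := .move 760 n30 (.cons 802 n111 .nil)
noncomputable def n113 : Strat := .move 801 n31 (.cons 800 n112 .nil)
noncomputable def n114 : Strat := .win 797 4 755
noncomputable def n115 : Strat := .win 795 4 754
noncomputable def n116 : Strat := .move 796 n114 (.cons 797 n115 .nil)
noncomputable def n117 : Strat := .move 755 n43 (.cons 800 n116 .nil)
noncomputable def n118 : Strat := .win 803 0 758
noncomputable def n119 : Strat := .win 801 0 757
noncomputable def n120 : Strat := .move 802 n118 (.cons 803 n119 .nil)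
noncomputable def n121 : Strat := .win 721 5 717
noncomputable def n122 : Strat := .win 719 5 716
noncomputable def n123 : Strat := .move 720 n121 (.cons 721 n122 .nil)
noncomputable def n124 : Strat := .move 761 n120 (.cons 801 n123 .nil)
noncomputable def n125 : Strat := .move 760 n109 (.cons 798 n124 .nil)
noncomputable def n126 : Strat := .move 797 n110 (.cons 796 n125 .nil)
noncomputable def n127 : Strat := .move 756 n42 (.cons 755 n113 (.cons 801 n117 (.cons 800 n126 .nil)))
noncomputable def n128 : Strat := .move 759 n9 (.cons 718 n127 .nil)
noncomputable def n129 : Strat := .move 757 n23 (.cons 716 n128 .nil)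
noncomputable def n130 : Strat := .move 882 n58 (.cons 923 n129 .nil)
noncomputable def n131 : Strat := .move 716 n102 (.cons 757 n103 .nil)
noncomputable def n132 : Strat := .move 717 n56 (.cons 677 n131 .nil)
noncomputable def n133 : Strat := .move 718 n55 (.cons 759 n132 .nil)
noncomputable def n134 : Strat := .move 838 n59 (.cons 837 n71 .nil)
noncomputable def n135 : Strat := .move 880 n70 (.cons 717 n134 .nil)
noncomputable def n136 : Strat := .move 882 n58 (.cons 923 n135 .nil)
noncomputable def n137 : Strat := .move 757 n23 (.cons 716 n136 .nil)
noncomputable def n138 : Strat := .move 882 n58 (.cons 923 n77 .nil)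
noncomputable def n139 : Strat := .move 757 n23 (.cons 716 n138 .nil)
noncomputable def n140 : Strat := .move 635 n88 (.cons 593 n87 .nil)
noncomputable def n141 : Strat := .move 634 n89 (.cons 675 n140 .nil)
noncomputable def n142 : Strat := .move 676 n62 (.cons 798 n141 .nil)
noncomputable def n143 : Strat := .move 717 n57 (.cons 880 n142 .nil)
noncomputable def n144 : Strat := .move 757 n23 (.cons 716 n143 .nil)
noncomputable def n145 : Strat := .win 676 1 675
noncomputable def n146 : Strat := .move 838 n17 (.cons 837 n16 .nil)
noncomputable def n147 : Strat := .win 802 4 798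
noncomputable def n148 : Strat := .win 838 4 797
noncomputable def n149 : Strat := .move 801 n147 (.cons 802 n148 .nil)
noncomputable def n150 : Strat := .win 759 5 755
noncomputable def n151 : Strat := .win 795 0 795
noncomputable def n152 : Strat := .move 796 n150 (.cons 759 n151 .nil)
noncomputable def n153 : Strat := .win 760 5 756
noncomputable def n154 : Strat := .move 759 n153 (.cons 760 n25 .nil)
noncomputable def n155 : Strat := .win 754 2 754
noncomputable def n156 : Strat := .win 756 2 755
noncomputable def n157 : Strat := .move 755 n155 (.cons 754 n156 .nil)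
noncomputable def n158 : Strat := .move 796 n151 (.cons 795 n157 .nil)
noncomputable def n159 : Strat := .win 759 5 756
noncomputable def n160 : Strat := .win 761 5 757
noncomputable def n161 : Strat := .move 801 n160 (.cons 761 n147 .nil)
noncomputable def n162 : Strat := .move 760 n159 (.cons 759 n161 .nil)
noncomputable def n163 : Strat := .move 797 n152 (.cons 795 n154 (.cons 759 n158 (.cons 796 n162 .nil)))
noncomputable def n164 : Strat := .win 838 4 796
noncomputable def n165 : Strat := .win 836 4 795
noncomputable def n166 : Strat := .move 796 n165 (.cons 836 n151 .nil)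
noncomputable def n167 : Strat := .move 837 n164 (.cons 838 n166 .nil)
noncomputable def n168 : Strat := .win 714 0 714
noncomputable def n169 : Strat := .move 759 n153 (.cons 760 n168 .nil)
noncomputable def n170 : Strat := .win 674 6 674
noncomputable def n171 : Strat := .win 755 2 755
noncomputable def n172 : Strat := .move 756 n170 (.cons 674 n171 .nil)
noncomputable def n173 : Strat := .move 715 n169 (.cons 714 n172 .nil)
noncomputable def n174 : Strat := .move 797 n152 (.cons 795 n154 (.cons 759 n167 (.cons 796 n173 .nil)))
noncomputable def n175 : Strat := .move 800 n146 (.cons 837 n149 (.cons 838 n163 (.cons 801 n174 .nil)))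
noncomputable def n176 : Strat := .move 798 n145 (.cons 676 n175 .nil)
noncomputable def n177 : Strat := .move 717 n103 (.cons 675 n176 .nil)
noncomputable def n178 : Strat := .move 716 n102 (.cons 757 n177 .nil)
noncomputable def n179 : Strat := .move 839 n137 (.cons 757 n136 (.cons 717 n139 (.cons 837 n144 (.cons 880 n178 .nil))))
noncomputable def n180 : Strat := .move 758 n54 (.cons 757 n69 (.cons 716 n101 (.cons 759 n108 (.cons 839 n130 (.cons 798 n133 (.cons 718 n179 .nil))))))
noncomputable def n181 : Strat := .win 922 7 757
noncomputable def n182 : Strat := .move 798 n181 (.cons 922 n26 .nil)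
noncomputable def n183 : Strat := .move 759 n9 (.cons 718 n182 .nil)
noncomputable def n184 : Strat := .move 757 n23 (.cons 716 n183 .nil)
noncomputable def n185 : Strat := .win 922 3 758
noncomputable def n186 : Strat := .win 797 5 756
noncomputable def n187 : Strat := .move 760 n28 (.cons 761 n186 .nil)
noncomputable def n188 : Strat := .move 797 n25 (.cons 796 n153 .nil)
noncomputable def n189 : Strat := .win 837 4 796
noncomputable def n190 : Strat := .move 717 n145 (.cons 676 n57 .nil)
noncomputable def n191 : Strat := .move 839 n16 (.cons 801 n190 .nil)
noncomputable def n192 : Strat := .move 838 n189 (.cons 837 n191 .nil)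
noncomputable def n193 : Strat := .move 797 n25 (.cons 796 n192 .nil)
noncomputable def n194 : Strat := .move 717 n57 (.cons 880 n145 .nil)
noncomputable def n195 : Strat := .move 839 n146 (.cons 837 n194 .nil)
noncomputable def n196 : Strat := .move 760 n28 (.cons 761 n195 .nil)
noncomputable def n197 : Strat := .move 798 n187 (.cons 761 n188 (.cons 760 n193 (.cons 797 n196 .nil)))
noncomputable def n198 : Strat := .move 800 n185 (.cons 922 n197 .nil)
noncomputable def n199 : Strat := .move 759 n9 (.cons 718 n198 .nil)
noncomputable def n200 : Strat := .move 759 n26 (.cons 796 n29 (.cons 797 n39 (.cons 760 n51 .nil)))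
noncomputable def n201 : Strat := .move 798 n181 (.cons 922 n200 .nil)
noncomputable def n202 : Strat := .move 757 n23 (.cons 716 n201 .nil)
noncomputable def n203 : Strat := .win 756 0 756
noncomputable def n204 : Strat := .win 802 2 757
noncomputable def n205 : Strat := .move 801 n203 (.cons 756 n204 .nil)
noncomputable def n206 : Strat := .move 800 n185 (.cons 922 n205 .nil)
noncomputable def n207 : Strat := .move 757 n23 (.cons 716 n206 .nil)
noncomputable def n208 : Strat := .move 759 n9 (.cons 718 n207 .nil)
noncomputable def n209 : Strat := .move 677 n82 (.cons 718 n81 .nil)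
noncomputable def n210 : Strat := .move 676 n62 (.cons 798 n209 .nil)
noncomputable def n211 : Strat := .move 839 n57 (.cons 880 n210 .nil)
noncomputable def n212 : Strat := .move 717 n103 (.cons 675 n211 .nil)
noncomputable def n213 : Strat := .move 716 n102 (.cons 757 n212 .nil)
noncomputable def n214 : Strat := .move 758 n184 (.cons 757 n199 (.cons 718 n202 (.cons 798 n208 (.cons 922 n54 (.cons 759 n213 .nil)))))
noncomputable def n215 : Strat := .move 759 n9 (.cons 718 n26 .nil)
noncomputable def n216 : Strat := .move 798 n181 (.cons 922 n215 .nil)
noncomputable def n217 : Strat := .move 757 n23 (.cons 716 n216 .nil)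
noncomputable def n218 : Strat := .win 798 7 757
noncomputable def n219 : Strat := .move 923 n8 (.cons 882 n7 .nil)
noncomputable def n220 : Strat := .move 922 n218 (.cons 798 n219 .nil)
noncomputable def n221 : Strat := .move 757 n23 (.cons 716 n220 .nil)
noncomputable def n222 : Strat := .move 717 n103 (.cons 675 n78 .nil)
noncomputable def n223 : Strat := .move 716 n102 (.cons 757 n222 .nil)
noncomputable def n224 : Strat := .move 798 n14 (.cons 963 n145 .nil)
noncomputable def n225 : Strat := .move 839 n57 (.cons 880 n224 .nil)
noncomputable def n226 : Strat := .move 717 n56 (.cons 677 n225 .nil)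
noncomputable def n227 : Strat := .move 718 n55 (.cons 759 n226 .nil)
noncomputable def n228 : Strat := .move 922 n7 (.cons 964 n227 .nil)
noncomputable def n229 : Strat := .move 923 n8 (.cons 882 n228 .nil)
noncomputable def n230 : Strat := .move 758 n217 (.cons 759 n221 (.cons 922 n223 (.cons 757 n229 .nil)))
noncomputable def n231 : Strat := .move 922 n10 (.cons 800 n218 .nil)
noncomputable def n232 : Strat := .move 759 n9 (.cons 718 n231 .nil)
noncomputable def n233 : Strat := .move 757 n23 (.cons 716 n232 .nil)
noncomputable def n234 : Strat := .move 922 n10 (.cons 800 n219 .nil)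
noncomputable def n235 : Strat := .move 759 n9 (.cons 718 n234 .nil)
noncomputable def n236 : Strat := .move 758 n233 (.cons 757 n235 (.cons 759 n221 (.cons 922 n130 .nil)))
noncomputable def n237 : Strat := .win 758 6 758
noncomputable def n238 : Strat := .win 798 7 798
noncomputable def n239 : Strat := .win 1045 3 881
noncomputable def n240 : Strat := .win 880 7 839
noncomputable def n241 : Strat := .move 1004 n239 (.cons 1045 n240 .nil)
noncomputable def n242 : Strat := .move 963 n238 (.cons 798 n241 .nil)
noncomputable def n243 : Strat := .win 798 4 797
noncomputable def n244 : Strat := .move 801 n147 (.cons 802 n243 .nil)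
noncomputable def n245 : Strat := .move 838 n59 (.cons 837 n244 .nil)
noncomputable def n246 : Strat := .move 839 n77 (.cons 838 n242 (.cons 880 n245 .nil))
noncomputable def n247 : Strat := .move 800 n15 (.cons 759 n246 .nil)
noncomputable def n248 : Strat := .move 882 n237 (.cons 758 n247 .nil)
noncomputable def n249 : Strat := .move 923 n7 (.cons 964 n248 .nil)
noncomputable def n250 : Strat := .move 758 n8 (.cons 882 n23 .nil)
noncomputable def n251 : Strat := .move 757 n218 (.cons 798 n250 .nil)
noncomputable def n252 : Strat := .move 923 n7 (.cons 964 n251 .nil)
noncomputable def n253 : Strat := .win 925 2 880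
noncomputable def n254 : Strat := .win 879 0 879
noncomputable def n255 : Strat := .move 924 n253 (.cons 925 n254 .nil)
noncomputable def n256 : Strat := .win 878 0 878
noncomputable def n257 : Strat := .win 924 0 879
noncomputable def n258 : Strat := .move 879 n256 (.cons 878 n257 .nil)
noncomputable def n259 : Strat := .win 839 2 839
noncomputable def n260 : Strat := .win 885 4 881
noncomputable def n261 : Strat := .move 884 n259 (.cons 839 n260 .nil)
noncomputable def n262 : Strat := .win 838 2 838
noncomputable def n263 : Strat := .move 839 n74 (.cons 884 n262 .nil)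
noncomputable def n264 : Strat := .win 844 5 840
noncomputable def n265 : Strat := .win 842 5 839
noncomputable def n266 : Strat := .move 843 n264 (.cons 844 n265 .nil)
noncomputable def n267 : Strat := .move 884 n260 (.cons 885 n266 .nil)
noncomputable def n268 : Strat := .win 760 1 759
noncomputable def n269 : Strat := .win 843 5 839
noncomputable def n270 : Strat := .move 842 n268 (.cons 760 n269 .nil)
noncomputable def n271 : Strat := .move 800 n147 (.cons 802 n15 .nil)
noncomputable def n272 : Strat := .move 801 n270 (.cons 843 n271 .nil)
noncomputable def n273 : Strat := .move 839 n262 (.cons 838 n272 .nil)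
noncomputable def n274 : Strat := .move 883 n261 (.cons 885 n263 (.cons 839 n267 (.cons 884 n273 .nil)))
noncomputable def n275 : Strat := .move 924 n253 (.cons 925 n274 .nil)
noncomputable def n276 : Strat := .win 837 2 837
noncomputable def n277 : Strat := .win 839 2 838
noncomputable def n278 : Strat := .move 883 n277 (.cons 839 n267 .nil)
noncomputable def n279 : Strat := .move 838 n276 (.cons 837 n278 .nil)
noncomputable def n280 : Strat := .move 879 n256 (.cons 878 n279 .nil)
noncomputable def n281 : Strat := .move 880 n255 (.cons 925 n258 (.cons 879 n275 (.cons 924 n280 .nil)))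
noncomputable def n282 : Strat := .move 882 n237 (.cons 758 n281 .nil)
noncomputable def n283 : Strat := .move 923 n7 (.cons 964 n282 .nil)
noncomputable def n284 : Strat := .move 922 n6 (.cons 757 n249 (.cons 964 n21 (.cons 963 n252 (.cons 798 n283 .nil))))
noncomputable def n285 : Strat := .win 758 3 717
noncomputable def n286 : Strat := .win 677 1 676
noncomputable def n287 : Strat := .move 718 n285 (.cons 758 n286 .nil)
noncomputable def n288 : Strat := .move 759 n185 (.cons 922 n287 .nil)
noncomputable def n289 : Strat := .win 962 1 839
noncomputable def n290 : Strat := .win 1044 1 880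
noncomputable def n291 : Strat := .move 1004 n240 (.cons 880 n290 .nil)
noncomputable def n292 : Strat := .move 1003 n289 (.cons 962 n291 .nil)
noncomputable def n293 : Strat := .move 838 n17 (.cons 837 n292 .nil)
noncomputable def n294 : Strat := .move 839 n238 (.cons 798 n293 .nil)
noncomputable def n295 : Strat := .move 963 n3 (.cons 1005 n294 .nil)
noncomputable def n296 : Strat := .move 964 n2 (.cons 923 n295 .nil)
noncomputable def n297 : Strat := .move 922 n15 (.cons 759 n296 .nil)
noncomputable def n298 : Strat := .move 838 n17 (.cons 837 n244 .nil)
noncomputable def n299 : Strat := .move 758 n8 (.cons 882 n190 .nil)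
noncomputable def n300 : Strat := .move 923 n7 (.cons 964 n299 .nil)
noncomputable def n301 : Strat := .move 922 n14 (.cons 963 n300 .nil)
noncomputable def n302 : Strat := .move 798 n148 (.cons 838 n301 .nil)
noncomputable def n303 : Strat := .move 801 n147 (.cons 802 n302 .nil)
noncomputable def n304 : Strat := .move 883 n75 (.cons 880 n74 .nil)
noncomputable def n305 : Strat := .move 882 n237 (.cons 758 n304 .nil)
noncomputable def n306 : Strat := .move 923 n7 (.cons 964 n305 .nil)
noncomputable def n307 : Strat := .move 922 n14 (.cons 963 n306 .nil)
noncomputable def n308 : Strat := .move 798 n16 (.cons 801 n307 .nil)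
noncomputable def n309 : Strat := .move 838 n17 (.cons 837 n308 .nil)
noncomputable def n310 : Strat := .move 758 n58 (.cons 923 n70 .nil)
noncomputable def n311 : Strat := .move 880 n71 (.cons 883 n310 .nil)
noncomputable def n312 : Strat := .win 922 6 799
noncomputable def n313 : Strat := .win 1005 7 840
noncomputable def n314 : Strat := .move 964 n312 (.cons 922 n313 .nil)
noncomputable def n315 : Strat := .move 923 n237 (.cons 758 n314 .nil)
noncomputable def n316 : Strat := .move 882 n311 (.cons 883 n315 (.cons 758 n76 .nil))
noncomputable def n317 : Strat := .move 801 n147 (.cons 802 n316 .nil)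
noncomputable def n318 : Strat := .move 838 n17 (.cons 837 n317 .nil)
noncomputable def n319 : Strat := .move 963 n238 (.cons 798 n4 .nil)
noncomputable def n320 : Strat := .move 879 n257 (.cons 924 n256 .nil)
noncomputable def n321 : Strat := .move 880 n71 (.cons 883 n320 .nil)
noncomputable def n322 : Strat := .move 882 n237 (.cons 758 n321 .nil)
noncomputable def n323 : Strat := .move 923 n7 (.cons 964 n322 .nil)
noncomputable def n324 : Strat := .move 1003 n289 (.cons 962 n290 .nil)
noncomputable def n325 : Strat := .move 1004 n240 (.cons 880 n324 .nil)
noncomputable def n326 : Strat := .move 963 n238 (.cons 798 n325 .nil)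
noncomputable def n327 : Strat := .move 922 n319 (.cons 963 n323 (.cons 923 n326 .nil))
noncomputable def n328 : Strat := .move 838 n17 (.cons 837 n327 .nil)
noncomputable def n329 : Strat := .win 801 4 798
noncomputable def n330 : Strat := .move 675 n61 (.cons 634 n60 .nil)
noncomputable def n331 : Strat := .move 676 n83 (.cons 718 n330 .nil)
noncomputable def n332 : Strat := .move 717 n57 (.cons 880 n331 .nil)
noncomputable def n333 : Strat := .move 758 n8 (.cons 882 n332 .nil)
noncomputable def n334 : Strat := .move 923 n7 (.cons 964 n333 .nil)
noncomputable def n335 : Strat := .move 922 n319 (.cons 923 n326 (.cons 798 n334 .nil))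
noncomputable def n336 : Strat := .move 802 n329 (.cons 801 n335 .nil)
noncomputable def n337 : Strat := .move 839 n298 (.cons 837 n303 (.cons 802 n309 (.cons 798 n318 (.cons 801 n328 (.cons 838 n336 .nil)))))
noncomputable def n338 : Strat := .move 882 n74 (.cons 884 n58 .nil)
noncomputable def n339 : Strat := .win 924 7 759
noncomputable def n340 : Strat := .win 843 0 798
noncomputable def n341 : Strat := .move 842 n339 (.cons 924 n340 .nil)
noncomputable def n342 : Strat := .move 883 n338 (.cons 923 n341 .nil)
noncomputable def n343 : Strat := .move 717 n145 (.cons 676 n342 .nil)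
noncomputable def n344 : Strat := .move 798 n187 (.cons 761 n188 (.cons 760 n343 .nil))
noncomputable def n345 : Strat := .move 759 n9 (.cons 718 n344 .nil)
noncomputable def n346 : Strat := .win 880 5 839
noncomputable def n347 : Strat := .win 798 0 798
noncomputable def n348 : Strat := .move 843 n346 (.cons 880 n347 .nil)
noncomputable def n349 : Strat := .move 842 n339 (.cons 924 n348 .nil)
noncomputable def n350 : Strat := .move 883 n74 (.cons 884 n349 .nil)
noncomputable def n351 : Strat := .move 882 n58 (.cons 923 n350 .nil)
noncomputable def n352 : Strat := .move 759 n9 (.cons 718 n351 .nil)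
noncomputable def n353 : Strat := .move 675 n60 (.cons 716 n61 .nil)
noncomputable def n354 : Strat := .move 676 n62 (.cons 798 n353 .nil)
noncomputable def n355 : Strat := .move 717 n57 (.cons 880 n354 .nil)
noncomputable def n356 : Strat := .move 758 n79 (.cons 880 n345 (.cons 717 n352 (.cons 718 n355 .nil)))
noncomputable def n357 : Strat := .move 801 n147 (.cons 802 n356 .nil)
noncomputable def n358 : Strat := .move 797 n153 (.cons 760 n25 .nil)
noncomputable def n359 : Strat := .move 759 n9 (.cons 718 n358 .nil)
noncomputable def n360 : Strat := .move 758 n194 (.cons 880 n359 .nil)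
noncomputable def n361 : Strat := .move 798 n16 (.cons 801 n360 .nil)
noncomputable def n362 : Strat := .move 838 n17 (.cons 837 n361 .nil)
noncomputable def n363 : Strat := .win 924 1 800
noncomputable def n364 : Strat := .win 1005 3 841
noncomputable def n365 : Strat := .move 964 n363 (.cons 924 n364 .nil)
noncomputable def n366 : Strat := .move 842 n268 (.cons 760 n365 .nil)
noncomputable def n367 : Strat := .move 883 n74 (.cons 884 n366 .nil)
noncomputable def n368 : Strat := .move 923 n237 (.cons 758 n367 .nil)
noncomputable def n369 : Strat := .move 718 n56 (.cons 677 n55 .nil)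
noncomputable def n370 : Strat := .move 717 n57 (.cons 880 n369 .nil)
noncomputable def n371 : Strat := .move 758 n58 (.cons 923 n370 .nil)
noncomputable def n372 : Strat := .move 882 n311 (.cons 758 n76 (.cons 880 n368 (.cons 883 n371 .nil)))
noncomputable def n373 : Strat := .move 801 n147 (.cons 802 n372 .nil)
noncomputable def n374 : Strat := .move 838 n17 (.cons 837 n373 .nil)
noncomputable def n375 : Strat := .move 717 n56 (.cons 677 n64 .nil)
noncomputable def n376 : Strat := .move 718 n55 (.cons 759 n375 .nil)
noncomputable def n377 : Strat := .move 758 n58 (.cons 923 n376 .nil)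
noncomputable def n378 : Strat := .move 882 n311 (.cons 923 n76 (.cons 880 n377 .nil))
noncomputable def n379 : Strat := .move 838 n17 (.cons 837 n378 .nil)
noncomputable def n380 : Strat := .move 839 n298 (.cons 838 n357 (.cons 802 n362 (.cons 798 n374 (.cons 801 n379 .nil))))
noncomputable def n381 : Strat := .move 800 n288 (.cons 758 n297 (.cons 759 n337 (.cons 922 n380 .nil)))
noncomputable def n382 : Strat := .move 882 n237 (.cons 758 n77 .nil)
noncomputable def n383 : Strat := .move 839 n14 (.cons 963 n382 .nil)
noncomputable def n384 : Strat := .move 798 n0 (.cons 757 n383 .nil)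
noncomputable def n385 : Strat := .move 923 n7 (.cons 964 n384 .nil)
noncomputable def n386 : Strat := .win 964 6 840
noncomputable def n387 : Strat := .win 1046 6 881
noncomputable def n388 : Strat := .move 1005 n386 (.cons 964 n387 .nil)
noncomputable def n389 : Strat := .move 1004 n290 (.cons 1044 n388 .nil)
noncomputable def n390 : Strat := .move 1003 n289 (.cons 962 n389 .nil)
noncomputable def n391 : Strat := .move 963 n1 (.cons 839 n390 .nil)
noncomputable def n392 : Strat := .move 798 n0 (.cons 757 n391 .nil)
noncomputable def n393 : Strat := .move 880 n253 (.cons 925 n254 .nil)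
noncomputable def n394 : Strat := .win 926 2 881
noncomputable def n395 : Strat := .win 885 5 881
noncomputable def n396 : Strat := .win 761 1 760
noncomputable def n397 : Strat := .win 965 1 801
noncomputable def n398 : Strat := .move 802 n396 (.cons 761 n397 .nil)
noncomputable def n399 : Strat := .move 843 n264 (.cons 844 n398 .nil)
noncomputable def n400 : Strat := .move 883 n259 (.cons 839 n399 .nil)
noncomputable def n401 : Strat := .move 884 n395 (.cons 885 n400 .nil)
noncomputable def n402 : Strat := .move 925 n394 (.cons 926 n401 .nil)
noncomputable def n403 : Strat := .move 880 n265 (.cons 842 n254 .nil)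
noncomputable def n404 : Strat := .move 843 n264 (.cons 844 n403 .nil)
noncomputable def n405 : Strat := .move 884 n260 (.cons 885 n404 .nil)
noncomputable def n406 : Strat := .move 880 n254 (.cons 879 n263 .nil)
noncomputable def n407 : Strat := .move 880 n254 (.cons 879 n269 .nil)
noncomputable def n408 : Strat := .win 965 3 801
noncomputable def n409 : Strat := .win 761 3 760
noncomputable def n410 : Strat := .move 801 n409 (.cons 761 n268 .nil)
noncomputable def n411 : Strat := .move 802 n408 (.cons 965 n410 .nil)
noncomputable def n412 : Strat := .move 843 n346 (.cons 880 n411 .nil)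
noncomputable def n413 : Strat := .win 1047 7 882
noncomputable def n414 : Strat := .win 1048 6 883
noncomputable def n415 : Strat := .win 966 6 842
noncomputable def n416 : Strat := .move 1007 n414 (.cons 1048 n415 .nil)
noncomputable def n417 : Strat := .move 1006 n413 (.cons 1047 n416 .nil)
noncomputable def n418 : Strat := .win 843 3 801
noncomputable def n419 : Strat := .move 802 n418 (.cons 843 n409 .nil)
noncomputable def n420 : Strat := .move 801 n268 (.cons 760 n419 .nil)
noncomputable def n421 : Strat := .move 965 n417 (.cons 1006 n420 .nil)
noncomputable def n422 : Strat := .move 880 n262 (.cons 838 n254 .nil)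
noncomputable def n423 : Strat := .move 838 n75 (.cons 880 n59 .nil)
noncomputable def n424 : Strat := .win 800 4 798
noncomputable def n425 : Strat := .move 802 n424 (.cons 800 n409 .nil)
noncomputable def n426 : Strat := .move 839 n422 (.cons 879 n423 (.cons 838 n425 .nil))
noncomputable def n427 : Strat := .move 801 n268 (.cons 760 n426 .nil)
noncomputable def n428 : Strat := .move 842 n407 (.cons 879 n412 (.cons 880 n421 (.cons 843 n427 .nil)))
noncomputable def n429 : Strat := .move 883 n261 (.cons 839 n405 (.cons 885 n406 (.cons 884 n428 .nil)))
noncomputable def n430 : Strat := .move 924 n393 (.cons 880 n402 (.cons 925 n429 .nil))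
noncomputable def n431 : Strat := .move 882 n237 (.cons 758 n430 .nil)
noncomputable def n432 : Strat := .move 923 n7 (.cons 964 n431 .nil)
noncomputable def n433 : Strat := .move 757 n23 (.cons 716 n218 .nil)
noncomputable def n434 : Strat := .move 758 n8 (.cons 882 n433 .nil)
noncomputable def n435 : Strat := .move 923 n7 (.cons 964 n434 .nil)
noncomputable def n436 : Strat := .move 923 n237 (.cons 758 n77 .nil)
noncomputable def n437 : Strat := .move 839 n14 (.cons 963 n436 .nil)
noncomputable def n438 : Strat := .move 798 n0 (.cons 757 n437 .nil)
noncomputable def n439 : Strat := .move 923 n237 (.cons 758 n430 .nil)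
noncomputable def n440 : Strat := .move 839 n14 (.cons 963 n77 .nil)
noncomputable def n441 : Strat := .move 798 n0 (.cons 757 n440 .nil)
noncomputable def n442 : Strat := .move 758 n58 (.cons 923 n190 .nil)
noncomputable def n443 : Strat := .move 838 n59 (.cons 837 n442 .nil)
noncomputable def n444 : Strat := .move 839 n14 (.cons 963 n443 .nil)
noncomputable def n445 : Strat := .move 798 n0 (.cons 757 n444 .nil)
noncomputable def n446 : Strat := .move 839 n14 (.cons 963 n442 .nil)
noncomputable def n447 : Strat := .move 798 n0 (.cons 757 n446 .nil)
noncomputable def n448 : Strat := .move 758 n58 (.cons 923 n433 .nil)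
noncomputable def n449 : Strat := .move 882 n438 (.cons 798 n439 (.cons 923 n441 (.cons 883 n445 (.cons 838 n447 (.cons 839 n448 .nil)))))
noncomputable def n450 : Strat := .move 922 n385 (.cons 923 n392 (.cons 798 n432 (.cons 839 n435 (.cons 964 n449 .nil))))
noncomputable def n451 : Strat := .move 801 n204 (.cons 802 n203 .nil)
noncomputable def n452 : Strat := .move 800 n185 (.cons 922 n451 .nil)
noncomputable def n453 : Strat := .move 759 n9 (.cons 718 n452 .nil)
noncomputable def n454 : Strat := .move 757 n23 (.cons 716 n453 .nil)
noncomputable def n455 : Strat := .move 758 n58 (.cons 923 n454 .nil)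
noncomputable def n456 : Strat := .win 926 0 881
noncomputable def n457 : Strat := .win 880 0 880
noncomputable def n458 : Strat := .win 802 1 801
noncomputable def n459 : Strat := .win 1006 3 842
noncomputable def n460 : Strat := .move 965 n458 (.cons 802 n459 .nil)
noncomputable def n461 : Strat := .move 924 n457 (.cons 880 n460 .nil)
noncomputable def n462 : Strat := .move 843 n264 (.cons 844 n461 .nil)
noncomputable def n463 : Strat := .move 925 n456 (.cons 926 n462 .nil)
noncomputable def n464 : Strat := .move 884 n259 (.cons 839 n463 .nil)
noncomputable def n465 : Strat := .win 922 4 881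
noncomputable def n466 : Strat := .win 886 4 882
noncomputable def n467 : Strat := .move 885 n465 (.cons 922 n466 .nil)
noncomputable def n468 : Strat := .move 924 n457 (.cons 880 n467 .nil)
noncomputable def n469 : Strat := .move 925 n456 (.cons 926 n468 .nil)
noncomputable def n470 : Strat := .win 925 0 881
noncomputable def n471 : Strat := .win 927 0 882
noncomputable def n472 : Strat := .move 926 n470 (.cons 925 n471 .nil)
noncomputable def n473 : Strat := .move 885 n465 (.cons 922 n472 .nil)
noncomputable def n474 : Strat := .win 843 5 840
noncomputable def n475 : Strat := .win 845 5 841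
noncomputable def n476 : Strat := .move 844 n474 (.cons 843 n475 .nil)
noncomputable def n477 : Strat := .move 885 n465 (.cons 922 n476 .nil)
noncomputable def n478 : Strat := .move 802 n397 (.cons 965 n396 .nil)
noncomputable def n479 : Strat := .move 843 n264 (.cons 844 n478 .nil)
noncomputable def n480 : Strat := .move 924 n457 (.cons 880 n479 .nil)
noncomputable def n481 : Strat := .move 925 n456 (.cons 926 n480 .nil)
noncomputable def n482 : Strat := .move 884 n469 (.cons 880 n473 (.cons 925 n477 (.cons 922 n481 .nil)))
noncomputable def n483 : Strat := .win 964 7 840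
noncomputable def n484 : Strat := .move 924 n457 (.cons 880 n394 .nil)
noncomputable def n485 : Strat := .win 801 7 801
noncomputable def n486 : Strat := .win 1007 7 842
noncomputable def n487 : Strat := .move 966 n485 (.cons 801 n486 .nil)
noncomputable def n488 : Strat := .move 842 n346 (.cons 880 n487 .nil)
noncomputable def n489 : Strat := .move 843 n264 (.cons 844 n488 .nil)
noncomputable def n490 : Strat := .move 884 n456 (.cons 926 n489 .nil)
noncomputable def n491 : Strat := .win 884 0 881
noncomputable def n492 : Strat := .win 924 2 881
noncomputable def n493 : Strat := .move 926 n491 (.cons 884 n492 .nil)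
noncomputable def n494 : Strat := .win 924 0 880
noncomputable def n495 : Strat := .move 880 n494 (.cons 924 n269 .nil)
noncomputable def n496 : Strat := .win 966 6 801
noncomputable def n497 : Strat := .move 801 n496 (.cons 966 n268 .nil)
noncomputable def n498 : Strat := .move 924 n457 (.cons 880 n497 .nil)
noncomputable def n499 : Strat := .win 924 6 801
noncomputable def n500 : Strat := .win 843 7 801
noncomputable def n501 : Strat := .move 884 n500 (.cons 843 n486 .nil)
noncomputable def n502 : Strat := .move 966 n499 (.cons 924 n501 .nil)
noncomputable def n503 : Strat := .move 801 n268 (.cons 760 n502 .nil)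
noncomputable def n504 : Strat := .win 845 4 841
noncomputable def n505 : Strat := .win 884 5 840
noncomputable def n506 : Strat := .move 844 n504 (.cons 845 n505 .nil)
noncomputable def n507 : Strat := .move 843 n346 (.cons 880 n506 .nil)
noncomputable def n508 : Strat := .move 842 n495 (.cons 843 n498 (.cons 880 n503 (.cons 924 n507 .nil)))
noncomputable def n509 : Strat := .move 925 n484 (.cons 924 n490 (.cons 880 n493 (.cons 926 n508 .nil)))
noncomputable def n510 : Strat := .move 1005 n483 (.cons 964 n509 .nil)
noncomputable def n511 : Strat := .move 923 n314 (.cons 964 n482 (.cons 922 n510 .nil))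
noncomputable def n512 : Strat := .move 924 n396 (.cons 761 n397 .nil)
noncomputable def n513 : Strat := .win 924 1 760
noncomputable def n514 : Strat := .win 721 3 720
noncomputable def n515 : Strat := .win 803 3 761
noncomputable def n516 : Strat := .move 762 n514 (.cons 721 n515 .nil)
noncomputable def n517 : Strat := .move 761 n513 (.cons 924 n516 .nil)
noncomputable def n518 : Strat := .win 760 7 760
noncomputable def n519 : Strat := .win 800 5 758
noncomputable def n520 : Strat := .move 761 n519 (.cons 800 n514 .nil)
noncomputable def n521 : Strat := .move 762 n515 (.cons 803 n520 .nil)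
noncomputable def n522 : Strat := .move 801 n518 (.cons 760 n521 .nil)
noncomputable def n523 : Strat := .win 924 1 801
noncomputable def n524 : Strat := .win 1006 1 842
noncomputable def n525 : Strat := .move 842 n485 (.cons 801 n486 .nil)
noncomputable def n526 : Strat := .move 966 n524 (.cons 1006 n525 .nil)
noncomputable def n527 : Strat := .move 965 n523 (.cons 924 n526 .nil)
noncomputable def n528 : Strat := .move 802 n512 (.cons 965 n517 (.cons 924 n522 (.cons 761 n527 .nil)))
noncomputable def n529 : Strat := .move 843 n264 (.cons 844 n528 .nil)
noncomputable def n530 : Strat := .move 925 n456 (.cons 926 n529 .nil)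
noncomputable def n531 : Strat := .move 884 n259 (.cons 839 n530 .nil)
noncomputable def n532 : Strat := .move 838 n59 (.cons 837 n75 .nil)
noncomputable def n533 : Strat := .move 839 n74 (.cons 884 n532 .nil)
noncomputable def n534 : Strat := .win 925 0 880
noncomputable def n535 : Strat := .move 924 n534 (.cons 925 n254 .nil)
noncomputable def n536 : Strat := .move 838 n277 (.cons 839 n276 .nil)
noncomputable def n537 : Strat := .move 879 n257 (.cons 924 n536 .nil)
noncomputable def n538 : Strat := .win 922 0 878
noncomputable def n539 : Strat := .win 918 4 877
noncomputable def n540 : Strat := .win 920 4 878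
noncomputable def n541 : Strat := .move 919 n539 (.cons 918 n540 .nil)
noncomputable def n542 : Strat := .move 878 n538 (.cons 922 n541 .nil)
noncomputable def n543 : Strat := .move 879 n276 (.cons 837 n542 .nil)
noncomputable def n544 : Strat := .move 838 n277 (.cons 839 n543 .nil)
noncomputable def n545 : Strat := .win 759 7 759
noncomputable def n546 : Strat := .win 839 4 798
noncomputable def n547 : Strat := .move 802 n546 (.cons 839 n409 .nil)
noncomputable def n548 : Strat := .move 800 n545 (.cons 759 n547 .nil)
noncomputable def n549 : Strat := .move 801 n268 (.cons 760 n548 .nil)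
noncomputable def n550 : Strat := .move 842 n269 (.cons 843 n549 .nil)
noncomputable def n551 : Strat := .move 924 n534 (.cons 925 n550 .nil)
noncomputable def n552 : Strat := .move 880 n535 (.cons 925 n537 (.cons 924 n544 (.cons 879 n551 .nil)))
noncomputable def n553 : Strat := .win 801 1 800
noncomputable def n554 : Strat := .move 842 n269 (.cons 843 n553 .nil)
noncomputable def n555 : Strat := .move 924 n534 (.cons 925 n554 .nil)
noncomputable def n556 : Strat := .win 877 5 836
noncomputable def n557 : Strat := .move 878 n556 (.cons 877 n541 .nil)
noncomputable def n558 : Strat := .move 839 n262 (.cons 838 n557 .nil)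
noncomputable def n559 : Strat := .win 839 5 836
noncomputable def n560 : Strat := .win 835 2 835
noncomputable def n561 : Strat := .win 837 2 836
noncomputable def n562 : Strat := .move 836 n560 (.cons 835 n561 .nil)
noncomputable def n563 : Strat := .move 877 n559 (.cons 839 n562 .nil)
noncomputable def n564 : Strat := .move 878 n541 (.cons 920 n563 .nil)
noncomputable def n565 : Strat := .win 838 2 837
noncomputable def n566 : Strat := .win 836 2 836
noncomputable def n567 : Strat := .move 878 n566 (.cons 836 n541 .nil)
noncomputable def n568 : Strat := .move 837 n565 (.cons 838 n567 .nil)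
noncomputable def n569 : Strat := .move 879 n536 (.cons 837 n558 (.cons 838 n564 (.cons 839 n568 .nil)))
noncomputable def n570 : Strat := .move 880 n535 (.cons 879 n555 (.cons 925 n537 (.cons 924 n569 .nil)))
noncomputable def n571 : Strat := .move 964 n313 (.cons 1005 n570 .nil)
noncomputable def n572 : Strat := .move 923 n314 (.cons 964 n552 (.cons 922 n571 .nil))
noncomputable def n573 : Strat := .move 883 n464 (.cons 839 n511 (.cons 880 n531 (.cons 925 n533 (.cons 884 n572 .nil))))
noncomputable def n574 : Strat := .move 758 n58 (.cons 923 n133 .nil)
noncomputable def n575 : Strat := .move 965 n459 (.cons 1006 n458 .nil)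
noncomputable def n576 : Strat := .move 924 n457 (.cons 880 n575 .nil)
noncomputable def n577 : Strat := .move 925 n456 (.cons 926 n576 .nil)
noncomputable def n578 : Strat := .move 884 n264 (.cons 844 n577 .nil)
noncomputable def n579 : Strat := .win 720 1 719
noncomputable def n580 : Strat := .win 884 1 760
noncomputable def n581 : Strat := .move 924 n408 (.cons 965 n580 .nil)
noncomputable def n582 : Strat := .move 761 n579 (.cons 720 n581 .nil)
noncomputable def n583 : Strat := .win 801 3 760
noncomputable def n584 : Strat := .move 761 n580 (.cons 884 n583 .nil)
noncomputable def n585 : Strat := .move 924 n408 (.cons 965 n584 .nil)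
noncomputable def n586 : Strat := .win 927 2 882
noncomputable def n587 : Strat := .move 926 n586 (.cons 927 n491 .nil)
noncomputable def n588 : Strat := .move 925 n496 (.cons 966 n587 .nil)
noncomputable def n589 : Strat := .win 800 7 759
noncomputable def n590 : Strat := .win 760 7 718
noncomputable def n591 : Strat := .move 718 n590 (.cons 760 n285 .nil)
noncomputable def n592 : Strat := .move 759 n589 (.cons 800 n591 .nil)
noncomputable def n593 : Strat := .move 801 n588 (.cons 925 n592 .nil)
noncomputable def n594 : Strat := .move 924 n408 (.cons 965 n593 .nil)
noncomputable def n595 : Strat := .win 719 7 719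
noncomputable def n596 : Strat := .win 885 6 761
noncomputable def n597 : Strat := .move 926 n596 (.cons 885 n470 .nil)
noncomputable def n598 : Strat := .move 884 n595 (.cons 719 n597 .nil)
noncomputable def n599 : Strat := .move 758 n118 (.cons 803 n9 .nil)
noncomputable def n600 : Strat := .win 762 4 758
noncomputable def n601 : Strat := .move 800 n600 (.cons 762 n185 .nil)
noncomputable def n602 : Strat := .move 759 n599 (.cons 718 n601 .nil)
noncomputable def n603 : Strat := .move 760 n598 (.cons 884 n602 .nil)
noncomputable def n604 : Strat := .move 761 n579 (.cons 720 n603 .nil)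
noncomputable def n605 : Strat := .move 924 n408 (.cons 965 n583 .nil)
noncomputable def n606 : Strat := .move 761 n579 (.cons 720 n605 .nil)
noncomputable def n607 : Strat := .move 802 n582 (.cons 720 n585 (.cons 761 n594 (.cons 924 n604 (.cons 884 n606 .nil))))
noncomputable def n608 : Strat := .move 842 n346 (.cons 880 n607 .nil)
noncomputable def n609 : Strat := .win 842 7 801
noncomputable def n610 : Strat := .move 801 n609 (.cons 842 n518 .nil)
noncomputable def n611 : Strat := .move 966 n524 (.cons 1006 n610 .nil)
noncomputable def n612 : Strat := .move 965 n523 (.cons 924 n611 .nil)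
noncomputable def n613 : Strat := .move 802 n512 (.cons 965 n517 (.cons 924 n522 (.cons 761 n612 .nil)))
noncomputable def n614 : Strat := .move 925 n456 (.cons 926 n613 .nil)
noncomputable def n615 : Strat := .move 884 n264 (.cons 844 n614 .nil)
noncomputable def n616 : Strat := .move 842 n346 (.cons 880 n504 .nil)
noncomputable def n617 : Strat := .move 844 n505 (.cons 884 n616 .nil)
noncomputable def n618 : Strat := .move 800 n185 (.cons 922 n287 .nil)
noncomputable def n619 : Strat := .win 802 0 799
noncomputable def n620 : Strat := .win 845 2 800
noncomputable def n621 : Strat := .move 844 n619 (.cons 802 n620 .nil)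
noncomputable def n622 : Strat := .move 801 n339 (.cons 924 n621 .nil)
noncomputable def n623 : Strat := .move 800 n185 (.cons 922 n622 .nil)
noncomputable def n624 : Strat := .move 800 n339 (.cons 924 n286 .nil)
noncomputable def n625 : Strat := .move 801 n590 (.cons 760 n624 .nil)
noncomputable def n626 : Strat := .move 718 n285 (.cons 758 n625 .nil)
noncomputable def n627 : Strat := .move 924 n583 (.cons 801 n408 .nil)
noncomputable def n628 : Strat := .move 802 n579 (.cons 720 n627 .nil)
noncomputable def n629 : Strat := .win 760 2 716
noncomputable def n630 : Strat := .move 717 n629 (.cons 760 n103 .nil)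
noncomputable def n631 : Strat := .move 716 n102 (.cons 757 n630 .nil)
noncomputable def n632 : Strat := .move 761 n628 (.cons 802 n631 .nil)
noncomputable def n633 : Strat := .move 758 n9 (.cons 718 n632 .nil)
noncomputable def n634 : Strat := .move 759 n618 (.cons 718 n623 (.cons 922 n626 (.cons 800 n633 .nil)))
noncomputable def n635 : Strat := .move 842 n346 (.cons 880 n634 .nil)
noncomputable def n636 : Strat := .move 843 n578 (.cons 844 n608 (.cons 880 n615 (.cons 925 n617 (.cons 884 n635 .nil))))
noncomputable def n637 : Strat := .move 843 n264 (.cons 844 n614 .nil)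
noncomputable def n638 : Strat := .move 884 n259 (.cons 839 n637 .nil)
noncomputable def n639 : Strat := .move 758 n9 (.cons 718 n207 .nil)
noncomputable def n640 : Strat := .move 842 n590 (.cons 760 n339 .nil)
noncomputable def n641 : Strat := .move 801 n147 (.cons 802 n640 .nil)
noncomputable def n642 : Strat := .move 837 n80 (.cons 838 n641 .nil)
noncomputable def n643 : Strat := .move 839 n532 (.cons 880 n642 (.cons 838 n641 .nil))
noncomputable def n644 : Strat := .move 718 n286 (.cons 677 n643 .nil)
noncomputable def n645 : Strat := .move 800 n185 (.cons 922 n644 .nil)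
noncomputable def n646 : Strat := .win 757 2 757
noncomputable def n647 : Strat := .win 803 2 758
noncomputable def n648 : Strat := .move 758 n646 (.cons 757 n647 .nil)
noncomputable def n649 : Strat := .move 802 n546 (.cons 839 n648 .nil)
noncomputable def n650 : Strat := .move 757 n203 (.cons 756 n23 .nil)
noncomputable def n651 : Strat := .move 839 n70 (.cons 717 n262 .nil)
noncomputable def n652 : Strat := .move 758 n650 (.cons 716 n651 .nil)
noncomputable def n653 : Strat := .move 880 n269 (.cons 843 n652 .nil)
noncomputable def n654 : Strat := .move 842 n339 (.cons 924 n653 .nil)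
noncomputable def n655 : Strat := .win 844 0 799
noncomputable def n656 : Strat := .move 843 n655 (.cons 844 n346 .nil)
noncomputable def n657 : Strat := .move 842 n339 (.cons 924 n656 .nil)
noncomputable def n658 : Strat := .move 802 n546 (.cons 839 n657 .nil)
noncomputable def n659 : Strat := .move 843 n346 (.cons 880 n621 .nil)
noncomputable def n660 : Strat := .move 842 n339 (.cons 924 n659 .nil)
noncomputable def n661 : Strat := .move 801 n649 (.cons 802 n654 (.cons 758 n658 (.cons 839 n660 .nil)))
noncomputable def n662 : Strat := .move 800 n185 (.cons 922 n661 .nil)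
noncomputable def n663 : Strat := .move 800 n287 (.cons 718 n661 (.cons 758 n644 .nil))
noncomputable def n664 : Strat := .move 800 n185 (.cons 922 n286 .nil)
noncomputable def n665 : Strat := .move 718 n285 (.cons 758 n664 .nil)
noncomputable def n666 : Strat := .move 839 n262 (.cons 838 n70 .nil)
noncomputable def n667 : Strat := .move 758 n9 (.cons 718 n666 .nil)
noncomputable def n668 : Strat := .win 839 1 716
noncomputable def n669 : Strat := .move 717 n668 (.cons 839 n131 .nil)
noncomputable def n670 : Strat := .move 758 n9 (.cons 718 n669 .nil)
noncomputable def n671 : Strat := .move 839 n556 (.cons 877 n262 .nil)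
noncomputable def n672 : Strat := .move 878 n541 (.cons 920 n671 .nil)
noncomputable def n673 : Strat := .move 757 n23 (.cons 716 n672 .nil)
noncomputable def n674 : Strat := .move 837 n566 (.cons 836 n565 .nil)
noncomputable def n675 : Strat := .move 878 n674 (.cons 838 n541 .nil)
noncomputable def n676 : Strat := .move 757 n23 (.cons 716 n675 .nil)
noncomputable def n677 : Strat := .move 879 n536 (.cons 837 n673 (.cons 838 n564 (.cons 839 n676 .nil)))
noncomputable def n678 : Strat := .move 758 n9 (.cons 718 n677 .nil)
noncomputable def n679 : Strat := .move 842 n269 (.cons 843 n569 .nil)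
noncomputable def n680 : Strat := .move 757 n23 (.cons 716 n124 .nil)
noncomputable def n681 : Strat := .move 758 n9 (.cons 718 n680 .nil)
noncomputable def n682 : Strat := .win 801 7 718
noncomputable def n683 : Strat := .move 842 n682 (.cons 801 n269 .nil)
noncomputable def n684 : Strat := .win 715 0 715
noncomputable def n685 : Strat := .win 719 0 716
noncomputable def n686 : Strat := .win 762 2 717
noncomputable def n687 : Strat := .move 761 n685 (.cons 719 n686 .nil)
noncomputable def n688 : Strat := .move 717 n684 (.cons 715 n687 .nil)
noncomputable def n689 : Strat := .move 716 n683 (.cons 843 n688 .nil)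
noncomputable def n690 : Strat := .move 718 n285 (.cons 758 n689 .nil)
noncomputable def n691 : Strat := .win 761 2 716
noncomputable def n692 : Strat := .move 717 n103 (.cons 675 n691 .nil)
noncomputable def n693 : Strat := .move 716 n102 (.cons 757 n692 .nil)
noncomputable def n694 : Strat := .move 758 n9 (.cons 718 n693 .nil)
noncomputable def n695 : Strat := .move 842 n269 (.cons 843 n682 .nil)
noncomputable def n696 : Strat := .move 718 n285 (.cons 758 n695 .nil)
noncomputable def n697 : Strat := .win 718 7 718
noncomputable def n698 : Strat := .win 802 3 760
noncomputable def n699 : Strat := .win 720 3 719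
noncomputable def n700 : Strat := .move 761 n698 (.cons 802 n699 .nil)
noncomputable def n701 : Strat := .move 924 n534 (.cons 925 n700 .nil)
noncomputable def n702 : Strat := .move 801 n697 (.cons 718 n701 .nil)
noncomputable def n703 : Strat := .move 842 n269 (.cons 843 n702 .nil)
noncomputable def n704 : Strat := .move 924 n698 (.cons 802 n534 .nil)
noncomputable def n705 : Strat := .move 801 n699 (.cons 720 n704 .nil)
noncomputable def n706 : Strat := .move 842 n269 (.cons 843 n705 .nil)
noncomputable def n707 : Strat := .win 717 2 716
noncomputable def n708 : Strat := .move 716 n707 (.cons 717 n102 .nil)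
noncomputable def n709 : Strat := .win 804 0 759
noncomputable def n710 : Strat := .win 802 0 758
noncomputable def n711 : Strat := .move 803 n709 (.cons 804 n710 .nil)
noncomputable def n712 : Strat := .win 722 5 718
noncomputable def n713 : Strat := .win 720 5 717
noncomputable def n714 : Strat := .move 721 n712 (.cons 722 n713 .nil)
noncomputable def n715 : Strat := .move 762 n711 (.cons 802 n714 .nil)
noncomputable def n716 : Strat := .move 758 n708 (.cons 757 n715 .nil)
noncomputable def n717 : Strat := .move 758 n118 (.cons 803 n708 .nil)
noncomputable def n718 : Strat := .move 924 n583 (.cons 801 n534 .nil)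
noncomputable def n719 : Strat := .move 842 n269 (.cons 843 n718 .nil)
noncomputable def n720 : Strat := .move 802 n717 (.cons 758 n719 .nil)
noncomputable def n721 : Strat := .win 801 3 719
noncomputable def n722 : Strat := .move 720 n121 (.cons 721 n721 .nil)
noncomputable def n723 : Strat := .move 758 n708 (.cons 757 n722 .nil)
noncomputable def n724 : Strat := .move 842 n269 (.cons 843 n723 .nil)
noncomputable def n725 : Strat := .move 761 n706 (.cons 801 n716 (.cons 720 n720 (.cons 802 n724 .nil)))
noncomputable def n726 : Strat := .move 760 n681 (.cons 757 n690 (.cons 801 n694 (.cons 716 n696 (.cons 758 n703 (.cons 718 n725 .nil)))))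
noncomputable def n727 : Strat := .move 880 n667 (.cons 838 n670 (.cons 717 n678 (.cons 718 n679 (.cons 839 n726 .nil))))
noncomputable def n728 : Strat := .move 759 n639 (.cons 758 n645 (.cons 718 n662 (.cons 922 n663 (.cons 801 n665 (.cons 800 n727 .nil)))))
noncomputable def n729 : Strat := .move 883 n533 (.cons 839 n636 (.cons 880 n638 (.cons 884 n728 .nil)))
noncomputable def n730 : Strat := .move 882 n455 (.cons 758 n573 (.cons 922 n574 (.cons 759 n315 (.cons 923 n729 .nil))))
noncomputable def n731 : Strat := .move 922 n0 (.cons 757 n5 .nil)
noncomputable def n732 : Strat := .win 716 6 716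
noncomputable def n733 : Strat := .win 880 6 715
noncomputable def n734 : Strat := .move 715 n733 (.cons 880 n170 .nil)
noncomputable def n735 : Strat := .move 756 n171 (.cons 755 n734 .nil)
noncomputable def n736 : Strat := .move 757 n732 (.cons 716 n735 .nil)
noncomputable def n737 : Strat := .move 839 n16 (.cons 801 n736 .nil)
noncomputable def n738 : Strat := .move 838 n189 (.cons 837 n737 .nil)
noncomputable def n739 : Strat := .win 757 2 756
noncomputable def n740 : Strat := .move 760 n159 (.cons 759 n160 .nil)
noncomputable def n741 : Strat := .move 801 n739 (.cons 757 n740 .nil)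
noncomputable def n742 : Strat := .move 756 n171 (.cons 755 n741 .nil)
noncomputable def n743 : Strat := .win 675 1 674
noncomputable def n744 : Strat := .win 839 6 716
noncomputable def n745 : Strat := .move 757 n743 (.cons 675 n744 .nil)
noncomputable def n746 : Strat := .win 879 3 715
noncomputable def n747 : Strat := .move 757 n743 (.cons 675 n746 .nil)
noncomputable def n748 : Strat := .win 675 3 674
noncomputable def n749 : Strat := .move 839 n733 (.cons 880 n170 .nil)
noncomputable def n750 : Strat := .move 715 n748 (.cons 675 n749 .nil)
noncomputable def n751 : Strat := .move 757 n744 (.cons 839 n746 .nil)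
noncomputable def n752 : Strat := .move 716 n745 (.cons 839 n747 (.cons 757 n750 (.cons 675 n751 .nil)))
noncomputable def n753 : Strat := .move 756 n171 (.cons 755 n752 .nil)
noncomputable def n754 : Strat := .move 838 n189 (.cons 837 n753 .nil)
noncomputable def n755 : Strat := .win 839 4 797
noncomputable def n756 : Strat := .move 801 n755 (.cons 839 n740 .nil)
noncomputable def n757 : Strat := .move 838 n189 (.cons 837 n756 .nil)
noncomputable def n758 : Strat := .move 800 n738 (.cons 839 n742 (.cons 801 n754 (.cons 757 n757 .nil)))
noncomputable def n759 : Strat := .win 839 0 795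
noncomputable def n760 : Strat := .win 755 2 754
noncomputable def n761 : Strat := .win 753 2 753
noncomputable def n762 : Strat := .move 754 n760 (.cons 755 n761 .nil)
noncomputable def n763 : Strat := .move 795 n759 (.cons 839 n762 .nil)
noncomputable def n764 : Strat := .win 837 4 795
noncomputable def n765 : Strat := .win 835 4 794
noncomputable def n766 : Strat := .move 836 n764 (.cons 837 n765 .nil)
noncomputable def n767 : Strat := .move 795 n759 (.cons 839 n766 .nil)
noncomputable def n768 : Strat := .win 715 3 714
noncomputable def n769 : Strat := .win 919 3 755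
noncomputable def n770 : Strat := .move 756 n768 (.cons 715 n769 .nil)
noncomputable def n771 : Strat := .win 756 3 755
noncomputable def n772 : Strat := .win 959 1 795
noncomputable def n773 : Strat := .win 877 1 754
noncomputable def n774 : Strat := .move 918 n772 (.cons 959 n773 .nil)
noncomputable def n775 : Strat := .move 919 n771 (.cons 756 n774 .nil)
noncomputable def n776 : Strat := .win 920 6 755
noncomputable def n777 : Strat := .win 880 4 877
noncomputable def n778 : Strat := .move 919 n777 (.cons 880 n772 .nil)
noncomputable def n779 : Strat := .move 918 n773 (.cons 877 n778 .nil)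
noncomputable def n780 : Strat := .move 879 n776 (.cons 920 n779 .nil)
noncomputable def n781 : Strat := .win 756 3 714
noncomputable def n782 : Strat := .win 674 3 673
noncomputable def n783 : Strat := .win 879 6 714
noncomputable def n784 : Strat := .win 673 6 673
noncomputable def n785 : Strat := .move 838 n783 (.cons 879 n784 .nil)
noncomputable def n786 : Strat := .move 714 n782 (.cons 674 n785 .nil)
noncomputable def n787 : Strat := .move 715 n781 (.cons 756 n786 .nil)
noncomputable def n788 : Strat := .move 878 n770 (.cons 715 n775 (.cons 756 n780 (.cons 919 n787 .nil)))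
noncomputable def n789 : Strat := .move 837 n165 (.cons 836 n788 .nil)
noncomputable def n790 : Strat := .move 755 n155 (.cons 754 n789 .nil)
noncomputable def n791 : Strat := .move 796 n763 (.cons 755 n767 (.cons 839 n790 .nil))
noncomputable def n792 : Strat := .win 800 2 755
noncomputable def n793 : Strat := .win 674 1 673
noncomputable def n794 : Strat := .win 878 3 714
noncomputable def n795 : Strat := .move 715 n793 (.cons 674 n794 .nil)
noncomputable def n796 : Strat := .move 756 n792 (.cons 800 n795 .nil)
noncomputable def n797 : Strat := .move 837 n165 (.cons 836 n796 .nil)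
noncomputable def n798 : Strat := .move 755 n155 (.cons 754 n797 .nil)
noncomputable def n799 : Strat := .move 796 n763 (.cons 755 n767 (.cons 839 n798 .nil))
noncomputable def n800 : Strat := .move 756 n171 (.cons 755 n739 .nil)
noncomputable def n801 : Strat := .move 801 n755 (.cons 839 n800 .nil)
noncomputable def n802 : Strat := .move 838 n189 (.cons 837 n801 .nil)
noncomputable def n803 : Strat := .move 796 n165 (.cons 836 n157 .nil)
noncomputable def n804 : Strat := .move 837 n164 (.cons 838 n803 .nil)
noncomputable def n805 : Strat := .move 800 n802 (.cons 757 n757 (.cons 838 n742 (.cons 801 n804 .nil)))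
noncomputable def n806 : Strat := .win 800 4 796
noncomputable def n807 : Strat := .win 882 0 837
noncomputable def n808 : Strat := .move 838 n806 (.cons 800 n807 .nil)
noncomputable def n809 : Strat := .move 837 n165 (.cons 836 n808 .nil)
noncomputable def n810 : Strat := .move 839 n151 (.cons 795 n809 .nil)
noncomputable def n811 : Strat := .win 714 6 714
noncomputable def n812 : Strat := .win 920 7 755
noncomputable def n813 : Strat := .move 879 n811 (.cons 714 n812 .nil)
noncomputable def n814 : Strat := .move 838 n806 (.cons 800 n813 .nil)
noncomputable def n815 : Strat := .move 755 n155 (.cons 754 n814 .nil)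
noncomputable def n816 : Strat := .move 837 n165 (.cons 836 n815 .nil)
noncomputable def n817 : Strat := .move 796 n810 (.cons 837 n763 (.cons 839 n816 .nil))
noncomputable def n818 : Strat := .move 800 n156 (.cons 756 n164 .nil)
noncomputable def n819 : Strat := .move 837 n165 (.cons 836 n818 .nil)
noncomputable def n820 : Strat := .move 796 n155 (.cons 754 n819 .nil)
noncomputable def n821 : Strat := .win 753 0 753
noncomputable def n822 : Strat := .win 757 0 754
noncomputable def n823 : Strat := .move 754 n821 (.cons 753 n822 .nil)
noncomputable def n824 : Strat := .move 756 n792 (.cons 800 n823 .nil)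
noncomputable def n825 : Strat := .move 796 n155 (.cons 754 n789 .nil)
noncomputable def n826 : Strat := .move 837 n165 (.cons 836 n814 .nil)
noncomputable def n827 : Strat := .move 796 n155 (.cons 754 n826 .nil)
noncomputable def n828 : Strat := .win 714 7 714
noncomputable def n829 : Strat := .win 716 3 715
noncomputable def n830 : Strat := .win 920 3 756
noncomputable def n831 : Strat := .move 757 n829 (.cons 716 n830 .nil)
noncomputable def n832 : Strat := .move 879 n828 (.cons 714 n831 .nil)
noncomputable def n833 : Strat := .win 757 3 756
noncomputable def n834 : Strat := .win 796 7 755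
noncomputable def n835 : Strat := .move 920 n833 (.cons 757 n834 .nil)
noncomputable def n836 : Strat := .move 879 n828 (.cons 714 n835 .nil)
noncomputable def n837 : Strat := .win 878 1 714
noncomputable def n838 : Strat := .win 835 5 794
noncomputable def n839 : Strat := .win 796 4 795
noncomputable def n840 : Strat := .move 836 n838 (.cons 835 n839 .nil)
noncomputable def n841 : Strat := .move 837 n837 (.cons 878 n840 .nil)
noncomputable def n842 : Strat := .move 796 n793 (.cons 674 n165 .nil)
noncomputable def n843 : Strat := .move 837 n837 (.cons 878 n842 .nil)
noncomputable def n844 : Strat := .win 716 3 674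
noncomputable def n845 : Strat := .win 714 7 673
noncomputable def n846 : Strat := .win 632 7 632
noncomputable def n847 : Strat := .win 634 3 633
noncomputable def n848 : Strat := .move 674 n846 (.cons 632 n847 .nil)
noncomputable def n849 : Strat := .move 673 n845 (.cons 714 n848 .nil)
noncomputable def n850 : Strat := .move 675 n844 (.cons 716 n849 .nil)
noncomputable def n851 : Strat := .move 715 n841 (.cons 835 n843 (.cons 837 n850 .nil))
noncomputable def n852 : Strat := .win 919 1 755
noncomputable def n853 : Strat := .win 715 1 714
noncomputable def n854 : Strat := .move 878 n852 (.cons 919 n853 .nil)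
noncomputable def n855 : Strat := .move 837 n165 (.cons 836 n854 .nil)
noncomputable def n856 : Strat := .move 796 n812 (.cons 920 n855 .nil)
noncomputable def n857 : Strat := .win 757 3 715
noncomputable def n858 : Strat := .win 837 1 714
noncomputable def n859 : Strat := .move 878 n852 (.cons 919 n858 .nil)
noncomputable def n860 : Strat := .move 715 n748 (.cons 675 n859 .nil)
noncomputable def n861 : Strat := .move 716 n857 (.cons 757 n860 .nil)
noncomputable def n862 : Strat := .move 879 n831 (.cons 716 n835 (.cons 757 n856 (.cons 920 n861 .nil)))
noncomputable def n863 : Strat := .move 838 n832 (.cons 716 n836 (.cons 879 n851 (.cons 714 n862 .nil)))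
noncomputable def n864 : Strat := .move 756 n792 (.cons 800 n863 .nil)
noncomputable def n865 : Strat := .move 755 n820 (.cons 796 n824 (.cons 800 n825 (.cons 756 n827 (.cons 754 n864 .nil))))
noncomputable def n866 : Strat := .move 839 n147 (.cons 802 n148 .nil)
noncomputable def n867 : Strat := .move 801 n160 (.cons 761 n866 .nil)
noncomputable def n868 : Strat := .move 760 n159 (.cons 759 n867 .nil)
noncomputable def n869 : Strat := .move 800 n156 (.cons 756 n868 .nil)
noncomputable def n870 : Strat := .move 755 n155 (.cons 754 n869 .nil)
noncomputable def n871 : Strat := .move 801 n148 (.cons 838 n147 .nil)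
noncomputable def n872 : Strat := .win 801 2 756
noncomputable def n873 : Strat := .move 756 n171 (.cons 755 n872 .nil)
noncomputable def n874 : Strat := .win 880 7 715
noncomputable def n875 : Strat := .move 715 n874 (.cons 880 n170 .nil)
noncomputable def n876 : Strat := .move 756 n171 (.cons 755 n875 .nil)
noncomputable def n877 : Strat := .move 800 n871 (.cons 802 n873 (.cons 801 n876 .nil))
noncomputable def n878 : Strat := .move 757 n732 (.cons 716 n877 .nil)
noncomputable def n879 : Strat := .move 839 n151 (.cons 795 n878 .nil)
noncomputable def n880 : Strat := .win 754 2 753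
noncomputable def n881 : Strat := .win 752 2 752
noncomputable def n882 : Strat := .win 836 4 794
noncomputable def n883 : Strat := .win 834 4 793
noncomputable def n884 : Strat := .move 835 n882 (.cons 836 n883 .nil)
noncomputable def n885 : Strat := .move 794 n881 (.cons 752 n884 .nil)
noncomputable def n886 : Strat := .move 753 n880 (.cons 754 n885 .nil)
noncomputable def n887 : Strat := .move 795 n759 (.cons 839 n886 .nil)
noncomputable def n888 : Strat := .win 757 5 753
noncomputable def n889 : Strat := .win 793 5 752
noncomputable def n890 : Strat := .move 794 n888 (.cons 757 n889 .nil)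
noncomputable def n891 : Strat := .move 756 n792 (.cons 800 n890 .nil)
noncomputable def n892 : Strat := .move 755 n155 (.cons 754 n891 .nil)
noncomputable def n893 : Strat := .move 755 n889 (.cons 793 n792 .nil)
noncomputable def n894 : Strat := .move 756 n888 (.cons 757 n893 .nil)
noncomputable def n895 : Strat := .move 794 n883 (.cons 834 n894 .nil)
noncomputable def n896 : Strat := .move 835 n882 (.cons 836 n895 .nil)
noncomputable def n897 : Strat := .move 795 n762 (.cons 755 n886 (.cons 753 n892 (.cons 754 n896 .nil)))
noncomputable def n898 : Strat := .move 796 n763 (.cons 795 n870 (.cons 754 n879 (.cons 755 n887 (.cons 839 n897 .nil))))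
noncomputable def n899 : Strat := .move 838 n189 (.cons 837 n16 .nil)
noncomputable def n900 : Strat := .win 756 2 756
noncomputable def n901 : Strat := .move 801 n900 (.cons 756 n147 .nil)
noncomputable def n902 : Strat := .move 796 n151 (.cons 795 n165 .nil)
noncomputable def n903 : Strat := .move 837 n164 (.cons 838 n902 .nil)
noncomputable def n904 : Strat := .move 800 n899 (.cons 838 n901 (.cons 801 n903 .nil))
noncomputable def n905 : Strat := .move 839 n732 (.cons 716 n904 .nil)
noncomputable def n906 : Strat := .win 877 4 836
noncomputable def n907 : Strat := .move 756 n853 (.cons 715 n769 .nil)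
noncomputable def n908 : Strat := .move 878 n906 (.cons 877 n907 .nil)
noncomputable def n909 : Strat := .move 838 n807 (.cons 882 n908 .nil)
noncomputable def n910 : Strat := .move 837 n165 (.cons 836 n909 .nil)
noncomputable def n911 : Strat := .move 796 n151 (.cons 795 n910 .nil)
noncomputable def n912 : Strat := .move 839 n732 (.cons 716 n911 .nil)
noncomputable def n913 : Strat := .win 675 6 675
noncomputable def n914 : Strat := .move 716 n913 (.cons 675 n744 .nil)
noncomputable def n915 : Strat := .move 839 n148 (.cons 838 n147 .nil)
noncomputable def n916 : Strat := .move 801 n900 (.cons 756 n915 .nil)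
noncomputable def n917 : Strat := .move 801 n900 (.cons 756 n740 .nil)
noncomputable def n918 : Strat := .win 756 5 753
noncomputable def n919 : Strat := .move 753 n881 (.cons 752 n880 .nil)
noncomputable def n920 : Strat := .move 794 n918 (.cons 756 n919 .nil)
noncomputable def n921 : Strat := .move 795 n759 (.cons 839 n920 .nil)
noncomputable def n922 : Strat := .move 796 n165 (.cons 836 n921 .nil)
noncomputable def n923 : Strat := .move 837 n164 (.cons 838 n922 .nil)
noncomputable def n924 : Strat := .move 800 n916 (.cons 756 n757 (.cons 838 n917 (.cons 801 n923 .nil)))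
noncomputable def n925 : Strat := .win 756 3 715
noncomputable def n926 : Strat := .move 879 n830 (.cons 920 n925 .nil)
noncomputable def n927 : Strat := .move 760 n160 (.cons 761 n159 .nil)
noncomputable def n928 : Strat := .move 801 n900 (.cons 756 n927 .nil)
noncomputable def n929 : Strat := .move 800 n189 (.cons 837 n928 .nil)
noncomputable def n930 : Strat := .move 836 n839 (.cons 796 n838 .nil)
noncomputable def n931 : Strat := .move 837 n806 (.cons 800 n930 .nil)
noncomputable def n932 : Strat := .move 838 n926 (.cons 879 n929 (.cons 756 n931 .nil))
noncomputable def n933 : Strat := .move 716 n913 (.cons 675 n932 .nil)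
noncomputable def n934 : Strat := .move 757 n905 (.cons 800 n912 (.cons 756 n914 (.cons 716 n924 (.cons 839 n933 .nil))))
noncomputable def n935 : Strat := .move 797 n758 (.cons 800 n791 (.cons 838 n799 (.cons 715 n805 (.cons 756 n817 (.cons 839 n865 (.cons 837 n898 (.cons 755 n934 .nil)))))))
noncomputable def n936 : Strat := .move 839 n14 (.cons 963 n871 .nil)
noncomputable def n937 : Strat := .move 922 n15 (.cons 759 n936 .nil)
noncomputable def n938 : Strat := .move 797 n189 (.cons 837 n740 .nil)
noncomputable def n939 : Strat := .move 838 n755 (.cons 839 n938 .nil)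
noncomputable def n940 : Strat := .win 760 5 757
noncomputable def n941 : Strat := .win 762 5 758
noncomputable def n942 : Strat := .move 761 n940 (.cons 760 n941 .nil)
noncomputable def n943 : Strat := .move 802 n546 (.cons 839 n942 .nil)
noncomputable def n944 : Strat := .win 883 7 718
noncomputable def n945 : Strat := .move 718 n286 (.cons 677 n944 .nil)
noncomputable def n946 : Strat := .move 842 n340 (.cons 843 n945 .nil)
noncomputable def n947 : Strat := .move 759 n186 (.cons 797 n946 .nil)
noncomputable def n948 : Strat := .move 760 n160 (.cons 761 n947 .nil)
noncomputable def n949 : Strat := .move 801 n915 (.cons 802 n939 (.cons 838 n943 (.cons 839 n948 .nil)))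
noncomputable def n950 : Strat := .win 801 5 757
noncomputable def n951 : Strat := .move 761 n950 (.cons 801 n600 .nil)
noncomputable def n952 : Strat := .move 760 n186 (.cons 797 n951 .nil)
noncomputable def n953 : Strat := .move 759 n185 (.cons 922 n952 .nil)
noncomputable def n954 : Strat := .move 922 n15 (.cons 759 n5 .nil)
noncomputable def n955 : Strat := .win 842 0 798
noncomputable def n956 : Strat := .move 802 n655 (.cons 844 n942 .nil)
noncomputable def n957 : Strat := .move 843 n955 (.cons 842 n956 .nil)
noncomputable def n958 : Strat := .move 838 n189 (.cons 837 n755 .nil)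
noncomputable def n959 : Strat := .move 796 n155 (.cons 754 n151 .nil)
noncomputable def n960 : Strat := .move 755 n156 (.cons 756 n959 .nil)
noncomputable def n961 : Strat := .move 839 n148 (.cons 838 n960 .nil)
noncomputable def n962 : Strat := .move 754 n761 (.cons 753 n760 .nil)
noncomputable def n963 : Strat := .move 795 n759 (.cons 839 n962 .nil)
noncomputable def n964 : Strat := .move 836 n765 (.cons 835 n764 .nil)
noncomputable def n965 : Strat := .move 795 n759 (.cons 839 n964 .nil)
noncomputable def n966 : Strat := .move 796 n157 (.cons 756 n963 (.cons 754 n965 .nil))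
noncomputable def n967 : Strat := .move 837 n165 (.cons 836 n164 .nil)
noncomputable def n968 : Strat := .move 796 n155 (.cons 754 n967 .nil)
noncomputable def n969 : Strat := .move 755 n156 (.cons 756 n968 .nil)
noncomputable def n970 : Strat := .move 797 n958 (.cons 837 n961 (.cons 838 n966 (.cons 839 n969 .nil)))
noncomputable def n971 : Strat := .move 761 n940 (.cons 760 n970 .nil)
noncomputable def n972 : Strat := .move 842 n340 (.cons 843 n971 .nil)
noncomputable def n973 : Strat := .move 801 n915 (.cons 839 n957 (.cons 802 n972 .nil))
noncomputable def n974 : Strat := .move 800 n937 (.cons 922 n949 (.cons 839 n953 (.cons 801 n954 (.cons 759 n973 .nil))))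
noncomputable def n975 : Strat := .move 800 n15 (.cons 759 n804 .nil)
noncomputable def n976 : Strat := .move 922 n0 (.cons 757 n975 .nil)
noncomputable def n977 : Strat := .move 838 n806 (.cons 800 n930 .nil)
noncomputable def n978 : Strat := .move 759 n185 (.cons 922 n153 .nil)
noncomputable def n979 : Strat := .move 800 n164 (.cons 838 n978 .nil)
noncomputable def n980 : Strat := .move 755 n155 (.cons 754 n796 .nil)
noncomputable def n981 : Strat := .move 796 n165 (.cons 836 n980 .nil)
noncomputable def n982 : Strat := .move 756 n769 (.cons 919 n768 .nil)
noncomputable def n983 : Strat := .move 878 n982 (.cons 715 n775 (.cons 756 n780 (.cons 919 n787 .nil)))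
noncomputable def n984 : Strat := .move 755 n155 (.cons 754 n983 .nil)
noncomputable def n985 : Strat := .move 796 n165 (.cons 836 n984 .nil)
noncomputable def n986 : Strat := .move 837 n977 (.cons 796 n979 (.cons 838 n981 (.cons 800 n985 .nil)))
noncomputable def n987 : Strat := .win 880 0 878
noncomputable def n988 : Strat := .move 923 n987 (.cons 880 n7 .nil)
noncomputable def n989 : Strat := .move 879 n776 (.cons 920 n988 .nil)
noncomputable def n990 : Strat := .move 878 n770 (.cons 919 n989 .nil)
noncomputable def n991 : Strat := .move 922 n0 (.cons 757 n990 .nil)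
noncomputable def n992 : Strat := .move 755 n155 (.cons 754 n991 .nil)
noncomputable def n993 : Strat := .move 837 n165 (.cons 836 n992 .nil)
noncomputable def n994 : Strat := .move 794 n881 (.cons 752 n918 .nil)
noncomputable def n995 : Strat := .move 753 n880 (.cons 754 n994 .nil)
noncomputable def n996 : Strat := .move 795 n765 (.cons 835 n995 .nil)
noncomputable def n997 : Strat := .move 836 n764 (.cons 837 n996 .nil)
noncomputable def n998 : Strat := .move 716 n913 (.cons 675 n997 .nil)
noncomputable def n999 : Strat := .move 757 n181 (.cons 922 n998 .nil)
noncomputable def n1000 : Strat := .move 835 n883 (.cons 834 n882 .nil)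
noncomputable def n1001 : Strat := .move 794 n918 (.cons 756 n1000 .nil)
noncomputable def n1002 : Strat := .move 716 n913 (.cons 675 n1001 .nil)
noncomputable def n1003 : Strat := .move 795 n761 (.cons 753 n1002 .nil)
noncomputable def n1004 : Strat := .move 754 n760 (.cons 755 n1003 .nil)
noncomputable def n1005 : Strat := .move 757 n181 (.cons 922 n1004 .nil)
noncomputable def n1006 : Strat := .move 795 n765 (.cons 835 n762 .nil)
noncomputable def n1007 : Strat := .move 836 n764 (.cons 837 n1006 .nil)
noncomputable def n1008 : Strat := .win 837 6 714
noncomputable def n1009 : Strat := .move 714 n1008 (.cons 837 n784 .nil)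
noncomputable def n1010 : Strat := .move 838 n812 (.cons 920 n1009 .nil)
noncomputable def n1011 : Strat := .win 882 0 879
noncomputable def n1012 : Strat := .move 924 n1011 (.cons 882 n253 .nil)
noncomputable def n1013 : Strat := .move 880 n256 (.cons 878 n1012 .nil)
noncomputable def n1014 : Strat := .move 879 n1010 (.cons 838 n1013 .nil)
noncomputable def n1015 : Strat := .move 923 n7 (.cons 964 n1014 .nil)
noncomputable def n1016 : Strat := .move 922 n0 (.cons 757 n1015 .nil)
noncomputable def n1017 : Strat := .move 755 n155 (.cons 754 n1016 .nil)
noncomputable def n1018 : Strat := .win 716 6 675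
noncomputable def n1019 : Strat := .win 751 2 751
noncomputable def n1020 : Strat := .win 753 2 752
noncomputable def n1021 : Strat := .move 752 n1019 (.cons 751 n1020 .nil)
noncomputable def n1022 : Strat := .win 833 4 792
noncomputable def n1023 : Strat := .win 835 4 793
noncomputable def n1024 : Strat := .move 834 n1022 (.cons 833 n1023 .nil)
noncomputable def n1025 : Strat := .move 793 n1021 (.cons 753 n1024 .nil)
noncomputable def n1026 : Strat := .move 794 n918 (.cons 756 n1025 .nil)
noncomputable def n1027 : Strat := .win 838 0 793
noncomputable def n1028 : Strat := .move 837 n1027 (.cons 838 n165 .nil)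
noncomputable def n1029 : Strat := .move 793 n1028 (.cons 836 n1021 .nil)
noncomputable def n1030 : Strat := .move 794 n918 (.cons 756 n1029 .nil)
noncomputable def n1031 : Strat := .move 795 n766 (.cons 837 n1001 (.cons 836 n1026 (.cons 835 n1030 .nil)))
noncomputable def n1032 : Strat := .move 675 n1018 (.cons 716 n1031 .nil)
noncomputable def n1033 : Strat := .move 757 n181 (.cons 922 n1032 .nil)
noncomputable def n1034 : Strat := .move 796 n993 (.cons 755 n999 (.cons 837 n1005 (.cons 922 n790 (.cons 756 n1007 (.cons 836 n1017 (.cons 754 n1033 .nil))))))
noncomputable def n1035 : Strat := .move 837 n806 (.cons 800 n926 .nil)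
noncomputable def n1036 : Strat := .win 878 2 836
noncomputable def n1037 : Strat := .win 882 2 837
noncomputable def n1038 : Strat := .move 880 n1036 (.cons 878 n1037 .nil)
noncomputable def n1039 : Strat := .move 836 n838 (.cons 835 n1038 .nil)
noncomputable def n1040 : Strat := .move 879 n830 (.cons 920 n1039 .nil)
noncomputable def n1041 : Strat := .move 837 n806 (.cons 800 n1040 .nil)
noncomputable def n1042 : Strat := .move 800 n189 (.cons 837 n873 .nil)
noncomputable def n1043 : Strat := .move 838 n1035 (.cons 800 n926 (.cons 756 n1041 (.cons 879 n1042 .nil)))
noncomputable def n1044 : Strat := .move 716 n913 (.cons 675 n1043 .nil)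
noncomputable def n1045 : Strat := .move 757 n181 (.cons 922 n1044 .nil)
noncomputable def n1046 : Strat := .move 757 n181 (.cons 922 n933 .nil)
noncomputable def n1047 : Strat := .move 922 n15 (.cons 759 n0 .nil)
noncomputable def n1048 : Strat := .move 757 n181 (.cons 922 n873 .nil)
noncomputable def n1049 : Strat := .move 800 n1047 (.cons 759 n1048 (.cons 757 n978 (.cons 922 n742 .nil)))
noncomputable def n1050 : Strat := .move 924 n253 (.cons 925 n1011 .nil)
noncomputable def n1051 : Strat := .move 880 n256 (.cons 878 n1050 .nil)
noncomputable def n1052 : Strat := .move 923 n7 (.cons 964 n1051 .nil)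
noncomputable def n1053 : Strat := .move 800 n15 (.cons 759 n1052 .nil)
noncomputable def n1054 : Strat := .move 922 n0 (.cons 757 n1053 .nil)
noncomputable def n1055 : Strat := .move 755 n776 (.cons 920 n155 .nil)
noncomputable def n1056 : Strat := .move 878 n988 (.cons 964 n1055 .nil)
noncomputable def n1057 : Strat := .move 796 n165 (.cons 836 n1056 .nil)
noncomputable def n1058 : Strat := .move 837 n164 (.cons 838 n1057 .nil)
noncomputable def n1059 : Strat := .move 800 n15 (.cons 759 n1058 .nil)
noncomputable def n1060 : Strat := .move 922 n0 (.cons 757 n1059 .nil)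
noncomputable def n1061 : Strat := .move 837 n806 (.cons 800 n840 .nil)
noncomputable def n1062 : Strat := .move 716 n743 (.cons 675 n1061 .nil)
noncomputable def n1063 : Strat := .move 838 n830 (.cons 920 n1062 .nil)
noncomputable def n1064 : Strat := .move 757 n181 (.cons 922 n1063 .nil)
noncomputable def n1065 : Strat := .move 755 n155 (.cons 754 n811 .nil)
noncomputable def n1066 : Strat := .move 838 n806 (.cons 800 n1065 .nil)
noncomputable def n1067 : Strat := .move 796 n165 (.cons 836 n1066 .nil)
noncomputable def n1068 : Strat := .move 796 n165 (.cons 836 n979 .nil)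
noncomputable def n1069 : Strat := .move 838 n811 (.cons 714 n812 .nil)
noncomputable def n1070 : Strat := .move 755 n155 (.cons 754 n1069 .nil)
noncomputable def n1071 : Strat := .move 796 n165 (.cons 836 n1070 .nil)
noncomputable def n1072 : Strat := .move 878 n776 (.cons 920 n779 .nil)
noncomputable def n1073 : Strat := .move 755 n155 (.cons 754 n1072 .nil)
noncomputable def n1074 : Strat := .move 796 n165 (.cons 836 n1073 .nil)
noncomputable def n1075 : Strat := .move 837 n1067 (.cons 755 n1068 (.cons 836 n979 (.cons 800 n1071 (.cons 838 n1074 .nil))))
noncomputable def n1076 : Strat := .move 757 n830 (.cons 920 n1062 .nil)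
noncomputable def n1077 : Strat := .win 960 1 796
noncomputable def n1078 : Strat := .win 882 4 878
noncomputable def n1079 : Strat := .win 917 5 876
noncomputable def n1080 : Strat := .win 878 4 877
noncomputable def n1081 : Strat := .move 918 n1079 (.cons 917 n1080 .nil)
noncomputable def n1082 : Strat := .move 880 n1078 (.cons 882 n1081 .nil)
noncomputable def n1083 : Strat := .move 919 n1077 (.cons 960 n1082 .nil)
noncomputable def n1084 : Strat := .move 920 n833 (.cons 757 n1083 .nil)
noncomputable def n1085 : Strat := .move 838 n1076 (.cons 837 n1084 (.cons 757 n931 .nil))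
noncomputable def n1086 : Strat := .move 923 n7 (.cons 964 n1013 .nil)
noncomputable def n1087 : Strat := .move 922 n0 (.cons 757 n1086 .nil)
noncomputable def n1088 : Strat := .move 879 n1054 (.cons 924 n1060 (.cons 923 n1064 (.cons 757 n1075 (.cons 922 n1085 (.cons 800 n1087 .nil)))))
noncomputable def n1089 : Strat := .move 797 n976 (.cons 922 n865 (.cons 757 n986 (.cons 800 n1034 (.cons 796 n1045 (.cons 755 n1046 (.cons 838 n1049 (.cons 756 n1088 .nil)))))))
noncomputable def n1090 : Strat := .move 798 n731 (.cons 922 n935 (.cons 757 n974 (.cons 839 n1089 .nil)))
noncomputable def n1091 : Strat := .move 799 n22 (.cons 922 n180 (.cons 923 n214 (.cons 800 n230 (.cons 839 n236 (.cons 718 n284 (.cons 757 n381 (.cons 759 n450 (.cons 798 n730 (.cons 758 n1090 .nil)))))))))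

theorem ok : checkS n1091 (pairBits 840 881) (pairBits 841 921) ≠ 0 := by decide +kernel

theorem reply : MakerWins {cellOf 881, cellOf 840} {cellOf 841, cellOf 921} :=
  reply2 n1091 840 881 841 921 ok

end Vale.Agent.Snaky.Cert2.R921
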