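import Vale.Agent.Snaky.Cert2.Lem

namespace Vale.Agent.Snaky.Cert2.R923

open Vale.Agent.Snaky

noncomputable def n0 : Strat := .win 716 7 716
noncomputable def n1 : Strat := .win 718 3 717
noncomputable def n2 : Strat := .win 800 3 758
noncomputable def n3 : Strat := .win 798 7 757
noncomputable def n4 : Strat := .move 922 n2 (.cons 800 n3 .nil)
noncomputable def n5 : Strat := .move 759 n1 (.cons 718 n4 .nil)
noncomputable def n6 : Strat := .move 757 n0 (.cons 716 n5 .nil)
noncomputable def n7 : Strat := .win 880 1 757
noncomputable def n8 : Strat := .win 962 1 798
noncomputable def n9 : Strat := .move 921 n7 (.cons 880 n8 .nil)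
noncomputable def n10 : Strat := .move 922 n2 (.cons 800 n9 .nil)
noncomputable def n11 : Strat := .move 759 n1 (.cons 718 n10 .nil)
noncomputable def n12 : Strat := .win 921 1 757
noncomputable def n13 : Strat := .win 839 1 716
noncomputable def n14 : Strat := .win 757 7 716
noncomputable def n15 : Strat := .win 675 7 675
noncomputable def n16 : Strat := .move 716 n14 (.cons 757 n15 .nil)
noncomputable def n17 : Strat := .move 717 n13 (.cons 839 n16 .nil)
noncomputable def n18 : Strat := .move 880 n12 (.cons 921 n17 .nil)
noncomputable def n19 : Strat := .move 758 n6 (.cons 716 n11 (.cons 922 n18 .nil))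
noncomputable def n20 : Strat := .win 759 3 717
noncomputable def n21 : Strat := .win 677 3 676
noncomputable def n22 : Strat := .move 718 n20 (.cons 759 n21 .nil)
noncomputable def n23 : Strat := .move 717 n13 (.cons 839 n22 .nil)
noncomputable def n24 : Strat := .move 880 n12 (.cons 921 n23 .nil)
noncomputable def n25 : Strat := .win 755 0 755
noncomputable def n26 : Strat := .win 801 0 756
noncomputable def n27 : Strat := .move 800 n25 (.cons 755 n26 .nil)
noncomputable def n28 : Strat := .win 800 0 755
noncomputable def n29 : Strat := .win 797 4 755
noncomputable def n30 : Strat := .win 795 4 754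
noncomputable def n31 : Strat := .move 796 n29 (.cons 797 n30 .nil)
noncomputable def n32 : Strat := .move 755 n28 (.cons 800 n31 .nil)
noncomputable def n33 : Strat := .win 796 4 755
noncomputable def n34 : Strat := .win 798 4 756
noncomputable def n35 : Strat := .win 715 2 714
noncomputable def n36 : Strat := .win 803 0 758
noncomputable def n37 : Strat := .win 801 0 757
noncomputable def n38 : Strat := .move 802 n36 (.cons 803 n37 .nil)
noncomputable def n39 : Strat := .win 721 5 717
noncomputable def n40 : Strat := .win 719 5 716
noncomputable def n41 : Strat := .move 720 n39 (.cons 721 n40 .nil)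
noncomputable def n42 : Strat := .move 761 n38 (.cons 801 n41 .nil)
noncomputable def n43 : Strat := .move 714 n35 (.cons 715 n42 .nil)
noncomputable def n44 : Strat := .move 760 n34 (.cons 798 n43 .nil)
noncomputable def n45 : Strat := .move 797 n33 (.cons 796 n44 .nil)
noncomputable def n46 : Strat := .move 756 n27 (.cons 801 n32 (.cons 800 n45 .nil))
noncomputable def n47 : Strat := .move 759 n1 (.cons 718 n46 .nil)
noncomputable def n48 : Strat := .move 757 n0 (.cons 716 n47 .nil)
noncomputable def n49 : Strat := .move 758 n18 (.cons 757 n24 (.cons 880 n48 .nil))
noncomputable def n50 : Strat := .win 922 3 758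
noncomputable def n51 : Strat := .win 756 0 756
noncomputable def n52 : Strat := .win 802 2 757
noncomputable def n53 : Strat := .move 801 n51 (.cons 756 n52 .nil)
noncomputable def n54 : Strat := .move 800 n50 (.cons 922 n53 .nil)
noncomputable def n55 : Strat := .move 757 n0 (.cons 716 n54 .nil)
noncomputable def n56 : Strat := .move 759 n1 (.cons 718 n55 .nil)
noncomputable def n57 : Strat := .move 758 n56 (.cons 756 n18 (.cons 757 n24 .nil))
noncomputable def n58 : Strat := .move 922 n3 (.cons 798 n9 .nil)
noncomputable def n59 : Strat := .move 757 n0 (.cons 716 n58 .nil)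
noncomputable def n60 : Strat := .move 758 n6 (.cons 757 n11 (.cons 759 n59 (.cons 922 n48 .nil)))
noncomputable def n61 : Strat := .move 758 n0 (.cons 716 n5 .nil)
noncomputable def n62 : Strat := .move 801 n52 (.cons 802 n51 .nil)
noncomputable def n63 : Strat := .move 800 n50 (.cons 922 n62 .nil)
noncomputable def n64 : Strat := .move 759 n1 (.cons 718 n63 .nil)
noncomputable def n65 : Strat := .move 758 n0 (.cons 716 n64 .nil)
noncomputable def n66 : Strat := .win 922 7 757
noncomputable def n67 : Strat := .win 675 6 675
noncomputable def n68 : Strat := .win 839 6 716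
noncomputable def n69 : Strat := .move 716 n67 (.cons 675 n68 .nil)
noncomputable def n70 : Strat := .move 798 n66 (.cons 922 n69 .nil)
noncomputable def n71 : Strat := .move 758 n0 (.cons 716 n47 .nil)
noncomputable def n72 : Strat := .win 756 2 756
noncomputable def n73 : Strat := .win 758 2 757
noncomputable def n74 : Strat := .win 839 4 798
noncomputable def n75 : Strat := .move 802 n73 (.cons 758 n74 .nil)
noncomputable def n76 : Strat := .move 801 n72 (.cons 756 n75 .nil)
noncomputable def n77 : Strat := .win 801 2 756
noncomputable def n78 : Strat := .win 754 0 754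
noncomputable def n79 : Strat := .win 758 0 755
noncomputable def n80 : Strat := .move 755 n78 (.cons 754 n79 .nil)
noncomputable def n81 : Strat := .move 756 n77 (.cons 801 n80 .nil)
noncomputable def n82 : Strat := .win 838 4 797
noncomputable def n83 : Strat := .win 802 4 798
noncomputable def n84 : Strat := .move 839 n82 (.cons 838 n83 .nil)
noncomputable def n85 : Strat := .move 801 n72 (.cons 756 n84 .nil)
noncomputable def n86 : Strat := .win 760 5 757
noncomputable def n87 : Strat := .win 762 5 758
noncomputable def n88 : Strat := .move 761 n86 (.cons 760 n87 .nil)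
noncomputable def n89 : Strat := .move 802 n73 (.cons 758 n88 .nil)
noncomputable def n90 : Strat := .win 839 4 797
noncomputable def n91 : Strat := .win 837 4 796
noncomputable def n92 : Strat := .win 759 5 756
noncomputable def n93 : Strat := .win 761 5 757
noncomputable def n94 : Strat := .move 760 n92 (.cons 759 n93 .nil)
noncomputable def n95 : Strat := .move 797 n91 (.cons 837 n94 .nil)
noncomputable def n96 : Strat := .move 838 n90 (.cons 839 n95 .nil)
noncomputable def n97 : Strat := .move 801 n75 (.cons 839 n89 (.cons 758 n84 (.cons 802 n96 .nil)))
noncomputable def n98 : Strat := .win 760 5 756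
noncomputable def n99 : Strat := .win 796 5 755
noncomputable def n100 : Strat := .move 758 n1 (.cons 718 n99 .nil)
noncomputable def n101 : Strat := .move 759 n98 (.cons 760 n100 .nil)
noncomputable def n102 : Strat := .win 755 2 755
noncomputable def n103 : Strat := .win 838 4 796
noncomputable def n104 : Strat := .win 836 4 795
noncomputable def n105 : Strat := .win 758 5 754
noncomputable def n106 : Strat := .win 839 0 795
noncomputable def n107 : Strat := .move 795 n105 (.cons 758 n106 .nil)
noncomputable def n108 : Strat := .move 796 n104 (.cons 836 n107 .nil)
noncomputable def n109 : Strat := .move 837 n103 (.cons 838 n108 .nil)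
noncomputable def n110 : Strat := .move 756 n102 (.cons 755 n109 .nil)
noncomputable def n111 : Strat := .win 758 3 717
noncomputable def n112 : Strat := .win 677 1 676
noncomputable def n113 : Strat := .move 718 n111 (.cons 758 n112 .nil)
noncomputable def n114 : Strat := .move 759 n98 (.cons 760 n113 .nil)
noncomputable def n115 : Strat := .win 756 2 755
noncomputable def n116 : Strat := .win 754 2 754
noncomputable def n117 : Strat := .move 755 n115 (.cons 756 n116 .nil)
noncomputable def n118 : Strat := .move 796 n104 (.cons 836 n117 .nil)
noncomputable def n119 : Strat := .move 837 n103 (.cons 838 n118 .nil)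
noncomputable def n120 : Strat := .move 797 n101 (.cons 759 n110 (.cons 796 n114 (.cons 758 n119 .nil)))
noncomputable def n121 : Strat := .move 800 n76 (.cons 802 n81 (.cons 758 n85 (.cons 756 n97 (.cons 801 n120 .nil))))
noncomputable def n122 : Strat := .move 798 n66 (.cons 922 n121 .nil)
noncomputable def n123 : Strat := .move 757 n61 (.cons 798 n65 (.cons 758 n70 (.cons 922 n71 (.cons 716 n122 .nil))))
noncomputable def n124 : Strat := .win 717 1 716
noncomputable def n125 : Strat := .win 922 6 757
noncomputable def n126 : Strat := .win 715 7 715
noncomputable def n127 : Strat := .move 800 n25 (.cons 755 n77 .nil)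
noncomputable def n128 : Strat := .move 756 n126 (.cons 715 n127 .nil)
noncomputable def n129 : Strat := .move 798 n125 (.cons 922 n128 .nil)
noncomputable def n130 : Strat := .move 839 n124 (.cons 717 n129 .nil)
noncomputable def n131 : Strat := .move 880 n12 (.cons 921 n130 .nil)
noncomputable def n132 : Strat := .move 757 n0 (.cons 716 n131 .nil)
noncomputable def n133 : Strat := .win 716 7 675
noncomputable def n134 : Strat := .win 634 7 634
noncomputable def n135 : Strat := .win 718 3 676
noncomputable def n136 : Strat := .win 636 3 635
noncomputable def n137 : Strat := .move 677 n135 (.cons 718 n136 .nil)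
noncomputable def n138 : Strat := .move 676 n134 (.cons 634 n137 .nil)
noncomputable def n139 : Strat := .move 675 n133 (.cons 716 n138 .nil)
noncomputable def n140 : Strat := .move 717 n13 (.cons 839 n139 .nil)
noncomputable def n141 : Strat := .move 880 n12 (.cons 921 n140 .nil)
noncomputable def n142 : Strat := .win 839 1 675
noncomputable def n143 : Strat := .win 635 1 634
noncomputable def n144 : Strat := .move 757 n66 (.cons 922 n143 .nil)
noncomputable def n145 : Strat := .move 798 n142 (.cons 839 n144 .nil)
noncomputable def n146 : Strat := .move 676 n136 (.cons 636 n145 .nil)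
noncomputable def n147 : Strat := .move 677 n135 (.cons 718 n146 .nil)
noncomputable def n148 : Strat := .move 717 n16 (.cons 716 n147 (.cons 757 n139 .nil))
noncomputable def n149 : Strat := .win 836 0 836
noncomputable def n150 : Strat := .win 882 0 837
noncomputable def n151 : Strat := .move 838 n149 (.cons 836 n150 .nil)
noncomputable def n152 : Strat := .win 800 5 796
noncomputable def n153 : Strat := .move 838 n150 (.cons 882 n152 .nil)
noncomputable def n154 : Strat := .move 838 n149 (.cons 836 n152 .nil)
noncomputable def n155 : Strat := .win 877 5 836
noncomputable def n156 : Strat := .win 836 2 836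
noncomputable def n157 : Strat := .move 879 n155 (.cons 877 n156 .nil)
noncomputable def n158 : Strat := .win 918 4 877
noncomputable def n159 : Strat := .win 882 4 878
noncomputable def n160 : Strat := .win 961 6 796
noncomputable def n161 : Strat := .win 755 6 755
noncomputable def n162 : Strat := .move 796 n160 (.cons 961 n161 .nil)
noncomputable def n163 : Strat := .move 920 n159 (.cons 882 n162 .nil)
noncomputable def n164 : Strat := .move 919 n158 (.cons 918 n163 .nil)
noncomputable def n165 : Strat := .move 879 n155 (.cons 877 n164 .nil)
noncomputable def n166 : Strat := .move 879 n156 (.cons 836 n164 .nil)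
noncomputable def n167 : Strat := .win 963 7 798
noncomputable def n168 : Strat := .win 757 6 757
noncomputable def n169 : Strat := .move 922 n167 (.cons 963 n168 .nil)
noncomputable def n170 : Strat := .win 795 0 795
noncomputable def n171 : Strat := .move 797 n104 (.cons 836 n170 .nil)
noncomputable def n172 : Strat := .move 798 n169 (.cons 757 n171 .nil)
noncomputable def n173 : Strat := .win 754 7 754
noncomputable def n174 : Strat := .win 756 3 755
noncomputable def n175 : Strat := .win 798 0 795
noncomputable def n176 : Strat := .move 797 n174 (.cons 756 n175 .nil)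
noncomputable def n177 : Strat := .move 795 n173 (.cons 754 n176 .nil)
noncomputable def n178 : Strat := .win 959 1 795
noncomputable def n179 : Strat := .win 877 1 754
noncomputable def n180 : Strat := .move 918 n178 (.cons 959 n179 .nil)
noncomputable def n181 : Strat := .win 797 3 755
noncomputable def n182 : Strat := .win 715 3 714
noncomputable def n183 : Strat := .move 756 n181 (.cons 797 n182 .nil)
noncomputable def n184 : Strat := .move 755 n180 (.cons 877 n183 .nil)
noncomputable def n185 : Strat := .win 1000 1 836
noncomputable def n186 : Strat := .win 918 1 795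
noncomputable def n187 : Strat := .move 959 n185 (.cons 1000 n186 .nil)
noncomputable def n188 : Strat := .win 1002 6 837
noncomputable def n189 : Strat := .win 920 6 796
noncomputable def n190 : Strat := .move 961 n188 (.cons 1002 n189 .nil)
noncomputable def n191 : Strat := .move 960 n187 (.cons 918 n190 .nil)
noncomputable def n192 : Strat := .move 919 n177 (.cons 795 n184 (.cons 756 n191 .nil))
noncomputable def n193 : Strat := .move 797 n116 (.cons 754 n104 .nil)
noncomputable def n194 : Strat := .move 798 n169 (.cons 757 n193 .nil)
noncomputable def n195 : Strat := .win 836 1 713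
noncomputable def n196 : Strat := .win 918 1 754
noncomputable def n197 : Strat := .move 877 n195 (.cons 836 n196 .nil)
noncomputable def n198 : Strat := .win 674 3 673
noncomputable def n199 : Strat := .win 756 3 714
noncomputable def n200 : Strat := .move 715 n198 (.cons 674 n199 .nil)
noncomputable def n201 : Strat := .move 714 n197 (.cons 918 n200 .nil)
noncomputable def n202 : Strat := .win 797 2 754
noncomputable def n203 : Strat := .win 713 7 713
noncomputable def n204 : Strat := .move 754 n202 (.cons 797 n203 .nil)
noncomputable def n205 : Strat := .move 798 n169 (.cons 757 n204 .nil)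
noncomputable def n206 : Strat := .move 755 n194 (.cons 798 n201 (.cons 836 n205 .nil))
noncomputable def n207 : Strat := .win 795 7 754
noncomputable def n208 : Strat := .move 754 n207 (.cons 795 n203 .nil)
noncomputable def n209 : Strat := .move 755 n183 (.cons 715 n208 .nil)
noncomputable def n210 : Strat := .move 919 n184 (.cons 755 n191 (.cons 959 n209 .nil))
noncomputable def n211 : Strat := .move 757 n30 (.cons 795 n28 .nil)
noncomputable def n212 : Strat := .move 756 n182 (.cons 715 n211 .nil)
noncomputable def n213 : Strat := .win 672 7 672
noncomputable def n214 : Strat := .win 754 7 713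
noncomputable def n215 : Strat := .move 713 n213 (.cons 672 n214 .nil)
noncomputable def n216 : Strat := .move 714 n197 (.cons 918 n215 .nil)
noncomputable def n217 : Strat := .move 755 n212 (.cons 756 n216 .nil)
noncomputable def n218 : Strat := .move 796 n172 (.cons 757 n192 (.cons 795 n206 (.cons 798 n210 (.cons 797 n217 .nil))))
noncomputable def n219 : Strat := .move 878 n157 (.cons 836 n165 (.cons 877 n166 (.cons 879 n218 .nil)))
noncomputable def n220 : Strat := .move 837 n151 (.cons 836 n153 (.cons 882 n154 (.cons 838 n219 .nil)))
noncomputable def n221 : Strat := .move 839 n124 (.cons 717 n220 .nil)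
noncomputable def n222 : Strat := .move 880 n12 (.cons 921 n221 .nil)
noncomputable def n223 : Strat := .move 758 n132 (.cons 757 n141 (.cons 880 n148 (.cons 717 n59 (.cons 716 n222 .nil))))
noncomputable def n224 : Strat := .win 760 4 756
noncomputable def n225 : Strat := .move 797 n224 (.cons 760 n99 .nil)
noncomputable def n226 : Strat := .move 759 n1 (.cons 718 n225 .nil)
noncomputable def n227 : Strat := .move 839 n124 (.cons 717 n226 .nil)
noncomputable def n228 : Strat := .move 880 n12 (.cons 921 n227 .nil)
noncomputable def n229 : Strat := .move 798 n66 (.cons 922 n228 .nil)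
noncomputable def n230 : Strat := .move 757 n0 (.cons 716 n229 .nil)
noncomputable def n231 : Strat := .move 798 n66 (.cons 922 n225 .nil)
noncomputable def n232 : Strat := .move 759 n1 (.cons 718 n231 .nil)
noncomputable def n233 : Strat := .move 757 n0 (.cons 716 n232 .nil)
noncomputable def n234 : Strat := .move 758 n230 (.cons 757 n24 (.cons 759 n18 (.cons 839 n233 .nil)))
noncomputable def n235 : Strat := .win 758 1 757
noncomputable def n236 : Strat := .win 884 4 880
noncomputable def n237 : Strat := .win 920 4 879
noncomputable def n238 : Strat := .move 883 n236 (.cons 884 n237 .nil)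
noncomputable def n239 : Strat := .move 880 n235 (.cons 758 n238 .nil)
noncomputable def n240 : Strat := .move 921 n8 (.cons 962 n239 .nil)
noncomputable def n241 : Strat := .win 919 5 878
noncomputable def n242 : Strat := .win 880 4 879
noncomputable def n243 : Strat := .move 920 n241 (.cons 919 n242 .nil)
noncomputable def n244 : Strat := .move 883 n236 (.cons 884 n243 .nil)
noncomputable def n245 : Strat := .move 921 n8 (.cons 962 n244 .nil)
noncomputable def n246 : Strat := .win 883 4 879
noncomputable def n247 : Strat := .move 920 n241 (.cons 919 n246 .nil)
noncomputable def n248 : Strat := .move 880 n235 (.cons 758 n247 .nil)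
noncomputable def n249 : Strat := .move 921 n8 (.cons 962 n248 .nil)
noncomputable def n250 : Strat := .win 757 7 757
noncomputable def n251 : Strat := .win 837 0 837
noncomputable def n252 : Strat := .win 759 3 758
noncomputable def n253 : Strat := .win 801 4 797
noncomputable def n254 : Strat := .move 800 n252 (.cons 759 n253 .nil)
noncomputable def n255 : Strat := .move 838 n251 (.cons 837 n254 .nil)
noncomputable def n256 : Strat := .move 839 n167 (.cons 963 n255 .nil)
noncomputable def n257 : Strat := .move 798 n250 (.cons 757 n256 .nil)
noncomputable def n258 : Strat := .move 882 n240 (.cons 758 n245 (.cons 884 n249 (.cons 921 n257 .nil)))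
noncomputable def n259 : Strat := .move 759 n1 (.cons 718 n2 .nil)
noncomputable def n260 : Strat := .move 758 n7 (.cons 880 n259 .nil)
noncomputable def n261 : Strat := .move 921 n8 (.cons 962 n260 .nil)
noncomputable def n262 : Strat := .win 839 7 798
noncomputable def n263 : Strat := .win 921 1 798
noncomputable def n264 : Strat := .win 1003 1 839
noncomputable def n265 : Strat := .move 962 n263 (.cons 921 n264 .nil)
noncomputable def n266 : Strat := .move 963 n262 (.cons 839 n265 .nil)
noncomputable def n267 : Strat := .move 798 n250 (.cons 757 n266 .nil)
noncomputable def n268 : Strat := .win 837 5 796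
noncomputable def n269 : Strat := .move 838 n253 (.cons 801 n268 .nil)
noncomputable def n270 : Strat := .move 800 n252 (.cons 759 n269 .nil)
noncomputable def n271 : Strat := .move 839 n167 (.cons 963 n270 .nil)
noncomputable def n272 : Strat := .move 798 n250 (.cons 757 n271 .nil)
noncomputable def n273 : Strat := .move 922 n258 (.cons 839 n261 (.cons 758 n267 (.cons 962 n272 .nil)))
noncomputable def n274 : Strat := .win 961 1 797
noncomputable def n275 : Strat := .move 882 n241 (.cons 919 n246 .nil)
noncomputable def n276 : Strat := .move 920 n274 (.cons 961 n275 .nil)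
noncomputable def n277 : Strat := .move 880 n235 (.cons 758 n276 .nil)
noncomputable def n278 : Strat := .move 839 n167 (.cons 963 n277 .nil)
noncomputable def n279 : Strat := .move 798 n250 (.cons 757 n278 .nil)
noncomputable def n280 : Strat := .move 921 n8 (.cons 962 n279 .nil)
noncomputable def n281 : Strat := .win 962 1 839
noncomputable def n282 : Strat := .win 1044 1 880
noncomputable def n283 : Strat := .win 964 6 840
noncomputable def n284 : Strat := .win 1046 6 881
noncomputable def n285 : Strat := .move 1005 n283 (.cons 964 n284 .nil)
noncomputable def n286 : Strat := .move 1004 n282 (.cons 1044 n285 .nil)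
noncomputable def n287 : Strat := .move 1003 n281 (.cons 962 n286 .nil)
noncomputable def n288 : Strat := .move 963 n262 (.cons 839 n287 .nil)
noncomputable def n289 : Strat := .move 798 n250 (.cons 757 n288 .nil)
noncomputable def n290 : Strat := .win 798 7 798
noncomputable def n291 : Strat := .win 880 7 839
noncomputable def n292 : Strat := .move 1005 n284 (.cons 1046 n283 .nil)
noncomputable def n293 : Strat := .move 1004 n291 (.cons 880 n292 .nil)
noncomputable def n294 : Strat := .move 838 n268 (.cons 837 n293 .nil)
noncomputable def n295 : Strat := .move 800 n252 (.cons 759 n294 .nil)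
noncomputable def n296 : Strat := .move 839 n290 (.cons 798 n295 .nil)
noncomputable def n297 : Strat := .move 963 n264 (.cons 1003 n296 .nil)
noncomputable def n298 : Strat := .move 962 n263 (.cons 921 n297 .nil)
noncomputable def n299 : Strat := .move 757 n0 (.cons 716 n3 .nil)
noncomputable def n300 : Strat := .move 758 n7 (.cons 880 n299 .nil)
noncomputable def n301 : Strat := .move 921 n8 (.cons 962 n300 .nil)
noncomputable def n302 : Strat := .win 839 7 839
noncomputable def n303 : Strat := .win 1045 7 880
noncomputable def n304 : Strat := .move 1004 n302 (.cons 839 n303 .nil)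
noncomputable def n305 : Strat := .move 880 n235 (.cons 758 n304 .nil)
noncomputable def n306 : Strat := .move 921 n8 (.cons 962 n305 .nil)
noncomputable def n307 : Strat := .move 921 n235 (.cons 758 n303 .nil)
noncomputable def n308 : Strat := .move 880 n302 (.cons 839 n307 .nil)
noncomputable def n309 : Strat := .move 1004 n284 (.cons 1046 n308 .nil)
noncomputable def n310 : Strat := .move 1005 n283 (.cons 964 n309 .nil)
noncomputable def n311 : Strat := .move 963 n265 (.cons 1003 n306 (.cons 962 n310 (.cons 921 n287 .nil)))
noncomputable def n312 : Strat := .move 759 n2 (.cons 800 n311 .nil)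
noncomputable def n313 : Strat := .move 922 n280 (.cons 921 n289 (.cons 757 n298 (.cons 962 n272 (.cons 839 n301 (.cons 798 n312 .nil)))))
noncomputable def n314 : Strat := .win 798 4 797
noncomputable def n315 : Strat := .move 801 n83 (.cons 802 n314 .nil)
noncomputable def n316 : Strat := .move 838 n268 (.cons 837 n315 .nil)
noncomputable def n317 : Strat := .move 800 n50 (.cons 922 n316 .nil)
noncomputable def n318 : Strat := .move 839 n124 (.cons 717 n317 .nil)
noncomputable def n319 : Strat := .move 880 n12 (.cons 921 n318 .nil)
noncomputable def n320 : Strat := .move 759 n1 (.cons 718 n319 .nil)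
noncomputable def n321 : Strat := .win 761 4 757
noncomputable def n322 : Strat := .win 797 5 756
noncomputable def n323 : Strat := .move 798 n321 (.cons 761 n322 .nil)
noncomputable def n324 : Strat := .win 762 4 758
noncomputable def n325 : Strat := .win 842 1 678
noncomputable def n326 : Strat := .win 638 1 637
noncomputable def n327 : Strat := .move 679 n325 (.cons 842 n326 .nil)
noncomputable def n328 : Strat := .move 801 n74 (.cons 839 n327 .nil)
noncomputable def n329 : Strat := .move 720 n39 (.cons 721 n328 .nil)
noncomputable def n330 : Strat := .move 802 n36 (.cons 803 n329 .nil)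
noncomputable def n331 : Strat := .move 761 n324 (.cons 762 n330 .nil)
noncomputable def n332 : Strat := .win 803 2 758
noncomputable def n333 : Strat := .move 802 n332 (.cons 803 n74 .nil)
noncomputable def n334 : Strat := .move 839 n83 (.cons 802 n82 .nil)
noncomputable def n335 : Strat := .move 798 n322 (.cons 797 n334 .nil)
noncomputable def n336 : Strat := .win 844 0 799
noncomputable def n337 : Strat := .win 842 0 798
noncomputable def n338 : Strat := .move 798 n337 (.cons 842 n322 .nil)
noncomputable def n339 : Strat := .move 843 n336 (.cons 844 n338 .nil)
noncomputable def n340 : Strat := .move 802 n332 (.cons 803 n339 .nil)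
noncomputable def n341 : Strat := .win 843 0 798
noncomputable def n342 : Strat := .move 798 n322 (.cons 797 n341 .nil)
noncomputable def n343 : Strat := .win 637 1 636
noncomputable def n344 : Strat := .win 638 3 637
noncomputable def n345 : Strat := .win 720 3 678
noncomputable def n346 : Strat := .move 679 n344 (.cons 638 n345 .nil)
noncomputable def n347 : Strat := .move 678 n343 (.cons 637 n346 .nil)
noncomputable def n348 : Strat := .win 924 7 759
noncomputable def n349 : Strat := .win 925 6 760
noncomputable def n350 : Strat := .win 843 6 719
noncomputable def n351 : Strat := .move 884 n349 (.cons 925 n350 .nil)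
noncomputable def n352 : Strat := .move 883 n348 (.cons 924 n351 .nil)
noncomputable def n353 : Strat := .move 719 n347 (.cons 678 n352 .nil)
noncomputable def n354 : Strat := .move 798 n82 (.cons 838 n322 .nil)
noncomputable def n355 : Strat := .move 838 n314 (.cons 798 n268 .nil)
noncomputable def n356 : Strat := .win 882 2 839
noncomputable def n357 : Strat := .move 884 n356 (.cons 882 n349 .nil)
noncomputable def n358 : Strat := .move 839 n354 (.cons 797 n355 (.cons 838 n357 .nil))
noncomputable def n359 : Strat := .move 883 n348 (.cons 924 n358 .nil)
noncomputable def n360 : Strat := .move 842 n342 (.cons 798 n353 (.cons 843 n359 .nil))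
noncomputable def n361 : Strat := .move 801 n333 (.cons 803 n335 (.cons 839 n340 (.cons 802 n360 .nil)))
noncomputable def n362 : Strat := .move 760 n323 (.cons 798 n331 (.cons 761 n361 .nil))
noncomputable def n363 : Strat := .move 800 n50 (.cons 922 n362 .nil)
noncomputable def n364 : Strat := .move 759 n1 (.cons 718 n363 .nil)
noncomputable def n365 : Strat := .move 759 n50 (.cons 922 n316 .nil)
noncomputable def n366 : Strat := .move 839 n124 (.cons 717 n365 .nil)
noncomputable def n367 : Strat := .move 880 n12 (.cons 921 n366 .nil)
noncomputable def n368 : Strat := .move 759 n50 (.cons 922 n362 .nil)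
noncomputable def n369 : Strat := .win 1004 7 839
noncomputable def n370 : Strat := .move 963 n290 (.cons 798 n369 .nil)
noncomputable def n371 : Strat := .move 922 n252 (.cons 759 n370 .nil)
noncomputable def n372 : Strat := .move 839 n124 (.cons 717 n371 .nil)
noncomputable def n373 : Strat := .move 880 n12 (.cons 921 n372 .nil)
noncomputable def n374 : Strat := .move 839 n124 (.cons 717 n316 .nil)
noncomputable def n375 : Strat := .move 880 n12 (.cons 921 n374 .nil)
noncomputable def n376 : Strat := .win 635 6 635
noncomputable def n377 : Strat := .move 675 n133 (.cons 716 n134 .nil)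
noncomputable def n378 : Strat := .move 676 n376 (.cons 635 n377 .nil)
noncomputable def n379 : Strat := .move 759 n50 (.cons 922 n378 .nil)
noncomputable def n380 : Strat := .move 717 n13 (.cons 839 n379 .nil)
noncomputable def n381 : Strat := .move 880 n12 (.cons 921 n380 .nil)
noncomputable def n382 : Strat := .move 922 n252 (.cons 759 n9 .nil)
noncomputable def n383 : Strat := .move 800 n367 (.cons 880 n368 (.cons 837 n373 (.cons 759 n375 (.cons 798 n381 (.cons 839 n382 .nil)))))
noncomputable def n384 : Strat := .move 758 n320 (.cons 759 n141 (.cons 880 n364 (.cons 839 n11 (.cons 718 n383 .nil))))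
noncomputable def n385 : Strat := .move 922 n250 (.cons 757 n266 .nil)
noncomputable def n386 : Strat := .win 800 4 796
noncomputable def n387 : Strat := .move 837 n386 (.cons 800 n150 .nil)
noncomputable def n388 : Strat := .win 836 5 795
noncomputable def n389 : Strat := .move 837 n386 (.cons 800 n388 .nil)
noncomputable def n390 : Strat := .move 837 n150 (.cons 882 n388 .nil)
noncomputable def n391 : Strat := .win 716 6 716
noncomputable def n392 : Strat := .win 921 7 756
noncomputable def n393 : Strat := .win 715 6 715
noncomputable def n394 : Strat := .move 880 n392 (.cons 921 n393 .nil)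
noncomputable def n395 : Strat := .win 674 6 674
noncomputable def n396 : Strat := .win 880 6 715
noncomputable def n397 : Strat := .move 715 n395 (.cons 674 n396 .nil)
noncomputable def n398 : Strat := .move 800 n102 (.cons 755 n77 .nil)
noncomputable def n399 : Strat := .move 756 n394 (.cons 921 n397 (.cons 880 n398 .nil))
noncomputable def n400 : Strat := .move 757 n391 (.cons 716 n399 .nil)
noncomputable def n401 : Strat := .move 838 n387 (.cons 882 n389 (.cons 800 n390 (.cons 837 n400 .nil)))
noncomputable def n402 : Strat := .move 756 n102 (.cons 755 n394 .nil)
noncomputable def n403 : Strat := .move 800 n253 (.cons 801 n402 .nil)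
noncomputable def n404 : Strat := .move 838 n387 (.cons 837 n403 (.cons 800 n390 .nil))
noncomputable def n405 : Strat := .win 920 3 756
noncomputable def n406 : Strat := .move 796 n116 (.cons 754 n170 .nil)
noncomputable def n407 : Strat := .move 755 n115 (.cons 756 n406 .nil)
noncomputable def n408 : Strat := .move 879 n405 (.cons 920 n407 .nil)
noncomputable def n409 : Strat := .move 800 n253 (.cons 801 n408 .nil)
noncomputable def n410 : Strat := .move 757 n391 (.cons 716 n409 .nil)
noncomputable def n411 : Strat := .move 838 n387 (.cons 882 n389 (.cons 800 n390 (.cons 837 n410 .nil)))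
noncomputable def n412 : Strat := .win 879 6 714
noncomputable def n413 : Strat := .win 673 6 673
noncomputable def n414 : Strat := .move 714 n412 (.cons 879 n413 .nil)
noncomputable def n415 : Strat := .move 755 n116 (.cons 754 n414 .nil)
noncomputable def n416 : Strat := .move 838 n150 (.cons 882 n415 .nil)
noncomputable def n417 : Strat := .move 837 n104 (.cons 836 n416 .nil)
noncomputable def n418 : Strat := .move 796 n170 (.cons 795 n417 .nil)
noncomputable def n419 : Strat := .move 838 n394 (.cons 921 n397 (.cons 880 n398 .nil))
noncomputable def n420 : Strat := .move 880 n392 (.cons 921 n126 .nil)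
noncomputable def n421 : Strat := .move 756 n419 (.cons 880 n398 (.cons 800 n420 .nil))
noncomputable def n422 : Strat := .move 757 n391 (.cons 716 n421 .nil)
noncomputable def n423 : Strat := .win 800 2 755
noncomputable def n424 : Strat := .move 755 n78 (.cons 754 n423 .nil)
noncomputable def n425 : Strat := .win 880 7 715
noncomputable def n426 : Strat := .move 715 n395 (.cons 674 n425 .nil)
noncomputable def n427 : Strat := .move 756 n424 (.cons 754 n426 .nil)
noncomputable def n428 : Strat := .move 757 n391 (.cons 716 n427 .nil)
noncomputable def n429 : Strat := .move 796 n170 (.cons 795 n428 .nil)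
noncomputable def n430 : Strat := .win 962 3 798
noncomputable def n431 : Strat := .win 756 7 756
noncomputable def n432 : Strat := .move 921 n430 (.cons 962 n431 .nil)
noncomputable def n433 : Strat := .win 920 1 756
noncomputable def n434 : Strat := .win 919 1 755
noncomputable def n435 : Strat := .move 878 n434 (.cons 919 n155 .nil)
noncomputable def n436 : Strat := .move 756 n393 (.cons 715 n435 .nil)
noncomputable def n437 : Strat := .move 879 n433 (.cons 920 n436 .nil)
noncomputable def n438 : Strat := .win 879 1 756
noncomputable def n439 : Strat := .move 921 n274 (.cons 961 n430 .nil)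
noncomputable def n440 : Strat := .move 920 n438 (.cons 879 n439 .nil)
noncomputable def n441 : Strat := .move 880 n432 (.cons 921 n437 (.cons 756 n440 .nil))
noncomputable def n442 : Strat := .move 757 n391 (.cons 716 n441 .nil)
noncomputable def n443 : Strat := .move 838 n387 (.cons 800 n390 (.cons 882 n389 (.cons 837 n442 .nil)))
noncomputable def n444 : Strat := .move 839 n401 (.cons 757 n404 (.cons 715 n411 (.cons 800 n418 (.cons 837 n422 (.cons 838 n429 (.cons 755 n443 .nil))))))
noncomputable def n445 : Strat := .move 800 n115 (.cons 756 n103 .nil)
noncomputable def n446 : Strat := .move 837 n104 (.cons 836 n445 .nil)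
noncomputable def n447 : Strat := .move 796 n116 (.cons 754 n446 .nil)
noncomputable def n448 : Strat := .win 920 7 755
noncomputable def n449 : Strat := .win 714 6 714
noncomputable def n450 : Strat := .move 879 n448 (.cons 920 n449 .nil)
noncomputable def n451 : Strat := .move 714 n413 (.cons 673 n412 .nil)
noncomputable def n452 : Strat := .win 919 3 755
noncomputable def n453 : Strat := .win 715 1 714
noncomputable def n454 : Strat := .move 756 n452 (.cons 919 n453 .nil)
noncomputable def n455 : Strat := .win 960 3 796
noncomputable def n456 : Strat := .move 919 n455 (.cons 960 n174 .nil)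
noncomputable def n457 : Strat := .win 756 1 714
noncomputable def n458 : Strat := .move 714 n198 (.cons 674 n413 .nil)
noncomputable def n459 : Strat := .move 715 n457 (.cons 756 n458 .nil)
noncomputable def n460 : Strat := .move 919 n455 (.cons 960 n180 .nil)
noncomputable def n461 : Strat := .move 878 n454 (.cons 715 n456 (.cons 919 n459 (.cons 756 n460 .nil)))
noncomputable def n462 : Strat := .win 878 1 714
noncomputable def n463 : Strat := .win 674 1 673
noncomputable def n464 : Strat := .move 715 n462 (.cons 878 n463 .nil)
noncomputable def n465 : Strat := .move 878 n434 (.cons 919 n453 .nil)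
noncomputable def n466 : Strat := .win 921 6 756
noncomputable def n467 : Strat := .win 882 2 837
noncomputable def n468 : Strat := .move 880 n466 (.cons 921 n467 .nil)
noncomputable def n469 : Strat := .move 756 n464 (.cons 674 n465 (.cons 878 n468 .nil))
noncomputable def n470 : Strat := .move 879 n448 (.cons 920 n469 .nil)
noncomputable def n471 : Strat := .move 838 n450 (.cons 920 n451 (.cons 879 n461 (.cons 714 n470 .nil)))
noncomputable def n472 : Strat := .move 837 n104 (.cons 836 n471 .nil)
noncomputable def n473 : Strat := .move 796 n116 (.cons 754 n472 .nil)
noncomputable def n474 : Strat := .win 878 3 714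
noncomputable def n475 : Strat := .move 715 n463 (.cons 674 n474 .nil)
noncomputable def n476 : Strat := .move 756 n423 (.cons 800 n475 .nil)
noncomputable def n477 : Strat := .move 837 n104 (.cons 836 n476 .nil)
noncomputable def n478 : Strat := .move 796 n116 (.cons 754 n477 .nil)
noncomputable def n479 : Strat := .move 838 n386 (.cons 800 n450 .nil)
noncomputable def n480 : Strat := .move 837 n104 (.cons 836 n479 .nil)
noncomputable def n481 : Strat := .move 796 n116 (.cons 754 n480 .nil)
noncomputable def n482 : Strat := .win 753 0 753
noncomputable def n483 : Strat := .win 757 0 754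
noncomputable def n484 : Strat := .move 754 n482 (.cons 753 n483 .nil)
noncomputable def n485 : Strat := .move 756 n423 (.cons 800 n484 .nil)
noncomputable def n486 : Strat := .win 714 7 714
noncomputable def n487 : Strat := .win 757 3 756
noncomputable def n488 : Strat := .win 796 7 755
noncomputable def n489 : Strat := .move 920 n487 (.cons 757 n488 .nil)
noncomputable def n490 : Strat := .move 879 n486 (.cons 714 n489 .nil)
noncomputable def n491 : Strat := .win 960 1 796
noncomputable def n492 : Strat := .win 878 1 755
noncomputable def n493 : Strat := .move 919 n491 (.cons 960 n492 .nil)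
noncomputable def n494 : Strat := .move 920 n488 (.cons 796 n493 .nil)
noncomputable def n495 : Strat := .move 879 n486 (.cons 714 n494 .nil)
noncomputable def n496 : Strat := .win 835 5 794
noncomputable def n497 : Strat := .win 796 4 795
noncomputable def n498 : Strat := .move 836 n496 (.cons 835 n497 .nil)
noncomputable def n499 : Strat := .move 837 n462 (.cons 878 n498 .nil)
noncomputable def n500 : Strat := .move 796 n463 (.cons 674 n104 .nil)
noncomputable def n501 : Strat := .move 837 n462 (.cons 878 n500 .nil)
noncomputable def n502 : Strat := .win 716 3 674
noncomputable def n503 : Strat := .win 634 3 633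
noncomputable def n504 : Strat := .win 837 1 673
noncomputable def n505 : Strat := .win 633 1 632
noncomputable def n506 : Strat := .move 796 n504 (.cons 837 n505 .nil)
noncomputable def n507 : Strat := .move 674 n503 (.cons 634 n506 .nil)
noncomputable def n508 : Strat := .move 675 n502 (.cons 716 n507 .nil)
noncomputable def n509 : Strat := .win 714 7 673
noncomputable def n510 : Strat := .win 632 7 632
noncomputable def n511 : Strat := .move 674 n510 (.cons 632 n503 .nil)
noncomputable def n512 : Strat := .move 673 n509 (.cons 714 n511 .nil)
noncomputable def n513 : Strat := .move 675 n502 (.cons 716 n512 .nil)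
noncomputable def n514 : Strat := .move 715 n499 (.cons 835 n501 (.cons 836 n508 (.cons 837 n513 .nil)))
noncomputable def n515 : Strat := .win 757 3 715
noncomputable def n516 : Strat := .win 675 3 674
noncomputable def n517 : Strat := .win 837 1 714
noncomputable def n518 : Strat := .move 878 n434 (.cons 919 n517 .nil)
noncomputable def n519 : Strat := .move 715 n516 (.cons 675 n518 .nil)
noncomputable def n520 : Strat := .move 716 n515 (.cons 757 n519 .nil)
noncomputable def n521 : Strat := .move 879 n489 (.cons 757 n494 (.cons 920 n520 .nil))
noncomputable def n522 : Strat := .win 716 3 715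
noncomputable def n523 : Strat := .move 757 n522 (.cons 716 n405 .nil)
noncomputable def n524 : Strat := .move 879 n486 (.cons 714 n523 .nil)
noncomputable def n525 : Strat := .move 838 n490 (.cons 757 n495 (.cons 879 n514 (.cons 714 n521 (.cons 796 n524 .nil))))
noncomputable def n526 : Strat := .move 756 n423 (.cons 800 n525 .nil)
noncomputable def n527 : Strat := .move 755 n447 (.cons 800 n473 (.cons 838 n478 (.cons 756 n481 (.cons 796 n485 (.cons 754 n526 .nil)))))
noncomputable def n528 : Strat := .win 757 2 756
noncomputable def n529 : Strat := .move 756 n102 (.cons 755 n528 .nil)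
noncomputable def n530 : Strat := .move 801 n90 (.cons 839 n529 .nil)
noncomputable def n531 : Strat := .move 838 n91 (.cons 837 n530 .nil)
noncomputable def n532 : Strat := .move 801 n528 (.cons 757 n94 .nil)
noncomputable def n533 : Strat := .move 756 n102 (.cons 755 n532 .nil)
noncomputable def n534 : Strat := .move 801 n90 (.cons 839 n94 .nil)
noncomputable def n535 : Strat := .move 838 n91 (.cons 837 n534 .nil)
noncomputable def n536 : Strat := .win 675 1 674
noncomputable def n537 : Strat := .move 716 n536 (.cons 675 n68 .nil)
noncomputable def n538 : Strat := .move 839 n396 (.cons 880 n395 .nil)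
noncomputable def n539 : Strat := .win 839 6 715
noncomputable def n540 : Strat := .move 879 n466 (.cons 921 n405 .nil)
noncomputable def n541 : Strat := .move 880 n539 (.cons 839 n540 .nil)
noncomputable def n542 : Strat := .win 633 6 633
noncomputable def n543 : Strat := .win 839 6 674
noncomputable def n544 : Strat := .move 674 n542 (.cons 633 n543 .nil)
noncomputable def n545 : Strat := .move 673 n510 (.cons 632 n509 .nil)
noncomputable def n546 : Strat := .move 674 n542 (.cons 633 n545 .nil)
noncomputable def n547 : Strat := .move 715 n538 (.cons 674 n541 (.cons 880 n544 (.cons 839 n546 .nil)))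
noncomputable def n548 : Strat := .win 879 3 715
noncomputable def n549 : Strat := .move 716 n536 (.cons 675 n548 .nil)
noncomputable def n550 : Strat := .move 757 n537 (.cons 716 n547 (.cons 839 n549 .nil))
noncomputable def n551 : Strat := .move 756 n102 (.cons 755 n550 .nil)
noncomputable def n552 : Strat := .move 838 n91 (.cons 837 n551 .nil)
noncomputable def n553 : Strat := .move 800 n531 (.cons 839 n533 (.cons 757 n535 (.cons 801 n552 .nil)))
noncomputable def n554 : Strat := .move 839 n253 (.cons 801 n402 .nil)
noncomputable def n555 : Strat := .move 838 n91 (.cons 837 n554 .nil)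
noncomputable def n556 : Strat := .move 755 n116 (.cons 754 n115 .nil)
noncomputable def n557 : Strat := .move 796 n104 (.cons 836 n556 .nil)
noncomputable def n558 : Strat := .move 837 n103 (.cons 838 n557 .nil)
noncomputable def n559 : Strat := .win 835 4 794
noncomputable def n560 : Strat := .win 837 4 795
noncomputable def n561 : Strat := .move 836 n559 (.cons 835 n560 .nil)
noncomputable def n562 : Strat := .move 795 n106 (.cons 839 n561 .nil)
noncomputable def n563 : Strat := .move 796 n116 (.cons 754 n562 .nil)
noncomputable def n564 : Strat := .move 755 n115 (.cons 756 n563 .nil)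
noncomputable def n565 : Strat := .move 759 n98 (.cons 760 n564 .nil)
noncomputable def n566 : Strat := .move 801 n82 (.cons 838 n83 .nil)
noncomputable def n567 : Strat := .move 839 n170 (.cons 795 n566 .nil)
noncomputable def n568 : Strat := .move 796 n116 (.cons 754 n567 .nil)
noncomputable def n569 : Strat := .move 755 n115 (.cons 756 n568 .nil)
noncomputable def n570 : Strat := .move 800 n555 (.cons 839 n558 (.cons 756 n535 (.cons 838 n565 (.cons 837 n569 .nil))))
noncomputable def n571 : Strat := .move 757 n536 (.cons 675 n68 .nil)
noncomputable def n572 : Strat := .move 757 n536 (.cons 675 n548 .nil)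
noncomputable def n573 : Strat := .move 674 n510 (.cons 632 n543 .nil)
noncomputable def n574 : Strat := .move 673 n509 (.cons 714 n573 .nil)
noncomputable def n575 : Strat := .move 715 n516 (.cons 675 n574 .nil)
noncomputable def n576 : Strat := .move 757 n68 (.cons 839 n548 .nil)
noncomputable def n577 : Strat := .move 716 n571 (.cons 839 n572 (.cons 757 n575 (.cons 675 n576 .nil)))
noncomputable def n578 : Strat := .move 756 n102 (.cons 755 n577 .nil)
noncomputable def n579 : Strat := .move 838 n91 (.cons 837 n578 .nil)
noncomputable def n580 : Strat := .move 800 n531 (.cons 838 n533 (.cons 757 n535 (.cons 801 n579 .nil)))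
noncomputable def n581 : Strat := .move 838 n386 (.cons 800 n150 .nil)
noncomputable def n582 : Strat := .move 837 n104 (.cons 836 n581 .nil)
noncomputable def n583 : Strat := .move 839 n170 (.cons 795 n582 .nil)
noncomputable def n584 : Strat := .move 755 n116 (.cons 754 n479 .nil)
noncomputable def n585 : Strat := .move 837 n104 (.cons 836 n584 .nil)
noncomputable def n586 : Strat := .move 755 n449 (.cons 714 n116 .nil)
noncomputable def n587 : Strat := .move 879 n405 (.cons 920 n586 .nil)
noncomputable def n588 : Strat := .move 757 n391 (.cons 716 n587 .nil)
noncomputable def n589 : Strat := .move 838 n150 (.cons 882 n588 .nil)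
noncomputable def n590 : Strat := .move 837 n104 (.cons 836 n589 .nil)
noncomputable def n591 : Strat := .move 839 n170 (.cons 795 n590 .nil)
noncomputable def n592 : Strat := .win 755 2 754
noncomputable def n593 : Strat := .win 753 2 753
noncomputable def n594 : Strat := .move 754 n592 (.cons 755 n593 .nil)
noncomputable def n595 : Strat := .move 795 n106 (.cons 839 n594 .nil)
noncomputable def n596 : Strat := .move 796 n583 (.cons 839 n585 (.cons 800 n591 (.cons 837 n595 .nil)))
noncomputable def n597 : Strat := .move 756 n392 (.cons 921 n126 .nil)
noncomputable def n598 : Strat := .move 837 n149 (.cons 836 n150 .nil)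
noncomputable def n599 : Strat := .move 838 n598 (.cons 882 n435 .nil)
noncomputable def n600 : Strat := .move 879 n433 (.cons 920 n599 .nil)
noncomputable def n601 : Strat := .move 756 n126 (.cons 715 n600 .nil)
noncomputable def n602 : Strat := .move 920 n438 (.cons 879 n274 .nil)
noncomputable def n603 : Strat := .move 921 n430 (.cons 962 n602 .nil)
noncomputable def n604 : Strat := .move 880 n432 (.cons 962 n597 (.cons 921 n601 (.cons 756 n603 .nil)))
noncomputable def n605 : Strat := .move 757 n391 (.cons 716 n604 .nil)
noncomputable def n606 : Strat := .win 838 1 755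
noncomputable def n607 : Strat := .move 919 n158 (.cons 918 n606 .nil)
noncomputable def n608 : Strat := .move 878 n155 (.cons 877 n607 .nil)
noncomputable def n609 : Strat := .move 879 n433 (.cons 920 n608 .nil)
noncomputable def n610 : Strat := .move 756 n126 (.cons 715 n609 .nil)
noncomputable def n611 : Strat := .move 880 n597 (.cons 756 n603 (.cons 921 n610 .nil))
noncomputable def n612 : Strat := .move 757 n391 (.cons 716 n611 .nil)
noncomputable def n613 : Strat := .win 877 4 836
noncomputable def n614 : Strat := .move 756 n453 (.cons 715 n452 .nil)
noncomputable def n615 : Strat := .move 878 n613 (.cons 877 n614 .nil)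
noncomputable def n616 : Strat := .move 838 n150 (.cons 882 n615 .nil)
noncomputable def n617 : Strat := .move 837 n104 (.cons 836 n616 .nil)
noncomputable def n618 : Strat := .move 796 n170 (.cons 795 n617 .nil)
noncomputable def n619 : Strat := .move 879 n155 (.cons 877 n433 .nil)
noncomputable def n620 : Strat := .move 837 n452 (.cons 919 n104 .nil)
noncomputable def n621 : Strat := .move 878 n619 (.cons 920 n620 .nil)
noncomputable def n622 : Strat := .move 796 n170 (.cons 795 n621 .nil)
noncomputable def n623 : Strat := .move 756 n126 (.cons 715 n622 .nil)
noncomputable def n624 : Strat := .move 880 n597 (.cons 715 n432 (.cons 921 n623 (.cons 756 n603 .nil)))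
noncomputable def n625 : Strat := .move 757 n391 (.cons 716 n624 .nil)
noncomputable def n626 : Strat := .move 839 n418 (.cons 796 n605 (.cons 837 n612 (.cons 879 n618 (.cons 838 n625 .nil))))
noncomputable def n627 : Strat := .move 839 n150 (.cons 882 n388 .nil)
noncomputable def n628 : Strat := .move 838 n386 (.cons 800 n627 .nil)
noncomputable def n629 : Strat := .move 921 n431 (.cons 756 n430 .nil)
noncomputable def n630 : Strat := .move 756 n126 (.cons 715 n392 .nil)
noncomputable def n631 : Strat := .move 920 n274 (.cons 961 n438 .nil)
noncomputable def n632 : Strat := .move 921 n430 (.cons 962 n631 .nil)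
noncomputable def n633 : Strat := .move 756 n126 (.cons 715 n452 .nil)
noncomputable def n634 : Strat := .move 878 n633 (.cons 919 n619 .nil)
noncomputable def n635 : Strat := .move 880 n629 (.cons 962 n630 (.cons 756 n632 (.cons 921 n634 .nil)))
noncomputable def n636 : Strat := .move 757 n391 (.cons 716 n635 .nil)
noncomputable def n637 : Strat := .move 839 n170 (.cons 795 n636 .nil)
noncomputable def n638 : Strat := .move 796 n104 (.cons 836 n637 .nil)
noncomputable def n639 : Strat := .move 878 n452 (.cons 919 n453 .nil)
noncomputable def n640 : Strat := .move 715 n463 (.cons 674 n462 .nil)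
noncomputable def n641 : Strat := .win 961 7 796
noncomputable def n642 : Strat := .move 920 n641 (.cons 961 n487 .nil)
noncomputable def n643 : Strat := .move 879 n642 (.cons 757 n468 .nil)
noncomputable def n644 : Strat := .move 715 n463 (.cons 674 n643 .nil)
noncomputable def n645 : Strat := .move 878 n452 (.cons 919 n643 .nil)
noncomputable def n646 : Strat := .move 756 n639 (.cons 919 n640 (.cons 878 n644 (.cons 715 n645 .nil)))
noncomputable def n647 : Strat := .move 838 n386 (.cons 800 n646 .nil)
noncomputable def n648 : Strat := .move 796 n104 (.cons 836 n647 .nil)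
noncomputable def n649 : Strat := .move 878 n613 (.cons 877 n453 .nil)
noncomputable def n650 : Strat := .move 878 n452 (.cons 919 n613 .nil)
noncomputable def n651 : Strat := .move 715 n396 (.cons 880 n463 .nil)
noncomputable def n652 : Strat := .move 756 n649 (.cons 715 n650 (.cons 877 n640 (.cons 878 n651 .nil)))
noncomputable def n653 : Strat := .move 757 n391 (.cons 716 n652 .nil)
noncomputable def n654 : Strat := .move 796 n170 (.cons 795 n653 .nil)
noncomputable def n655 : Strat := .move 839 n150 (.cons 882 n654 .nil)
noncomputable def n656 : Strat := .move 838 n386 (.cons 800 n655 .nil)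
noncomputable def n657 : Strat := .move 837 n628 (.cons 838 n638 (.cons 839 n648 (.cons 836 n656 .nil)))
noncomputable def n658 : Strat := .move 839 n170 (.cons 795 n428 .nil)
noncomputable def n659 : Strat := .move 755 n116 (.cons 754 n477 .nil)
noncomputable def n660 : Strat := .move 837 n104 (.cons 836 n637 .nil)
noncomputable def n661 : Strat := .move 760 n93 (.cons 761 n92 .nil)
noncomputable def n662 : Strat := .move 801 n83 (.cons 802 n661 .nil)
noncomputable def n663 : Strat := .move 800 n115 (.cons 756 n662 .nil)
noncomputable def n664 : Strat := .move 755 n116 (.cons 754 n663 .nil)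
noncomputable def n665 : Strat := .move 839 n170 (.cons 795 n664 .nil)
noncomputable def n666 : Strat := .move 836 n560 (.cons 837 n559 .nil)
noncomputable def n667 : Strat := .move 795 n106 (.cons 839 n666 .nil)
noncomputable def n668 : Strat := .move 796 n658 (.cons 839 n659 (.cons 755 n660 (.cons 715 n665 (.cons 756 n667 .nil))))
noncomputable def n669 : Strat := .move 801 n528 (.cons 757 n84 .nil)
noncomputable def n670 : Strat := .move 756 n102 (.cons 755 n669 .nil)
noncomputable def n671 : Strat := .move 801 n93 (.cons 761 n84 .nil)
noncomputable def n672 : Strat := .move 760 n92 (.cons 759 n671 .nil)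
noncomputable def n673 : Strat := .move 754 n593 (.cons 753 n592 .nil)
noncomputable def n674 : Strat := .move 795 n106 (.cons 839 n673 .nil)
noncomputable def n675 : Strat := .win 752 2 752
noncomputable def n676 : Strat := .win 754 2 753
noncomputable def n677 : Strat := .move 753 n675 (.cons 752 n676 .nil)
noncomputable def n678 : Strat := .win 834 4 793
noncomputable def n679 : Strat := .win 836 4 794
noncomputable def n680 : Strat := .move 835 n678 (.cons 834 n679 .nil)
noncomputable def n681 : Strat := .move 794 n677 (.cons 754 n680 .nil)
noncomputable def n682 : Strat := .move 795 n106 (.cons 839 n681 .nil)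
noncomputable def n683 : Strat := .win 757 5 753
noncomputable def n684 : Strat := .move 756 n683 (.cons 757 n102 .nil)
noncomputable def n685 : Strat := .move 794 n680 (.cons 836 n684 .nil)
noncomputable def n686 : Strat := .move 795 n106 (.cons 839 n685 .nil)
noncomputable def n687 : Strat := .move 796 n556 (.cons 756 n674 (.cons 755 n682 (.cons 754 n686 .nil)))
noncomputable def n688 : Strat := .move 718 n112 (.cons 677 n687 .nil)
noncomputable def n689 : Strat := .move 759 n98 (.cons 760 n688 .nil)
noncomputable def n690 : Strat := .move 800 n670 (.cons 756 n672 (.cons 839 n533 (.cons 801 n689 .nil)))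
noncomputable def n691 : Strat := .move 797 n444 (.cons 839 n527 (.cons 796 n553 (.cons 757 n570 (.cons 880 n580 (.cons 756 n596 (.cons 800 n626 (.cons 755 n657 (.cons 838 n668 (.cons 837 n690 .nil)))))))))
noncomputable def n692 : Strat := .move 839 n167 (.cons 963 n269 .nil)
noncomputable def n693 : Strat := .move 922 n252 (.cons 759 n692 .nil)
noncomputable def n694 : Strat := .move 796 n170 (.cons 795 n556 .nil)
noncomputable def n695 : Strat := .move 797 n92 (.cons 759 n694 .nil)
noncomputable def n696 : Strat := .move 760 n93 (.cons 761 n695 .nil)
noncomputable def n697 : Strat := .move 839 n83 (.cons 802 n696 .nil)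
noncomputable def n698 : Strat := .win 883 7 718
noncomputable def n699 : Strat := .move 718 n112 (.cons 677 n698 .nil)
noncomputable def n700 : Strat := .move 842 n341 (.cons 843 n699 .nil)
noncomputable def n701 : Strat := .move 759 n322 (.cons 797 n700 .nil)
noncomputable def n702 : Strat := .move 760 n93 (.cons 761 n701 .nil)
noncomputable def n703 : Strat := .move 801 n84 (.cons 838 n697 (.cons 802 n96 (.cons 839 n702 .nil)))
noncomputable def n704 : Strat := .win 801 5 757
noncomputable def n705 : Strat := .move 761 n704 (.cons 801 n324 .nil)
noncomputable def n706 : Strat := .move 760 n322 (.cons 797 n705 .nil)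
noncomputable def n707 : Strat := .move 759 n50 (.cons 922 n706 .nil)
noncomputable def n708 : Strat := .move 922 n252 (.cons 759 n266 .nil)
noncomputable def n709 : Strat := .move 802 n336 (.cons 844 n88 .nil)
noncomputable def n710 : Strat := .move 843 n337 (.cons 842 n709 .nil)
noncomputable def n711 : Strat := .move 838 n91 (.cons 837 n90 .nil)
noncomputable def n712 : Strat := .move 839 n82 (.cons 838 n407 .nil)
noncomputable def n713 : Strat := .move 796 n556 (.cons 756 n674 (.cons 754 n562 .nil))
noncomputable def n714 : Strat := .move 837 n104 (.cons 836 n103 .nil)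
noncomputable def n715 : Strat := .move 796 n116 (.cons 754 n714 .nil)
noncomputable def n716 : Strat := .move 755 n115 (.cons 756 n715 .nil)
noncomputable def n717 : Strat := .move 797 n711 (.cons 837 n712 (.cons 838 n713 (.cons 839 n716 .nil)))
noncomputable def n718 : Strat := .move 842 n341 (.cons 843 n717 .nil)
noncomputable def n719 : Strat := .move 760 n93 (.cons 761 n718 .nil)
noncomputable def n720 : Strat := .move 801 n84 (.cons 839 n710 (.cons 802 n719 .nil))
noncomputable def n721 : Strat := .move 800 n693 (.cons 922 n703 (.cons 839 n707 (.cons 801 n708 (.cons 759 n720 .nil))))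
noncomputable def n722 : Strat := .move 757 n125 (.cons 922 n391 .nil)
noncomputable def n723 : Strat := .move 922 n168 (.cons 757 n167 .nil)
noncomputable def n724 : Strat := .move 837 n150 (.cons 882 n149 .nil)
noncomputable def n725 : Strat := .move 800 n253 (.cons 801 n268 .nil)
noncomputable def n726 : Strat := .move 922 n252 (.cons 759 n167 .nil)
noncomputable def n727 : Strat := .move 800 n253 (.cons 801 n726 .nil)
noncomputable def n728 : Strat := .move 838 n724 (.cons 836 n725 (.cons 837 n727 .nil))
noncomputable def n729 : Strat := .win 797 2 755
noncomputable def n730 : Strat := .move 755 n729 (.cons 797 n78 .nil)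
noncomputable def n731 : Strat := .move 800 n77 (.cons 801 n730 .nil)
noncomputable def n732 : Strat := .move 756 n126 (.cons 715 n731 .nil)
noncomputable def n733 : Strat := .move 879 n433 (.cons 920 n732 .nil)
noncomputable def n734 : Strat := .move 838 n724 (.cons 836 n725 (.cons 837 n733 .nil))
noncomputable def n735 : Strat := .move 757 n391 (.cons 716 n734 .nil)
noncomputable def n736 : Strat := .move 880 n722 (.cons 716 n723 (.cons 757 n728 (.cons 922 n735 .nil)))
noncomputable def n737 : Strat := .move 880 n724 (.cons 836 n725 (.cons 837 n727 .nil))
noncomputable def n738 : Strat := .move 837 n388 (.cons 836 n152 .nil)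
noncomputable def n739 : Strat := .move 838 n737 (.cons 800 n390 (.cons 882 n738 (.cons 836 n725 (.cons 837 n727 .nil))))
noncomputable def n740 : Strat := .move 757 n66 (.cons 922 n391 .nil)
noncomputable def n741 : Strat := .move 801 n83 (.cons 802 n72 .nil)
noncomputable def n742 : Strat := .win 838 5 796
noncomputable def n743 : Strat := .move 796 n170 (.cons 795 n104 .nil)
noncomputable def n744 : Strat := .move 756 n102 (.cons 755 n426 .nil)
noncomputable def n745 : Strat := .move 797 n743 (.cons 836 n744 .nil)
noncomputable def n746 : Strat := .move 837 n742 (.cons 838 n745 .nil)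
noncomputable def n747 : Strat := .move 800 n566 (.cons 838 n741 (.cons 802 n269 (.cons 801 n746 .nil)))
noncomputable def n748 : Strat := .move 757 n391 (.cons 716 n747 .nil)
noncomputable def n749 : Strat := .move 839 n736 (.cons 757 n739 (.cons 838 n740 (.cons 922 n748 .nil)))
noncomputable def n750 : Strat := .move 800 n252 (.cons 759 n558 .nil)
noncomputable def n751 : Strat := .move 922 n250 (.cons 757 n750 .nil)
noncomputable def n752 : Strat := .move 922 n252 (.cons 759 n558 .nil)
noncomputable def n753 : Strat := .move 759 n50 (.cons 922 n98 .nil)
noncomputable def n754 : Strat := .move 800 n752 (.cons 837 n753 (.cons 922 n558 .nil))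
noncomputable def n755 : Strat := .win 756 3 715
noncomputable def n756 : Strat := .move 879 n405 (.cons 920 n755 .nil)
noncomputable def n757 : Strat := .move 756 n102 (.cons 755 n77 .nil)
noncomputable def n758 : Strat := .move 800 n91 (.cons 837 n757 .nil)
noncomputable def n759 : Strat := .win 878 2 836
noncomputable def n760 : Strat := .move 880 n759 (.cons 878 n467 .nil)
noncomputable def n761 : Strat := .move 836 n496 (.cons 835 n760 .nil)
noncomputable def n762 : Strat := .move 879 n405 (.cons 920 n761 .nil)
noncomputable def n763 : Strat := .move 837 n386 (.cons 800 n762 .nil)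
noncomputable def n764 : Strat := .move 838 n756 (.cons 879 n758 (.cons 756 n763 .nil))
noncomputable def n765 : Strat := .move 716 n67 (.cons 675 n764 .nil)
noncomputable def n766 : Strat := .move 757 n66 (.cons 922 n765 .nil)
noncomputable def n767 : Strat := .win 882 5 878
noncomputable def n768 : Strat := .win 959 4 918
noncomputable def n769 : Strat := .win 879 1 796
noncomputable def n770 : Strat := .move 960 n768 (.cons 959 n769 .nil)
noncomputable def n771 : Strat := .move 919 n767 (.cons 882 n770 .nil)
noncomputable def n772 : Strat := .win 879 7 755
noncomputable def n773 : Strat := .move 796 n772 (.cons 879 n116 .nil)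
noncomputable def n774 : Strat := .move 755 n115 (.cons 756 n773 .nil)
noncomputable def n775 : Strat := .move 883 n242 (.cons 880 n236 .nil)
noncomputable def n776 : Strat := .move 882 n241 (.cons 919 n775 .nil)
noncomputable def n777 : Strat := .move 920 n771 (.cons 919 n774 (.cons 879 n776 .nil))
noncomputable def n778 : Strat := .move 838 n91 (.cons 837 n777 .nil)
noncomputable def n779 : Strat := .move 921 n8 (.cons 962 n778 .nil)
noncomputable def n780 : Strat := .move 800 n252 (.cons 759 n779 .nil)
noncomputable def n781 : Strat := .move 922 n250 (.cons 757 n780 .nil)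
noncomputable def n782 : Strat := .move 922 n252 (.cons 759 n250 .nil)
noncomputable def n783 : Strat := .move 757 n66 (.cons 922 n757 .nil)
noncomputable def n784 : Strat := .move 800 n782 (.cons 922 n533 (.cons 759 n783 (.cons 757 n753 .nil)))
noncomputable def n785 : Strat := .move 800 n91 (.cons 837 n77 .nil)
noncomputable def n786 : Strat := .move 756 n548 (.cons 879 n785 .nil)
noncomputable def n787 : Strat := .move 801 n72 (.cons 756 n661 .nil)
noncomputable def n788 : Strat := .move 800 n91 (.cons 837 n787 .nil)
noncomputable def n789 : Strat := .move 836 n497 (.cons 796 n496 .nil)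
noncomputable def n790 : Strat := .move 837 n386 (.cons 800 n789 .nil)
noncomputable def n791 : Strat := .move 838 n786 (.cons 837 n756 (.cons 879 n788 (.cons 756 n790 .nil)))
noncomputable def n792 : Strat := .move 716 n67 (.cons 675 n791 .nil)
noncomputable def n793 : Strat := .move 757 n66 (.cons 922 n792 .nil)
noncomputable def n794 : Strat := .move 838 n412 (.cons 879 n413 .nil)
noncomputable def n795 : Strat := .move 715 n199 (.cons 756 n198 .nil)
noncomputable def n796 : Strat := .move 756 n452 (.cons 919 n182 .nil)
noncomputable def n797 : Strat := .win 920 6 755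
noncomputable def n798 : Strat := .win 838 6 714
noncomputable def n799 : Strat := .move 879 n797 (.cons 920 n798 .nil)
noncomputable def n800 : Strat := .move 878 n795 (.cons 674 n796 (.cons 756 n799 .nil))
noncomputable def n801 : Strat := .win 838 6 673
noncomputable def n802 : Strat := .win 633 3 632
noncomputable def n803 : Strat := .win 715 3 673
noncomputable def n804 : Strat := .move 674 n802 (.cons 633 n803 .nil)
noncomputable def n805 : Strat := .move 673 n801 (.cons 838 n804 .nil)
noncomputable def n806 : Strat := .win 631 7 631
noncomputable def n807 : Strat := .win 713 7 672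
noncomputable def n808 : Strat := .move 672 n806 (.cons 631 n807 .nil)
noncomputable def n809 : Strat := .move 673 n804 (.cons 715 n808 .nil)
noncomputable def n810 : Strat := .move 714 n794 (.cons 673 n800 (.cons 879 n805 (.cons 838 n809 .nil)))
noncomputable def n811 : Strat := .move 922 n250 (.cons 757 n810 .nil)
noncomputable def n812 : Strat := .move 837 n104 (.cons 836 n811 .nil)
noncomputable def n813 : Strat := .move 755 n116 (.cons 754 n812 .nil)
noncomputable def n814 : Strat := .win 756 5 753
noncomputable def n815 : Strat := .move 794 n675 (.cons 752 n814 .nil)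
noncomputable def n816 : Strat := .move 753 n676 (.cons 754 n815 .nil)
noncomputable def n817 : Strat := .move 795 n559 (.cons 835 n816 .nil)
noncomputable def n818 : Strat := .move 836 n560 (.cons 837 n817 .nil)
noncomputable def n819 : Strat := .move 716 n67 (.cons 675 n818 .nil)
noncomputable def n820 : Strat := .move 757 n66 (.cons 922 n819 .nil)
noncomputable def n821 : Strat := .move 794 n814 (.cons 756 n680 .nil)
noncomputable def n822 : Strat := .move 716 n67 (.cons 675 n821 .nil)
noncomputable def n823 : Strat := .move 795 n593 (.cons 753 n822 .nil)
noncomputable def n824 : Strat := .move 754 n592 (.cons 755 n823 .nil)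
noncomputable def n825 : Strat := .move 757 n66 (.cons 922 n824 .nil)
noncomputable def n826 : Strat := .win 716 6 675
noncomputable def n827 : Strat := .win 751 2 751
noncomputable def n828 : Strat := .win 753 2 752
noncomputable def n829 : Strat := .move 752 n827 (.cons 751 n828 .nil)
noncomputable def n830 : Strat := .win 833 4 792
noncomputable def n831 : Strat := .win 835 4 793
noncomputable def n832 : Strat := .move 834 n830 (.cons 833 n831 .nil)
noncomputable def n833 : Strat := .move 793 n829 (.cons 753 n832 .nil)
noncomputable def n834 : Strat := .move 794 n814 (.cons 756 n833 .nil)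
noncomputable def n835 : Strat := .win 838 0 793
noncomputable def n836 : Strat := .move 837 n835 (.cons 838 n104 .nil)
noncomputable def n837 : Strat := .move 793 n836 (.cons 836 n829 .nil)
noncomputable def n838 : Strat := .move 794 n814 (.cons 756 n837 .nil)
noncomputable def n839 : Strat := .move 795 n666 (.cons 837 n821 (.cons 836 n834 (.cons 835 n838 .nil)))
noncomputable def n840 : Strat := .move 675 n826 (.cons 716 n839 .nil)
noncomputable def n841 : Strat := .move 757 n66 (.cons 922 n840 .nil)
noncomputable def n842 : Strat := .move 755 n116 (.cons 754 n472 .nil)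
noncomputable def n843 : Strat := .move 795 n559 (.cons 835 n594 .nil)
noncomputable def n844 : Strat := .move 836 n560 (.cons 837 n843 .nil)
noncomputable def n845 : Strat := .move 716 n536 (.cons 675 n756 .nil)
noncomputable def n846 : Strat := .win 755 0 754
noncomputable def n847 : Strat := .win 794 5 753
noncomputable def n848 : Strat := .move 795 n847 (.cons 794 n593 .nil)
noncomputable def n849 : Strat := .move 754 n846 (.cons 755 n848 .nil)
noncomputable def n850 : Strat := .move 756 n548 (.cons 879 n849 .nil)
noncomputable def n851 : Strat := .move 716 n536 (.cons 675 n850 .nil)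
noncomputable def n852 : Strat := .win 837 6 714
noncomputable def n853 : Strat := .move 714 n852 (.cons 837 n413 .nil)
noncomputable def n854 : Strat := .move 755 n116 (.cons 754 n853 .nil)
noncomputable def n855 : Strat := .move 879 n405 (.cons 920 n854 .nil)
noncomputable def n856 : Strat := .move 716 n536 (.cons 675 n855 .nil)
noncomputable def n857 : Strat := .move 879 n405 (.cons 920 n853 .nil)
noncomputable def n858 : Strat := .move 755 n116 (.cons 754 n857 .nil)
noncomputable def n859 : Strat := .win 837 0 793
noncomputable def n860 : Strat := .move 793 n859 (.cons 837 n832 .nil)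
noncomputable def n861 : Strat := .move 794 n814 (.cons 756 n860 .nil)
noncomputable def n862 : Strat := .move 795 n594 (.cons 753 n861 .nil)
noncomputable def n863 : Strat := .move 838 n845 (.cons 920 n851 (.cons 756 n856 (.cons 716 n858 (.cons 879 n862 .nil))))
noncomputable def n864 : Strat := .move 757 n66 (.cons 922 n863 .nil)
noncomputable def n865 : Strat := .move 796 n813 (.cons 755 n820 (.cons 837 n825 (.cons 754 n841 (.cons 922 n842 (.cons 756 n844 (.cons 836 n864 .nil))))))
noncomputable def n866 : Strat := .move 800 n252 (.cons 759 n103 .nil)
noncomputable def n867 : Strat := .win 877 2 877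
noncomputable def n868 : Strat := .move 878 n160 (.cons 961 n867 .nil)
noncomputable def n869 : Strat := .move 919 n767 (.cons 882 n868 .nil)
noncomputable def n870 : Strat := .win 838 7 755
noncomputable def n871 : Strat := .win 878 6 755
noncomputable def n872 : Strat := .move 879 n870 (.cons 838 n871 .nil)
noncomputable def n873 : Strat := .move 755 n116 (.cons 754 n872 .nil)
noncomputable def n874 : Strat := .move 920 n869 (.cons 919 n873 (.cons 878 n776 .nil))
noncomputable def n875 : Strat := .move 796 n104 (.cons 836 n874 .nil)
noncomputable def n876 : Strat := .move 796 n104 (.cons 836 n868 .nil)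
noncomputable def n877 : Strat := .move 920 n767 (.cons 882 n876 .nil)
noncomputable def n878 : Strat := .win 878 7 754
noncomputable def n879 : Strat := .move 795 n878 (.cons 878 n593 .nil)
noncomputable def n880 : Strat := .move 754 n592 (.cons 755 n879 .nil)
noncomputable def n881 : Strat := .move 796 n104 (.cons 836 n880 .nil)
noncomputable def n882 : Strat := .win 880 5 877
noncomputable def n883 : Strat := .win 958 4 917
noncomputable def n884 : Strat := .win 960 4 918
noncomputable def n885 : Strat := .move 959 n883 (.cons 958 n884 .nil)
noncomputable def n886 : Strat := .move 918 n882 (.cons 880 n885 .nil)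
noncomputable def n887 : Strat := .move 920 n767 (.cons 882 n886 .nil)
noncomputable def n888 : Strat := .move 919 n877 (.cons 920 n881 (.cons 878 n887 .nil))
noncomputable def n889 : Strat := .move 837 n866 (.cons 800 n875 (.cons 838 n888 .nil))
noncomputable def n890 : Strat := .move 921 n8 (.cons 962 n889 .nil)
noncomputable def n891 : Strat := .move 922 n250 (.cons 757 n890 .nil)
noncomputable def n892 : Strat := .move 797 n751 (.cons 922 n527 (.cons 757 n754 (.cons 796 n766 (.cons 836 n781 (.cons 837 n784 (.cons 755 n793 (.cons 800 n865 (.cons 756 n891 .nil))))))))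
noncomputable def n893 : Strat := .move 798 n385 (.cons 922 n691 (.cons 757 n721 (.cons 921 n749 (.cons 839 n892 .nil))))
noncomputable def n894 : Strat := .move 799 n19 (.cons 922 n49 (.cons 798 n57 (.cons 839 n60 (.cons 880 n123 (.cons 759 n223 (.cons 800 n234 (.cons 716 n273 (.cons 718 n313 (.cons 757 n384 (.cons 758 n893 .nil))))))))))

theorem ok : checkS n894 (pairBits 840 881) (pairBits 841 923) ≠ 0 := by decide +kernel

theorem reply : MakerWins {cellOf 881, cellOf 840} {cellOf 841, cellOf 923} :=
  reply2 n894 840 881 841 923 ok

end Vale.Agent.Snaky.Cert2.R923
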