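import Vale.Agent.Snaky.Cert2.Lem

namespace Vale.Agent.Snaky.Cert2.R926

open Vale.Agent.Snaky

noncomputable def n0 : Strat := .win 716 7 716
noncomputable def n1 : Strat := .win 798 7 757
noncomputable def n2 : Strat := .win 718 3 717
noncomputable def n3 : Strat := .win 800 3 758
noncomputable def n4 : Strat := .move 759 n2 (.cons 718 n3 .nil)
noncomputable def n5 : Strat := .move 922 n1 (.cons 798 n4 .nil)
noncomputable def n6 : Strat := .move 757 n0 (.cons 716 n5 .nil)
noncomputable def n7 : Strat := .win 921 1 757
noncomputable def n8 : Strat := .win 839 1 716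
noncomputable def n9 : Strat := .win 759 3 717
noncomputable def n10 : Strat := .win 677 3 676
noncomputable def n11 : Strat := .move 718 n9 (.cons 759 n10 .nil)
noncomputable def n12 : Strat := .move 717 n8 (.cons 839 n11 .nil)
noncomputable def n13 : Strat := .move 880 n7 (.cons 921 n12 .nil)
noncomputable def n14 : Strat := .win 880 1 757
noncomputable def n15 : Strat := .win 962 1 798
noncomputable def n16 : Strat := .move 921 n14 (.cons 880 n15 .nil)
noncomputable def n17 : Strat := .move 922 n1 (.cons 798 n16 .nil)
noncomputable def n18 : Strat := .move 757 n0 (.cons 716 n17 .nil)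
noncomputable def n19 : Strat := .move 758 n6 (.cons 757 n13 (.cons 718 n18 .nil))
noncomputable def n20 : Strat := .win 882 6 758
noncomputable def n21 : Strat := .win 964 6 799
noncomputable def n22 : Strat := .move 923 n20 (.cons 882 n21 .nil)
noncomputable def n23 : Strat := .move 922 n3 (.cons 800 n22 .nil)
noncomputable def n24 : Strat := .move 759 n2 (.cons 718 n23 .nil)
noncomputable def n25 : Strat := .win 717 1 716
noncomputable def n26 : Strat := .win 923 6 758
noncomputable def n27 : Strat := .win 837 0 837
noncomputable def n28 : Strat := .win 883 2 838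
noncomputable def n29 : Strat := .move 838 n27 (.cons 837 n28 .nil)
noncomputable def n30 : Strat := .move 882 n26 (.cons 923 n29 .nil)
noncomputable def n31 : Strat := .move 839 n25 (.cons 717 n30 .nil)
noncomputable def n32 : Strat := .move 880 n7 (.cons 921 n31 .nil)
noncomputable def n33 : Strat := .move 758 n13 (.cons 880 n24 (.cons 718 n32 .nil))
noncomputable def n34 : Strat := .move 922 n1 (.cons 798 n22 .nil)
noncomputable def n35 : Strat := .move 757 n0 (.cons 716 n34 .nil)
noncomputable def n36 : Strat := .move 758 n18 (.cons 757 n13 (.cons 880 n35 .nil))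
noncomputable def n37 : Strat := .move 758 n18 (.cons 757 n32 (.cons 880 n35 .nil))
noncomputable def n38 : Strat := .win 757 7 757
noncomputable def n39 : Strat := .win 839 7 798
noncomputable def n40 : Strat := .win 923 6 799
noncomputable def n41 : Strat := .win 1005 6 840
noncomputable def n42 : Strat := .move 964 n40 (.cons 923 n41 .nil)
noncomputable def n43 : Strat := .move 963 n39 (.cons 839 n42 .nil)
noncomputable def n44 : Strat := .move 798 n38 (.cons 757 n43 .nil)
noncomputable def n45 : Strat := .move 758 n20 (.cons 882 n4 .nil)
noncomputable def n46 : Strat := .move 923 n21 (.cons 964 n45 .nil)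
noncomputable def n47 : Strat := .win 963 7 798
noncomputable def n48 : Strat := .win 759 3 758
noncomputable def n49 : Strat := .win 801 4 797
noncomputable def n50 : Strat := .win 837 5 796
noncomputable def n51 : Strat := .move 838 n49 (.cons 801 n50 .nil)
noncomputable def n52 : Strat := .move 800 n48 (.cons 759 n51 .nil)
noncomputable def n53 : Strat := .move 839 n47 (.cons 963 n52 .nil)
noncomputable def n54 : Strat := .move 798 n38 (.cons 757 n53 .nil)
noncomputable def n55 : Strat := .move 922 n44 (.cons 798 n46 (.cons 964 n54 .nil))
noncomputable def n56 : Strat := .move 922 n3 (.cons 800 n1 .nil)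
noncomputable def n57 : Strat := .move 759 n2 (.cons 718 n56 .nil)
noncomputable def n58 : Strat := .move 757 n0 (.cons 716 n57 .nil)
noncomputable def n59 : Strat := .win 757 7 716
noncomputable def n60 : Strat := .win 675 7 675
noncomputable def n61 : Strat := .move 716 n59 (.cons 757 n60 .nil)
noncomputable def n62 : Strat := .move 717 n61 (.cons 757 n11 .nil)
noncomputable def n63 : Strat := .move 880 n7 (.cons 921 n62 .nil)
noncomputable def n64 : Strat := .move 922 n3 (.cons 800 n16 .nil)
noncomputable def n65 : Strat := .move 759 n2 (.cons 718 n64 .nil)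
noncomputable def n66 : Strat := .move 758 n58 (.cons 759 n18 (.cons 922 n63 (.cons 757 n65 .nil)))
noncomputable def n67 : Strat := .win 921 1 798
noncomputable def n68 : Strat := .win 1003 1 839
noncomputable def n69 : Strat := .move 962 n67 (.cons 921 n68 .nil)
noncomputable def n70 : Strat := .move 963 n39 (.cons 839 n69 .nil)
noncomputable def n71 : Strat := .move 798 n38 (.cons 757 n70 .nil)
noncomputable def n72 : Strat := .move 963 n69 (.cons 921 n42 .nil)
noncomputable def n73 : Strat := .move 798 n38 (.cons 757 n72 .nil)
noncomputable def n74 : Strat := .win 919 5 878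
noncomputable def n75 : Strat := .win 883 5 879
noncomputable def n76 : Strat := .move 882 n74 (.cons 919 n75 .nil)
noncomputable def n77 : Strat := .win 878 2 878
noncomputable def n78 : Strat := .win 924 2 879
noncomputable def n79 : Strat := .win 960 4 919
noncomputable def n80 : Strat := .win 839 3 838
noncomputable def n81 : Strat := .win 1043 3 879
noncomputable def n82 : Strat := .move 1002 n80 (.cons 839 n81 .nil)
noncomputable def n83 : Strat := .move 961 n79 (.cons 960 n82 .nil)
noncomputable def n84 : Strat := .move 880 n78 (.cons 924 n83 .nil)
noncomputable def n85 : Strat := .move 879 n77 (.cons 878 n84 .nil)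
noncomputable def n86 : Strat := .move 920 n76 (.cons 882 n85 .nil)
noncomputable def n87 : Strat := .move 923 n21 (.cons 964 n86 .nil)
noncomputable def n88 : Strat := .move 921 n15 (.cons 962 n87 .nil)
noncomputable def n89 : Strat := .move 922 n71 (.cons 921 n44 (.cons 839 n73 (.cons 798 n88 .nil)))
noncomputable def n90 : Strat := .move 717 n8 (.cons 839 n61 .nil)
noncomputable def n91 : Strat := .move 880 n7 (.cons 921 n90 .nil)
noncomputable def n92 : Strat := .win 755 0 755
noncomputable def n93 : Strat := .win 801 0 756
noncomputable def n94 : Strat := .move 800 n92 (.cons 755 n93 .nil)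
noncomputable def n95 : Strat := .win 796 4 755
noncomputable def n96 : Strat := .win 760 4 756
noncomputable def n97 : Strat := .win 839 7 715
noncomputable def n98 : Strat := .win 714 2 714
noncomputable def n99 : Strat := .move 715 n97 (.cons 839 n98 .nil)
noncomputable def n100 : Strat := .move 798 n96 (.cons 760 n99 .nil)
noncomputable def n101 : Strat := .move 797 n95 (.cons 796 n100 .nil)
noncomputable def n102 : Strat := .move 756 n94 (.cons 800 n101 .nil)
noncomputable def n103 : Strat := .move 759 n2 (.cons 718 n102 .nil)
noncomputable def n104 : Strat := .move 757 n0 (.cons 716 n103 .nil)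
noncomputable def n105 : Strat := .move 882 n26 (.cons 923 n104 .nil)
noncomputable def n106 : Strat := .move 880 n90 (.cons 839 n62 (.cons 757 n12 (.cons 717 n105 .nil)))
noncomputable def n107 : Strat := .move 880 n7 (.cons 921 n105 .nil)
noncomputable def n108 : Strat := .win 798 4 756
noncomputable def n109 : Strat := .win 715 2 714
noncomputable def n110 : Strat := .win 713 2 713
noncomputable def n111 : Strat := .win 803 0 758
noncomputable def n112 : Strat := .win 801 0 757
noncomputable def n113 : Strat := .move 802 n111 (.cons 803 n112 .nil)
noncomputable def n114 : Strat := .win 721 5 717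
noncomputable def n115 : Strat := .win 719 5 716
noncomputable def n116 : Strat := .move 720 n114 (.cons 721 n115 .nil)
noncomputable def n117 : Strat := .move 761 n113 (.cons 801 n116 .nil)
noncomputable def n118 : Strat := .move 755 n110 (.cons 713 n117 .nil)
noncomputable def n119 : Strat := .move 714 n109 (.cons 715 n118 .nil)
noncomputable def n120 : Strat := .move 760 n108 (.cons 798 n119 .nil)
noncomputable def n121 : Strat := .move 797 n95 (.cons 796 n120 .nil)
noncomputable def n122 : Strat := .win 800 0 755
noncomputable def n123 : Strat := .win 754 0 754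
noncomputable def n124 : Strat := .move 755 n122 (.cons 800 n123 .nil)
noncomputable def n125 : Strat := .move 798 n96 (.cons 760 n124 .nil)
noncomputable def n126 : Strat := .move 797 n95 (.cons 796 n125 .nil)
noncomputable def n127 : Strat := .win 800 0 756
noncomputable def n128 : Strat := .win 802 0 757
noncomputable def n129 : Strat := .move 801 n127 (.cons 800 n128 .nil)
noncomputable def n130 : Strat := .move 760 n108 (.cons 798 n129 .nil)
noncomputable def n131 : Strat := .move 797 n95 (.cons 796 n130 .nil)
noncomputable def n132 : Strat := .move 756 n94 (.cons 800 n121 (.cons 801 n126 (.cons 755 n131 .nil)))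
noncomputable def n133 : Strat := .move 759 n2 (.cons 718 n132 .nil)
noncomputable def n134 : Strat := .move 757 n0 (.cons 716 n133 .nil)
noncomputable def n135 : Strat := .move 758 n91 (.cons 757 n13 (.cons 839 n63 (.cons 921 n106 (.cons 717 n107 (.cons 880 n134 .nil)))))
noncomputable def n136 : Strat := .move 799 n19 (.cons 757 n33 (.cons 800 n36 (.cons 718 n37 (.cons 921 n55 (.cons 839 n66 (.cons 758 n89 (.cons 922 n135 .nil)))))))

theorem ok : checkS n136 (pairBits 840 881) (pairBits 841 926) ≠ 0 := by decide +kernel

theorem reply : MakerWins {cellOf 881, cellOf 840} {cellOf 841, cellOf 926} :=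
  reply2 n136 840 881 841 926 ok

end Vale.Agent.Snaky.Cert2.R926
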