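import Vale.Agent.Snaky.Cert2.Lem

namespace Vale.Agent.Snaky.Cert2.R960

open Vale.Agent.Snaky

noncomputable def n0 : Strat := .win 962 1 798
noncomputable def n1 : Strat := .win 880 1 757
noncomputable def n2 : Strat := .win 798 7 757
noncomputable def n3 : Strat := .win 716 7 716
noncomputable def n4 : Strat := .move 757 n2 (.cons 798 n3 .nil)
noncomputable def n5 : Strat := .move 758 n1 (.cons 880 n4 .nil)
noncomputable def n6 : Strat := .move 921 n0 (.cons 962 n5 .nil)
noncomputable def n7 : Strat := .win 757 7 757
noncomputable def n8 : Strat := .win 839 7 798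
noncomputable def n9 : Strat := .win 923 6 799
noncomputable def n10 : Strat := .win 1005 6 840
noncomputable def n11 : Strat := .move 964 n9 (.cons 923 n10 .nil)
noncomputable def n12 : Strat := .move 963 n8 (.cons 839 n11 .nil)
noncomputable def n13 : Strat := .move 798 n7 (.cons 757 n12 .nil)
noncomputable def n14 : Strat := .win 964 6 799
noncomputable def n15 : Strat := .win 882 6 758
noncomputable def n16 : Strat := .move 923 n14 (.cons 964 n15 .nil)
noncomputable def n17 : Strat := .move 758 n1 (.cons 880 n16 .nil)
noncomputable def n18 : Strat := .move 921 n0 (.cons 962 n17 .nil)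
noncomputable def n19 : Strat := .move 799 n6 (.cons 758 n13 (.cons 798 n18 .nil))
noncomputable def n20 : Strat := .win 1003 1 839
noncomputable def n21 : Strat := .win 921 1 798
noncomputable def n22 : Strat := .move 799 n21 (.cons 921 n9 .nil)
noncomputable def n23 : Strat := .move 962 n20 (.cons 1003 n22 .nil)
noncomputable def n24 : Strat := .move 964 n10 (.cons 1005 n23 .nil)
noncomputable def n25 : Strat := .win 798 7 798
noncomputable def n26 : Strat := .win 880 7 839
noncomputable def n27 : Strat := .win 962 1 839
noncomputable def n28 : Strat := .win 1044 1 880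
noncomputable def n29 : Strat := .move 1003 n27 (.cons 962 n28 .nil)
noncomputable def n30 : Strat := .move 1004 n26 (.cons 880 n29 .nil)
noncomputable def n31 : Strat := .move 839 n25 (.cons 798 n30 .nil)
noncomputable def n32 : Strat := .move 798 n7 (.cons 757 n8 .nil)
noncomputable def n33 : Strat := .move 799 n9 (.cons 923 n32 .nil)
noncomputable def n34 : Strat := .move 964 n10 (.cons 1005 n33 .nil)
noncomputable def n35 : Strat := .move 963 n24 (.cons 923 n31 (.cons 1003 n34 .nil))
noncomputable def n36 : Strat := .move 758 n15 (.cons 882 n4 .nil)
noncomputable def n37 : Strat := .move 923 n14 (.cons 964 n36 .nil)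
noncomputable def n38 : Strat := .win 800 3 758
noncomputable def n39 : Strat := .win 718 3 717
noncomputable def n40 : Strat := .move 759 n38 (.cons 800 n39 .nil)
noncomputable def n41 : Strat := .move 758 n15 (.cons 882 n40 .nil)
noncomputable def n42 : Strat := .move 923 n14 (.cons 964 n41 .nil)
noncomputable def n43 : Strat := .win 963 7 798
noncomputable def n44 : Strat := .win 759 3 758
noncomputable def n45 : Strat := .win 801 4 797
noncomputable def n46 : Strat := .win 837 5 796
noncomputable def n47 : Strat := .move 838 n45 (.cons 801 n46 .nil)
noncomputable def n48 : Strat := .move 800 n44 (.cons 759 n47 .nil)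
noncomputable def n49 : Strat := .move 839 n43 (.cons 963 n48 .nil)
noncomputable def n50 : Strat := .move 798 n7 (.cons 757 n49 .nil)
noncomputable def n51 : Strat := .move 799 n13 (.cons 963 n37 (.cons 798 n42 (.cons 964 n50 .nil)))
noncomputable def n52 : Strat := .move 758 n1 (.cons 880 n40 .nil)
noncomputable def n53 : Strat := .move 921 n0 (.cons 962 n52 .nil)
noncomputable def n54 : Strat := .move 839 n43 (.cons 963 n47 .nil)
noncomputable def n55 : Strat := .move 800 n44 (.cons 759 n54 .nil)
noncomputable def n56 : Strat := .move 798 n7 (.cons 757 n55 .nil)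
noncomputable def n57 : Strat := .move 799 n6 (.cons 798 n53 (.cons 880 n56 .nil))
noncomputable def n58 : Strat := .move 758 n1 (.cons 880 n15 .nil)
noncomputable def n59 : Strat := .move 923 n14 (.cons 964 n58 .nil)
noncomputable def n60 : Strat := .move 921 n0 (.cons 962 n59 .nil)
noncomputable def n61 : Strat := .win 879 2 879
noncomputable def n62 : Strat := .win 925 2 880
noncomputable def n63 : Strat := .move 880 n61 (.cons 879 n62 .nil)
noncomputable def n64 : Strat := .win 880 2 880
noncomputable def n65 : Strat := .win 967 0 922
noncomputable def n66 : Strat := .win 965 0 921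
noncomputable def n67 : Strat := .move 966 n65 (.cons 967 n66 .nil)
noncomputable def n68 : Strat := .move 925 n64 (.cons 880 n67 .nil)
noncomputable def n69 : Strat := .win 884 5 880
noncomputable def n70 : Strat := .win 926 2 881
noncomputable def n71 : Strat := .win 920 5 879
noncomputable def n72 : Strat := .move 882 n70 (.cons 926 n71 .nil)
noncomputable def n73 : Strat := .move 925 n67 (.cons 965 n72 .nil)
noncomputable def n74 : Strat := .move 883 n69 (.cons 884 n73 .nil)
noncomputable def n75 : Strat := .win 880 2 879
noncomputable def n76 : Strat := .win 882 5 879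
noncomputable def n77 : Strat := .win 878 2 878
noncomputable def n78 : Strat := .move 920 n76 (.cons 882 n77 .nil)
noncomputable def n79 : Strat := .move 883 n69 (.cons 884 n78 .nil)
noncomputable def n80 : Strat := .move 879 n75 (.cons 880 n79 .nil)
noncomputable def n81 : Strat := .move 924 n63 (.cons 879 n68 (.cons 880 n74 (.cons 925 n80 .nil)))
noncomputable def n82 : Strat := .move 800 n44 (.cons 759 n81 .nil)
noncomputable def n83 : Strat := .move 798 n7 (.cons 757 n82 .nil)
noncomputable def n84 : Strat := .move 923 n14 (.cons 964 n83 .nil)
noncomputable def n85 : Strat := .move 921 n0 (.cons 962 n84 .nil)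
noncomputable def n86 : Strat := .move 799 n6 (.cons 921 n37 (.cons 716 n60 (.cons 758 n85 .nil)))
noncomputable def n87 : Strat := .win 964 6 840
noncomputable def n88 : Strat := .win 1046 6 881
noncomputable def n89 : Strat := .move 1005 n87 (.cons 964 n88 .nil)
noncomputable def n90 : Strat := .move 1004 n26 (.cons 880 n89 .nil)
noncomputable def n91 : Strat := .move 839 n25 (.cons 798 n90 .nil)
noncomputable def n92 : Strat := .win 966 2 921
noncomputable def n93 : Strat := .win 920 2 920
noncomputable def n94 : Strat := .move 921 n92 (.cons 966 n93 .nil)
noncomputable def n95 : Strat := .win 921 2 921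
noncomputable def n96 : Strat := .win 924 5 921
noncomputable def n97 : Strat := .win 926 5 922
noncomputable def n98 : Strat := .move 925 n96 (.cons 924 n97 .nil)
noncomputable def n99 : Strat := .move 966 n95 (.cons 921 n98 .nil)
noncomputable def n100 : Strat := .win 925 5 921
noncomputable def n101 : Strat := .win 961 5 920
noncomputable def n102 : Strat := .win 1007 0 962
noncomputable def n103 : Strat := .win 1088 7 923
noncomputable def n104 : Strat := .win 882 7 882
noncomputable def n105 : Strat := .move 1047 n103 (.cons 1088 n104 .nil)
noncomputable def n106 : Strat := .move 1006 n102 (.cons 1007 n105 .nil)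
noncomputable def n107 : Strat := .move 923 n101 (.cons 961 n106 .nil)
noncomputable def n108 : Strat := .move 924 n100 (.cons 925 n107 .nil)
noncomputable def n109 : Strat := .move 965 n94 (.cons 920 n99 (.cons 921 n108 .nil))
noncomputable def n110 : Strat := .move 962 n20 (.cons 1003 n109 .nil)
noncomputable def n111 : Strat := .move 964 n10 (.cons 1005 n110 .nil)
noncomputable def n112 : Strat := .move 963 n91 (.cons 964 n31 (.cons 880 n111 .nil))
noncomputable def n113 : Strat := .win 884 4 880
noncomputable def n114 : Strat := .move 883 n113 (.cons 884 n71 .nil)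
noncomputable def n115 : Strat := .win 919 5 878
noncomputable def n116 : Strat := .win 883 5 879
noncomputable def n117 : Strat := .move 920 n115 (.cons 919 n116 .nil)
noncomputable def n118 : Strat := .win 880 0 879
noncomputable def n119 : Strat := .move 925 n70 (.cons 926 n67 .nil)
noncomputable def n120 : Strat := .move 924 n118 (.cons 880 n119 .nil)
noncomputable def n121 : Strat := .move 879 n77 (.cons 878 n120 .nil)
noncomputable def n122 : Strat := .move 920 n115 (.cons 919 n121 .nil)
noncomputable def n123 : Strat := .win 879 0 879
noncomputable def n124 : Strat := .win 925 0 880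
noncomputable def n125 : Strat := .move 924 n123 (.cons 879 n124 .nil)
noncomputable def n126 : Strat := .win 878 0 878
noncomputable def n127 : Strat := .win 924 0 879
noncomputable def n128 : Strat := .move 879 n126 (.cons 878 n127 .nil)
noncomputable def n129 : Strat := .win 838 2 838
noncomputable def n130 : Strat := .win 843 5 839
noncomputable def n131 : Strat := .win 760 1 759
noncomputable def n132 : Strat := .move 842 n130 (.cons 843 n131 .nil)
noncomputable def n133 : Strat := .win 802 4 798
noncomputable def n134 : Strat := .move 800 n133 (.cons 802 n44 .nil)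
noncomputable def n135 : Strat := .move 801 n132 (.cons 760 n134 .nil)
noncomputable def n136 : Strat := .move 839 n129 (.cons 838 n135 .nil)
noncomputable def n137 : Strat := .move 880 n125 (.cons 925 n128 (.cons 924 n136 .nil))
noncomputable def n138 : Strat := .move 883 n113 (.cons 884 n137 .nil)
noncomputable def n139 : Strat := .move 882 n114 (.cons 884 n117 (.cons 883 n122 (.cons 920 n138 .nil)))
noncomputable def n140 : Strat := .move 923 n14 (.cons 964 n139 .nil)
noncomputable def n141 : Strat := .move 921 n0 (.cons 962 n140 .nil)
noncomputable def n142 : Strat := .move 799 n18 (.cons 921 n42 (.cons 964 n53 (.cons 758 n141 .nil)))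
noncomputable def n143 : Strat := .move 922 n19 (.cons 758 n35 (.cons 921 n51 (.cons 964 n57 (.cons 963 n86 (.cons 799 n112 (.cons 798 n142 .nil))))))

theorem ok : checkS n143 (pairBits 840 881) (pairBits 841 960) ≠ 0 := by decide +kernel

theorem reply : MakerWins {cellOf 881, cellOf 840} {cellOf 841, cellOf 960} :=
  reply2 n143 840 881 841 960 ok

end Vale.Agent.Snaky.Cert2.R960
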