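import Vale.Agent.Snaky.Cert2.Lem

namespace Vale.Agent.Snaky.Cert2.R961

open Vale.Agent.Snaky

noncomputable def n0 : Strat := .win 716 7 716
noncomputable def n1 : Strat := .win 798 7 757
noncomputable def n2 : Strat := .win 718 3 717
noncomputable def n3 : Strat := .win 800 3 758
noncomputable def n4 : Strat := .move 759 n2 (.cons 718 n3 .nil)
noncomputable def n5 : Strat := .move 922 n1 (.cons 798 n4 .nil)
noncomputable def n6 : Strat := .move 757 n0 (.cons 716 n5 .nil)
noncomputable def n7 : Strat := .win 921 1 757
noncomputable def n8 : Strat := .win 839 1 716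
noncomputable def n9 : Strat := .win 759 3 717
noncomputable def n10 : Strat := .win 677 3 676
noncomputable def n11 : Strat := .move 718 n9 (.cons 759 n10 .nil)
noncomputable def n12 : Strat := .move 717 n8 (.cons 839 n11 .nil)
noncomputable def n13 : Strat := .move 880 n7 (.cons 921 n12 .nil)
noncomputable def n14 : Strat := .win 880 1 757
noncomputable def n15 : Strat := .win 962 1 798
noncomputable def n16 : Strat := .move 921 n14 (.cons 880 n15 .nil)
noncomputable def n17 : Strat := .move 922 n1 (.cons 798 n16 .nil)
noncomputable def n18 : Strat := .move 757 n0 (.cons 716 n17 .nil)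
noncomputable def n19 : Strat := .move 758 n6 (.cons 757 n13 (.cons 759 n18 .nil))
noncomputable def n20 : Strat := .win 757 7 757
noncomputable def n21 : Strat := .win 839 7 798
noncomputable def n22 : Strat := .win 923 6 799
noncomputable def n23 : Strat := .win 1005 6 840
noncomputable def n24 : Strat := .move 964 n22 (.cons 923 n23 .nil)
noncomputable def n25 : Strat := .move 963 n21 (.cons 839 n24 .nil)
noncomputable def n26 : Strat := .move 798 n20 (.cons 757 n25 .nil)
noncomputable def n27 : Strat := .win 964 6 799
noncomputable def n28 : Strat := .win 882 6 758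
noncomputable def n29 : Strat := .move 758 n28 (.cons 882 n4 .nil)
noncomputable def n30 : Strat := .move 923 n27 (.cons 964 n29 .nil)
noncomputable def n31 : Strat := .win 921 1 798
noncomputable def n32 : Strat := .win 1003 1 839
noncomputable def n33 : Strat := .move 962 n31 (.cons 921 n32 .nil)
noncomputable def n34 : Strat := .move 963 n21 (.cons 839 n33 .nil)
noncomputable def n35 : Strat := .move 798 n20 (.cons 757 n34 .nil)
noncomputable def n36 : Strat := .move 922 n26 (.cons 798 n30 (.cons 923 n35 .nil))
noncomputable def n37 : Strat := .move 923 n28 (.cons 882 n27 .nil)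
noncomputable def n38 : Strat := .move 922 n1 (.cons 798 n37 .nil)
noncomputable def n39 : Strat := .move 757 n0 (.cons 716 n38 .nil)
noncomputable def n40 : Strat := .move 758 n18 (.cons 757 n13 (.cons 880 n39 .nil))
noncomputable def n41 : Strat := .move 758 n14 (.cons 880 n28 .nil)
noncomputable def n42 : Strat := .move 923 n27 (.cons 964 n41 .nil)
noncomputable def n43 : Strat := .move 921 n15 (.cons 962 n42 .nil)
noncomputable def n44 : Strat := .win 963 7 798
noncomputable def n45 : Strat := .win 758 1 757
noncomputable def n46 : Strat := .win 759 3 758
noncomputable def n47 : Strat := .win 801 4 797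
noncomputable def n48 : Strat := .win 837 5 796
noncomputable def n49 : Strat := .move 838 n47 (.cons 801 n48 .nil)
noncomputable def n50 : Strat := .move 800 n46 (.cons 759 n49 .nil)
noncomputable def n51 : Strat := .move 880 n45 (.cons 758 n50 .nil)
noncomputable def n52 : Strat := .move 839 n44 (.cons 963 n51 .nil)
noncomputable def n53 : Strat := .move 798 n20 (.cons 757 n52 .nil)
noncomputable def n54 : Strat := .move 921 n15 (.cons 962 n53 .nil)
noncomputable def n55 : Strat := .move 922 n43 (.cons 921 n26 (.cons 923 n54 .nil))
noncomputable def n56 : Strat := .move 839 n44 (.cons 963 n50 .nil)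
noncomputable def n57 : Strat := .move 798 n20 (.cons 757 n56 .nil)
noncomputable def n58 : Strat := .move 922 n26 (.cons 798 n30 (.cons 964 n57 .nil))
noncomputable def n59 : Strat := .win 757 7 716
noncomputable def n60 : Strat := .win 675 7 675
noncomputable def n61 : Strat := .move 716 n59 (.cons 757 n60 .nil)
noncomputable def n62 : Strat := .move 717 n8 (.cons 839 n61 .nil)
noncomputable def n63 : Strat := .move 880 n7 (.cons 921 n62 .nil)
noncomputable def n64 : Strat := .win 755 0 755
noncomputable def n65 : Strat := .win 801 0 756
noncomputable def n66 : Strat := .move 800 n64 (.cons 755 n65 .nil)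
noncomputable def n67 : Strat := .win 800 0 755
noncomputable def n68 : Strat := .win 797 4 755
noncomputable def n69 : Strat := .win 795 4 754
noncomputable def n70 : Strat := .move 796 n68 (.cons 797 n69 .nil)
noncomputable def n71 : Strat := .move 755 n67 (.cons 800 n70 .nil)
noncomputable def n72 : Strat := .win 796 4 755
noncomputable def n73 : Strat := .win 798 4 756
noncomputable def n74 : Strat := .win 715 2 714
noncomputable def n75 : Strat := .win 803 0 758
noncomputable def n76 : Strat := .win 801 0 757
noncomputable def n77 : Strat := .move 802 n75 (.cons 803 n76 .nil)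
noncomputable def n78 : Strat := .win 721 5 717
noncomputable def n79 : Strat := .win 719 5 716
noncomputable def n80 : Strat := .move 720 n78 (.cons 721 n79 .nil)
noncomputable def n81 : Strat := .move 761 n77 (.cons 801 n80 .nil)
noncomputable def n82 : Strat := .move 714 n74 (.cons 715 n81 .nil)
noncomputable def n83 : Strat := .move 760 n73 (.cons 798 n82 .nil)
noncomputable def n84 : Strat := .move 797 n72 (.cons 796 n83 .nil)
noncomputable def n85 : Strat := .move 756 n66 (.cons 801 n71 (.cons 800 n84 .nil))
noncomputable def n86 : Strat := .move 759 n2 (.cons 718 n85 .nil)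
noncomputable def n87 : Strat := .move 757 n0 (.cons 716 n86 .nil)
noncomputable def n88 : Strat := .move 758 n63 (.cons 757 n13 (.cons 880 n87 .nil))
noncomputable def n89 : Strat := .win 963 6 798
noncomputable def n90 : Strat := .win 884 2 839
noncomputable def n91 : Strat := .win 920 4 879
noncomputable def n92 : Strat := .move 883 n90 (.cons 884 n91 .nil)
noncomputable def n93 : Strat := .win 837 0 837
noncomputable def n94 : Strat := .win 883 2 838
noncomputable def n95 : Strat := .move 838 n93 (.cons 837 n94 .nil)
noncomputable def n96 : Strat := .win 838 0 837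
noncomputable def n97 : Strat := .win 756 7 756
noncomputable def n98 : Strat := .win 836 4 795
noncomputable def n99 : Strat := .win 795 0 795
noncomputable def n100 : Strat := .move 796 n98 (.cons 836 n99 .nil)
noncomputable def n101 : Strat := .move 797 n97 (.cons 756 n100 .nil)
noncomputable def n102 : Strat := .move 837 n96 (.cons 838 n101 .nil)
noncomputable def n103 : Strat := .move 882 n92 (.cons 884 n95 (.cons 883 n102 .nil))
noncomputable def n104 : Strat := .move 839 n89 (.cons 963 n103 .nil)
noncomputable def n105 : Strat := .move 798 n20 (.cons 757 n104 .nil)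
noncomputable def n106 : Strat := .move 880 n45 (.cons 758 n105 .nil)
noncomputable def n107 : Strat := .move 921 n15 (.cons 962 n106 .nil)
noncomputable def n108 : Strat := .move 922 n43 (.cons 921 n26 (.cons 964 n107 .nil))
noncomputable def n109 : Strat := .move 758 n14 (.cons 880 n37 .nil)
noncomputable def n110 : Strat := .move 921 n15 (.cons 962 n109 .nil)
noncomputable def n111 : Strat := .move 757 n0 (.cons 716 n1 .nil)
noncomputable def n112 : Strat := .move 758 n28 (.cons 882 n111 .nil)
noncomputable def n113 : Strat := .move 923 n27 (.cons 964 n112 .nil)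
noncomputable def n114 : Strat := .move 758 n14 (.cons 880 n111 .nil)
noncomputable def n115 : Strat := .move 921 n15 (.cons 962 n114 .nil)
noncomputable def n116 : Strat := .win 879 2 879
noncomputable def n117 : Strat := .win 925 2 880
noncomputable def n118 : Strat := .move 880 n116 (.cons 879 n117 .nil)
noncomputable def n119 : Strat := .win 880 2 880
noncomputable def n120 : Strat := .win 883 5 880
noncomputable def n121 : Strat := .win 885 5 881
noncomputable def n122 : Strat := .move 884 n120 (.cons 883 n121 .nil)
noncomputable def n123 : Strat := .move 925 n119 (.cons 880 n122 .nil)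
noncomputable def n124 : Strat := .win 884 5 880
noncomputable def n125 : Strat := .win 920 5 879
noncomputable def n126 : Strat := .win 926 2 881
noncomputable def n127 : Strat := .win 967 0 922
noncomputable def n128 : Strat := .win 965 0 921
noncomputable def n129 : Strat := .move 966 n127 (.cons 967 n128 .nil)
noncomputable def n130 : Strat := .move 925 n126 (.cons 926 n129 .nil)
noncomputable def n131 : Strat := .move 882 n125 (.cons 920 n130 .nil)
noncomputable def n132 : Strat := .move 883 n124 (.cons 884 n131 .nil)
noncomputable def n133 : Strat := .win 880 2 879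
noncomputable def n134 : Strat := .win 878 2 878
noncomputable def n135 : Strat := .win 919 5 878
noncomputable def n136 : Strat := .win 883 5 879
noncomputable def n137 : Strat := .move 882 n135 (.cons 919 n136 .nil)
noncomputable def n138 : Strat := .move 920 n134 (.cons 878 n137 .nil)
noncomputable def n139 : Strat := .move 879 n133 (.cons 880 n138 .nil)
noncomputable def n140 : Strat := .move 924 n118 (.cons 879 n123 (.cons 880 n132 (.cons 925 n139 .nil)))
noncomputable def n141 : Strat := .move 923 n27 (.cons 964 n140 .nil)
noncomputable def n142 : Strat := .move 921 n15 (.cons 962 n141 .nil)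
noncomputable def n143 : Strat := .move 922 n110 (.cons 921 n113 (.cons 923 n115 (.cons 758 n142 .nil)))
noncomputable def n144 : Strat := .move 925 n119 (.cons 880 n129 .nil)
noncomputable def n145 : Strat := .move 882 n126 (.cons 926 n125 .nil)
noncomputable def n146 : Strat := .move 925 n129 (.cons 965 n145 .nil)
noncomputable def n147 : Strat := .move 883 n124 (.cons 884 n146 .nil)
noncomputable def n148 : Strat := .win 882 5 879
noncomputable def n149 : Strat := .move 920 n148 (.cons 882 n134 .nil)
noncomputable def n150 : Strat := .move 883 n124 (.cons 884 n149 .nil)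
noncomputable def n151 : Strat := .move 879 n133 (.cons 880 n150 .nil)
noncomputable def n152 : Strat := .move 924 n118 (.cons 879 n144 (.cons 880 n147 (.cons 925 n151 .nil)))
noncomputable def n153 : Strat := .move 923 n27 (.cons 964 n152 .nil)
noncomputable def n154 : Strat := .move 921 n15 (.cons 962 n153 .nil)
noncomputable def n155 : Strat := .move 800 n46 (.cons 759 n154 .nil)
noncomputable def n156 : Strat := .move 798 n25 (.cons 923 n34 (.cons 963 n155 .nil))
noncomputable def n157 : Strat := .win 878 0 878
noncomputable def n158 : Strat := .win 924 2 879
noncomputable def n159 : Strat := .move 879 n157 (.cons 878 n158 .nil)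
noncomputable def n160 : Strat := .move 923 n27 (.cons 964 n159 .nil)
noncomputable def n161 : Strat := .move 880 n45 (.cons 758 n160 .nil)
noncomputable def n162 : Strat := .move 921 n15 (.cons 962 n161 .nil)
noncomputable def n163 : Strat := .move 758 n14 (.cons 880 n4 .nil)
noncomputable def n164 : Strat := .move 921 n15 (.cons 962 n163 .nil)
noncomputable def n165 : Strat := .move 922 n43 (.cons 921 n30 (.cons 758 n156 (.cons 882 n162 (.cons 923 n164 .nil))))
noncomputable def n166 : Strat := .move 922 n3 (.cons 800 n16 .nil)
noncomputable def n167 : Strat := .move 759 n2 (.cons 718 n166 .nil)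
noncomputable def n168 : Strat := .move 922 n3 (.cons 800 n37 .nil)
noncomputable def n169 : Strat := .move 759 n2 (.cons 718 n168 .nil)
noncomputable def n170 : Strat := .move 758 n167 (.cons 759 n63 (.cons 880 n169 .nil))
noncomputable def n171 : Strat := .win 884 4 880
noncomputable def n172 : Strat := .move 883 n171 (.cons 884 n125 .nil)
noncomputable def n173 : Strat := .move 920 n135 (.cons 919 n136 .nil)
noncomputable def n174 : Strat := .win 880 0 879
noncomputable def n175 : Strat := .move 924 n174 (.cons 880 n130 .nil)
noncomputable def n176 : Strat := .move 879 n134 (.cons 878 n175 .nil)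
noncomputable def n177 : Strat := .move 920 n135 (.cons 919 n176 .nil)
noncomputable def n178 : Strat := .win 879 0 879
noncomputable def n179 : Strat := .win 925 0 880
noncomputable def n180 : Strat := .move 924 n178 (.cons 879 n179 .nil)
noncomputable def n181 : Strat := .win 924 0 879
noncomputable def n182 : Strat := .move 879 n157 (.cons 878 n181 .nil)
noncomputable def n183 : Strat := .win 838 2 838
noncomputable def n184 : Strat := .win 843 5 839
noncomputable def n185 : Strat := .win 760 1 759
noncomputable def n186 : Strat := .move 842 n184 (.cons 843 n185 .nil)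
noncomputable def n187 : Strat := .win 802 4 798
noncomputable def n188 : Strat := .move 800 n187 (.cons 802 n46 .nil)
noncomputable def n189 : Strat := .move 801 n186 (.cons 760 n188 .nil)
noncomputable def n190 : Strat := .move 839 n183 (.cons 838 n189 .nil)
noncomputable def n191 : Strat := .move 880 n180 (.cons 925 n182 (.cons 924 n190 .nil))
noncomputable def n192 : Strat := .move 883 n171 (.cons 884 n191 .nil)
noncomputable def n193 : Strat := .move 882 n172 (.cons 884 n173 (.cons 883 n177 (.cons 920 n192 .nil)))
noncomputable def n194 : Strat := .move 923 n27 (.cons 964 n193 .nil)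
noncomputable def n195 : Strat := .move 921 n15 (.cons 962 n194 .nil)
noncomputable def n196 : Strat := .move 922 n26 (.cons 798 n195 (.cons 923 n35 (.cons 839 n142 .nil)))
noncomputable def n197 : Strat := .move 799 n19 (.cons 880 n36 (.cons 800 n40 (.cons 718 n55 (.cons 921 n58 (.cons 922 n88 (.cons 759 n108 (.cons 839 n143 (.cons 757 n165 (.cons 798 n170 (.cons 758 n196 .nil))))))))))

theorem ok : checkS n197 (pairBits 840 881) (pairBits 841 961) ≠ 0 := by decide +kernel

theorem reply : MakerWins {cellOf 881, cellOf 840} {cellOf 841, cellOf 961} :=
  reply2 n197 840 881 841 961 ok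

end Vale.Agent.Snaky.Cert2.R961
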