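import Vale.Agent.Snaky.Cert2.Lem

namespace Vale.Agent.Snaky.Cert2.R963

open Vale.Agent.Snaky

noncomputable def n0 : Strat := .win 716 7 716
noncomputable def n1 : Strat := .win 718 3 717
noncomputable def n2 : Strat := .win 800 3 758
noncomputable def n3 : Strat := .win 798 7 757
noncomputable def n4 : Strat := .move 922 n2 (.cons 800 n3 .nil)
noncomputable def n5 : Strat := .move 759 n1 (.cons 718 n4 .nil)
noncomputable def n6 : Strat := .move 757 n0 (.cons 716 n5 .nil)
noncomputable def n7 : Strat := .win 921 1 757
noncomputable def n8 : Strat := .win 839 1 716
noncomputable def n9 : Strat := .win 759 3 717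
noncomputable def n10 : Strat := .win 677 3 676
noncomputable def n11 : Strat := .move 718 n9 (.cons 759 n10 .nil)
noncomputable def n12 : Strat := .move 717 n8 (.cons 839 n11 .nil)
noncomputable def n13 : Strat := .move 880 n7 (.cons 921 n12 .nil)
noncomputable def n14 : Strat := .win 922 7 757
noncomputable def n15 : Strat := .win 717 1 716
noncomputable def n16 : Strat := .win 715 7 715
noncomputable def n17 : Strat := .win 755 0 755
noncomputable def n18 : Strat := .win 801 2 756
noncomputable def n19 : Strat := .move 800 n17 (.cons 755 n18 .nil)
noncomputable def n20 : Strat := .move 756 n16 (.cons 715 n19 .nil)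
noncomputable def n21 : Strat := .move 839 n15 (.cons 717 n20 .nil)
noncomputable def n22 : Strat := .move 880 n7 (.cons 921 n21 .nil)
noncomputable def n23 : Strat := .move 798 n14 (.cons 922 n22 .nil)
noncomputable def n24 : Strat := .move 757 n0 (.cons 716 n23 .nil)
noncomputable def n25 : Strat := .move 758 n6 (.cons 757 n13 (.cons 718 n24 .nil))
noncomputable def n26 : Strat := .win 757 7 716
noncomputable def n27 : Strat := .win 675 7 675
noncomputable def n28 : Strat := .move 716 n26 (.cons 757 n27 .nil)
noncomputable def n29 : Strat := .move 717 n8 (.cons 839 n28 .nil)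
noncomputable def n30 : Strat := .move 880 n7 (.cons 921 n29 .nil)
noncomputable def n31 : Strat := .win 801 0 756
noncomputable def n32 : Strat := .move 800 n17 (.cons 755 n31 .nil)
noncomputable def n33 : Strat := .win 800 0 755
noncomputable def n34 : Strat := .win 797 4 755
noncomputable def n35 : Strat := .win 795 4 754
noncomputable def n36 : Strat := .move 796 n34 (.cons 797 n35 .nil)
noncomputable def n37 : Strat := .move 755 n33 (.cons 800 n36 .nil)
noncomputable def n38 : Strat := .win 796 4 755
noncomputable def n39 : Strat := .win 798 4 756
noncomputable def n40 : Strat := .win 715 2 714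
noncomputable def n41 : Strat := .win 803 0 758
noncomputable def n42 : Strat := .win 801 0 757
noncomputable def n43 : Strat := .move 802 n41 (.cons 803 n42 .nil)
noncomputable def n44 : Strat := .win 721 5 717
noncomputable def n45 : Strat := .win 719 5 716
noncomputable def n46 : Strat := .move 720 n44 (.cons 721 n45 .nil)
noncomputable def n47 : Strat := .move 761 n43 (.cons 801 n46 .nil)
noncomputable def n48 : Strat := .move 714 n40 (.cons 715 n47 .nil)
noncomputable def n49 : Strat := .move 760 n39 (.cons 798 n48 .nil)
noncomputable def n50 : Strat := .move 797 n38 (.cons 796 n49 .nil)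
noncomputable def n51 : Strat := .move 756 n32 (.cons 801 n37 (.cons 800 n50 .nil))
noncomputable def n52 : Strat := .move 759 n1 (.cons 718 n51 .nil)
noncomputable def n53 : Strat := .move 757 n0 (.cons 716 n52 .nil)
noncomputable def n54 : Strat := .move 758 n30 (.cons 757 n13 (.cons 880 n53 .nil))
noncomputable def n55 : Strat := .win 882 6 758
noncomputable def n56 : Strat := .win 964 6 799
noncomputable def n57 : Strat := .move 923 n55 (.cons 882 n56 .nil)
noncomputable def n58 : Strat := .move 922 n2 (.cons 800 n57 .nil)
noncomputable def n59 : Strat := .move 759 n1 (.cons 718 n58 .nil)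
noncomputable def n60 : Strat := .win 923 6 758
noncomputable def n61 : Strat := .win 837 0 837
noncomputable def n62 : Strat := .win 883 2 838
noncomputable def n63 : Strat := .move 838 n61 (.cons 837 n62 .nil)
noncomputable def n64 : Strat := .move 882 n60 (.cons 923 n63 .nil)
noncomputable def n65 : Strat := .move 839 n15 (.cons 717 n64 .nil)
noncomputable def n66 : Strat := .move 880 n7 (.cons 921 n65 .nil)
noncomputable def n67 : Strat := .move 758 n13 (.cons 880 n59 (.cons 718 n66 .nil))
noncomputable def n68 : Strat := .win 760 4 756
noncomputable def n69 : Strat := .win 796 5 755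
noncomputable def n70 : Strat := .move 797 n68 (.cons 760 n69 .nil)
noncomputable def n71 : Strat := .move 798 n14 (.cons 922 n70 .nil)
noncomputable def n72 : Strat := .move 759 n1 (.cons 718 n71 .nil)
noncomputable def n73 : Strat := .move 757 n0 (.cons 716 n72 .nil)
noncomputable def n74 : Strat := .win 797 4 756
noncomputable def n75 : Strat := .win 761 4 757
noncomputable def n76 : Strat := .move 760 n74 (.cons 797 n75 .nil)
noncomputable def n77 : Strat := .win 754 0 754
noncomputable def n78 : Strat := .move 755 n33 (.cons 800 n77 .nil)
noncomputable def n79 : Strat := .win 714 2 714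
noncomputable def n80 : Strat := .win 839 6 674
noncomputable def n81 : Strat := .win 633 6 633
noncomputable def n82 : Strat := .move 674 n80 (.cons 839 n81 .nil)
noncomputable def n83 : Strat := .move 715 n79 (.cons 714 n82 .nil)
noncomputable def n84 : Strat := .move 756 n32 (.cons 801 n78 (.cons 800 n83 .nil))
noncomputable def n85 : Strat := .move 797 n69 (.cons 796 n84 .nil)
noncomputable def n86 : Strat := .win 802 0 757
noncomputable def n87 : Strat := .win 800 0 756
noncomputable def n88 : Strat := .win 713 2 713
noncomputable def n89 : Strat := .move 714 n88 (.cons 713 n40 .nil)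
noncomputable def n90 : Strat := .move 755 n77 (.cons 754 n89 .nil)
noncomputable def n91 : Strat := .move 756 n87 (.cons 800 n90 .nil)
noncomputable def n92 : Strat := .move 801 n86 (.cons 802 n91 .nil)
noncomputable def n93 : Strat := .move 760 n75 (.cons 761 n92 .nil)
noncomputable def n94 : Strat := .move 759 n70 (.cons 796 n76 (.cons 760 n85 (.cons 797 n93 .nil)))
noncomputable def n95 : Strat := .move 798 n14 (.cons 922 n94 .nil)
noncomputable def n96 : Strat := .move 757 n0 (.cons 716 n95 .nil)
noncomputable def n97 : Strat := .win 922 3 758
noncomputable def n98 : Strat := .win 756 0 756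
noncomputable def n99 : Strat := .win 802 2 757
noncomputable def n100 : Strat := .move 801 n98 (.cons 756 n99 .nil)
noncomputable def n101 : Strat := .move 800 n97 (.cons 922 n100 .nil)
noncomputable def n102 : Strat := .move 757 n0 (.cons 716 n101 .nil)
noncomputable def n103 : Strat := .move 759 n1 (.cons 718 n102 .nil)
noncomputable def n104 : Strat := .move 798 n70 (.cons 796 n76 (.cons 760 n85 (.cons 797 n93 .nil)))
noncomputable def n105 : Strat := .move 759 n1 (.cons 718 n104 .nil)
noncomputable def n106 : Strat := .move 757 n0 (.cons 716 n105 .nil)
noncomputable def n107 : Strat := .win 757 2 757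
noncomputable def n108 : Strat := .win 803 2 758
noncomputable def n109 : Strat := .move 802 n107 (.cons 757 n108 .nil)
noncomputable def n110 : Strat := .win 839 4 798
noncomputable def n111 : Strat := .move 802 n108 (.cons 803 n110 .nil)
noncomputable def n112 : Strat := .move 757 n98 (.cons 756 n99 .nil)
noncomputable def n113 : Strat := .win 797 5 756
noncomputable def n114 : Strat := .move 760 n75 (.cons 761 n113 .nil)
noncomputable def n115 : Strat := .win 760 5 756
noncomputable def n116 : Strat := .move 797 n69 (.cons 796 n115 .nil)
noncomputable def n117 : Strat := .win 757 0 756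
noncomputable def n118 : Strat := .win 755 2 755
noncomputable def n119 : Strat := .move 797 n69 (.cons 796 n118 .nil)
noncomputable def n120 : Strat := .move 756 n117 (.cons 757 n119 .nil)
noncomputable def n121 : Strat := .win 838 4 797
noncomputable def n122 : Strat := .win 676 1 675
noncomputable def n123 : Strat := .win 880 1 716
noncomputable def n124 : Strat := .move 717 n122 (.cons 676 n123 .nil)
noncomputable def n125 : Strat := .move 839 n121 (.cons 838 n124 .nil)
noncomputable def n126 : Strat := .move 757 n98 (.cons 756 n125 .nil)
noncomputable def n127 : Strat := .move 760 n75 (.cons 761 n126 .nil)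
noncomputable def n128 : Strat := .move 798 n114 (.cons 761 n116 (.cons 760 n120 (.cons 797 n127 .nil)))
noncomputable def n129 : Strat := .move 801 n109 (.cons 757 n111 (.cons 803 n112 (.cons 802 n128 .nil)))
noncomputable def n130 : Strat := .move 800 n97 (.cons 922 n129 .nil)
noncomputable def n131 : Strat := .move 759 n1 (.cons 718 n130 .nil)
noncomputable def n132 : Strat := .win 802 4 798
noncomputable def n133 : Strat := .win 798 4 797
noncomputable def n134 : Strat := .move 801 n132 (.cons 802 n133 .nil)
noncomputable def n135 : Strat := .move 838 n61 (.cons 837 n134 .nil)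
noncomputable def n136 : Strat := .move 880 n15 (.cons 717 n62 .nil)
noncomputable def n137 : Strat := .move 838 n61 (.cons 837 n136 .nil)
noncomputable def n138 : Strat := .win 635 6 635
noncomputable def n139 : Strat := .win 798 1 675
noncomputable def n140 : Strat := .move 676 n138 (.cons 635 n139 .nil)
noncomputable def n141 : Strat := .move 717 n123 (.cons 880 n140 .nil)
noncomputable def n142 : Strat := .move 839 n135 (.cons 798 n137 (.cons 837 n141 .nil))
noncomputable def n143 : Strat := .move 882 n60 (.cons 923 n142 .nil)
noncomputable def n144 : Strat := .move 800 n97 (.cons 922 n143 .nil)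
noncomputable def n145 : Strat := .move 759 n1 (.cons 718 n144 .nil)
noncomputable def n146 : Strat := .move 922 n56 (.cons 964 n3 .nil)
noncomputable def n147 : Strat := .move 923 n55 (.cons 882 n146 .nil)
noncomputable def n148 : Strat := .move 757 n0 (.cons 716 n147 .nil)
noncomputable def n149 : Strat := .move 758 n73 (.cons 718 n96 (.cons 798 n103 (.cons 922 n106 (.cons 716 n131 (.cons 757 n145 (.cons 759 n148 .nil))))))
noncomputable def n150 : Strat := .move 922 n3 (.cons 798 n57 .nil)
noncomputable def n151 : Strat := .move 757 n0 (.cons 716 n150 .nil)
noncomputable def n152 : Strat := .move 758 n6 (.cons 757 n59 (.cons 922 n53 (.cons 800 n73 (.cons 718 n151 .nil))))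
noncomputable def n153 : Strat := .win 962 1 798
noncomputable def n154 : Strat := .win 880 1 757
noncomputable def n155 : Strat := .move 758 n154 (.cons 880 n55 .nil)
noncomputable def n156 : Strat := .move 923 n56 (.cons 964 n155 .nil)
noncomputable def n157 : Strat := .move 921 n153 (.cons 962 n156 .nil)
noncomputable def n158 : Strat := .move 757 n0 (.cons 716 n3 .nil)
noncomputable def n159 : Strat := .move 758 n55 (.cons 882 n158 .nil)
noncomputable def n160 : Strat := .move 923 n56 (.cons 964 n159 .nil)
noncomputable def n161 : Strat := .move 758 n154 (.cons 880 n158 .nil)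
noncomputable def n162 : Strat := .move 921 n153 (.cons 962 n161 .nil)
noncomputable def n163 : Strat := .win 757 7 757
noncomputable def n164 : Strat := .win 919 5 878
noncomputable def n165 : Strat := .win 883 5 879
noncomputable def n166 : Strat := .move 882 n164 (.cons 919 n165 .nil)
noncomputable def n167 : Strat := .win 882 5 878
noncomputable def n168 : Strat := .win 877 2 877
noncomputable def n169 : Strat := .win 879 2 878
noncomputable def n170 : Strat := .move 878 n168 (.cons 877 n169 .nil)
noncomputable def n171 : Strat := .move 919 n167 (.cons 882 n170 .nil)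
noncomputable def n172 : Strat := .win 878 2 878
noncomputable def n173 : Strat := .win 924 2 879
noncomputable def n174 : Strat := .win 839 1 797
noncomputable def n175 : Strat := .win 960 4 919
noncomputable def n176 : Strat := .move 961 n174 (.cons 839 n175 .nil)
noncomputable def n177 : Strat := .move 880 n173 (.cons 924 n176 .nil)
noncomputable def n178 : Strat := .move 879 n172 (.cons 878 n177 .nil)
noncomputable def n179 : Strat := .move 800 n166 (.cons 883 n171 (.cons 882 n178 .nil))
noncomputable def n180 : Strat := .move 878 n169 (.cons 879 n168 .nil)
noncomputable def n181 : Strat := .move 919 n167 (.cons 882 n180 .nil)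
noncomputable def n182 : Strat := .win 882 5 879
noncomputable def n183 : Strat := .win 884 5 880
noncomputable def n184 : Strat := .win 880 2 879
noncomputable def n185 : Strat := .move 879 n184 (.cons 880 n172 .nil)
noncomputable def n186 : Strat := .move 924 n183 (.cons 884 n185 .nil)
noncomputable def n187 : Strat := .move 883 n182 (.cons 882 n186 .nil)
noncomputable def n188 : Strat := .move 920 n179 (.cons 879 n166 (.cons 883 n181 (.cons 919 n187 (.cons 882 n178 .nil))))
noncomputable def n189 : Strat := .move 798 n163 (.cons 757 n188 .nil)
noncomputable def n190 : Strat := .move 923 n56 (.cons 964 n189 .nil)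
noncomputable def n191 : Strat := .move 921 n153 (.cons 962 n190 .nil)
noncomputable def n192 : Strat := .move 922 n157 (.cons 921 n160 (.cons 923 n162 (.cons 758 n191 .nil)))
noncomputable def n193 : Strat := .move 758 n154 (.cons 880 n57 .nil)
noncomputable def n194 : Strat := .move 921 n153 (.cons 962 n193 .nil)
noncomputable def n195 : Strat := .move 798 n174 (.cons 839 n163 .nil)
noncomputable def n196 : Strat := .move 961 n175 (.cons 960 n195 .nil)
noncomputable def n197 : Strat := .move 880 n173 (.cons 924 n196 .nil)
noncomputable def n198 : Strat := .move 879 n172 (.cons 878 n197 .nil)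
noncomputable def n199 : Strat := .move 920 n166 (.cons 883 n181 (.cons 882 n198 .nil))
noncomputable def n200 : Strat := .move 923 n56 (.cons 964 n199 .nil)
noncomputable def n201 : Strat := .move 921 n153 (.cons 962 n200 .nil)
noncomputable def n202 : Strat := .move 922 n194 (.cons 758 n201 (.cons 921 n160 (.cons 882 n162 .nil)))
noncomputable def n203 : Strat := .win 759 3 758
noncomputable def n204 : Strat := .move 920 n166 (.cons 883 n171 (.cons 882 n178 .nil))
noncomputable def n205 : Strat := .move 923 n56 (.cons 964 n204 .nil)
noncomputable def n206 : Strat := .move 921 n153 (.cons 962 n205 .nil)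
noncomputable def n207 : Strat := .move 800 n203 (.cons 759 n206 .nil)
noncomputable def n208 : Strat := .move 922 n163 (.cons 757 n207 .nil)
noncomputable def n209 : Strat := .move 922 n203 (.cons 759 n206 .nil)
noncomputable def n210 : Strat := .move 839 n121 (.cons 838 n132 .nil)
noncomputable def n211 : Strat := .win 839 4 797
noncomputable def n212 : Strat := .win 837 4 796
noncomputable def n213 : Strat := .win 759 5 756
noncomputable def n214 : Strat := .win 761 5 757
noncomputable def n215 : Strat := .move 760 n213 (.cons 759 n214 .nil)
noncomputable def n216 : Strat := .move 797 n212 (.cons 837 n215 .nil)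
noncomputable def n217 : Strat := .move 838 n211 (.cons 839 n216 .nil)
noncomputable def n218 : Strat := .win 760 5 757
noncomputable def n219 : Strat := .win 762 5 758
noncomputable def n220 : Strat := .move 761 n218 (.cons 760 n219 .nil)
noncomputable def n221 : Strat := .move 802 n110 (.cons 839 n220 .nil)
noncomputable def n222 : Strat := .win 843 0 798
noncomputable def n223 : Strat := .win 677 1 676
noncomputable def n224 : Strat := .win 883 7 718
noncomputable def n225 : Strat := .move 718 n223 (.cons 677 n224 .nil)
noncomputable def n226 : Strat := .move 842 n222 (.cons 843 n225 .nil)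
noncomputable def n227 : Strat := .move 759 n113 (.cons 797 n226 .nil)
noncomputable def n228 : Strat := .move 760 n214 (.cons 761 n227 .nil)
noncomputable def n229 : Strat := .move 801 n210 (.cons 802 n217 (.cons 838 n221 (.cons 839 n228 .nil)))
noncomputable def n230 : Strat := .win 801 5 757
noncomputable def n231 : Strat := .win 762 4 758
noncomputable def n232 : Strat := .move 761 n230 (.cons 801 n231 .nil)
noncomputable def n233 : Strat := .move 760 n113 (.cons 797 n232 .nil)
noncomputable def n234 : Strat := .move 759 n97 (.cons 922 n233 .nil)
noncomputable def n235 : Strat := .win 842 0 798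
noncomputable def n236 : Strat := .win 844 0 799
noncomputable def n237 : Strat := .move 802 n236 (.cons 844 n220 .nil)
noncomputable def n238 : Strat := .move 843 n235 (.cons 842 n237 .nil)
noncomputable def n239 : Strat := .move 838 n212 (.cons 837 n211 .nil)
noncomputable def n240 : Strat := .win 756 2 755
noncomputable def n241 : Strat := .win 754 2 754
noncomputable def n242 : Strat := .win 795 0 795
noncomputable def n243 : Strat := .move 796 n241 (.cons 754 n242 .nil)
noncomputable def n244 : Strat := .move 755 n240 (.cons 756 n243 .nil)
noncomputable def n245 : Strat := .move 839 n121 (.cons 838 n244 .nil)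
noncomputable def n246 : Strat := .move 755 n241 (.cons 754 n240 .nil)
noncomputable def n247 : Strat := .win 839 0 795
noncomputable def n248 : Strat := .win 753 2 753
noncomputable def n249 : Strat := .win 755 2 754
noncomputable def n250 : Strat := .move 754 n248 (.cons 753 n249 .nil)
noncomputable def n251 : Strat := .move 795 n247 (.cons 839 n250 .nil)
noncomputable def n252 : Strat := .win 835 4 794
noncomputable def n253 : Strat := .win 837 4 795
noncomputable def n254 : Strat := .move 836 n252 (.cons 835 n253 .nil)
noncomputable def n255 : Strat := .move 795 n247 (.cons 839 n254 .nil)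
noncomputable def n256 : Strat := .move 796 n246 (.cons 756 n251 (.cons 754 n255 .nil))
noncomputable def n257 : Strat := .win 836 4 795
noncomputable def n258 : Strat := .win 838 4 796
noncomputable def n259 : Strat := .move 837 n257 (.cons 836 n258 .nil)
noncomputable def n260 : Strat := .move 796 n241 (.cons 754 n259 .nil)
noncomputable def n261 : Strat := .move 755 n240 (.cons 756 n260 .nil)
noncomputable def n262 : Strat := .move 797 n239 (.cons 837 n245 (.cons 838 n256 (.cons 839 n261 .nil)))
noncomputable def n263 : Strat := .move 760 n214 (.cons 761 n262 .nil)
noncomputable def n264 : Strat := .move 842 n222 (.cons 843 n263 .nil)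
noncomputable def n265 : Strat := .move 801 n210 (.cons 839 n238 (.cons 802 n264 .nil))
noncomputable def n266 : Strat := .move 800 n209 (.cons 922 n229 (.cons 839 n234 (.cons 759 n265 .nil)))
noncomputable def n267 : Strat := .win 959 4 918
noncomputable def n268 : Strat := .win 961 4 919
noncomputable def n269 : Strat := .move 960 n267 (.cons 959 n268 .nil)
noncomputable def n270 : Strat := .move 919 n168 (.cons 877 n269 .nil)
noncomputable def n271 : Strat := .move 878 n169 (.cons 879 n270 .nil)
noncomputable def n272 : Strat := .win 879 2 879
noncomputable def n273 : Strat := .win 925 2 880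
noncomputable def n274 : Strat := .move 880 n272 (.cons 879 n273 .nil)
noncomputable def n275 : Strat := .move 924 n183 (.cons 884 n274 .nil)
noncomputable def n276 : Strat := .move 883 n182 (.cons 882 n275 .nil)
noncomputable def n277 : Strat := .move 920 n166 (.cons 883 n171 (.cons 882 n271 (.cons 919 n276 .nil)))
noncomputable def n278 : Strat := .move 800 n203 (.cons 759 n277 .nil)
noncomputable def n279 : Strat := .move 921 n153 (.cons 962 n278 .nil)
noncomputable def n280 : Strat := .move 923 n56 (.cons 964 n279 .nil)
noncomputable def n281 : Strat := .move 922 n163 (.cons 757 n280 .nil)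
noncomputable def n282 : Strat := .win 675 6 675
noncomputable def n283 : Strat := .win 839 6 716
noncomputable def n284 : Strat := .move 716 n282 (.cons 675 n283 .nil)
noncomputable def n285 : Strat := .move 757 n14 (.cons 922 n284 .nil)
noncomputable def n286 : Strat := .win 801 4 797
noncomputable def n287 : Strat := .win 716 6 716
noncomputable def n288 : Strat := .win 880 6 715
noncomputable def n289 : Strat := .win 674 6 674
noncomputable def n290 : Strat := .move 715 n288 (.cons 880 n289 .nil)
noncomputable def n291 : Strat := .move 756 n118 (.cons 755 n290 .nil)
noncomputable def n292 : Strat := .move 757 n287 (.cons 716 n291 .nil)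
noncomputable def n293 : Strat := .move 839 n286 (.cons 801 n292 .nil)
noncomputable def n294 : Strat := .move 838 n212 (.cons 837 n293 .nil)
noncomputable def n295 : Strat := .win 757 2 756
noncomputable def n296 : Strat := .move 801 n295 (.cons 757 n215 .nil)
noncomputable def n297 : Strat := .move 756 n118 (.cons 755 n296 .nil)
noncomputable def n298 : Strat := .win 715 6 715
noncomputable def n299 : Strat := .win 921 7 756
noncomputable def n300 : Strat := .move 880 n298 (.cons 715 n299 .nil)
noncomputable def n301 : Strat := .move 715 n289 (.cons 674 n288 .nil)
noncomputable def n302 : Strat := .win 757 6 716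
noncomputable def n303 : Strat := .win 675 3 674
noncomputable def n304 : Strat := .move 715 n289 (.cons 674 n303 .nil)
noncomputable def n305 : Strat := .move 716 n302 (.cons 757 n304 .nil)
noncomputable def n306 : Strat := .win 920 1 756
noncomputable def n307 : Strat := .win 716 1 715
noncomputable def n308 : Strat := .move 757 n306 (.cons 920 n307 .nil)
noncomputable def n309 : Strat := .win 961 3 797
noncomputable def n310 : Strat := .win 757 1 756
noncomputable def n311 : Strat := .move 920 n309 (.cons 961 n310 .nil)
noncomputable def n312 : Strat := .win 877 5 836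
noncomputable def n313 : Strat := .win 919 1 755
noncomputable def n314 : Strat := .move 878 n312 (.cons 877 n313 .nil)
noncomputable def n315 : Strat := .move 879 n308 (.cons 716 n311 (.cons 920 n314 .nil))
noncomputable def n316 : Strat := .move 880 n299 (.cons 921 n315 .nil)
noncomputable def n317 : Strat := .move 839 n300 (.cons 921 n301 (.cons 880 n305 (.cons 715 n316 .nil)))
noncomputable def n318 : Strat := .move 756 n118 (.cons 755 n317 .nil)
noncomputable def n319 : Strat := .move 838 n212 (.cons 837 n318 .nil)
noncomputable def n320 : Strat := .move 756 n300 (.cons 921 n301 (.cons 880 n305 (.cons 715 n316 .nil)))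
noncomputable def n321 : Strat := .move 839 n286 (.cons 801 n320 .nil)
noncomputable def n322 : Strat := .move 838 n212 (.cons 837 n321 .nil)
noncomputable def n323 : Strat := .move 759 n115 (.cons 760 n291 .nil)
noncomputable def n324 : Strat := .move 839 n286 (.cons 801 n323 .nil)
noncomputable def n325 : Strat := .move 838 n212 (.cons 837 n324 .nil)
noncomputable def n326 : Strat := .move 801 n211 (.cons 839 n215 .nil)
noncomputable def n327 : Strat := .move 838 n212 (.cons 837 n326 .nil)
noncomputable def n328 : Strat := .move 800 n294 (.cons 839 n297 (.cons 801 n319 (.cons 755 n322 (.cons 757 n325 (.cons 756 n327 .nil)))))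
noncomputable def n329 : Strat := .win 800 2 755
noncomputable def n330 : Strat := .win 674 1 673
noncomputable def n331 : Strat := .win 878 3 714
noncomputable def n332 : Strat := .move 715 n330 (.cons 674 n331 .nil)
noncomputable def n333 : Strat := .move 756 n329 (.cons 800 n332 .nil)
noncomputable def n334 : Strat := .move 755 n241 (.cons 754 n333 .nil)
noncomputable def n335 : Strat := .move 837 n257 (.cons 836 n334 .nil)
noncomputable def n336 : Strat := .win 756 7 756
noncomputable def n337 : Strat := .win 962 3 798
noncomputable def n338 : Strat := .move 921 n336 (.cons 756 n337 .nil)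
noncomputable def n339 : Strat := .move 756 n16 (.cons 715 n299 .nil)
noncomputable def n340 : Strat := .win 961 1 797
noncomputable def n341 : Strat := .win 879 1 756
noncomputable def n342 : Strat := .move 920 n340 (.cons 961 n341 .nil)
noncomputable def n343 : Strat := .move 921 n337 (.cons 962 n342 .nil)
noncomputable def n344 : Strat := .win 919 3 755
noncomputable def n345 : Strat := .move 756 n16 (.cons 715 n344 .nil)
noncomputable def n346 : Strat := .move 879 n312 (.cons 877 n306 .nil)
noncomputable def n347 : Strat := .move 878 n345 (.cons 919 n346 .nil)
noncomputable def n348 : Strat := .move 880 n338 (.cons 962 n339 (.cons 756 n343 (.cons 921 n347 .nil)))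
noncomputable def n349 : Strat := .move 757 n287 (.cons 716 n348 .nil)
noncomputable def n350 : Strat := .move 839 n242 (.cons 795 n349 .nil)
noncomputable def n351 : Strat := .move 837 n257 (.cons 836 n350 .nil)
noncomputable def n352 : Strat := .move 795 n247 (.cons 839 n248 .nil)
noncomputable def n353 : Strat := .move 754 n249 (.cons 755 n352 .nil)
noncomputable def n354 : Strat := .move 837 n334 (.cons 800 n353 (.cons 755 n350 .nil))
noncomputable def n355 : Strat := .move 760 n214 (.cons 761 n213 .nil)
noncomputable def n356 : Strat := .move 801 n132 (.cons 802 n355 .nil)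
noncomputable def n357 : Strat := .move 839 n242 (.cons 795 n356 .nil)
noncomputable def n358 : Strat := .move 800 n240 (.cons 756 n357 .nil)
noncomputable def n359 : Strat := .move 755 n241 (.cons 754 n358 .nil)
noncomputable def n360 : Strat := .move 837 n257 (.cons 836 n359 .nil)
noncomputable def n361 : Strat := .move 754 n249 (.cons 755 n248 .nil)
noncomputable def n362 : Strat := .move 795 n247 (.cons 839 n361 .nil)
noncomputable def n363 : Strat := .move 796 n335 (.cons 755 n351 (.cons 836 n354 (.cons 715 n360 (.cons 837 n362 .nil))))
noncomputable def n364 : Strat := .move 756 n118 (.cons 755 n295 .nil)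
noncomputable def n365 : Strat := .move 801 n211 (.cons 839 n364 .nil)
noncomputable def n366 : Strat := .move 838 n212 (.cons 837 n365 .nil)
noncomputable def n367 : Strat := .move 796 n242 (.cons 795 n257 .nil)
noncomputable def n368 : Strat := .win 757 7 715
noncomputable def n369 : Strat := .move 715 n368 (.cons 757 n289 .nil)
noncomputable def n370 : Strat := .move 880 n299 (.cons 921 n369 .nil)
noncomputable def n371 : Strat := .move 756 n118 (.cons 755 n370 .nil)
noncomputable def n372 : Strat := .move 839 n367 (.cons 796 n371 .nil)
noncomputable def n373 : Strat := .move 837 n258 (.cons 838 n372 .nil)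
noncomputable def n374 : Strat := .move 800 n366 (.cons 801 n373 (.cons 838 n297 (.cons 756 n327 .nil)))
noncomputable def n375 : Strat := .win 800 4 796
noncomputable def n376 : Strat := .win 882 0 837
noncomputable def n377 : Strat := .move 838 n375 (.cons 800 n376 .nil)
noncomputable def n378 : Strat := .move 837 n257 (.cons 836 n377 .nil)
noncomputable def n379 : Strat := .move 839 n242 (.cons 795 n378 .nil)
noncomputable def n380 : Strat := .win 879 6 714
noncomputable def n381 : Strat := .win 673 6 673
noncomputable def n382 : Strat := .move 714 n380 (.cons 879 n381 .nil)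
noncomputable def n383 : Strat := .move 755 n241 (.cons 754 n382 .nil)
noncomputable def n384 : Strat := .move 839 n376 (.cons 882 n383 .nil)
noncomputable def n385 : Strat := .move 838 n375 (.cons 800 n384 .nil)
noncomputable def n386 : Strat := .move 837 n257 (.cons 836 n385 .nil)
noncomputable def n387 : Strat := .win 920 7 755
noncomputable def n388 : Strat := .win 714 6 714
noncomputable def n389 : Strat := .move 879 n387 (.cons 920 n388 .nil)
noncomputable def n390 : Strat := .move 838 n375 (.cons 800 n389 .nil)
noncomputable def n391 : Strat := .move 837 n257 (.cons 836 n390 .nil)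
noncomputable def n392 : Strat := .move 755 n241 (.cons 754 n391 .nil)
noncomputable def n393 : Strat := .move 796 n379 (.cons 837 n362 (.cons 795 n386 (.cons 839 n392 .nil)))
noncomputable def n394 : Strat := .move 838 n376 (.cons 882 n383 .nil)
noncomputable def n395 : Strat := .move 837 n257 (.cons 836 n394 .nil)
noncomputable def n396 : Strat := .move 839 n242 (.cons 795 n395 .nil)
noncomputable def n397 : Strat := .move 879 n388 (.cons 714 n387 .nil)
noncomputable def n398 : Strat := .move 714 n381 (.cons 673 n380 .nil)
noncomputable def n399 : Strat := .win 715 1 714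
noncomputable def n400 : Strat := .move 756 n399 (.cons 715 n344 .nil)
noncomputable def n401 : Strat := .win 756 1 714
noncomputable def n402 : Strat := .win 674 3 673
noncomputable def n403 : Strat := .move 714 n381 (.cons 673 n402 .nil)
noncomputable def n404 : Strat := .move 715 n401 (.cons 756 n403 .nil)
noncomputable def n405 : Strat := .win 960 3 796
noncomputable def n406 : Strat := .win 756 3 755
noncomputable def n407 : Strat := .move 919 n405 (.cons 960 n406 .nil)
noncomputable def n408 : Strat := .win 959 1 795
noncomputable def n409 : Strat := .win 877 1 754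
noncomputable def n410 : Strat := .move 918 n408 (.cons 959 n409 .nil)
noncomputable def n411 : Strat := .move 919 n405 (.cons 960 n410 .nil)
noncomputable def n412 : Strat := .move 878 n400 (.cons 919 n404 (.cons 715 n407 (.cons 756 n411 .nil)))
noncomputable def n413 : Strat := .move 878 n399 (.cons 715 n313 .nil)
noncomputable def n414 : Strat := .win 878 1 714
noncomputable def n415 : Strat := .move 715 n414 (.cons 878 n330 .nil)
noncomputable def n416 : Strat := .win 921 6 756
noncomputable def n417 : Strat := .win 882 2 837
noncomputable def n418 : Strat := .move 880 n416 (.cons 921 n417 .nil)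
noncomputable def n419 : Strat := .move 756 n413 (.cons 919 n415 (.cons 715 n418 .nil))
noncomputable def n420 : Strat := .move 879 n387 (.cons 920 n419 .nil)
noncomputable def n421 : Strat := .move 838 n397 (.cons 920 n398 (.cons 879 n412 (.cons 714 n420 .nil)))
noncomputable def n422 : Strat := .move 755 n241 (.cons 754 n421 .nil)
noncomputable def n423 : Strat := .move 837 n257 (.cons 836 n422 .nil)
noncomputable def n424 : Strat := .win 877 4 836
noncomputable def n425 : Strat := .move 878 n424 (.cons 877 n344 .nil)
noncomputable def n426 : Strat := .move 715 n288 (.cons 880 n330 .nil)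
noncomputable def n427 : Strat := .move 756 n425 (.cons 919 n415 (.cons 878 n426 .nil))
noncomputable def n428 : Strat := .move 757 n287 (.cons 716 n427 .nil)
noncomputable def n429 : Strat := .move 838 n376 (.cons 882 n428 .nil)
noncomputable def n430 : Strat := .move 837 n257 (.cons 836 n429 .nil)
noncomputable def n431 : Strat := .move 839 n242 (.cons 795 n430 .nil)
noncomputable def n432 : Strat := .move 796 n396 (.cons 839 n423 (.cons 837 n362 (.cons 754 n431 .nil)))
noncomputable def n433 : Strat := .move 800 n240 (.cons 756 n258 .nil)
noncomputable def n434 : Strat := .move 755 n241 (.cons 754 n433 .nil)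
noncomputable def n435 : Strat := .move 796 n257 (.cons 836 n434 .nil)
noncomputable def n436 : Strat := .win 796 4 795
noncomputable def n437 : Strat := .win 835 5 794
noncomputable def n438 : Strat := .move 836 n436 (.cons 796 n437 .nil)
noncomputable def n439 : Strat := .move 838 n375 (.cons 800 n438 .nil)
noncomputable def n440 : Strat := .move 800 n258 (.cons 838 n297 .nil)
noncomputable def n441 : Strat := .move 796 n257 (.cons 836 n422 .nil)
noncomputable def n442 : Strat := .move 796 n257 (.cons 836 n334 .nil)
noncomputable def n443 : Strat := .move 837 n435 (.cons 754 n439 (.cons 836 n440 (.cons 800 n441 (.cons 838 n442 .nil))))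
noncomputable def n444 : Strat := .win 836 5 795
noncomputable def n445 : Strat := .move 839 n376 (.cons 882 n444 .nil)
noncomputable def n446 : Strat := .move 838 n375 (.cons 800 n445 .nil)
noncomputable def n447 : Strat := .move 796 n257 (.cons 836 n350 .nil)
noncomputable def n448 : Strat := .move 878 n424 (.cons 877 n399 .nil)
noncomputable def n449 : Strat := .move 878 n344 (.cons 919 n424 .nil)
noncomputable def n450 : Strat := .move 715 n330 (.cons 674 n414 .nil)
noncomputable def n451 : Strat := .move 756 n448 (.cons 715 n449 (.cons 877 n450 (.cons 878 n426 .nil)))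
noncomputable def n452 : Strat := .move 757 n287 (.cons 716 n451 .nil)
noncomputable def n453 : Strat := .move 796 n242 (.cons 795 n452 .nil)
noncomputable def n454 : Strat := .move 839 n376 (.cons 882 n453 .nil)
noncomputable def n455 : Strat := .move 838 n375 (.cons 800 n454 .nil)
noncomputable def n456 : Strat := .move 837 n446 (.cons 838 n447 (.cons 836 n455 (.cons 839 n439 .nil)))
noncomputable def n457 : Strat := .move 801 n295 (.cons 757 n210 .nil)
noncomputable def n458 : Strat := .move 756 n118 (.cons 755 n457 .nil)
noncomputable def n459 : Strat := .move 880 n16 (.cons 715 n299 .nil)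
noncomputable def n460 : Strat := .move 756 n118 (.cons 755 n459 .nil)
noncomputable def n461 : Strat := .move 757 n287 (.cons 716 n460 .nil)
noncomputable def n462 : Strat := .move 839 n242 (.cons 795 n461 .nil)
noncomputable def n463 : Strat := .win 754 2 753
noncomputable def n464 : Strat := .win 752 2 752
noncomputable def n465 : Strat := .win 834 4 793
noncomputable def n466 : Strat := .win 836 4 794
noncomputable def n467 : Strat := .move 835 n465 (.cons 834 n466 .nil)
noncomputable def n468 : Strat := .move 794 n464 (.cons 752 n467 .nil)
noncomputable def n469 : Strat := .move 753 n463 (.cons 754 n468 .nil)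
noncomputable def n470 : Strat := .move 795 n247 (.cons 839 n469 .nil)
noncomputable def n471 : Strat := .move 796 n246 (.cons 754 n462 (.cons 755 n470 .nil))
noncomputable def n472 : Strat := .move 760 n213 (.cons 759 n471 .nil)
noncomputable def n473 : Strat := .move 801 n121 (.cons 838 n132 .nil)
noncomputable def n474 : Strat := .move 839 n242 (.cons 795 n473 .nil)
noncomputable def n475 : Strat := .move 796 n241 (.cons 754 n474 .nil)
noncomputable def n476 : Strat := .move 755 n240 (.cons 756 n475 .nil)
noncomputable def n477 : Strat := .move 801 n214 (.cons 761 n210 .nil)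
noncomputable def n478 : Strat := .move 760 n213 (.cons 759 n477 .nil)
noncomputable def n479 : Strat := .move 800 n458 (.cons 801 n472 (.cons 757 n476 (.cons 756 n478 (.cons 839 n297 .nil))))
noncomputable def n480 : Strat := .move 797 n328 (.cons 838 n363 (.cons 716 n374 (.cons 759 n393 (.cons 800 n432 (.cons 839 n443 (.cons 755 n456 (.cons 837 n479 .nil)))))))
noncomputable def n481 : Strat := .move 798 n208 (.cons 757 n266 (.cons 839 n281 (.cons 800 n285 (.cons 922 n480 .nil))))
noncomputable def n482 : Strat := .move 799 n25 (.cons 922 n54 (.cons 757 n67 (.cons 921 n149 (.cons 880 n152 (.cons 759 n192 (.cons 800 n202 (.cons 758 n481 .nil)))))))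

theorem ok : checkS n482 (pairBits 840 881) (pairBits 841 963) ≠ 0 := by decide +kernel

theorem reply : MakerWins {cellOf 881, cellOf 840} {cellOf 841, cellOf 963} :=
  reply2 n482 840 881 841 963 ok

end Vale.Agent.Snaky.Cert2.R963
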