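import Vale.Agent.Snaky.Cert2.Lem

namespace Vale.Agent.Snaky.Cert2.R964

open Vale.Agent.Snaky

noncomputable def n0 : Strat := .win 716 7 716
noncomputable def n1 : Strat := .win 718 3 717
noncomputable def n2 : Strat := .win 922 7 757
noncomputable def n3 : Strat := .win 760 4 756
noncomputable def n4 : Strat := .win 796 5 755
noncomputable def n5 : Strat := .move 797 n3 (.cons 760 n4 .nil)
noncomputable def n6 : Strat := .move 798 n2 (.cons 922 n5 .nil)
noncomputable def n7 : Strat := .move 759 n1 (.cons 718 n6 .nil)
noncomputable def n8 : Strat := .move 757 n0 (.cons 716 n7 .nil)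
noncomputable def n9 : Strat := .win 921 1 757
noncomputable def n10 : Strat := .win 839 1 716
noncomputable def n11 : Strat := .win 759 3 717
noncomputable def n12 : Strat := .win 677 3 676
noncomputable def n13 : Strat := .move 718 n11 (.cons 759 n12 .nil)
noncomputable def n14 : Strat := .move 717 n10 (.cons 839 n13 .nil)
noncomputable def n15 : Strat := .move 880 n9 (.cons 921 n14 .nil)
noncomputable def n16 : Strat := .win 717 1 716
noncomputable def n17 : Strat := .win 715 7 715
noncomputable def n18 : Strat := .win 755 0 755
noncomputable def n19 : Strat := .win 801 2 756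
noncomputable def n20 : Strat := .move 800 n18 (.cons 755 n19 .nil)
noncomputable def n21 : Strat := .move 756 n17 (.cons 715 n20 .nil)
noncomputable def n22 : Strat := .move 839 n16 (.cons 717 n21 .nil)
noncomputable def n23 : Strat := .move 880 n9 (.cons 921 n22 .nil)
noncomputable def n24 : Strat := .move 798 n2 (.cons 922 n23 .nil)
noncomputable def n25 : Strat := .move 757 n0 (.cons 716 n24 .nil)
noncomputable def n26 : Strat := .move 758 n8 (.cons 757 n15 (.cons 718 n25 .nil))
noncomputable def n27 : Strat := .win 757 7 716
noncomputable def n28 : Strat := .win 675 7 675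
noncomputable def n29 : Strat := .move 716 n27 (.cons 757 n28 .nil)
noncomputable def n30 : Strat := .move 717 n10 (.cons 839 n29 .nil)
noncomputable def n31 : Strat := .move 880 n9 (.cons 921 n30 .nil)
noncomputable def n32 : Strat := .win 801 0 756
noncomputable def n33 : Strat := .move 800 n18 (.cons 755 n32 .nil)
noncomputable def n34 : Strat := .win 800 0 755
noncomputable def n35 : Strat := .win 797 4 755
noncomputable def n36 : Strat := .win 795 4 754
noncomputable def n37 : Strat := .move 796 n35 (.cons 797 n36 .nil)
noncomputable def n38 : Strat := .move 755 n34 (.cons 800 n37 .nil)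
noncomputable def n39 : Strat := .win 796 4 755
noncomputable def n40 : Strat := .win 798 4 756
noncomputable def n41 : Strat := .win 715 2 714
noncomputable def n42 : Strat := .win 803 0 758
noncomputable def n43 : Strat := .win 801 0 757
noncomputable def n44 : Strat := .move 802 n42 (.cons 803 n43 .nil)
noncomputable def n45 : Strat := .win 721 5 717
noncomputable def n46 : Strat := .win 719 5 716
noncomputable def n47 : Strat := .move 720 n45 (.cons 721 n46 .nil)
noncomputable def n48 : Strat := .move 761 n44 (.cons 801 n47 .nil)
noncomputable def n49 : Strat := .move 714 n41 (.cons 715 n48 .nil)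
noncomputable def n50 : Strat := .move 760 n40 (.cons 798 n49 .nil)
noncomputable def n51 : Strat := .move 797 n39 (.cons 796 n50 .nil)
noncomputable def n52 : Strat := .move 756 n33 (.cons 801 n38 (.cons 800 n51 .nil))
noncomputable def n53 : Strat := .move 759 n1 (.cons 718 n52 .nil)
noncomputable def n54 : Strat := .move 757 n0 (.cons 716 n53 .nil)
noncomputable def n55 : Strat := .move 758 n31 (.cons 757 n15 (.cons 880 n54 .nil))
noncomputable def n56 : Strat := .win 923 6 758
noncomputable def n57 : Strat := .win 837 0 837
noncomputable def n58 : Strat := .win 883 2 838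
noncomputable def n59 : Strat := .move 838 n57 (.cons 837 n58 .nil)
noncomputable def n60 : Strat := .move 882 n56 (.cons 923 n59 .nil)
noncomputable def n61 : Strat := .move 839 n16 (.cons 717 n60 .nil)
noncomputable def n62 : Strat := .move 880 n9 (.cons 921 n61 .nil)
noncomputable def n63 : Strat := .win 880 1 757
noncomputable def n64 : Strat := .win 962 1 798
noncomputable def n65 : Strat := .win 800 3 758
noncomputable def n66 : Strat := .move 922 n64 (.cons 962 n65 .nil)
noncomputable def n67 : Strat := .move 921 n63 (.cons 880 n66 .nil)
noncomputable def n68 : Strat := .move 759 n1 (.cons 718 n67 .nil)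
noncomputable def n69 : Strat := .win 922 3 758
noncomputable def n70 : Strat := .win 761 4 757
noncomputable def n71 : Strat := .win 797 5 756
noncomputable def n72 : Strat := .move 760 n70 (.cons 761 n71 .nil)
noncomputable def n73 : Strat := .win 760 5 756
noncomputable def n74 : Strat := .move 797 n4 (.cons 796 n73 .nil)
noncomputable def n75 : Strat := .win 803 2 758
noncomputable def n76 : Strat := .win 839 4 798
noncomputable def n77 : Strat := .move 802 n75 (.cons 803 n76 .nil)
noncomputable def n78 : Strat := .win 802 4 798
noncomputable def n79 : Strat := .win 838 4 797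
noncomputable def n80 : Strat := .move 839 n78 (.cons 802 n79 .nil)
noncomputable def n81 : Strat := .win 924 7 759
noncomputable def n82 : Strat := .win 843 0 798
noncomputable def n83 : Strat := .move 842 n81 (.cons 924 n82 .nil)
noncomputable def n84 : Strat := .win 884 2 839
noncomputable def n85 : Strat := .move 882 n84 (.cons 884 n56 .nil)
noncomputable def n86 : Strat := .move 883 n83 (.cons 843 n85 .nil)
noncomputable def n87 : Strat := .move 839 n79 (.cons 838 n86 .nil)
noncomputable def n88 : Strat := .win 844 0 799
noncomputable def n89 : Strat := .win 842 0 798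
noncomputable def n90 : Strat := .move 843 n88 (.cons 844 n89 .nil)
noncomputable def n91 : Strat := .move 802 n75 (.cons 803 n90 .nil)
noncomputable def n92 : Strat := .move 801 n77 (.cons 803 n80 (.cons 802 n87 (.cons 839 n91 .nil)))
noncomputable def n93 : Strat := .move 760 n70 (.cons 761 n92 .nil)
noncomputable def n94 : Strat := .win 837 4 796
noncomputable def n95 : Strat := .win 839 4 797
noncomputable def n96 : Strat := .move 801 n95 (.cons 839 n91 .nil)
noncomputable def n97 : Strat := .move 838 n94 (.cons 837 n96 .nil)
noncomputable def n98 : Strat := .move 797 n4 (.cons 796 n97 .nil)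
noncomputable def n99 : Strat := .move 798 n72 (.cons 761 n74 (.cons 797 n93 (.cons 760 n98 .nil)))
noncomputable def n100 : Strat := .move 800 n69 (.cons 922 n99 .nil)
noncomputable def n101 : Strat := .move 759 n1 (.cons 718 n100 .nil)
noncomputable def n102 : Strat := .move 758 n15 (.cons 718 n62 (.cons 717 n68 (.cons 880 n101 .nil)))
noncomputable def n103 : Strat := .win 798 4 797
noncomputable def n104 : Strat := .move 801 n78 (.cons 802 n103 .nil)
noncomputable def n105 : Strat := .move 838 n57 (.cons 837 n104 .nil)
noncomputable def n106 : Strat := .move 880 n16 (.cons 717 n58 .nil)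
noncomputable def n107 : Strat := .move 838 n57 (.cons 837 n106 .nil)
noncomputable def n108 : Strat := .win 880 1 716
noncomputable def n109 : Strat := .win 635 6 635
noncomputable def n110 : Strat := .win 798 1 675
noncomputable def n111 : Strat := .move 676 n109 (.cons 635 n110 .nil)
noncomputable def n112 : Strat := .move 717 n108 (.cons 880 n111 .nil)
noncomputable def n113 : Strat := .move 839 n105 (.cons 798 n107 (.cons 838 n112 .nil))
noncomputable def n114 : Strat := .move 882 n56 (.cons 923 n113 .nil)
noncomputable def n115 : Strat := .move 800 n69 (.cons 922 n114 .nil)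
noncomputable def n116 : Strat := .move 759 n1 (.cons 718 n115 .nil)
noncomputable def n117 : Strat := .win 797 4 756
noncomputable def n118 : Strat := .move 760 n117 (.cons 797 n70 .nil)
noncomputable def n119 : Strat := .win 802 0 757
noncomputable def n120 : Strat := .win 800 0 756
noncomputable def n121 : Strat := .win 754 0 754
noncomputable def n122 : Strat := .win 713 2 713
noncomputable def n123 : Strat := .move 714 n122 (.cons 713 n41 .nil)
noncomputable def n124 : Strat := .move 755 n121 (.cons 754 n123 .nil)
noncomputable def n125 : Strat := .move 756 n120 (.cons 800 n124 .nil)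
noncomputable def n126 : Strat := .move 801 n119 (.cons 802 n125 .nil)
noncomputable def n127 : Strat := .move 760 n70 (.cons 761 n126 .nil)
noncomputable def n128 : Strat := .move 755 n34 (.cons 800 n121 .nil)
noncomputable def n129 : Strat := .win 714 2 714
noncomputable def n130 : Strat := .win 839 6 674
noncomputable def n131 : Strat := .win 633 6 633
noncomputable def n132 : Strat := .move 674 n130 (.cons 839 n131 .nil)
noncomputable def n133 : Strat := .move 715 n129 (.cons 714 n132 .nil)
noncomputable def n134 : Strat := .move 756 n33 (.cons 801 n128 (.cons 800 n133 .nil))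
noncomputable def n135 : Strat := .move 797 n4 (.cons 796 n134 .nil)
noncomputable def n136 : Strat := .move 759 n5 (.cons 796 n118 (.cons 797 n127 (.cons 760 n135 .nil)))
noncomputable def n137 : Strat := .move 798 n2 (.cons 922 n136 .nil)
noncomputable def n138 : Strat := .move 757 n0 (.cons 716 n137 .nil)
noncomputable def n139 : Strat := .win 756 0 756
noncomputable def n140 : Strat := .win 802 2 757
noncomputable def n141 : Strat := .move 801 n139 (.cons 756 n140 .nil)
noncomputable def n142 : Strat := .move 800 n69 (.cons 922 n141 .nil)
noncomputable def n143 : Strat := .move 757 n0 (.cons 716 n142 .nil)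
noncomputable def n144 : Strat := .move 759 n1 (.cons 718 n143 .nil)
noncomputable def n145 : Strat := .move 798 n5 (.cons 796 n118 (.cons 797 n127 (.cons 760 n135 .nil)))
noncomputable def n146 : Strat := .move 759 n1 (.cons 718 n145 .nil)
noncomputable def n147 : Strat := .move 757 n0 (.cons 716 n146 .nil)
noncomputable def n148 : Strat := .win 718 3 676
noncomputable def n149 : Strat := .win 636 3 635
noncomputable def n150 : Strat := .move 677 n148 (.cons 718 n149 .nil)
noncomputable def n151 : Strat := .move 676 n110 (.cons 798 n150 .nil)
noncomputable def n152 : Strat := .move 839 n108 (.cons 880 n151 .nil)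
noncomputable def n153 : Strat := .move 717 n28 (.cons 675 n152 .nil)
noncomputable def n154 : Strat := .move 716 n27 (.cons 757 n153 .nil)
noncomputable def n155 : Strat := .move 758 n8 (.cons 757 n116 (.cons 718 n138 (.cons 798 n144 (.cons 922 n147 (.cons 759 n154 .nil)))))
noncomputable def n156 : Strat := .move 758 n144 (.cons 759 n31 (.cons 757 n15 .nil))
noncomputable def n157 : Strat := .win 798 7 757
noncomputable def n158 : Strat := .move 922 n65 (.cons 800 n157 .nil)
noncomputable def n159 : Strat := .move 759 n1 (.cons 718 n158 .nil)
noncomputable def n160 : Strat := .move 758 n0 (.cons 716 n159 .nil)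
noncomputable def n161 : Strat := .win 675 6 675
noncomputable def n162 : Strat := .win 839 6 716
noncomputable def n163 : Strat := .move 716 n161 (.cons 675 n162 .nil)
noncomputable def n164 : Strat := .move 798 n2 (.cons 922 n163 .nil)
noncomputable def n165 : Strat := .move 801 n140 (.cons 802 n139 .nil)
noncomputable def n166 : Strat := .move 800 n69 (.cons 922 n165 .nil)
noncomputable def n167 : Strat := .move 759 n1 (.cons 718 n166 .nil)
noncomputable def n168 : Strat := .move 758 n0 (.cons 716 n167 .nil)
noncomputable def n169 : Strat := .move 758 n0 (.cons 716 n53 .nil)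
noncomputable def n170 : Strat := .win 756 2 756
noncomputable def n171 : Strat := .win 758 2 757
noncomputable def n172 : Strat := .move 802 n171 (.cons 758 n76 .nil)
noncomputable def n173 : Strat := .move 801 n170 (.cons 756 n172 .nil)
noncomputable def n174 : Strat := .win 758 0 755
noncomputable def n175 : Strat := .move 755 n121 (.cons 754 n174 .nil)
noncomputable def n176 : Strat := .move 756 n19 (.cons 801 n175 .nil)
noncomputable def n177 : Strat := .move 839 n79 (.cons 838 n78 .nil)
noncomputable def n178 : Strat := .win 759 5 756
noncomputable def n179 : Strat := .win 761 5 757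
noncomputable def n180 : Strat := .move 760 n178 (.cons 759 n179 .nil)
noncomputable def n181 : Strat := .move 797 n94 (.cons 837 n180 .nil)
noncomputable def n182 : Strat := .move 838 n95 (.cons 839 n181 .nil)
noncomputable def n183 : Strat := .move 759 n1 (.cons 718 n118 .nil)
noncomputable def n184 : Strat := .move 758 n140 (.cons 802 n183 .nil)
noncomputable def n185 : Strat := .move 801 n172 (.cons 758 n177 (.cons 802 n182 (.cons 839 n184 .nil)))
noncomputable def n186 : Strat := .move 801 n170 (.cons 756 n177 .nil)
noncomputable def n187 : Strat := .move 758 n1 (.cons 718 n4 .nil)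
noncomputable def n188 : Strat := .move 759 n73 (.cons 760 n187 .nil)
noncomputable def n189 : Strat := .win 758 3 717
noncomputable def n190 : Strat := .win 677 1 676
noncomputable def n191 : Strat := .move 718 n189 (.cons 758 n190 .nil)
noncomputable def n192 : Strat := .move 759 n73 (.cons 760 n191 .nil)
noncomputable def n193 : Strat := .win 755 2 755
noncomputable def n194 : Strat := .move 759 n3 (.cons 760 n39 .nil)
noncomputable def n195 : Strat := .win 795 5 754
noncomputable def n196 : Strat := .win 759 4 755
noncomputable def n197 : Strat := .move 796 n195 (.cons 795 n196 .nil)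
noncomputable def n198 : Strat := .win 836 4 795
noncomputable def n199 : Strat := .win 838 4 796
noncomputable def n200 : Strat := .move 837 n198 (.cons 836 n199 .nil)
noncomputable def n201 : Strat := .move 796 n195 (.cons 795 n200 .nil)
noncomputable def n202 : Strat := .move 759 n3 (.cons 760 n133 .nil)
noncomputable def n203 : Strat := .move 758 n194 (.cons 760 n197 (.cons 759 n201 (.cons 796 n202 .nil)))
noncomputable def n204 : Strat := .move 756 n193 (.cons 755 n203 .nil)
noncomputable def n205 : Strat := .win 758 5 754
noncomputable def n206 : Strat := .win 839 0 795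
noncomputable def n207 : Strat := .move 795 n205 (.cons 758 n206 .nil)
noncomputable def n208 : Strat := .move 796 n198 (.cons 836 n207 .nil)
noncomputable def n209 : Strat := .move 837 n199 (.cons 838 n208 .nil)
noncomputable def n210 : Strat := .move 756 n193 (.cons 755 n209 .nil)
noncomputable def n211 : Strat := .win 756 2 755
noncomputable def n212 : Strat := .win 754 2 754
noncomputable def n213 : Strat := .move 755 n211 (.cons 756 n212 .nil)
noncomputable def n214 : Strat := .move 796 n198 (.cons 836 n213 .nil)
noncomputable def n215 : Strat := .move 837 n199 (.cons 838 n214 .nil)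
noncomputable def n216 : Strat := .move 797 n188 (.cons 796 n192 (.cons 718 n204 (.cons 759 n210 (.cons 758 n215 .nil))))
noncomputable def n217 : Strat := .move 800 n173 (.cons 802 n176 (.cons 756 n185 (.cons 758 n186 (.cons 801 n216 .nil))))
noncomputable def n218 : Strat := .move 798 n2 (.cons 922 n217 .nil)
noncomputable def n219 : Strat := .move 757 n160 (.cons 758 n164 (.cons 798 n168 (.cons 922 n169 (.cons 716 n218 .nil))))
noncomputable def n220 : Strat := .move 757 n0 (.cons 716 n159 .nil)
noncomputable def n221 : Strat := .move 921 n63 (.cons 880 n64 .nil)
noncomputable def n222 : Strat := .move 922 n157 (.cons 798 n221 .nil)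
noncomputable def n223 : Strat := .move 757 n0 (.cons 716 n222 .nil)
noncomputable def n224 : Strat := .move 922 n65 (.cons 800 n221 .nil)
noncomputable def n225 : Strat := .move 759 n1 (.cons 718 n224 .nil)
noncomputable def n226 : Strat := .move 758 n220 (.cons 759 n223 (.cons 716 n225 (.cons 922 n54 .nil)))
noncomputable def n227 : Strat := .win 922 6 757
noncomputable def n228 : Strat := .move 798 n227 (.cons 922 n21 .nil)
noncomputable def n229 : Strat := .move 839 n16 (.cons 717 n228 .nil)
noncomputable def n230 : Strat := .move 880 n9 (.cons 921 n229 .nil)
noncomputable def n231 : Strat := .move 758 n0 (.cons 716 n230 .nil)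
noncomputable def n232 : Strat := .move 758 n0 (.cons 716 n222 .nil)
noncomputable def n233 : Strat := .win 838 2 838
noncomputable def n234 : Strat := .move 883 n233 (.cons 838 n84 .nil)
noncomputable def n235 : Strat := .move 755 n121 (.cons 754 n34 .nil)
noncomputable def n236 : Strat := .move 756 n17 (.cons 715 n235 .nil)
noncomputable def n237 : Strat := .move 798 n59 (.cons 837 n234 (.cons 838 n236 .nil))
noncomputable def n238 : Strat := .move 882 n56 (.cons 923 n237 .nil)
noncomputable def n239 : Strat := .move 839 n16 (.cons 717 n238 .nil)
noncomputable def n240 : Strat := .move 880 n9 (.cons 921 n239 .nil)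
noncomputable def n241 : Strat := .move 758 n0 (.cons 716 n240 .nil)
noncomputable def n242 : Strat := .move 758 n0 (.cons 716 n62 .nil)
noncomputable def n243 : Strat := .win 758 1 757
noncomputable def n244 : Strat := .win 884 4 880
noncomputable def n245 : Strat := .win 920 4 879
noncomputable def n246 : Strat := .move 883 n244 (.cons 884 n245 .nil)
noncomputable def n247 : Strat := .win 919 5 878
noncomputable def n248 : Strat := .win 883 4 879
noncomputable def n249 : Strat := .move 920 n247 (.cons 919 n248 .nil)
noncomputable def n250 : Strat := .win 925 0 880
noncomputable def n251 : Strat := .win 923 0 879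
noncomputable def n252 : Strat := .win 839 2 838
noncomputable def n253 : Strat := .win 837 2 837
noncomputable def n254 : Strat := .move 838 n252 (.cons 839 n253 .nil)
noncomputable def n255 : Strat := .move 879 n251 (.cons 923 n254 .nil)
noncomputable def n256 : Strat := .move 924 n250 (.cons 925 n255 .nil)
noncomputable def n257 : Strat := .move 883 n244 (.cons 884 n256 .nil)
noncomputable def n258 : Strat := .win 878 0 878
noncomputable def n259 : Strat := .win 924 0 879
noncomputable def n260 : Strat := .move 923 n258 (.cons 878 n259 .nil)
noncomputable def n261 : Strat := .win 877 0 877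
noncomputable def n262 : Strat := .win 923 0 878
noncomputable def n263 : Strat := .move 878 n261 (.cons 877 n262 .nil)
noncomputable def n264 : Strat := .win 920 4 878
noncomputable def n265 : Strat := .win 918 4 877
noncomputable def n266 : Strat := .move 878 n265 (.cons 918 n261 .nil)
noncomputable def n267 : Strat := .move 919 n264 (.cons 920 n266 .nil)
noncomputable def n268 : Strat := .win 919 4 878
noncomputable def n269 : Strat := .win 1043 3 879
noncomputable def n270 : Strat := .win 839 3 838
noncomputable def n271 : Strat := .move 1002 n269 (.cons 1043 n270 .nil)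
noncomputable def n272 : Strat := .win 960 4 919
noncomputable def n273 : Strat := .move 923 n272 (.cons 960 n259 .nil)
noncomputable def n274 : Strat := .move 961 n271 (.cons 839 n273 .nil)
noncomputable def n275 : Strat := .move 920 n268 (.cons 919 n274 .nil)
noncomputable def n276 : Strat := .move 879 n260 (.cons 924 n263 (.cons 923 n267 (.cons 878 n275 .nil)))
noncomputable def n277 : Strat := .move 882 n246 (.cons 884 n249 (.cons 920 n257 (.cons 883 n276 .nil)))
noncomputable def n278 : Strat := .move 880 n243 (.cons 758 n277 .nil)
noncomputable def n279 : Strat := .move 921 n64 (.cons 962 n278 .nil)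
noncomputable def n280 : Strat := .move 922 n157 (.cons 798 n279 .nil)
noncomputable def n281 : Strat := .move 757 n231 (.cons 839 n232 (.cons 758 n164 (.cons 922 n241 (.cons 798 n242 (.cons 716 n280 .nil)))))
noncomputable def n282 : Strat := .move 759 n1 (.cons 718 n5 .nil)
noncomputable def n283 : Strat := .move 839 n16 (.cons 717 n282 .nil)
noncomputable def n284 : Strat := .move 798 n2 (.cons 922 n283 .nil)
noncomputable def n285 : Strat := .move 880 n9 (.cons 921 n284 .nil)
noncomputable def n286 : Strat := .move 757 n0 (.cons 716 n285 .nil)
noncomputable def n287 : Strat := .move 758 n286 (.cons 880 n8 (.cons 922 n31 (.cons 757 n15 .nil)))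
noncomputable def n288 : Strat := .win 759 3 758
noncomputable def n289 : Strat := .win 757 7 757
noncomputable def n290 : Strat := .win 963 7 798
noncomputable def n291 : Strat := .win 837 5 796
noncomputable def n292 : Strat := .win 801 4 797
noncomputable def n293 : Strat := .move 838 n291 (.cons 837 n292 .nil)
noncomputable def n294 : Strat := .move 839 n290 (.cons 963 n293 .nil)
noncomputable def n295 : Strat := .move 798 n289 (.cons 757 n294 .nil)
noncomputable def n296 : Strat := .move 922 n288 (.cons 759 n295 .nil)
noncomputable def n297 : Strat := .move 838 n291 (.cons 837 n103 .nil)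
noncomputable def n298 : Strat := .move 839 n78 (.cons 802 n297 .nil)
noncomputable def n299 : Strat := .win 716 6 716
noncomputable def n300 : Strat := .move 757 n170 (.cons 756 n299 .nil)
noncomputable def n301 : Strat := .move 839 n79 (.cons 838 n300 .nil)
noncomputable def n302 : Strat := .move 760 n179 (.cons 761 n178 .nil)
noncomputable def n303 : Strat := .move 797 n94 (.cons 837 n302 .nil)
noncomputable def n304 : Strat := .move 838 n95 (.cons 839 n303 .nil)
noncomputable def n305 : Strat := .move 757 n170 (.cons 756 n304 .nil)
noncomputable def n306 : Strat := .win 757 2 756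
noncomputable def n307 : Strat := .move 756 n306 (.cons 757 n193 .nil)
noncomputable def n308 : Strat := .move 797 n178 (.cons 759 n307 .nil)
noncomputable def n309 : Strat := .move 760 n179 (.cons 761 n308 .nil)
noncomputable def n310 : Strat := .move 798 n301 (.cons 716 n305 (.cons 839 n309 (.cons 757 n304 .nil)))
noncomputable def n311 : Strat := .win 762 5 758
noncomputable def n312 : Strat := .win 924 3 760
noncomputable def n313 : Strat := .win 720 1 719
noncomputable def n314 : Strat := .move 883 n312 (.cons 924 n313 .nil)
noncomputable def n315 : Strat := .win 679 1 678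
noncomputable def n316 : Strat := .win 883 1 719
noncomputable def n317 : Strat := .move 720 n315 (.cons 679 n316 .nil)
noncomputable def n318 : Strat := .win 925 7 760
noncomputable def n319 : Strat := .win 719 6 719
noncomputable def n320 : Strat := .move 760 n318 (.cons 925 n319 .nil)
noncomputable def n321 : Strat := .win 966 7 801
noncomputable def n322 : Strat := .win 760 7 760
noncomputable def n323 : Strat := .move 925 n321 (.cons 966 n322 .nil)
noncomputable def n324 : Strat := .win 760 6 719
noncomputable def n325 : Strat := .win 678 7 678
noncomputable def n326 : Strat := .move 720 n325 (.cons 678 n315 .nil)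
noncomputable def n327 : Strat := .move 719 n324 (.cons 760 n326 .nil)
noncomputable def n328 : Strat := .win 967 6 802
noncomputable def n329 : Strat := .win 885 6 761
noncomputable def n330 : Strat := .move 926 n328 (.cons 967 n329 .nil)
noncomputable def n331 : Strat := .move 925 n321 (.cons 966 n330 .nil)
noncomputable def n332 : Strat := .move 884 n320 (.cons 719 n323 (.cons 925 n327 (.cons 760 n331 .nil)))
noncomputable def n333 : Strat := .win 884 6 719
noncomputable def n334 : Strat := .win 678 6 678
noncomputable def n335 : Strat := .move 719 n333 (.cons 884 n334 .nil)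
noncomputable def n336 : Strat := .win 925 6 760
noncomputable def n337 : Strat := .move 884 n336 (.cons 925 n319 .nil)
noncomputable def n338 : Strat := .win 923 1 759
noncomputable def n339 : Strat := .win 880 5 839
noncomputable def n340 : Strat := .move 882 n338 (.cons 923 n339 .nil)
noncomputable def n341 : Strat := .move 760 n335 (.cons 678 n337 (.cons 884 n340 .nil))
noncomputable def n342 : Strat := .move 883 n312 (.cons 924 n341 .nil)
noncomputable def n343 : Strat := .move 842 n314 (.cons 924 n317 (.cons 883 n332 (.cons 720 n342 .nil)))
noncomputable def n344 : Strat := .move 843 n88 (.cons 844 n343 .nil)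
noncomputable def n345 : Strat := .move 761 n311 (.cons 762 n344 .nil)
noncomputable def n346 : Strat := .move 802 n76 (.cons 839 n345 .nil)
noncomputable def n347 : Strat := .win 760 5 757
noncomputable def n348 : Strat := .move 798 n89 (.cons 842 n347 .nil)
noncomputable def n349 : Strat := .move 843 n88 (.cons 844 n348 .nil)
noncomputable def n350 : Strat := .move 802 n311 (.cons 762 n349 .nil)
noncomputable def n351 : Strat := .win 798 0 798
noncomputable def n352 : Strat := .move 842 n351 (.cons 798 n314 .nil)
noncomputable def n353 : Strat := .move 843 n88 (.cons 844 n352 .nil)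
noncomputable def n354 : Strat := .move 802 n311 (.cons 762 n353 .nil)
noncomputable def n355 : Strat := .win 798 5 757
noncomputable def n356 : Strat := .win 759 4 758
noncomputable def n357 : Strat := .win 763 4 759
noncomputable def n358 : Strat := .move 762 n356 (.cons 759 n357 .nil)
noncomputable def n359 : Strat := .move 760 n355 (.cons 798 n358 .nil)
noncomputable def n360 : Strat := .move 802 n311 (.cons 762 n344 .nil)
noncomputable def n361 : Strat := .win 720 3 719
noncomputable def n362 : Strat := .win 718 7 718
noncomputable def n363 : Strat := .move 759 n362 (.cons 718 n81 .nil)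
noncomputable def n364 : Strat := .move 883 n361 (.cons 720 n363 .nil)
noncomputable def n365 : Strat := .win 845 2 800
noncomputable def n366 : Strat := .win 802 0 799
noncomputable def n367 : Strat := .move 844 n365 (.cons 845 n366 .nil)
noncomputable def n368 : Strat := .move 843 n333 (.cons 884 n367 .nil)
noncomputable def n369 : Strat := .move 802 n334 (.cons 678 n88 .nil)
noncomputable def n370 : Strat := .move 843 n333 (.cons 884 n369 .nil)
noncomputable def n371 : Strat := .win 718 7 677
noncomputable def n372 : Strat := .win 636 7 636
noncomputable def n373 : Strat := .win 638 3 637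
noncomputable def n374 : Strat := .win 720 3 678
noncomputable def n375 : Strat := .move 679 n373 (.cons 638 n374 .nil)
noncomputable def n376 : Strat := .move 678 n372 (.cons 636 n375 .nil)
noncomputable def n377 : Strat := .move 677 n371 (.cons 718 n376 .nil)
noncomputable def n378 : Strat := .move 719 n368 (.cons 845 n370 (.cons 843 n377 .nil))
noncomputable def n379 : Strat := .win 802 3 760
noncomputable def n380 : Strat := .win 759 7 759
noncomputable def n381 : Strat := .move 924 n379 (.cons 802 n380 .nil)
noncomputable def n382 : Strat := .move 843 n88 (.cons 844 n337 .nil)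
noncomputable def n383 : Strat := .move 802 n312 (.cons 924 n382 .nil)
noncomputable def n384 : Strat := .win 759 7 718
noncomputable def n385 : Strat := .win 677 7 677
noncomputable def n386 : Strat := .win 843 6 719
noncomputable def n387 : Strat := .move 884 n336 (.cons 925 n386 .nil)
noncomputable def n388 : Strat := .move 719 n385 (.cons 677 n387 .nil)
noncomputable def n389 : Strat := .move 718 n384 (.cons 759 n388 .nil)
noncomputable def n390 : Strat := .move 883 n363 (.cons 718 n381 (.cons 759 n383 (.cons 924 n389 .nil)))
noncomputable def n391 : Strat := .move 883 n361 (.cons 720 n381 .nil)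
noncomputable def n392 : Strat := .move 842 n364 (.cons 883 n378 (.cons 720 n390 (.cons 718 n391 .nil)))
noncomputable def n393 : Strat := .move 760 n355 (.cons 798 n392 .nil)
noncomputable def n394 : Strat := .move 761 n350 (.cons 760 n354 (.cons 802 n359 (.cons 798 n360 (.cons 762 n393 .nil))))
noncomputable def n395 : Strat := .move 801 n298 (.cons 802 n310 (.cons 798 n346 (.cons 839 n394 .nil)))
noncomputable def n396 : Strat := .move 922 n289 (.cons 757 n294 .nil)
noncomputable def n397 : Strat := .win 797 2 755
noncomputable def n398 : Strat := .move 755 n397 (.cons 797 n121 .nil)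
noncomputable def n399 : Strat := .move 756 n19 (.cons 801 n398 .nil)
noncomputable def n400 : Strat := .move 757 n2 (.cons 922 n399 .nil)
noncomputable def n401 : Strat := .move 801 n78 (.cons 802 n300 .nil)
noncomputable def n402 : Strat := .win 962 3 798
noncomputable def n403 : Strat := .win 961 1 797
noncomputable def n404 : Strat := .win 879 1 756
noncomputable def n405 : Strat := .move 920 n403 (.cons 961 n404 .nil)
noncomputable def n406 : Strat := .move 921 n402 (.cons 962 n405 .nil)
noncomputable def n407 : Strat := .move 755 n121 (.cons 754 n397 .nil)
noncomputable def n408 : Strat := .move 756 n17 (.cons 715 n407 .nil)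
noncomputable def n409 : Strat := .move 880 n406 (.cons 961 n408 .nil)
noncomputable def n410 : Strat := .move 757 n299 (.cons 716 n409 .nil)
noncomputable def n411 : Strat := .move 838 n291 (.cons 837 n410 .nil)
noncomputable def n412 : Strat := .move 839 n293 (.cons 838 n401 (.cons 801 n411 .nil))
noncomputable def n413 : Strat := .win 880 1 797
noncomputable def n414 : Strat := .win 879 3 797
noncomputable def n415 : Strat := .move 961 n413 (.cons 880 n414 .nil)
noncomputable def n416 : Strat := .win 880 2 838
noncomputable def n417 : Strat := .move 883 n416 (.cons 880 n84 .nil)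
noncomputable def n418 : Strat := .move 882 n247 (.cons 919 n417 .nil)
noncomputable def n419 : Strat := .win 923 5 879
noncomputable def n420 : Strat := .move 883 n419 (.cons 923 n84 .nil)
noncomputable def n421 : Strat := .move 882 n247 (.cons 919 n420 .nil)
noncomputable def n422 : Strat := .move 920 n415 (.cons 879 n418 (.cons 880 n421 .nil))
noncomputable def n423 : Strat := .move 921 n64 (.cons 962 n422 .nil)
noncomputable def n424 : Strat := .move 838 n291 (.cons 837 n423 .nil)
noncomputable def n425 : Strat := .move 839 n290 (.cons 963 n424 .nil)
noncomputable def n426 : Strat := .move 922 n289 (.cons 757 n425 .nil)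
noncomputable def n427 : Strat := .move 761 n347 (.cons 760 n311 .nil)
noncomputable def n428 : Strat := .move 802 n88 (.cons 844 n427 .nil)
noncomputable def n429 : Strat := .move 843 n89 (.cons 842 n428 .nil)
noncomputable def n430 : Strat := .move 838 n94 (.cons 837 n95 .nil)
noncomputable def n431 : Strat := .win 795 0 795
noncomputable def n432 : Strat := .move 796 n212 (.cons 754 n431 .nil)
noncomputable def n433 : Strat := .move 755 n211 (.cons 756 n432 .nil)
noncomputable def n434 : Strat := .move 839 n79 (.cons 838 n433 .nil)
noncomputable def n435 : Strat := .move 796 n212 (.cons 754 n200 .nil)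
noncomputable def n436 : Strat := .move 755 n211 (.cons 756 n435 .nil)
noncomputable def n437 : Strat := .move 755 n212 (.cons 754 n211 .nil)
noncomputable def n438 : Strat := .win 753 2 753
noncomputable def n439 : Strat := .win 755 2 754
noncomputable def n440 : Strat := .move 754 n438 (.cons 753 n439 .nil)
noncomputable def n441 : Strat := .move 795 n206 (.cons 839 n440 .nil)
noncomputable def n442 : Strat := .win 835 4 794
noncomputable def n443 : Strat := .win 837 4 795
noncomputable def n444 : Strat := .move 836 n442 (.cons 835 n443 .nil)
noncomputable def n445 : Strat := .move 795 n206 (.cons 839 n444 .nil)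
noncomputable def n446 : Strat := .move 796 n437 (.cons 756 n441 (.cons 754 n445 .nil))
noncomputable def n447 : Strat := .move 797 n430 (.cons 837 n434 (.cons 839 n436 (.cons 838 n446 .nil)))
noncomputable def n448 : Strat := .move 842 n82 (.cons 843 n447 .nil)
noncomputable def n449 : Strat := .move 760 n179 (.cons 761 n448 .nil)
noncomputable def n450 : Strat := .move 801 n80 (.cons 839 n429 (.cons 802 n449 .nil))
noncomputable def n451 : Strat := .move 798 n396 (.cons 839 n400 (.cons 922 n412 (.cons 801 n426 (.cons 757 n450 .nil))))
noncomputable def n452 : Strat := .move 798 n289 (.cons 757 n425 .nil)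
noncomputable def n453 : Strat := .move 922 n288 (.cons 759 n452 .nil)
noncomputable def n454 : Strat := .win 718 1 676
noncomputable def n455 : Strat := .win 884 7 719
noncomputable def n456 : Strat := .move 719 n455 (.cons 884 n334 .nil)
noncomputable def n457 : Strat := .move 843 n88 (.cons 844 n456 .nil)
noncomputable def n458 : Strat := .move 760 n355 (.cons 798 n457 .nil)
noncomputable def n459 : Strat := .move 761 n311 (.cons 762 n458 .nil)
noncomputable def n460 : Strat := .move 802 n76 (.cons 839 n459 .nil)
noncomputable def n461 : Strat := .move 760 n71 (.cons 797 n179 .nil)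
noncomputable def n462 : Strat := .move 757 n170 (.cons 756 n163 .nil)
noncomputable def n463 : Strat := .move 798 n461 (.cons 760 n462 .nil)
noncomputable def n464 : Strat := .win 761 5 758
noncomputable def n465 : Strat := .win 763 5 759
noncomputable def n466 : Strat := .win 845 0 800
noncomputable def n467 : Strat := .win 843 0 799
noncomputable def n468 : Strat := .move 844 n466 (.cons 845 n467 .nil)
noncomputable def n469 : Strat := .move 803 n465 (.cons 763 n468 .nil)
noncomputable def n470 : Strat := .move 762 n464 (.cons 761 n469 .nil)
noncomputable def n471 : Strat := .move 802 n76 (.cons 839 n470 .nil)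
noncomputable def n472 : Strat := .move 797 n193 (.cons 755 n73 .nil)
noncomputable def n473 : Strat := .move 756 n306 (.cons 757 n472 .nil)
noncomputable def n474 : Strat := .move 798 n89 (.cons 842 n473 .nil)
noncomputable def n475 : Strat := .move 843 n88 (.cons 844 n474 .nil)
noncomputable def n476 : Strat := .move 802 n76 (.cons 839 n475 .nil)
noncomputable def n477 : Strat := .win 762 4 758
noncomputable def n478 : Strat := .move 760 n477 (.cons 762 n355 .nil)
noncomputable def n479 : Strat := .move 720 n316 (.cons 883 n315 .nil)
noncomputable def n480 : Strat := .move 842 n351 (.cons 798 n479 .nil)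
noncomputable def n481 : Strat := .move 843 n88 (.cons 844 n480 .nil)
noncomputable def n482 : Strat := .move 802 n311 (.cons 762 n481 .nil)
noncomputable def n483 : Strat := .win 760 4 758
noncomputable def n484 : Strat := .win 802 5 758
noncomputable def n485 : Strat := .move 762 n483 (.cons 760 n484 .nil)
noncomputable def n486 : Strat := .move 798 n82 (.cons 843 n347 .nil)
noncomputable def n487 : Strat := .move 883 n361 (.cons 720 n81 .nil)
noncomputable def n488 : Strat := .move 760 n355 (.cons 798 n487 .nil)
noncomputable def n489 : Strat := .win 760 3 719
noncomputable def n490 : Strat := .win 843 1 719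
noncomputable def n491 : Strat := .move 802 n490 (.cons 843 n315 .nil)
noncomputable def n492 : Strat := .move 720 n489 (.cons 760 n491 .nil)
noncomputable def n493 : Strat := .move 883 n81 (.cons 924 n492 .nil)
noncomputable def n494 : Strat := .move 843 n351 (.cons 798 n367 .nil)
noncomputable def n495 : Strat := .move 842 n486 (.cons 843 n488 (.cons 798 n493 (.cons 760 n494 .nil)))
noncomputable def n496 : Strat := .move 761 n478 (.cons 760 n482 (.cons 798 n485 (.cons 762 n495 .nil)))
noncomputable def n497 : Strat := .move 801 n460 (.cons 802 n463 (.cons 798 n471 (.cons 761 n476 (.cons 839 n496 .nil))))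
noncomputable def n498 : Strat := .move 677 n454 (.cons 718 n497 .nil)
noncomputable def n499 : Strat := .move 759 n69 (.cons 922 n498 .nil)
noncomputable def n500 : Strat := .move 922 n288 (.cons 759 n294 .nil)
noncomputable def n501 : Strat := .win 801 5 757
noncomputable def n502 : Strat := .move 761 n501 (.cons 801 n477 .nil)
noncomputable def n503 : Strat := .move 760 n71 (.cons 797 n502 .nil)
noncomputable def n504 : Strat := .move 759 n69 (.cons 922 n503 .nil)
noncomputable def n505 : Strat := .move 922 n288 (.cons 759 n425 .nil)
noncomputable def n506 : Strat := .move 798 n500 (.cons 759 n450 (.cons 839 n504 (.cons 801 n505 .nil)))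
noncomputable def n507 : Strat := .move 761 n311 (.cons 762 n347 .nil)
noncomputable def n508 : Strat := .move 802 n88 (.cons 844 n507 .nil)
noncomputable def n509 : Strat := .move 843 n89 (.cons 842 n508 .nil)
noncomputable def n510 : Strat := .move 921 n64 (.cons 962 n509 .nil)
noncomputable def n511 : Strat := .move 798 n289 (.cons 757 n510 .nil)
noncomputable def n512 : Strat := .move 922 n288 (.cons 759 n511 .nil)
noncomputable def n513 : Strat := .move 922 n289 (.cons 757 n510 .nil)
noncomputable def n514 : Strat := .move 757 n2 (.cons 922 n170 .nil)
noncomputable def n515 : Strat := .move 798 n513 (.cons 757 n429 (.cons 843 n514 .nil))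
noncomputable def n516 : Strat := .move 844 n467 (.cons 843 n466 .nil)
noncomputable def n517 : Strat := .move 803 n465 (.cons 763 n516 .nil)
noncomputable def n518 : Strat := .move 762 n464 (.cons 761 n517 .nil)
noncomputable def n519 : Strat := .move 759 n69 (.cons 922 n518 .nil)
noncomputable def n520 : Strat := .win 762 5 759
noncomputable def n521 : Strat := .win 764 5 760
noncomputable def n522 : Strat := .win 760 2 759
noncomputable def n523 : Strat := .move 804 n521 (.cons 764 n522 .nil)
noncomputable def n524 : Strat := .move 763 n520 (.cons 762 n523 .nil)
noncomputable def n525 : Strat := .move 803 n466 (.cons 845 n524 .nil)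
noncomputable def n526 : Strat := .move 844 n467 (.cons 843 n525 .nil)
noncomputable def n527 : Strat := .move 718 n190 (.cons 677 n526 .nil)
noncomputable def n528 : Strat := .move 759 n69 (.cons 922 n527 .nil)
noncomputable def n529 : Strat := .win 846 0 801
noncomputable def n530 : Strat := .win 844 0 800
noncomputable def n531 : Strat := .move 845 n529 (.cons 846 n530 .nil)
noncomputable def n532 : Strat := .move 804 n522 (.cons 760 n531 .nil)
noncomputable def n533 : Strat := .move 718 n190 (.cons 677 n532 .nil)
noncomputable def n534 : Strat := .move 803 n465 (.cons 763 n533 .nil)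
noncomputable def n535 : Strat := .move 762 n464 (.cons 761 n534 .nil)
noncomputable def n536 : Strat := .move 759 n69 (.cons 922 n535 .nil)
noncomputable def n537 : Strat := .win 842 6 719
noncomputable def n538 : Strat := .move 719 n537 (.cons 842 n334 .nil)
noncomputable def n539 : Strat := .move 760 n318 (.cons 925 n538 .nil)
noncomputable def n540 : Strat := .win 882 4 880
noncomputable def n541 : Strat := .win 923 5 880
noncomputable def n542 : Strat := .win 761 1 760
noncomputable def n543 : Strat := .move 924 n541 (.cons 923 n542 .nil)
noncomputable def n544 : Strat := .move 883 n540 (.cons 882 n543 .nil)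
noncomputable def n545 : Strat := .move 884 n539 (.cons 760 n544 .nil)
noncomputable def n546 : Strat := .move 921 n64 (.cons 962 n545 .nil)
noncomputable def n547 : Strat := .move 922 n288 (.cons 759 n546 .nil)
noncomputable def n548 : Strat := .move 843 n88 (.cons 844 n547 .nil)
noncomputable def n549 : Strat := .move 720 n490 (.cons 843 n315 .nil)
noncomputable def n550 : Strat := .move 842 n312 (.cons 924 n549 .nil)
noncomputable def n551 : Strat := .win 880 4 879
noncomputable def n552 : Strat := .move 920 n551 (.cons 880 n247 .nil)
noncomputable def n553 : Strat := .move 882 n244 (.cons 884 n552 .nil)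
noncomputable def n554 : Strat := .move 883 n550 (.cons 842 n553 .nil)
noncomputable def n555 : Strat := .move 921 n64 (.cons 962 n554 .nil)
noncomputable def n556 : Strat := .move 922 n288 (.cons 759 n555 .nil)
noncomputable def n557 : Strat := .move 761 n311 (.cons 762 n556 .nil)
noncomputable def n558 : Strat := .move 802 n519 (.cons 922 n345 (.cons 761 n528 (.cons 843 n536 (.cons 762 n548 (.cons 844 n557 .nil)))))
noncomputable def n559 : Strat := .win 883 7 718
noncomputable def n560 : Strat := .move 798 n82 (.cons 843 n179 .nil)
noncomputable def n561 : Strat := .move 760 n559 (.cons 883 n560 .nil)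
noncomputable def n562 : Strat := .win 760 7 718
noncomputable def n563 : Strat := .move 883 n81 (.cons 924 n562 .nil)
noncomputable def n564 : Strat := .move 760 n179 (.cons 761 n71 .nil)
noncomputable def n565 : Strat := .move 798 n82 (.cons 843 n564 .nil)
noncomputable def n566 : Strat := .win 884 5 840
noncomputable def n567 : Strat := .move 882 n566 (.cons 884 n339 .nil)
noncomputable def n568 : Strat := .move 844 n365 (.cons 845 n567 .nil)
noncomputable def n569 : Strat := .move 883 n81 (.cons 924 n568 .nil)
noncomputable def n570 : Strat := .move 843 n351 (.cons 798 n569 .nil)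
noncomputable def n571 : Strat := .move 842 n561 (.cons 761 n563 (.cons 883 n565 (.cons 760 n570 .nil)))
noncomputable def n572 : Strat := .move 718 n190 (.cons 677 n571 .nil)
noncomputable def n573 : Strat := .move 759 n69 (.cons 922 n572 .nil)
noncomputable def n574 : Strat := .move 798 n82 (.cons 843 n71 .nil)
noncomputable def n575 : Strat := .move 760 n559 (.cons 883 n574 .nil)
noncomputable def n576 : Strat := .win 637 1 636
noncomputable def n577 : Strat := .move 678 n576 (.cons 637 n375 .nil)
noncomputable def n578 : Strat := .move 719 n577 (.cons 678 n368 .nil)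
noncomputable def n579 : Strat := .move 760 n559 (.cons 883 n578 .nil)
noncomputable def n580 : Strat := .move 756 n193 (.cons 755 n306 .nil)
noncomputable def n581 : Strat := .move 797 n73 (.cons 760 n580 .nil)
noncomputable def n582 : Strat := .move 798 n82 (.cons 843 n581 .nil)
noncomputable def n583 : Strat := .move 844 n366 (.cons 802 n365 .nil)
noncomputable def n584 : Strat := .move 843 n351 (.cons 798 n583 .nil)
noncomputable def n585 : Strat := .move 842 n575 (.cons 798 n579 (.cons 883 n582 (.cons 760 n584 (.cons 843 n563 .nil))))
noncomputable def n586 : Strat := .move 718 n190 (.cons 677 n585 .nil)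
noncomputable def n587 : Strat := .move 759 n69 (.cons 922 n586 .nil)
noncomputable def n588 : Strat := .move 922 n288 (.cons 759 n289 .nil)
noncomputable def n589 : Strat := .move 759 n69 (.cons 922 n564 .nil)
noncomputable def n590 : Strat := .move 798 n588 (.cons 759 n514 (.cons 757 n589 (.cons 922 n309 .nil)))
noncomputable def n591 : Strat := .move 920 n247 (.cons 919 n551 .nil)
noncomputable def n592 : Strat := .move 882 n244 (.cons 884 n591 .nil)
noncomputable def n593 : Strat := .move 920 n551 (.cons 880 n419 .nil)
noncomputable def n594 : Strat := .move 882 n244 (.cons 884 n593 .nil)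
noncomputable def n595 : Strat := .move 920 n247 (.cons 919 n419 .nil)
noncomputable def n596 : Strat := .move 882 n244 (.cons 884 n595 .nil)
noncomputable def n597 : Strat := .move 798 n89 (.cons 842 n289 .nil)
noncomputable def n598 : Strat := .move 802 n542 (.cons 761 n88 .nil)
noncomputable def n599 : Strat := .move 843 n597 (.cons 757 n598 .nil)
noncomputable def n600 : Strat := .move 924 n541 (.cons 923 n599 .nil)
noncomputable def n601 : Strat := .move 884 n540 (.cons 882 n600 .nil)
noncomputable def n602 : Strat := .move 882 n247 (.cons 919 n551 .nil)
noncomputable def n603 : Strat := .move 882 n551 (.cons 880 n419 .nil)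
noncomputable def n604 : Strat := .move 882 n247 (.cons 919 n419 .nil)
noncomputable def n605 : Strat := .win 880 5 877
noncomputable def n606 : Strat := .win 876 2 876
noncomputable def n607 : Strat := .win 878 2 877
noncomputable def n608 : Strat := .move 877 n606 (.cons 876 n607 .nil)
noncomputable def n609 : Strat := .move 918 n605 (.cons 880 n608 .nil)
noncomputable def n610 : Strat := .win 879 2 878
noncomputable def n611 : Strat := .win 877 2 877
noncomputable def n612 : Strat := .move 878 n610 (.cons 879 n611 .nil)
noncomputable def n613 : Strat := .win 961 4 919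
noncomputable def n614 : Strat := .win 959 4 918
noncomputable def n615 : Strat := .move 960 n613 (.cons 961 n614 .nil)
noncomputable def n616 : Strat := .move 923 n612 (.cons 877 n615 .nil)
noncomputable def n617 : Strat := .win 958 4 917
noncomputable def n618 : Strat := .win 960 4 918
noncomputable def n619 : Strat := .move 959 n617 (.cons 958 n618 .nil)
noncomputable def n620 : Strat := .move 918 n605 (.cons 880 n619 .nil)
noncomputable def n621 : Strat := .move 919 n609 (.cons 918 n616 (.cons 878 n620 .nil))
noncomputable def n622 : Strat := .move 920 n602 (.cons 919 n603 (.cons 880 n604 (.cons 882 n621 .nil)))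
noncomputable def n623 : Strat := .win 884 5 880
noncomputable def n624 : Strat := .win 925 2 880
noncomputable def n625 : Strat := .win 879 2 879
noncomputable def n626 : Strat := .move 880 n624 (.cons 925 n625 .nil)
noncomputable def n627 : Strat := .move 923 n623 (.cons 884 n626 .nil)
noncomputable def n628 : Strat := .win 880 2 880
noncomputable def n629 : Strat := .win 842 6 801
noncomputable def n630 : Strat := .win 965 0 921
noncomputable def n631 : Strat := .move 966 n629 (.cons 842 n630 .nil)
noncomputable def n632 : Strat := .move 925 n628 (.cons 880 n631 .nil)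
noncomputable def n633 : Strat := .move 923 n623 (.cons 884 n632 .nil)
noncomputable def n634 : Strat := .move 884 n541 (.cons 923 n599 .nil)
noncomputable def n635 : Strat := .win 842 3 760
noncomputable def n636 : Strat := .move 761 n635 (.cons 842 n311 .nil)
noncomputable def n637 : Strat := .win 761 3 760
noncomputable def n638 : Strat := .move 798 n82 (.cons 843 n289 .nil)
noncomputable def n639 : Strat := .move 842 n637 (.cons 761 n638 .nil)
noncomputable def n640 : Strat := .win 884 1 760
noncomputable def n641 : Strat := .move 843 n640 (.cons 884 n88 .nil)
noncomputable def n642 : Strat := .move 761 n311 (.cons 762 n641 .nil)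
noncomputable def n643 : Strat := .move 798 n289 (.cons 757 n90 .nil)
noncomputable def n644 : Strat := .move 802 n636 (.cons 762 n639 (.cons 842 n642 (.cons 761 n643 .nil)))
noncomputable def n645 : Strat := .move 762 n465 (.cons 763 n464 .nil)
noncomputable def n646 : Strat := .move 803 n468 (.cons 843 n645 .nil)
noncomputable def n647 : Strat := .move 802 n636 (.cons 762 n639 (.cons 842 n646 (.cons 761 n643 .nil)))
noncomputable def n648 : Strat := .move 924 n627 (.cons 879 n633 (.cons 925 n634 (.cons 923 n644 (.cons 884 n647 .nil))))
noncomputable def n649 : Strat := .move 883 n592 (.cons 919 n594 (.cons 880 n596 (.cons 920 n601 (.cons 884 n622 (.cons 882 n648 .nil)))))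
noncomputable def n650 : Strat := .move 921 n64 (.cons 962 n649 .nil)
noncomputable def n651 : Strat := .move 922 n288 (.cons 759 n650 .nil)
noncomputable def n652 : Strat := .move 801 n512 (.cons 922 n394 (.cons 759 n515 (.cons 798 n558 (.cons 802 n573 (.cons 761 n587 (.cons 843 n590 (.cons 760 n651 .nil)))))))
noncomputable def n653 : Strat := .move 802 n76 (.cons 839 n519 .nil)
noncomputable def n654 : Strat := .move 882 n416 (.cons 880 n84 .nil)
noncomputable def n655 : Strat := .move 842 n562 (.cons 760 n81 .nil)
noncomputable def n656 : Strat := .move 883 n654 (.cons 884 n655 .nil)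
noncomputable def n657 : Strat := .move 718 n190 (.cons 677 n656 .nil)
noncomputable def n658 : Strat := .move 759 n69 (.cons 922 n657 .nil)
noncomputable def n659 : Strat := .move 838 n291 (.cons 837 n658 .nil)
noncomputable def n660 : Strat := .move 839 n78 (.cons 802 n659 .nil)
noncomputable def n661 : Strat := .move 882 n248 (.cons 883 n247 .nil)
noncomputable def n662 : Strat := .win 918 5 877
noncomputable def n663 : Strat := .move 924 n625 (.cons 879 n624 .nil)
noncomputable def n664 : Strat := .win 924 2 879
noncomputable def n665 : Strat := .move 879 n664 (.cons 924 n258 .nil)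
noncomputable def n666 : Strat := .move 923 n663 (.cons 925 n665 (.cons 879 n615 .nil))
noncomputable def n667 : Strat := .move 919 n662 (.cons 918 n666 .nil)
noncomputable def n668 : Strat := .win 836 2 836
noncomputable def n669 : Strat := .move 878 n668 (.cons 836 n261 .nil)
noncomputable def n670 : Strat := .win 838 2 837
noncomputable def n671 : Strat := .move 882 n670 (.cons 838 n248 .nil)
noncomputable def n672 : Strat := .move 837 n669 (.cons 877 n671 .nil)
noncomputable def n673 : Strat := .move 923 n664 (.cons 924 n258 .nil)
noncomputable def n674 : Strat := .move 923 n272 (.cons 960 n664 .nil)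
noncomputable def n675 : Strat := .move 1002 n270 (.cons 839 n269 .nil)
noncomputable def n676 : Strat := .move 961 n674 (.cons 924 n675 .nil)
noncomputable def n677 : Strat := .move 879 n263 (.cons 923 n672 (.cons 877 n673 (.cons 878 n676 .nil)))
noncomputable def n678 : Strat := .move 920 n661 (.cons 882 n667 (.cons 919 n677 .nil))
noncomputable def n679 : Strat := .move 921 n64 (.cons 962 n678 .nil)
noncomputable def n680 : Strat := .move 922 n288 (.cons 759 n679 .nil)
noncomputable def n681 : Strat := .move 839 n84 (.cons 884 n233 .nil)
noncomputable def n682 : Strat := .move 882 n245 (.cons 920 n681 .nil)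
noncomputable def n683 : Strat := .move 921 n655 (.cons 924 n682 .nil)
noncomputable def n684 : Strat := .win 842 7 759
noncomputable def n685 : Strat := .move 924 n250 (.cons 925 n684 .nil)
noncomputable def n686 : Strat := .move 882 n685 (.cons 842 n681 .nil)
noncomputable def n687 : Strat := .win 843 5 839
noncomputable def n688 : Strat := .move 882 n687 (.cons 843 n681 .nil)
noncomputable def n689 : Strat := .move 842 n562 (.cons 760 n688 .nil)
noncomputable def n690 : Strat := .move 842 n81 (.cons 924 n562 .nil)
noncomputable def n691 : Strat := .win 839 2 839
noncomputable def n692 : Strat := .win 926 0 881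
noncomputable def n693 : Strat := .win 924 0 880
noncomputable def n694 : Strat := .move 925 n692 (.cons 926 n693 .nil)
noncomputable def n695 : Strat := .move 884 n691 (.cons 839 n694 .nil)
noncomputable def n696 : Strat := .move 924 n251 (.cons 923 n250 .nil)
noncomputable def n697 : Strat := .move 838 n253 (.cons 837 n252 .nil)
noncomputable def n698 : Strat := .move 879 n696 (.cons 925 n697 .nil)
noncomputable def n699 : Strat := .win 921 4 879
noncomputable def n700 : Strat := .move 920 n268 (.cons 919 n699 .nil)
noncomputable def n701 : Strat := .move 879 n696 (.cons 925 n700 .nil)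
noncomputable def n702 : Strat := .move 882 n681 (.cons 838 n695 (.cons 884 n698 (.cons 839 n701 .nil)))
noncomputable def n703 : Strat := .move 883 n683 (.cons 760 n686 (.cons 924 n689 (.cons 839 n690 (.cons 842 n702 .nil))))
noncomputable def n704 : Strat := .move 718 n190 (.cons 677 n703 .nil)
noncomputable def n705 : Strat := .move 759 n69 (.cons 922 n704 .nil)
noncomputable def n706 : Strat := .win 882 5 878
noncomputable def n707 : Strat := .move 919 n662 (.cons 918 n706 .nil)
noncomputable def n708 : Strat := .move 923 n665 (.cons 878 n615 .nil)
noncomputable def n709 : Strat := .move 919 n662 (.cons 918 n708 .nil)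
noncomputable def n710 : Strat := .move 920 n661 (.cons 883 n707 (.cons 882 n709 (.cons 919 n677 .nil)))
noncomputable def n711 : Strat := .move 921 n64 (.cons 962 n710 .nil)
noncomputable def n712 : Strat := .move 922 n288 (.cons 759 n711 .nil)
noncomputable def n713 : Strat := .win 1003 3 839
noncomputable def n714 : Strat := .win 839 3 798
noncomputable def n715 : Strat := .move 962 n713 (.cons 1003 n714 .nil)
noncomputable def n716 : Strat := .move 921 n245 (.cons 920 n715 .nil)
noncomputable def n717 : Strat := .move 882 n695 (.cons 884 n716 (.cons 839 n701 .nil))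
noncomputable def n718 : Strat := .move 882 n687 (.cons 843 n245 .nil)
noncomputable def n719 : Strat := .move 921 n715 (.cons 839 n718 .nil)
noncomputable def n720 : Strat := .move 842 n562 (.cons 760 n719 .nil)
noncomputable def n721 : Strat := .move 883 n690 (.cons 842 n717 (.cons 924 n720 .nil))
noncomputable def n722 : Strat := .move 718 n190 (.cons 677 n721 .nil)
noncomputable def n723 : Strat := .move 759 n69 (.cons 922 n722 .nil)
noncomputable def n724 : Strat := .move 919 n706 (.cons 882 n666 .nil)
noncomputable def n725 : Strat := .win 882 2 837
noncomputable def n726 : Strat := .win 839 5 796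
noncomputable def n727 : Strat := .move 838 n725 (.cons 882 n726 .nil)
noncomputable def n728 : Strat := .move 837 n669 (.cons 877 n727 .nil)
noncomputable def n729 : Strat := .move 879 n263 (.cons 923 n728 (.cons 877 n673 (.cons 878 n676 .nil)))
noncomputable def n730 : Strat := .move 920 n707 (.cons 918 n724 (.cons 919 n729 (.cons 882 n667 .nil)))
noncomputable def n731 : Strat := .move 921 n64 (.cons 962 n730 .nil)
noncomputable def n732 : Strat := .move 922 n288 (.cons 759 n731 .nil)
noncomputable def n733 : Strat := .win 922 1 798
noncomputable def n734 : Strat := .move 962 n733 (.cons 922 n714 .nil)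
noncomputable def n735 : Strat := .move 922 n64 (.cons 962 n288 .nil)
noncomputable def n736 : Strat := .move 962 n714 (.cons 839 n713 .nil)
noncomputable def n737 : Strat := .move 883 n655 (.cons 924 n682 .nil)
noncomputable def n738 : Strat := .move 718 n190 (.cons 677 n737 .nil)
noncomputable def n739 : Strat := .move 759 n69 (.cons 922 n738 .nil)
noncomputable def n740 : Strat := .move 921 n734 (.cons 839 n735 (.cons 922 n736 (.cons 962 n739 .nil)))
noncomputable def n741 : Strat := .win 921 1 798
noncomputable def n742 : Strat := .win 1003 1 839
noncomputable def n743 : Strat := .move 962 n741 (.cons 921 n742 .nil)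
noncomputable def n744 : Strat := .win 839 7 839
noncomputable def n745 : Strat := .win 921 7 880
noncomputable def n746 : Strat := .win 1085 1 921
noncomputable def n747 : Strat := .win 1003 1 880
noncomputable def n748 : Strat := .move 1044 n746 (.cons 1085 n747 .nil)
noncomputable def n749 : Strat := .move 1045 n745 (.cons 921 n748 .nil)
noncomputable def n750 : Strat := .move 1004 n744 (.cons 839 n749 .nil)
noncomputable def n751 : Strat := .win 1045 7 880
noncomputable def n752 : Strat := .move 1004 n744 (.cons 839 n751 .nil)
noncomputable def n753 : Strat := .move 921 n64 (.cons 962 n752 .nil)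
noncomputable def n754 : Strat := .win 962 1 839
noncomputable def n755 : Strat := .win 1044 1 880
noncomputable def n756 : Strat := .move 1003 n754 (.cons 962 n755 .nil)
noncomputable def n757 : Strat := .move 1004 n744 (.cons 839 n756 .nil)
noncomputable def n758 : Strat := .move 963 n743 (.cons 962 n750 (.cons 1003 n753 (.cons 921 n757 .nil)))
noncomputable def n759 : Strat := .move 922 n288 (.cons 759 n758 .nil)
noncomputable def n760 : Strat := .move 878 n262 (.cons 923 n261 .nil)
noncomputable def n761 : Strat := .move 921 n64 (.cons 962 n760 .nil)
noncomputable def n762 : Strat := .move 922 n288 (.cons 759 n761 .nil)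
noncomputable def n763 : Strat := .move 923 n258 (.cons 878 n664 .nil)
noncomputable def n764 : Strat := .move 921 n64 (.cons 962 n763 .nil)
noncomputable def n765 : Strat := .move 922 n288 (.cons 759 n764 .nil)
noncomputable def n766 : Strat := .move 837 n670 (.cons 838 n668 .nil)
noncomputable def n767 : Strat := .move 919 n264 (.cons 920 n265 .nil)
noncomputable def n768 : Strat := .move 882 n766 (.cons 836 n767 .nil)
noncomputable def n769 : Strat := .move 921 n261 (.cons 877 n768 .nil)
noncomputable def n770 : Strat := .move 878 n262 (.cons 923 n769 .nil)
noncomputable def n771 : Strat := .move 922 n288 (.cons 759 n770 .nil)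
noncomputable def n772 : Strat := .move 883 n250 (.cons 925 n684 .nil)
noncomputable def n773 : Strat := .move 924 n251 (.cons 923 n772 .nil)
noncomputable def n774 : Strat := .move 878 n766 (.cons 836 n767 .nil)
noncomputable def n775 : Strat := .move 882 n773 (.cons 924 n774 .nil)
noncomputable def n776 : Strat := .move 718 n190 (.cons 677 n775 .nil)
noncomputable def n777 : Strat := .move 759 n69 (.cons 922 n776 .nil)
noncomputable def n778 : Strat := .move 878 n261 (.cons 877 n768 .nil)
noncomputable def n779 : Strat := .move 921 n64 (.cons 962 n778 .nil)
noncomputable def n780 : Strat := .move 922 n288 (.cons 759 n779 .nil)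
noncomputable def n781 : Strat := .move 882 n264 (.cons 920 n670 .nil)
noncomputable def n782 : Strat := .move 837 n668 (.cons 836 n781 .nil)
noncomputable def n783 : Strat := .move 919 n265 (.cons 918 n782 .nil)
noncomputable def n784 : Strat := .move 921 n64 (.cons 962 n261 .nil)
noncomputable def n785 : Strat := .move 922 n262 (.cons 923 n784 .nil)
noncomputable def n786 : Strat := .move 878 n783 (.cons 920 n785 .nil)
noncomputable def n787 : Strat := .win 962 6 797
noncomputable def n788 : Strat := .win 756 6 756
noncomputable def n789 : Strat := .move 797 n787 (.cons 962 n788 .nil)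
noncomputable def n790 : Strat := .move 838 n253 (.cons 837 n789 .nil)
noncomputable def n791 : Strat := .move 921 n248 (.cons 883 n790 .nil)
noncomputable def n792 : Strat := .move 920 n268 (.cons 919 n791 .nil)
noncomputable def n793 : Strat := .move 920 n268 (.cons 919 n248 .nil)
noncomputable def n794 : Strat := .move 924 n250 (.cons 925 n251 .nil)
noncomputable def n795 : Strat := .move 883 n245 (.cons 920 n794 .nil)
noncomputable def n796 : Strat := .move 842 n380 (.cons 759 n687 .nil)
noncomputable def n797 : Strat := .move 883 n250 (.cons 925 n796 .nil)
noncomputable def n798 : Strat := .move 924 n251 (.cons 923 n797 .nil)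
noncomputable def n799 : Strat := .move 878 n265 (.cons 918 n668 .nil)
noncomputable def n800 : Strat := .move 837 n670 (.cons 838 n799 .nil)
noncomputable def n801 : Strat := .move 919 n264 (.cons 920 n800 .nil)
noncomputable def n802 : Strat := .move 921 n793 (.cons 919 n795 (.cons 920 n798 (.cons 883 n801 .nil)))
noncomputable def n803 : Strat := .move 878 n265 (.cons 918 n766 .nil)
noncomputable def n804 : Strat := .move 919 n264 (.cons 920 n803 .nil)
noncomputable def n805 : Strat := .move 882 n792 (.cons 797 n802 (.cons 921 n798 (.cons 883 n804 .nil)))
noncomputable def n806 : Strat := .move 920 n699 (.cons 921 n268 .nil)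
noncomputable def n807 : Strat := .move 842 n687 (.cons 843 n562 .nil)
noncomputable def n808 : Strat := .move 882 n806 (.cons 919 n807 .nil)
noncomputable def n809 : Strat := .move 924 n684 (.cons 842 n251 .nil)
noncomputable def n810 : Strat := .move 882 n809 (.cons 923 n685 (.cons 842 n794 (.cons 924 n806 .nil)))
noncomputable def n811 : Strat := .move 882 n794 (.cons 923 n806 .nil)
noncomputable def n812 : Strat := .move 883 n655 (.cons 924 n808 (.cons 760 n810 (.cons 842 n811 .nil)))
noncomputable def n813 : Strat := .move 718 n190 (.cons 677 n812 .nil)
noncomputable def n814 : Strat := .move 759 n69 (.cons 922 n813 .nil)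
noncomputable def n815 : Strat := .move 879 n762 (.cons 877 n765 (.cons 962 n771 (.cons 921 n777 (.cons 923 n780 (.cons 759 n786 (.cons 922 n805 (.cons 878 n814 .nil)))))))
noncomputable def n816 : Strat := .move 718 n190 (.cons 677 n562 .nil)
noncomputable def n817 : Strat := .move 842 n81 (.cons 924 n816 .nil)
noncomputable def n818 : Strat := .move 842 n81 (.cons 924 n688 .nil)
noncomputable def n819 : Strat := .move 718 n190 (.cons 677 n689 .nil)
noncomputable def n820 : Strat := .move 839 n233 (.cons 838 n84 .nil)
noncomputable def n821 : Strat := .move 879 n253 (.cons 837 n696 .nil)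
noncomputable def n822 : Strat := .move 838 n252 (.cons 839 n821 .nil)
noncomputable def n823 : Strat := .move 837 n668 (.cons 836 n670 .nil)
noncomputable def n824 : Strat := .move 919 n265 (.cons 918 n264 .nil)
noncomputable def n825 : Strat := .move 878 n823 (.cons 838 n824 .nil)
noncomputable def n826 : Strat := .move 879 n696 (.cons 925 n825 .nil)
noncomputable def n827 : Strat := .move 882 n820 (.cons 884 n822 (.cons 839 n826 (.cons 838 n695 .nil)))
noncomputable def n828 : Strat := .move 883 n817 (.cons 718 n818 (.cons 924 n819 (.cons 842 n827 .nil)))
noncomputable def n829 : Strat := .move 759 n69 (.cons 922 n828 .nil)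
noncomputable def n830 : Strat := .move 883 n252 (.cons 839 n794 .nil)
noncomputable def n831 : Strat := .move 838 n253 (.cons 837 n830 .nil)
noncomputable def n832 : Strat := .move 878 n668 (.cons 836 n767 .nil)
noncomputable def n833 : Strat := .move 837 n670 (.cons 838 n832 .nil)
noncomputable def n834 : Strat := .move 883 n699 (.cons 921 n794 .nil)
noncomputable def n835 : Strat := .move 920 n268 (.cons 919 n834 .nil)
noncomputable def n836 : Strat := .move 882 n831 (.cons 839 n792 (.cons 883 n833 (.cons 838 n835 .nil)))
noncomputable def n837 : Strat := .win 877 5 836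
noncomputable def n838 : Strat := .move 878 n837 (.cons 877 n767 .nil)
noncomputable def n839 : Strat := .move 839 n58 (.cons 883 n838 .nil)
noncomputable def n840 : Strat := .move 838 n253 (.cons 837 n839 .nil)
noncomputable def n841 : Strat := .move 882 n840 (.cons 838 n835 (.cons 919 n831 (.cons 883 n833 .nil)))
noncomputable def n842 : Strat := .move 924 n380 (.cons 759 n250 .nil)
noncomputable def n843 : Strat := .move 842 n687 (.cons 843 n842 .nil)
noncomputable def n844 : Strat := .move 883 n252 (.cons 839 n843 .nil)
noncomputable def n845 : Strat := .move 838 n253 (.cons 837 n844 .nil)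
noncomputable def n846 : Strat := .move 882 n831 (.cons 839 n798 (.cons 923 n845 (.cons 924 n840 (.cons 883 n833 .nil))))
noncomputable def n847 : Strat := .win 882 4 878
noncomputable def n848 : Strat := .win 961 6 796
noncomputable def n849 : Strat := .win 755 6 755
noncomputable def n850 : Strat := .move 796 n848 (.cons 961 n849 .nil)
noncomputable def n851 : Strat := .move 920 n847 (.cons 882 n850 .nil)
noncomputable def n852 : Strat := .move 919 n265 (.cons 918 n851 .nil)
noncomputable def n853 : Strat := .move 837 n668 (.cons 836 n852 .nil)
noncomputable def n854 : Strat := .win 839 5 836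
noncomputable def n855 : Strat := .win 921 0 876
noncomputable def n856 : Strat := .win 875 0 875
noncomputable def n857 : Strat := .move 876 n855 (.cons 921 n856 .nil)
noncomputable def n858 : Strat := .move 877 n854 (.cons 839 n857 .nil)
noncomputable def n859 : Strat := .move 920 n847 (.cons 882 n858 .nil)
noncomputable def n860 : Strat := .move 919 n265 (.cons 918 n859 .nil)
noncomputable def n861 : Strat := .win 919 4 877
noncomputable def n862 : Strat := .win 917 4 876
noncomputable def n863 : Strat := .move 877 n862 (.cons 917 n854 .nil)
noncomputable def n864 : Strat := .move 918 n861 (.cons 919 n863 .nil)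
noncomputable def n865 : Strat := .move 837 n668 (.cons 836 n864 .nil)
noncomputable def n866 : Strat := .win 837 2 836
noncomputable def n867 : Strat := .win 835 2 835
noncomputable def n868 : Strat := .move 836 n866 (.cons 837 n867 .nil)
noncomputable def n869 : Strat := .move 877 n854 (.cons 839 n868 .nil)
noncomputable def n870 : Strat := .move 878 n853 (.cons 836 n860 (.cons 882 n865 (.cons 919 n869 .nil)))
noncomputable def n871 : Strat := .move 918 n861 (.cons 919 n862 .nil)
noncomputable def n872 : Strat := .move 877 n854 (.cons 839 n871 .nil)
noncomputable def n873 : Strat := .win 960 3 796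
noncomputable def n874 : Strat := .win 756 1 755
noncomputable def n875 : Strat := .move 797 n873 (.cons 960 n874 .nil)
noncomputable def n876 : Strat := .move 838 n726 (.cons 839 n875 .nil)
noncomputable def n877 : Strat := .move 919 n265 (.cons 918 n876 .nil)
noncomputable def n878 : Strat := .move 837 n668 (.cons 836 n877 .nil)
noncomputable def n879 : Strat := .win 838 5 796
noncomputable def n880 : Strat := .move 839 n879 (.cons 838 n837 .nil)
noncomputable def n881 : Strat := .move 837 n668 (.cons 836 n880 .nil)
noncomputable def n882 : Strat := .move 836 n867 (.cons 835 n866 .nil)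
noncomputable def n883 : Strat := .move 877 n862 (.cons 917 n882 .nil)
noncomputable def n884 : Strat := .move 918 n861 (.cons 919 n883 .nil)
noncomputable def n885 : Strat := .move 878 n872 (.cons 877 n878 (.cons 918 n881 (.cons 839 n884 .nil)))
noncomputable def n886 : Strat := .move 883 n794 (.cons 923 n681 .nil)
noncomputable def n887 : Strat := .move 882 n264 (.cons 920 n886 .nil)
noncomputable def n888 : Strat := .move 919 n265 (.cons 918 n887 .nil)
noncomputable def n889 : Strat := .win 836 2 835
noncomputable def n890 : Strat := .win 834 2 834
noncomputable def n891 : Strat := .win 916 4 875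
noncomputable def n892 : Strat := .win 918 4 876
noncomputable def n893 : Strat := .move 917 n891 (.cons 916 n892 .nil)
noncomputable def n894 : Strat := .move 876 n890 (.cons 834 n893 .nil)
noncomputable def n895 : Strat := .move 835 n889 (.cons 836 n894 .nil)
noncomputable def n896 : Strat := .move 877 n854 (.cons 839 n895 .nil)
noncomputable def n897 : Strat := .move 876 n856 (.cons 875 n855 .nil)
noncomputable def n898 : Strat := .move 920 n847 (.cons 882 n897 .nil)
noncomputable def n899 : Strat := .move 919 n265 (.cons 918 n898 .nil)
noncomputable def n900 : Strat := .move 835 n890 (.cons 834 n889 .nil)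
noncomputable def n901 : Strat := .move 919 n856 (.cons 875 n847 .nil)
noncomputable def n902 : Strat := .move 920 n855 (.cons 921 n901 .nil)
noncomputable def n903 : Strat := .move 876 n900 (.cons 836 n902 .nil)
noncomputable def n904 : Strat := .move 877 n871 (.cons 919 n895 (.cons 917 n899 (.cons 918 n903 .nil)))
noncomputable def n905 : Strat := .move 877 n854 (.cons 839 n903 .nil)
noncomputable def n906 : Strat := .move 878 n872 (.cons 877 n888 (.cons 919 n896 (.cons 839 n904 (.cons 918 n905 .nil))))
noncomputable def n907 : Strat := .move 882 n253 (.cons 837 n830 .nil)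
noncomputable def n908 : Strat := .move 837 n726 (.cons 839 n725 .nil)
noncomputable def n909 : Strat := .move 921 n248 (.cons 883 n789 .nil)
noncomputable def n910 : Strat := .move 920 n268 (.cons 919 n909 .nil)
noncomputable def n911 : Strat := .move 882 n253 (.cons 837 n910 .nil)
noncomputable def n912 : Strat := .win 921 3 798
noncomputable def n913 : Strat := .win 1003 6 838
noncomputable def n914 : Strat := .win 1002 3 838
noncomputable def n915 : Strat := .move 961 n913 (.cons 1003 n914 .nil)
noncomputable def n916 : Strat := .move 962 n912 (.cons 921 n915 .nil)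
noncomputable def n917 : Strat := .move 839 n291 (.cons 837 n916 .nil)
noncomputable def n918 : Strat := .win 960 1 796
noncomputable def n919 : Strat := .move 919 n662 (.cons 918 n918 .nil)
noncomputable def n920 : Strat := .move 797 n788 (.cons 756 n919 .nil)
noncomputable def n921 : Strat := .move 921 n715 (.cons 839 n789 (.cons 962 n920 .nil))
noncomputable def n922 : Strat := .win 961 7 796
noncomputable def n923 : Strat := .win 714 6 714
noncomputable def n924 : Strat := .win 797 7 755
noncomputable def n925 : Strat := .move 755 n923 (.cons 714 n924 .nil)
noncomputable def n926 : Strat := .move 796 n922 (.cons 961 n925 .nil)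
noncomputable def n927 : Strat := .move 837 n726 (.cons 839 n926 .nil)
noncomputable def n928 : Strat := .move 921 n787 (.cons 962 n788 .nil)
noncomputable def n929 : Strat := .move 921 n787 (.cons 962 n919 .nil)
noncomputable def n930 : Strat := .win 921 6 756
noncomputable def n931 : Strat := .win 714 7 714
noncomputable def n932 : Strat := .win 796 7 755
noncomputable def n933 : Strat := .move 755 n931 (.cons 714 n932 .nil)
noncomputable def n934 : Strat := .move 756 n930 (.cons 921 n933 .nil)
noncomputable def n935 : Strat := .win 1001 1 837
noncomputable def n936 : Strat := .win 919 1 796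
noncomputable def n937 : Strat := .move 960 n935 (.cons 1001 n936 .nil)
noncomputable def n938 : Strat := .win 837 7 796
noncomputable def n939 : Strat := .win 755 7 755
noncomputable def n940 : Strat := .move 796 n938 (.cons 837 n939 .nil)
noncomputable def n941 : Strat := .move 961 n937 (.cons 919 n940 .nil)
noncomputable def n942 : Strat := .move 797 n928 (.cons 756 n929 (.cons 962 n934 (.cons 921 n941 .nil)))
noncomputable def n943 : Strat := .move 920 n917 (.cons 837 n921 (.cons 1003 n927 (.cons 839 n942 .nil)))
noncomputable def n944 : Strat := .move 883 n699 (.cons 921 n252 .nil)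
noncomputable def n945 : Strat := .move 882 n268 (.cons 919 n944 .nil)
noncomputable def n946 : Strat := .move 882 n268 (.cons 919 n830 .nil)
noncomputable def n947 : Strat := .move 839 n914 (.cons 1002 n912 .nil)
noncomputable def n948 : Strat := .move 962 n913 (.cons 1003 n947 .nil)
noncomputable def n949 : Strat := .win 1042 1 878
noncomputable def n950 : Strat := .win 960 1 837
noncomputable def n951 : Strat := .move 1001 n949 (.cons 1042 n950 .nil)
noncomputable def n952 : Strat := .move 1002 n270 (.cons 839 n951 .nil)
noncomputable def n953 : Strat := .win 797 6 797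
noncomputable def n954 : Strat := .move 921 n953 (.cons 797 n714 .nil)
noncomputable def n955 : Strat := .move 962 n913 (.cons 1003 n954 .nil)
noncomputable def n956 : Strat := .win 1044 6 879
noncomputable def n957 : Strat := .win 962 6 838
noncomputable def n958 : Strat := .move 1003 n956 (.cons 1044 n957 .nil)
noncomputable def n959 : Strat := .move 1002 n951 (.cons 960 n958 .nil)
noncomputable def n960 : Strat := .move 961 n948 (.cons 962 n952 (.cons 1002 n955 (.cons 839 n959 .nil)))
noncomputable def n961 : Strat := .move 882 n268 (.cons 919 n909 .nil)
noncomputable def n962 : Strat := .move 920 n945 (.cons 882 n921 (.cons 921 n946 (.cons 919 n960 (.cons 839 n961 .nil))))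
noncomputable def n963 : Strat := .move 838 n907 (.cons 923 n908 (.cons 839 n911 (.cons 882 n943 (.cons 837 n962 .nil))))
noncomputable def n964 : Strat := .move 883 n252 (.cons 839 n806 .nil)
noncomputable def n965 : Strat := .move 838 n253 (.cons 837 n964 .nil)
noncomputable def n966 : Strat := .win 876 0 876
noncomputable def n967 : Strat := .move 877 n966 (.cons 876 n854 .nil)
noncomputable def n968 : Strat := .move 878 n766 (.cons 836 n967 .nil)
noncomputable def n969 : Strat := .move 921 n715 (.cons 839 n790 (.cons 962 n968 .nil))
noncomputable def n970 : Strat := .move 920 n268 (.cons 919 n969 .nil)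
noncomputable def n971 : Strat := .move 882 n831 (.cons 838 n835 (.cons 923 n965 (.cons 883 n970 .nil)))
noncomputable def n972 : Strat := .win 920 6 797
noncomputable def n973 : Strat := .move 797 n972 (.cons 920 n788 .nil)
noncomputable def n974 : Strat := .win 835 0 835
noncomputable def n975 : Strat := .win 878 2 836
noncomputable def n976 : Strat := .move 836 n974 (.cons 835 n975 .nil)
noncomputable def n977 : Strat := .move 837 n725 (.cons 882 n976 .nil)
noncomputable def n978 : Strat := .move 838 n973 (.cons 756 n977 .nil)
noncomputable def n979 : Strat := .move 962 n713 (.cons 1003 n978 .nil)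
noncomputable def n980 : Strat := .move 878 n837 (.cons 877 n668 .nil)
noncomputable def n981 : Strat := .move 837 n879 (.cons 838 n980 .nil)
noncomputable def n982 : Strat := .move 839 n402 (.cons 962 n981 .nil)
noncomputable def n983 : Strat := .move 877 n854 (.cons 839 n882 .nil)
noncomputable def n984 : Strat := .move 837 n668 (.cons 836 n727 .nil)
noncomputable def n985 : Strat := .win 920 0 876
noncomputable def n986 : Strat := .move 876 n985 (.cons 920 n900 .nil)
noncomputable def n987 : Strat := .move 877 n854 (.cons 839 n986 .nil)
noncomputable def n988 : Strat := .move 876 n985 (.cons 920 n893 .nil)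
noncomputable def n989 : Strat := .move 877 n882 (.cons 837 n986 (.cons 835 n988 .nil))
noncomputable def n990 : Strat := .move 877 n854 (.cons 839 n988 .nil)
noncomputable def n991 : Strat := .move 878 n983 (.cons 835 n984 (.cons 837 n987 (.cons 839 n989 (.cons 836 n990 .nil))))
noncomputable def n992 : Strat := .move 921 n736 (.cons 839 n979 (.cons 1003 n982 (.cons 962 n991 .nil)))
noncomputable def n993 : Strat := .move 879 n836 (.cons 839 n805 (.cons 962 n841 (.cons 921 n846 (.cons 838 n870 (.cons 882 n885 (.cons 837 n906 (.cons 878 n963 (.cons 918 n971 (.cons 919 n992 .nil)))))))))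
noncomputable def n994 : Strat := .win 921 0 877
noncomputable def n995 : Strat := .move 922 n262 (.cons 923 n994 .nil)
noncomputable def n996 : Strat := .move 877 n854 (.cons 839 n995 .nil)
noncomputable def n997 : Strat := .move 878 n996 (.cons 839 n783 .nil)
noncomputable def n998 : Strat := .win 922 0 877
noncomputable def n999 : Strat := .move 877 n854 (.cons 839 n998 .nil)
noncomputable def n1000 : Strat := .move 922 n261 (.cons 877 n768 .nil)
noncomputable def n1001 : Strat := .move 878 n999 (.cons 877 n984 (.cons 839 n1000 .nil))
noncomputable def n1002 : Strat := .move 922 n64 (.cons 962 n778 .nil)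
noncomputable def n1003 : Strat := .move 921 n734 (.cons 962 n1001 (.cons 839 n1002 (.cons 922 n736 .nil)))
noncomputable def n1004 : Strat := .move 919 n264 (.cons 920 n799 .nil)
noncomputable def n1005 : Strat := .move 837 n670 (.cons 838 n1004 .nil)
noncomputable def n1006 : Strat := .move 882 n793 (.cons 919 n795 (.cons 883 n1005 (.cons 920 n831 .nil)))
noncomputable def n1007 : Strat := .move 922 n64 (.cons 962 n763 .nil)
noncomputable def n1008 : Strat := .move 921 n734 (.cons 962 n1006 (.cons 839 n1007 .nil))
noncomputable def n1009 : Strat := .move 838 n726 (.cons 839 n725 .nil)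
noncomputable def n1010 : Strat := .move 837 n668 (.cons 836 n1009 .nil)
noncomputable def n1011 : Strat := .move 878 n996 (.cons 839 n785 (.cons 923 n869 (.cons 877 n1010 .nil)))
noncomputable def n1012 : Strat := .move 962 n733 (.cons 922 n713 .nil)
noncomputable def n1013 : Strat := .win 922 0 878
noncomputable def n1014 : Strat := .move 923 n259 (.cons 924 n1013 .nil)
noncomputable def n1015 : Strat := .move 878 n265 (.cons 918 n1014 .nil)
noncomputable def n1016 : Strat := .move 919 n264 (.cons 920 n1015 .nil)
noncomputable def n1017 : Strat := .move 878 n1014 (.cons 922 n967 .nil)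
noncomputable def n1018 : Strat := .move 920 n248 (.cons 883 n1017 .nil)
noncomputable def n1019 : Strat := .move 882 n793 (.cons 883 n1016 (.cons 919 n1018 (.cons 920 n831 .nil)))
noncomputable def n1020 : Strat := .move 921 n734 (.cons 922 n736 (.cons 839 n1012 (.cons 962 n1019 .nil)))
noncomputable def n1021 : Strat := .move 837 n668 (.cons 836 n851 .nil)
noncomputable def n1022 : Strat := .move 919 n265 (.cons 918 n1021 .nil)
noncomputable def n1023 : Strat := .move 878 n996 (.cons 922 n872 (.cons 839 n785 (.cons 877 n1022 .nil)))
noncomputable def n1024 : Strat := .move 923 n259 (.cons 924 n833 .nil)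
noncomputable def n1025 : Strat := .move 882 n831 (.cons 838 n835 (.cons 923 n965 (.cons 883 n1024 .nil)))
noncomputable def n1026 : Strat := .move 878 n996 (.cons 877 n878 (.cons 839 n785 .nil))
noncomputable def n1027 : Strat := .move 877 n998 (.cons 922 n854 .nil)
noncomputable def n1028 : Strat := .move 922 n261 (.cons 877 n262 .nil)
noncomputable def n1029 : Strat := .move 918 n862 (.cons 917 n861 .nil)
noncomputable def n1030 : Strat := .move 877 n854 (.cons 839 n1029 .nil)
noncomputable def n1031 : Strat := .move 882 n1014 (.cons 922 n767 .nil)
noncomputable def n1032 : Strat := .move 878 n1027 (.cons 839 n1028 (.cons 922 n1030 (.cons 877 n1031 .nil)))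
noncomputable def n1033 : Strat := .move 838 n734 (.cons 962 n1032 (.cons 839 n1012 (.cons 922 n736 .nil)))
noncomputable def n1034 : Strat := .move 922 n262 (.cons 923 n261 .nil)
noncomputable def n1035 : Strat := .move 882 n264 (.cons 920 n1014 .nil)
noncomputable def n1036 : Strat := .move 919 n265 (.cons 918 n1035 .nil)
noncomputable def n1037 : Strat := .move 878 n999 (.cons 839 n1034 (.cons 877 n1036 (.cons 922 n1030 .nil)))
noncomputable def n1038 : Strat := .move 921 n1033 (.cons 962 n1037 (.cons 839 n1012 (.cons 922 n736 .nil)))
noncomputable def n1039 : Strat := .move 922 n262 (.cons 923 n984 .nil)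
noncomputable def n1040 : Strat := .move 922 n262 (.cons 923 n1030 .nil)
noncomputable def n1041 : Strat := .move 882 n670 (.cons 838 n767 .nil)
noncomputable def n1042 : Strat := .move 837 n668 (.cons 836 n1041 .nil)
noncomputable def n1043 : Strat := .move 922 n262 (.cons 923 n1042 .nil)
noncomputable def n1044 : Strat := .move 878 n1039 (.cons 837 n1040 (.cons 839 n1043 (.cons 923 n1010 .nil)))
noncomputable def n1045 : Strat := .move 883 n252 (.cons 839 n699 .nil)
noncomputable def n1046 : Strat := .move 838 n253 (.cons 837 n1045 .nil)
noncomputable def n1047 : Strat := .move 882 n268 (.cons 919 n1046 .nil)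
noncomputable def n1048 : Strat := .move 882 n268 (.cons 919 n831 .nil)
noncomputable def n1049 : Strat := .move 962 n713 (.cons 1003 n733 .nil)
noncomputable def n1050 : Strat := .move 921 n248 (.cons 883 n1049 .nil)
noncomputable def n1051 : Strat := .move 882 n268 (.cons 919 n1050 .nil)
noncomputable def n1052 : Strat := .win 917 5 876
noncomputable def n1053 : Strat := .win 921 5 877
noncomputable def n1054 : Strat := .move 918 n1052 (.cons 917 n1053 .nil)
noncomputable def n1055 : Strat := .move 919 n847 (.cons 882 n1054 .nil)
noncomputable def n1056 : Strat := .move 962 n714 (.cons 839 n733 .nil)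
noncomputable def n1057 : Strat := .move 919 n918 (.cons 960 n662 .nil)
noncomputable def n1058 : Strat := .move 797 n788 (.cons 756 n1057 .nil)
noncomputable def n1059 : Strat := .move 921 n1056 (.cons 922 n715 (.cons 839 n1049 (.cons 962 n1058 .nil)))
noncomputable def n1060 : Strat := .move 921 n1049 (.cons 922 n789 (.cons 962 n1058 .nil))
noncomputable def n1061 : Strat := .move 838 n917 (.cons 837 n1059 (.cons 1003 n927 (.cons 839 n1060 .nil)))
noncomputable def n1062 : Strat := .move 882 n253 (.cons 837 n1045 .nil)
noncomputable def n1063 : Strat := .move 921 n714 (.cons 839 n733 .nil)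
noncomputable def n1064 : Strat := .move 962 n913 (.cons 1003 n1063 .nil)
noncomputable def n1065 : Strat := .move 921 n953 (.cons 797 n733 .nil)
noncomputable def n1066 : Strat := .move 962 n913 (.cons 1003 n1065 .nil)
noncomputable def n1067 : Strat := .move 961 n1064 (.cons 962 n952 (.cons 839 n1066 .nil))
noncomputable def n1068 : Strat := .move 882 n248 (.cons 883 n253 .nil)
noncomputable def n1069 : Strat := .move 921 n1049 (.cons 922 n1068 .nil)
noncomputable def n1070 : Strat := .move 838 n1062 (.cons 837 n1067 (.cons 921 n907 (.cons 839 n1069 .nil)))
noncomputable def n1071 : Strat := .move 920 n1047 (.cons 921 n1048 (.cons 839 n1051 (.cons 883 n1055 (.cons 882 n1061 (.cons 919 n1070 .nil)))))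
noncomputable def n1072 : Strat := .move 879 n997 (.cons 839 n786 (.cons 923 n1003 (.cons 877 n1008 (.cons 920 n1011 (.cons 836 n1020 (.cons 838 n1023 (.cons 922 n1025 (.cons 882 n1026 (.cons 837 n1038 (.cons 921 n1044 (.cons 878 n1071 .nil)))))))))))
noncomputable def n1073 : Strat := .move 880 n680 (.cons 962 n705 (.cons 925 n712 (.cons 838 n723 (.cons 883 n732 (.cons 923 n740 (.cons 882 n759 (.cons 839 n815 (.cons 921 n829 (.cons 922 n993 (.cons 759 n1072 .nil))))))))))
noncomputable def n1074 : Strat := .move 801 n653 (.cons 839 n558 (.cons 922 n346 (.cons 762 n660 (.cons 802 n1073 .nil))))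
noncomputable def n1075 : Strat := .move 800 n296 (.cons 922 n395 (.cons 759 n451 (.cons 801 n453 (.cons 838 n499 (.cons 757 n506 (.cons 839 n652 (.cons 798 n1074 .nil)))))))
noncomputable def n1076 : Strat := .move 799 n26 (.cons 922 n55 (.cons 757 n102 (.cons 921 n155 (.cons 798 n156 (.cons 880 n219 (.cons 839 n226 (.cons 759 n281 (.cons 800 n287 (.cons 758 n1075 .nil)))))))))

theorem ok : checkS n1076 (pairBits 840 881) (pairBits 841 964) ≠ 0 := by decide +kernel

theorem reply : MakerWins {cellOf 881, cellOf 840} {cellOf 841, cellOf 964} :=
  reply2 n1076 840 881 841 964 ok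

end Vale.Agent.Snaky.Cert2.R964
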