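import Vale.Agent.Snaky.Cert2.Lem

namespace Vale.Agent.Snaky.Cert2.R967

open Vale.Agent.Snaky

noncomputable def n0 : Strat := .win 962 1 798
noncomputable def n1 : Strat := .win 880 1 757
noncomputable def n2 : Strat := .win 798 7 757
noncomputable def n3 : Strat := .win 716 7 716
noncomputable def n4 : Strat := .move 757 n2 (.cons 798 n3 .nil)
noncomputable def n5 : Strat := .move 758 n1 (.cons 880 n4 .nil)
noncomputable def n6 : Strat := .move 921 n0 (.cons 962 n5 .nil)
noncomputable def n7 : Strat := .win 757 7 757
noncomputable def n8 : Strat := .win 839 7 798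
noncomputable def n9 : Strat := .win 923 6 799
noncomputable def n10 : Strat := .win 1005 6 840
noncomputable def n11 : Strat := .move 964 n9 (.cons 923 n10 .nil)
noncomputable def n12 : Strat := .move 963 n8 (.cons 839 n11 .nil)
noncomputable def n13 : Strat := .move 798 n7 (.cons 757 n12 .nil)
noncomputable def n14 : Strat := .win 964 6 799
noncomputable def n15 : Strat := .win 882 6 758
noncomputable def n16 : Strat := .move 923 n14 (.cons 964 n15 .nil)
noncomputable def n17 : Strat := .move 758 n1 (.cons 880 n16 .nil)
noncomputable def n18 : Strat := .move 921 n0 (.cons 962 n17 .nil)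
noncomputable def n19 : Strat := .move 799 n6 (.cons 921 n13 (.cons 798 n18 .nil))
noncomputable def n20 : Strat := .win 800 3 758
noncomputable def n21 : Strat := .win 718 3 717
noncomputable def n22 : Strat := .move 759 n20 (.cons 800 n21 .nil)
noncomputable def n23 : Strat := .move 758 n15 (.cons 882 n22 .nil)
noncomputable def n24 : Strat := .move 923 n14 (.cons 964 n23 .nil)
noncomputable def n25 : Strat := .win 963 7 798
noncomputable def n26 : Strat := .win 759 3 758
noncomputable def n27 : Strat := .win 801 4 797
noncomputable def n28 : Strat := .win 837 5 796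
noncomputable def n29 : Strat := .move 838 n27 (.cons 801 n28 .nil)
noncomputable def n30 : Strat := .move 800 n26 (.cons 759 n29 .nil)
noncomputable def n31 : Strat := .move 839 n25 (.cons 963 n30 .nil)
noncomputable def n32 : Strat := .move 798 n7 (.cons 757 n31 .nil)
noncomputable def n33 : Strat := .move 799 n13 (.cons 798 n24 (.cons 964 n32 .nil))
noncomputable def n34 : Strat := .move 758 n1 (.cons 880 n22 .nil)
noncomputable def n35 : Strat := .move 921 n0 (.cons 962 n34 .nil)
noncomputable def n36 : Strat := .win 921 1 798
noncomputable def n37 : Strat := .win 1003 1 839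
noncomputable def n38 : Strat := .move 962 n36 (.cons 921 n37 .nil)
noncomputable def n39 : Strat := .move 963 n8 (.cons 839 n38 .nil)
noncomputable def n40 : Strat := .move 798 n7 (.cons 757 n39 .nil)
noncomputable def n41 : Strat := .move 799 n6 (.cons 798 n35 (.cons 758 n40 (.cons 962 n32 .nil)))
noncomputable def n42 : Strat := .move 758 n15 (.cons 882 n4 .nil)
noncomputable def n43 : Strat := .move 923 n14 (.cons 964 n42 .nil)
noncomputable def n44 : Strat := .move 758 n1 (.cons 880 n15 .nil)
noncomputable def n45 : Strat := .move 923 n14 (.cons 964 n44 .nil)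
noncomputable def n46 : Strat := .move 921 n0 (.cons 962 n45 .nil)
noncomputable def n47 : Strat := .win 919 5 878
noncomputable def n48 : Strat := .win 883 5 879
noncomputable def n49 : Strat := .move 882 n47 (.cons 919 n48 .nil)
noncomputable def n50 : Strat := .win 882 5 878
noncomputable def n51 : Strat := .win 877 2 877
noncomputable def n52 : Strat := .win 879 2 878
noncomputable def n53 : Strat := .move 878 n51 (.cons 877 n52 .nil)
noncomputable def n54 : Strat := .move 919 n50 (.cons 882 n53 .nil)
noncomputable def n55 : Strat := .win 878 2 878
noncomputable def n56 : Strat := .win 924 2 879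
noncomputable def n57 : Strat := .win 839 1 797
noncomputable def n58 : Strat := .win 960 4 919
noncomputable def n59 : Strat := .move 961 n57 (.cons 839 n58 .nil)
noncomputable def n60 : Strat := .move 880 n56 (.cons 924 n59 .nil)
noncomputable def n61 : Strat := .move 879 n55 (.cons 878 n60 .nil)
noncomputable def n62 : Strat := .move 920 n49 (.cons 883 n54 (.cons 882 n61 .nil))
noncomputable def n63 : Strat := .move 800 n26 (.cons 759 n62 .nil)
noncomputable def n64 : Strat := .move 798 n7 (.cons 757 n63 .nil)
noncomputable def n65 : Strat := .move 923 n14 (.cons 964 n64 .nil)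
noncomputable def n66 : Strat := .move 921 n0 (.cons 962 n65 .nil)
noncomputable def n67 : Strat := .move 799 n6 (.cons 921 n43 (.cons 716 n46 (.cons 758 n66 .nil)))
noncomputable def n68 : Strat := .move 878 n52 (.cons 879 n51 .nil)
noncomputable def n69 : Strat := .move 919 n50 (.cons 882 n68 .nil)
noncomputable def n70 : Strat := .win 1043 3 879
noncomputable def n71 : Strat := .win 839 3 838
noncomputable def n72 : Strat := .move 1002 n70 (.cons 1043 n71 .nil)
noncomputable def n73 : Strat := .move 961 n58 (.cons 960 n72 .nil)
noncomputable def n74 : Strat := .move 880 n56 (.cons 924 n73 .nil)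
noncomputable def n75 : Strat := .move 879 n55 (.cons 878 n74 .nil)
noncomputable def n76 : Strat := .move 920 n49 (.cons 883 n69 (.cons 882 n75 .nil))
noncomputable def n77 : Strat := .move 923 n14 (.cons 964 n76 .nil)
noncomputable def n78 : Strat := .move 921 n0 (.cons 962 n77 .nil)
noncomputable def n79 : Strat := .move 799 n18 (.cons 921 n24 (.cons 923 n35 (.cons 758 n78 .nil)))
noncomputable def n80 : Strat := .win 798 7 798
noncomputable def n81 : Strat := .win 880 7 839
noncomputable def n82 : Strat := .win 964 6 840
noncomputable def n83 : Strat := .win 1046 6 881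
noncomputable def n84 : Strat := .move 1005 n82 (.cons 964 n83 .nil)
noncomputable def n85 : Strat := .move 1004 n81 (.cons 880 n84 .nil)
noncomputable def n86 : Strat := .move 839 n80 (.cons 798 n85 .nil)
noncomputable def n87 : Strat := .win 962 1 839
noncomputable def n88 : Strat := .win 1044 1 880
noncomputable def n89 : Strat := .move 1003 n87 (.cons 962 n88 .nil)
noncomputable def n90 : Strat := .move 1004 n81 (.cons 880 n89 .nil)
noncomputable def n91 : Strat := .move 839 n80 (.cons 798 n90 .nil)
noncomputable def n92 : Strat := .win 919 0 919
noncomputable def n93 : Strat := .win 965 2 920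
noncomputable def n94 : Strat := .move 920 n92 (.cons 919 n93 .nil)
noncomputable def n95 : Strat := .win 920 2 920
noncomputable def n96 : Strat := .win 966 2 921
noncomputable def n97 : Strat := .move 965 n95 (.cons 920 n96 .nil)
noncomputable def n98 : Strat := .win 924 4 920
noncomputable def n99 : Strat := .move 961 n58 (.cons 960 n98 .nil)
noncomputable def n100 : Strat := .win 925 4 921
noncomputable def n101 : Strat := .win 961 4 920
noncomputable def n102 : Strat := .move 924 n100 (.cons 925 n101 .nil)
noncomputable def n103 : Strat := .win 880 2 879
noncomputable def n104 : Strat := .move 879 n103 (.cons 880 n55 .nil)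
noncomputable def n105 : Strat := .move 924 n100 (.cons 925 n104 .nil)
noncomputable def n106 : Strat := .win 1001 4 960
noncomputable def n107 : Strat := .win 1084 3 920
noncomputable def n108 : Strat := .win 880 3 879
noncomputable def n109 : Strat := .move 1043 n107 (.cons 1084 n108 .nil)
noncomputable def n110 : Strat := .move 1002 n106 (.cons 1001 n109 .nil)
noncomputable def n111 : Strat := .move 961 n58 (.cons 960 n110 .nil)
noncomputable def n112 : Strat := .move 923 n99 (.cons 960 n102 (.cons 961 n105 (.cons 924 n111 .nil)))
noncomputable def n113 : Strat := .move 920 n92 (.cons 919 n112 .nil)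
noncomputable def n114 : Strat := .win 925 5 921
noncomputable def n115 : Strat := .win 1007 0 962
noncomputable def n116 : Strat := .win 1088 7 923
noncomputable def n117 : Strat := .win 882 7 882
noncomputable def n118 : Strat := .move 1047 n116 (.cons 1088 n117 .nil)
noncomputable def n119 : Strat := .move 1006 n115 (.cons 1007 n118 .nil)
noncomputable def n120 : Strat := .move 923 n101 (.cons 961 n119 .nil)
noncomputable def n121 : Strat := .move 924 n114 (.cons 925 n120 .nil)
noncomputable def n122 : Strat := .move 965 n96 (.cons 966 n121 .nil)
noncomputable def n123 : Strat := .move 921 n94 (.cons 919 n97 (.cons 965 n113 (.cons 920 n122 .nil)))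
noncomputable def n124 : Strat := .move 964 n10 (.cons 1005 n123 .nil)
noncomputable def n125 : Strat := .move 962 n37 (.cons 1003 n124 .nil)
noncomputable def n126 : Strat := .win 960 5 919
noncomputable def n127 : Strat := .win 924 5 920
noncomputable def n128 : Strat := .move 923 n126 (.cons 960 n127 .nil)
noncomputable def n129 : Strat := .win 923 5 919
noncomputable def n130 : Strat := .win 920 2 919
noncomputable def n131 : Strat := .win 918 2 918
noncomputable def n132 : Strat := .move 919 n130 (.cons 920 n131 .nil)
noncomputable def n133 : Strat := .move 960 n129 (.cons 923 n132 .nil)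
noncomputable def n134 : Strat := .win 919 2 919
noncomputable def n135 : Strat := .win 921 2 920
noncomputable def n136 : Strat := .win 1002 4 960
noncomputable def n137 : Strat := .win 1008 0 963
noncomputable def n138 : Strat := .win 1006 0 962
noncomputable def n139 : Strat := .move 1007 n137 (.cons 1008 n138 .nil)
noncomputable def n140 : Strat := .win 926 5 922
noncomputable def n141 : Strat := .win 924 5 921
noncomputable def n142 : Strat := .move 925 n140 (.cons 926 n141 .nil)
noncomputable def n143 : Strat := .move 966 n139 (.cons 1006 n142 .nil)
noncomputable def n144 : Strat := .move 1001 n136 (.cons 1002 n143 .nil)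
noncomputable def n145 : Strat := .move 965 n135 (.cons 921 n144 .nil)
noncomputable def n146 : Strat := .move 920 n134 (.cons 919 n145 .nil)
noncomputable def n147 : Strat := .move 961 n128 (.cons 924 n133 (.cons 923 n146 .nil))
noncomputable def n148 : Strat := .move 962 n37 (.cons 1003 n147 .nil)
noncomputable def n149 : Strat := .move 964 n10 (.cons 1005 n148 .nil)
noncomputable def n150 : Strat := .move 963 n86 (.cons 964 n91 (.cons 839 n125 (.cons 880 n149 .nil)))
noncomputable def n151 : Strat := .win 882 5 879
noncomputable def n152 : Strat := .win 884 5 880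
noncomputable def n153 : Strat := .win 879 2 879
noncomputable def n154 : Strat := .win 925 2 880
noncomputable def n155 : Strat := .move 880 n153 (.cons 879 n154 .nil)
noncomputable def n156 : Strat := .move 924 n152 (.cons 884 n155 .nil)
noncomputable def n157 : Strat := .move 883 n151 (.cons 882 n156 .nil)
noncomputable def n158 : Strat := .win 918 5 877
noncomputable def n159 : Strat := .win 959 4 918
noncomputable def n160 : Strat := .win 961 4 919
noncomputable def n161 : Strat := .move 960 n159 (.cons 959 n160 .nil)
noncomputable def n162 : Strat := .move 919 n158 (.cons 918 n161 .nil)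
noncomputable def n163 : Strat := .move 880 n56 (.cons 924 n162 .nil)
noncomputable def n164 : Strat := .move 879 n55 (.cons 878 n163 .nil)
noncomputable def n165 : Strat := .move 920 n49 (.cons 919 n157 (.cons 883 n69 (.cons 882 n164 .nil)))
noncomputable def n166 : Strat := .move 923 n14 (.cons 964 n165 .nil)
noncomputable def n167 : Strat := .move 921 n0 (.cons 962 n166 .nil)
noncomputable def n168 : Strat := .move 799 n46 (.cons 921 n43 (.cons 882 n6 (.cons 758 n167 .nil)))
noncomputable def n169 : Strat := .move 922 n19 (.cons 921 n33 (.cons 923 n41 (.cons 963 n67 (.cons 798 n79 (.cons 799 n150 (.cons 839 n168 .nil))))))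

theorem ok : checkS n169 (pairBits 840 881) (pairBits 841 967) ≠ 0 := by decide +kernel

theorem reply : MakerWins {cellOf 881, cellOf 840} {cellOf 841, cellOf 967} :=
  reply2 n169 840 881 841 967 ok

end Vale.Agent.Snaky.Cert2.R967
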