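import Vale.Agent.Snaky.Cert2.Pass2
import Vale.Agent.Snaky.Cert2.R716
import Vale.Agent.Snaky.Cert2.R718
import Vale.Agent.Snaky.Cert2.R757
import Vale.Agent.Snaky.Cert2.R758
import Vale.Agent.Snaky.Cert2.R759
import Vale.Agent.Snaky.Cert2.R798
import Vale.Agent.Snaky.Cert2.R799
import Vale.Agent.Snaky.Cert2.R800
import Vale.Agent.Snaky.Cert2.R801
import Vale.Agent.Snaky.Cert2.R837
import Vale.Agent.Snaky.Cert2.R838
import Vale.Agent.Snaky.Cert2.R877
import Vale.Agent.Snaky.Cert2.R878
import Vale.Agent.Snaky.Cert2.R879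
import Vale.Agent.Snaky.Cert2.R882
import Vale.Agent.Snaky.Cert2.R883
import Vale.Agent.Snaky.Cert2.R884
import Vale.Agent.Snaky.Cert2.R885
import Vale.Agent.Snaky.Cert2.R918
import Vale.Agent.Snaky.Cert2.R919
import Vale.Agent.Snaky.Cert2.R920
import Vale.Agent.Snaky.Cert2.R921
import Vale.Agent.Snaky.Cert2.R923
import Vale.Agent.Snaky.Cert2.R924
import Vale.Agent.Snaky.Cert2.R925
import Vale.Agent.Snaky.Cert2.R926
import Vale.Agent.Snaky.Cert2.R960
import Vale.Agent.Snaky.Cert2.R961
import Vale.Agent.Snaky.Cert2.R962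
import Vale.Agent.Snaky.Cert2.R963
import Vale.Agent.Snaky.Cert2.R964
import Vale.Agent.Snaky.Cert2.R965
import Vale.Agent.Snaky.Cert2.R966
import Vale.Agent.Snaky.Cert2.R967
import Vale.Agent.Snaky.Cert2.R1000
import Vale.Agent.Snaky.Cert2.R1001
import Vale.Agent.Snaky.Cert2.R1002
import Vale.Agent.Snaky.Cert2.R1003
import Vale.Agent.Snaky.Cert2.R1004
import Vale.Agent.Snaky.Cert2.R1005
import Vale.Agent.Snaky.Cert2.R1006
import Vale.Agent.Snaky.Cert2.R1007
import Vale.Agent.Snaky.Cert2.R1044
import Vale.Agent.Snaky.Cert2.R1046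

/-!
# Assembling the second level certificates
-/

namespace Vale.Agent.Snaky

/-- The zone of the certificate with two Maker stones and one Breaker stone. -/
def passZone2 : Nat :=
  942508938293426229579909426591887591546258448142190842423277771182211155772944788343107545952385343986869303255066209537391283049398587911373802411968711326041996624656104838126699237798984260390630404121651134974115427042235993679633784047056881534730784558599239835285205168935698364500515675278462113085822861312

/-- The cells of that zone. -/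
def passCells2 : List Nat :=
  [716, 718, 757, 758, 759, 798, 799, 800, 801, 837, 838, 839, 877, 878, 879, 880, 882, 883, 884, 885, 918, 919, 920, 921, 922, 923, 924, 925, 926, 960, 961, 962, 963, 964, 965, 966, 967, 1000, 1001, 1002, 1003, 1004, 1005, 1006, 1007, 1044, 1046]

theorem passZone2_lt : passZone2 < 2 ^ 1681 := by decide +kernel

theorem passCells2_spec : ∀ i, i < 1681 → passZone2.testBit i = true → i ∈ passCells2 := by
  decide +kernel

theorem pass2_bit {i : Nat} (h : passZone2.testBit i = true) : i ∈ passCells2 :=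
  passCells2_spec i (bit_lt_of_lt passZone2_lt h) h

theorem reply2_in_zone (i : Nat) (hi : i ∈ passCells2) (hex : i ≠ 839 ∧ i ≠ 880 ∧ i ≠ 922) :
    MakerWins {cellOf 881, cellOf 840} {cellOf 841, cellOf i} := by
  simp only [passCells2, List.mem_cons, List.not_mem_nil, or_false] at hi
  rcases hi with rfl | rfl | rfl | rfl | rfl | rfl | rfl | rfl | rfl | rfl | rfl | rfl | rfl | rfl | rfl | rfl | rfl | rfl | rfl | rfl | rfl | rfl | rfl | rfl | rfl | rfl | rfl | rfl | rfl | rfl | rfl | rfl | rfl | rfl | rfl | rfl | rfl | rfl | rfl | rfl | rfl | rfl | rfl | rfl | rfl | rfl | rfl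
  · exact Cert2.R716.reply
  · exact Cert2.R718.reply
  · exact Cert2.R757.reply
  · exact Cert2.R758.reply
  · exact Cert2.R759.reply
  · exact Cert2.R798.reply
  · exact Cert2.R799.reply
  · exact Cert2.R800.reply
  · exact Cert2.R801.reply
  · exact Cert2.R837.reply
  · exact Cert2.R838.reply
  · simp at hex
  · exact Cert2.R877.reply
  · exact Cert2.R878.reply
  · exact Cert2.R879.reply
  · simp at hex
  · exact Cert2.R882.reply
  · exact Cert2.R883.reply
  · exact Cert2.R884.reply
  · exact Cert2.R885.reply
  · exact Cert2.R918.reply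
  · exact Cert2.R919.reply
  · exact Cert2.R920.reply
  · exact Cert2.R921.reply
  · simp at hex
  · exact Cert2.R923.reply
  · exact Cert2.R924.reply
  · exact Cert2.R925.reply
  · exact Cert2.R926.reply
  · exact Cert2.R960.reply
  · exact Cert2.R961.reply
  · exact Cert2.R962.reply
  · exact Cert2.R963.reply
  · exact Cert2.R964.reply
  · exact Cert2.R965.reply
  · exact Cert2.R966.reply
  · exact Cert2.R967.reply
  · exact Cert2.R1000.reply
  · exact Cert2.R1001.reply
  · exact Cert2.R1002.reply
  · exact Cert2.R1003.reply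
  · exact Cert2.R1004.reply
  · exact Cert2.R1005.reply
  · exact Cert2.R1006.reply
  · exact Cert2.R1007.reply
  · exact Cert2.R1044.reply
  · exact Cert2.R1046.reply

theorem reply2_far (b : Cell) (hb : ∀ i, passZone2.testBit i = true → cellOf i ≠ b) :
    MakerWins {cellOf 881, cellOf 840} {cellOf 841, b} :=
  far2 _ 840 881 841 passZone2 Cert2.Pass2.ok (by decide +kernel) b hb

theorem reply2_all (b : Cell) (hex : ∀ i, (i = 839 ∨ i = 880 ∨ i = 922) → cellOf i ≠ b) :
    MakerWins {cellOf 881, cellOf 840} {cellOf 841, b} := by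
  by_cases h : ∀ i, passZone2.testBit i = true → cellOf i ≠ b
  · exact reply2_far b h
  · push Not at h
    obtain ⟨i, hi, rfl⟩ := h
    refine reply2_in_zone i (pass2_bit hi) ⟨?_, ?_, ?_⟩ <;>
      (rintro rfl; exact absurd rfl (hex _ (by simp)))

end Vale.Agent.Snaky
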