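import Vale.Agent.Snaky.Cert2.Lem

namespace Vale.Agent.Snaky.Cert2.R839

open Vale.Agent.Snaky

noncomputable def n0 : Strat := .win 799 1 798
noncomputable def n1 : Strat := .win 1003 3 839
noncomputable def n2 : Strat := .win 961 4 920
noncomputable def n3 : Strat := .win 879 2 879
noncomputable def n4 : Strat := .move 924 n2 (.cons 961 n3 .nil)
noncomputable def n5 : Strat := .win 925 2 880
noncomputable def n6 : Strat := .move 924 n2 (.cons 961 n5 .nil)
noncomputable def n7 : Strat := .win 878 0 878
noncomputable def n8 : Strat := .win 919 4 878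
noncomputable def n9 : Strat := .win 883 4 879
noncomputable def n10 : Strat := .move 882 n8 (.cons 919 n9 .nil)
noncomputable def n11 : Strat := .win 965 0 920
noncomputable def n12 : Strat := .win 1005 7 840
noncomputable def n13 : Strat := .move 964 n11 (.cons 965 n12 .nil)
noncomputable def n14 : Strat := .move 882 n9 (.cons 883 n13 .nil)
noncomputable def n15 : Strat := .move 882 n8 (.cons 919 n13 .nil)
noncomputable def n16 : Strat := .win 918 5 877
noncomputable def n17 : Strat := .win 961 4 919
noncomputable def n18 : Strat := .win 959 4 918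
noncomputable def n19 : Strat := .move 960 n17 (.cons 961 n18 .nil)
noncomputable def n20 : Strat := .move 919 n16 (.cons 918 n19 .nil)
noncomputable def n21 : Strat := .move 920 n10 (.cons 919 n14 (.cons 883 n15 (.cons 882 n20 .nil)))
noncomputable def n22 : Strat := .move 879 n7 (.cons 878 n21 .nil)
noncomputable def n23 : Strat := .move 924 n3 (.cons 879 n5 .nil)
noncomputable def n24 : Strat := .move 923 n4 (.cons 879 n6 (.cons 924 n22 (.cons 961 n23 .nil)))
noncomputable def n25 : Strat := .move 880 n1 (.cons 1003 n24 .nil)
noncomputable def n26 : Strat := .move 921 n0 (.cons 799 n25 .nil)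
noncomputable def n27 : Strat := .win 1003 1 839
noncomputable def n28 : Strat := .win 1005 6 840
noncomputable def n29 : Strat := .win 919 0 919
noncomputable def n30 : Strat := .win 965 2 920
noncomputable def n31 : Strat := .move 920 n29 (.cons 919 n30 .nil)
noncomputable def n32 : Strat := .win 920 2 920
noncomputable def n33 : Strat := .win 966 2 921
noncomputable def n34 : Strat := .move 965 n32 (.cons 920 n33 .nil)
noncomputable def n35 : Strat := .win 925 5 921
noncomputable def n36 : Strat := .win 1007 0 962
noncomputable def n37 : Strat := .win 1088 7 923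
noncomputable def n38 : Strat := .win 882 7 882
noncomputable def n39 : Strat := .move 1047 n37 (.cons 1088 n38 .nil)
noncomputable def n40 : Strat := .move 1006 n36 (.cons 1007 n39 .nil)
noncomputable def n41 : Strat := .move 880 n3 (.cons 879 n40 .nil)
noncomputable def n42 : Strat := .move 923 n2 (.cons 961 n41 .nil)
noncomputable def n43 : Strat := .move 924 n35 (.cons 925 n42 .nil)
noncomputable def n44 : Strat := .move 965 n33 (.cons 966 n43 .nil)
noncomputable def n45 : Strat := .win 960 4 919
noncomputable def n46 : Strat := .win 924 4 920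
noncomputable def n47 : Strat := .move 923 n45 (.cons 960 n46 .nil)
noncomputable def n48 : Strat := .win 1001 4 960
noncomputable def n49 : Strat := .win 880 3 879
noncomputable def n50 : Strat := .win 1084 3 920
noncomputable def n51 : Strat := .move 1043 n49 (.cons 880 n50 .nil)
noncomputable def n52 : Strat := .move 1002 n48 (.cons 1001 n51 .nil)
noncomputable def n53 : Strat := .move 961 n47 (.cons 923 n52 .nil)
noncomputable def n54 : Strat := .move 920 n29 (.cons 919 n53 .nil)
noncomputable def n55 : Strat := .move 921 n31 (.cons 919 n34 (.cons 920 n44 (.cons 965 n54 .nil)))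
noncomputable def n56 : Strat := .move 964 n28 (.cons 1005 n55 .nil)
noncomputable def n57 : Strat := .move 963 n27 (.cons 1003 n56 .nil)
noncomputable def n58 : Strat := .win 921 1 798
noncomputable def n59 : Strat := .win 964 6 840
noncomputable def n60 : Strat := .win 1046 6 881
noncomputable def n61 : Strat := .win 800 3 758
noncomputable def n62 : Strat := .win 718 3 717
noncomputable def n63 : Strat := .win 798 7 757
noncomputable def n64 : Strat := .win 716 7 716
noncomputable def n65 : Strat := .move 757 n63 (.cons 798 n64 .nil)
noncomputable def n66 : Strat := .move 758 n62 (.cons 718 n65 .nil)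
noncomputable def n67 : Strat := .move 759 n61 (.cons 800 n66 .nil)
noncomputable def n68 : Strat := .move 1004 n60 (.cons 1046 n67 .nil)
noncomputable def n69 : Strat := .move 1005 n59 (.cons 964 n68 .nil)
noncomputable def n70 : Strat := .move 799 n58 (.cons 921 n69 .nil)
noncomputable def n71 : Strat := .move 963 n27 (.cons 1003 n70 .nil)
noncomputable def n72 : Strat := .win 963 1 839
noncomputable def n73 : Strat := .win 880 3 839
noncomputable def n74 : Strat := .move 1003 n72 (.cons 963 n73 .nil)
noncomputable def n75 : Strat := .move 921 n0 (.cons 799 n74 .nil)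
noncomputable def n76 : Strat := .win 882 5 878
noncomputable def n77 : Strat := .win 918 0 918
noncomputable def n78 : Strat := .win 964 0 919
noncomputable def n79 : Strat := .move 963 n77 (.cons 918 n78 .nil)
noncomputable def n80 : Strat := .move 919 n76 (.cons 882 n79 .nil)
noncomputable def n81 : Strat := .win 963 0 918
noncomputable def n82 : Strat := .win 880 5 877
noncomputable def n83 : Strat := .move 918 n81 (.cons 963 n82 .nil)
noncomputable def n84 : Strat := .move 919 n76 (.cons 882 n83 .nil)
noncomputable def n85 : Strat := .win 960 4 918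
noncomputable def n86 : Strat := .win 958 4 917
noncomputable def n87 : Strat := .move 959 n85 (.cons 960 n86 .nil)
noncomputable def n88 : Strat := .move 918 n82 (.cons 880 n87 .nil)
noncomputable def n89 : Strat := .move 919 n76 (.cons 882 n88 .nil)
noncomputable def n90 : Strat := .move 961 n46 (.cons 924 n45 .nil)
noncomputable def n91 : Strat := .win 963 6 840
noncomputable def n92 : Strat := .win 882 7 840
noncomputable def n93 : Strat := .move 1005 n91 (.cons 963 n92 .nil)
noncomputable def n94 : Strat := .move 964 n11 (.cons 965 n93 .nil)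
noncomputable def n95 : Strat := .move 923 n90 (.cons 961 n94 .nil)
noncomputable def n96 : Strat := .win 923 4 919
noncomputable def n97 : Strat := .win 877 2 877
noncomputable def n98 : Strat := .win 1002 6 837
noncomputable def n99 : Strat := .win 796 6 796
noncomputable def n100 : Strat := .move 837 n98 (.cons 1002 n99 .nil)
noncomputable def n101 : Strat := .move 878 n97 (.cons 877 n100 .nil)
noncomputable def n102 : Strat := .move 961 n96 (.cons 923 n101 .nil)
noncomputable def n103 : Strat := .move 960 n18 (.cons 959 n102 .nil)
noncomputable def n104 : Strat := .move 963 n78 (.cons 964 n103 .nil)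
noncomputable def n105 : Strat := .move 919 n79 (.cons 963 n88 (.cons 918 n104 .nil))
noncomputable def n106 : Strat := .move 920 n80 (.cons 964 n84 (.cons 963 n89 (.cons 919 n95 (.cons 882 n105 .nil))))
noncomputable def n107 : Strat := .move 921 n0 (.cons 799 n106 .nil)
noncomputable def n108 : Strat := .win 799 6 799
noncomputable def n109 : Strat := .win 960 5 919
noncomputable def n110 : Strat := .win 924 5 920
noncomputable def n111 : Strat := .move 961 n109 (.cons 960 n110 .nil)
noncomputable def n112 : Strat := .move 923 n108 (.cons 799 n111 .nil)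
noncomputable def n113 : Strat := .move 964 n28 (.cons 1005 n112 .nil)
noncomputable def n114 : Strat := .move 963 n27 (.cons 1003 n113 .nil)
noncomputable def n115 : Strat := .move 922 n26 (.cons 799 n57 (.cons 923 n71 (.cons 964 n75 (.cons 1003 n107 (.cons 921 n114 .nil)))))
noncomputable def n116 : Strat := .win 1044 3 880
noncomputable def n117 : Strat := .move 922 n72 (.cons 963 n116 .nil)
noncomputable def n118 : Strat := .move 921 n73 (.cons 880 n117 .nil)
noncomputable def n119 : Strat := .win 922 3 880
noncomputable def n120 : Strat := .win 1084 1 920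
noncomputable def n121 : Strat := .win 1086 6 921
noncomputable def n122 : Strat := .win 879 7 879
noncomputable def n123 : Strat := .win 1085 7 920
noncomputable def n124 : Strat := .win 1046 2 1001
noncomputable def n125 : Strat := .win 1000 0 1000
noncomputable def n126 : Strat := .move 1001 n124 (.cons 1046 n125 .nil)
noncomputable def n127 : Strat := .win 1047 2 1002
noncomputable def n128 : Strat := .win 1001 2 1001
noncomputable def n129 : Strat := .move 1046 n127 (.cons 1047 n128 .nil)
noncomputable def n130 : Strat := .win 1083 1 919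
noncomputable def n131 : Strat := .win 1005 4 1001
noncomputable def n132 : Strat := .win 1041 5 1000
noncomputable def n133 : Strat := .move 1004 n131 (.cons 1005 n132 .nil)
noncomputable def n134 : Strat := .move 1042 n130 (.cons 1083 n133 .nil)
noncomputable def n135 : Strat := .move 1002 n126 (.cons 1000 n129 (.cons 1046 n134 .nil))
noncomputable def n136 : Strat := .move 961 n123 (.cons 1085 n135 .nil)
noncomputable def n137 : Strat := .move 920 n122 (.cons 879 n136 .nil)
noncomputable def n138 : Strat := .move 1045 n121 (.cons 1086 n137 .nil)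
noncomputable def n139 : Strat := .move 1043 n120 (.cons 1084 n138 .nil)
noncomputable def n140 : Strat := .move 1044 n119 (.cons 922 n139 .nil)
noncomputable def n141 : Strat := .move 921 n73 (.cons 880 n140 .nil)
noncomputable def n142 : Strat := .win 922 1 839
noncomputable def n143 : Strat := .win 1002 4 961
noncomputable def n144 : Strat := .win 1004 4 962
noncomputable def n145 : Strat := .win 924 5 921
noncomputable def n146 : Strat := .win 926 5 922
noncomputable def n147 : Strat := .move 925 n145 (.cons 924 n146 .nil)
noncomputable def n148 : Strat := .move 966 n144 (.cons 1004 n147 .nil)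
noncomputable def n149 : Strat := .move 965 n143 (.cons 1002 n148 .nil)
noncomputable def n150 : Strat := .win 1006 0 962
noncomputable def n151 : Strat := .win 1008 0 963
noncomputable def n152 : Strat := .move 1007 n150 (.cons 1006 n151 .nil)
noncomputable def n153 : Strat := .move 966 n147 (.cons 926 n152 .nil)
noncomputable def n154 : Strat := .move 965 n143 (.cons 1002 n153 .nil)
noncomputable def n155 : Strat := .move 966 n144 (.cons 1004 n152 .nil)
noncomputable def n156 : Strat := .move 965 n143 (.cons 1002 n155 .nil)
noncomputable def n157 : Strat := .win 961 0 961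
noncomputable def n158 : Strat := .win 883 1 882
noncomputable def n159 : Strat := .win 1087 3 923
noncomputable def n160 : Strat := .move 1046 n158 (.cons 883 n159 .nil)
noncomputable def n161 : Strat := .move 924 n35 (.cons 925 n160 .nil)
noncomputable def n162 : Strat := .move 1005 n157 (.cons 961 n161 .nil)
noncomputable def n163 : Strat := .move 1006 n36 (.cons 1007 n162 .nil)
noncomputable def n164 : Strat := .move 965 n148 (.cons 1004 n153 (.cons 926 n155 (.cons 966 n163 .nil)))
noncomputable def n165 : Strat := .move 965 n143 (.cons 1002 n163 .nil)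
noncomputable def n166 : Strat := .win 1006 0 961
noncomputable def n167 : Strat := .win 960 0 960
noncomputable def n168 : Strat := .move 923 n110 (.cons 924 n92 .nil)
noncomputable def n169 : Strat := .move 1004 n167 (.cons 960 n168 .nil)
noncomputable def n170 : Strat := .move 1005 n166 (.cons 1006 n169 .nil)
noncomputable def n171 : Strat := .move 1002 n48 (.cons 1001 n170 .nil)
noncomputable def n172 : Strat := .move 1005 n166 (.cons 1006 n168 .nil)
noncomputable def n173 : Strat := .win 919 2 919
noncomputable def n174 : Strat := .win 879 6 879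
noncomputable def n175 : Strat := .move 1044 n123 (.cons 1085 n174 .nil)
noncomputable def n176 : Strat := .move 920 n173 (.cons 919 n175 .nil)
noncomputable def n177 : Strat := .move 1002 n48 (.cons 1001 n176 .nil)
noncomputable def n178 : Strat := .move 961 n171 (.cons 1002 n172 (.cons 882 n177 .nil))
noncomputable def n179 : Strat := .move 964 n149 (.cons 1004 n154 (.cons 926 n156 (.cons 1002 n164 (.cons 966 n165 (.cons 965 n178 .nil)))))
noncomputable def n180 : Strat := .move 963 n142 (.cons 922 n179 .nil)
noncomputable def n181 : Strat := .move 965 n32 (.cons 920 n143 .nil)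
noncomputable def n182 : Strat := .move 965 n32 (.cons 920 n148 .nil)
noncomputable def n183 : Strat := .move 923 n92 (.cons 882 n110 .nil)
noncomputable def n184 : Strat := .move 1004 n167 (.cons 960 n183 .nil)
noncomputable def n185 : Strat := .move 1005 n166 (.cons 1006 n184 .nil)
noncomputable def n186 : Strat := .move 1002 n48 (.cons 1001 n185 .nil)
noncomputable def n187 : Strat := .win 1042 4 1001
noncomputable def n188 : Strat := .move 1043 n187 (.cons 1042 n50 .nil)
noncomputable def n189 : Strat := .move 1004 n167 (.cons 960 n188 .nil)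
noncomputable def n190 : Strat := .move 1005 n166 (.cons 1006 n189 .nil)
noncomputable def n191 : Strat := .move 1002 n48 (.cons 1001 n190 .nil)
noncomputable def n192 : Strat := .move 1004 n187 (.cons 1042 n167 .nil)
noncomputable def n193 : Strat := .move 1005 n183 (.cons 924 n192 .nil)
noncomputable def n194 : Strat := .move 1043 n50 (.cons 1084 n193 .nil)
noncomputable def n195 : Strat := .move 920 n173 (.cons 919 n194 .nil)
noncomputable def n196 : Strat := .move 1002 n48 (.cons 1001 n195 .nil)
noncomputable def n197 : Strat := .win 920 2 919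
noncomputable def n198 : Strat := .win 918 2 918
noncomputable def n199 : Strat := .win 958 0 958
noncomputable def n200 : Strat := .win 1004 0 959
noncomputable def n201 : Strat := .move 959 n199 (.cons 958 n200 .nil)
noncomputable def n202 : Strat := .move 960 n198 (.cons 918 n201 .nil)
noncomputable def n203 : Strat := .move 919 n197 (.cons 920 n202 .nil)
noncomputable def n204 : Strat := .move 1002 n48 (.cons 1001 n203 .nil)
noncomputable def n205 : Strat := .move 961 n186 (.cons 1002 n172 (.cons 882 n191 (.cons 1006 n196 (.cons 1005 n204 .nil))))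
noncomputable def n206 : Strat := .move 964 n181 (.cons 1002 n182 (.cons 920 n149 (.cons 965 n205 .nil)))
noncomputable def n207 : Strat := .move 963 n142 (.cons 922 n206 .nil)
noncomputable def n208 : Strat := .move 921 n73 (.cons 880 n207 .nil)
noncomputable def n209 : Strat := .win 961 7 920
noncomputable def n210 : Strat := .win 1045 6 921
noncomputable def n211 : Strat := .win 1127 6 962
noncomputable def n212 : Strat := .move 1086 n210 (.cons 1045 n211 .nil)
noncomputable def n213 : Strat := .move 1085 n209 (.cons 961 n212 .nil)
noncomputable def n214 : Strat := .move 920 n122 (.cons 879 n213 .nil)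
noncomputable def n215 : Strat := .win 1043 1 920
noncomputable def n216 : Strat := .win 1125 1 961
noncomputable def n217 : Strat := .move 1084 n215 (.cons 1043 n216 .nil)
noncomputable def n218 : Strat := .move 1085 n209 (.cons 961 n217 .nil)
noncomputable def n219 : Strat := .move 920 n122 (.cons 879 n218 .nil)
noncomputable def n220 : Strat := .move 1085 n212 (.cons 1127 n217 .nil)
noncomputable def n221 : Strat := .move 1001 n125 (.cons 1000 n124 .nil)
noncomputable def n222 : Strat := .win 1041 4 1000
noncomputable def n223 : Strat := .move 1004 n131 (.cons 1005 n222 .nil)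
noncomputable def n224 : Strat := .win 961 1 919
noncomputable def n225 : Strat := .win 1082 4 1041
noncomputable def n226 : Strat := .move 1083 n224 (.cons 961 n225 .nil)
noncomputable def n227 : Strat := .move 1042 n223 (.cons 1041 n226 .nil)
noncomputable def n228 : Strat := .move 1001 n124 (.cons 1046 n227 .nil)
noncomputable def n229 : Strat := .move 1001 n125 (.cons 1000 n227 .nil)
noncomputable def n230 : Strat := .win 1006 5 1002
noncomputable def n231 : Strat := .win 1004 4 1001
noncomputable def n232 : Strat := .move 1005 n230 (.cons 1006 n231 .nil)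
noncomputable def n233 : Strat := .move 1042 n133 (.cons 1041 n232 (.cons 1005 n226 .nil))
noncomputable def n234 : Strat := .move 1046 n127 (.cons 1047 n233 .nil)
noncomputable def n235 : Strat := .move 1002 n221 (.cons 1000 n228 (.cons 1046 n229 (.cons 1001 n234 .nil)))
noncomputable def n236 : Strat := .move 1045 n121 (.cons 1086 n235 .nil)
noncomputable def n237 : Strat := .move 1043 n120 (.cons 1084 n236 .nil)
noncomputable def n238 : Strat := .move 920 n213 (.cons 961 n220 (.cons 1127 n218 (.cons 1085 n237 .nil)))
noncomputable def n239 : Strat := .move 920 n122 (.cons 879 n237 .nil)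
noncomputable def n240 : Strat := .move 920 n122 (.cons 879 n220 .nil)
noncomputable def n241 : Strat := .win 1165 3 1001
noncomputable def n242 : Strat := .win 961 3 960
noncomputable def n243 : Strat := .move 1124 n241 (.cons 1165 n242 .nil)
noncomputable def n244 : Strat := .move 1083 n225 (.cons 1082 n243 .nil)
noncomputable def n245 : Strat := .move 1042 n223 (.cons 1041 n244 .nil)
noncomputable def n246 : Strat := .move 1001 n125 (.cons 1000 n245 .nil)
noncomputable def n247 : Strat := .move 1001 n124 (.cons 1046 n245 .nil)
noncomputable def n248 : Strat := .win 1006 4 1002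
noncomputable def n249 : Strat := .move 1004 n248 (.cons 1006 n187 .nil)
noncomputable def n250 : Strat := .win 1040 5 999
noncomputable def n251 : Strat := .win 1081 4 1040
noncomputable def n252 : Strat := .win 1083 4 1041
noncomputable def n253 : Strat := .move 1082 n251 (.cons 1081 n252 .nil)
noncomputable def n254 : Strat := .move 1041 n250 (.cons 1040 n253 .nil)
noncomputable def n255 : Strat := .move 1042 n231 (.cons 1004 n254 .nil)
noncomputable def n256 : Strat := .win 1004 4 1002
noncomputable def n257 : Strat := .win 1046 5 1002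
noncomputable def n258 : Strat := .move 1006 n256 (.cons 1004 n257 .nil)
noncomputable def n259 : Strat := .move 1046 n127 (.cons 1047 n230 .nil)
noncomputable def n260 : Strat := .move 1005 n249 (.cons 1006 n255 (.cons 1042 n258 (.cons 1004 n259 .nil)))
noncomputable def n261 : Strat := .move 1002 n221 (.cons 1046 n246 (.cons 1000 n247 (.cons 1001 n260 .nil)))
noncomputable def n262 : Strat := .move 1045 n121 (.cons 1086 n261 .nil)
noncomputable def n263 : Strat := .move 1043 n120 (.cons 1084 n262 .nil)
noncomputable def n264 : Strat := .move 1044 n214 (.cons 1045 n219 (.cons 879 n238 (.cons 1085 n239 (.cons 961 n240 (.cons 920 n263 .nil)))))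
noncomputable def n265 : Strat := .move 921 n73 (.cons 880 n264 .nil)
noncomputable def n266 : Strat := .move 1003 n118 (.cons 963 n141 (.cons 880 n180 (.cons 1044 n208 (.cons 922 n265 .nil))))
noncomputable def n267 : Strat := .move 1003 n73 (.cons 880 n116 .nil)
noncomputable def n268 : Strat := .move 922 n0 (.cons 799 n267 .nil)
noncomputable def n269 : Strat := .move 919 n76 (.cons 882 n103 .nil)
noncomputable def n270 : Strat := .win 883 5 879
noncomputable def n271 : Strat := .move 882 n270 (.cons 883 n13 .nil)
noncomputable def n272 : Strat := .move 923 n90 (.cons 961 n271 .nil)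
noncomputable def n273 : Strat := .win 923 2 878
noncomputable def n274 : Strat := .win 797 6 797
noncomputable def n275 : Strat := .win 961 6 838
noncomputable def n276 : Strat := .move 838 n274 (.cons 797 n275 .nil)
noncomputable def n277 : Strat := .move 879 n273 (.cons 923 n276 .nil)
noncomputable def n278 : Strat := .move 878 n97 (.cons 877 n277 .nil)
noncomputable def n279 : Strat := .move 919 n76 (.cons 882 n278 .nil)
noncomputable def n280 : Strat := .win 959 5 918
noncomputable def n281 : Strat := .move 960 n280 (.cons 959 n96 .nil)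
noncomputable def n282 : Strat := .win 838 6 838
noncomputable def n283 : Strat := .win 878 2 878
noncomputable def n284 : Strat := .move 923 n46 (.cons 924 n283 .nil)
noncomputable def n285 : Strat := .move 879 n282 (.cons 838 n284 .nil)
noncomputable def n286 : Strat := .win 837 7 837
noncomputable def n287 : Strat := .win 876 0 876
noncomputable def n288 : Strat := .win 919 2 877
noncomputable def n289 : Strat := .move 877 n287 (.cons 876 n288 .nil)
noncomputable def n290 : Strat := .move 878 n286 (.cons 837 n289 .nil)
noncomputable def n291 : Strat := .win 1001 1 878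
noncomputable def n292 : Strat := .move 1043 n130 (.cons 1083 n50 .nil)
noncomputable def n293 : Strat := .move 1042 n291 (.cons 1001 n292 .nil)
noncomputable def n294 : Strat := .move 1002 n290 (.cons 878 n293 .nil)
noncomputable def n295 : Strat := .move 879 n282 (.cons 838 n294 .nil)
noncomputable def n296 : Strat := .move 960 n280 (.cons 959 n295 .nil)
noncomputable def n297 : Strat := .move 961 n281 (.cons 960 n285 (.cons 923 n296 .nil))
noncomputable def n298 : Strat := .win 1001 3 837
noncomputable def n299 : Strat := .win 797 1 796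
noncomputable def n300 : Strat := .move 838 n298 (.cons 1001 n299 .nil)
noncomputable def n301 : Strat := .move 960 n18 (.cons 959 n300 .nil)
noncomputable def n302 : Strat := .move 879 n273 (.cons 923 n301 .nil)
noncomputable def n303 : Strat := .move 878 n97 (.cons 877 n302 .nil)
noncomputable def n304 : Strat := .move 919 n76 (.cons 882 n303 .nil)
noncomputable def n305 : Strat := .win 878 2 877
noncomputable def n306 : Strat := .win 876 2 876
noncomputable def n307 : Strat := .move 877 n305 (.cons 878 n306 .nil)
noncomputable def n308 : Strat := .move 918 n86 (.cons 958 n307 .nil)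
noncomputable def n309 : Strat := .move 959 n85 (.cons 960 n308 .nil)
noncomputable def n310 : Strat := .move 919 n76 (.cons 882 n309 .nil)
noncomputable def n311 : Strat := .move 920 n269 (.cons 919 n272 (.cons 960 n279 (.cons 882 n297 (.cons 961 n304 (.cons 923 n310 .nil)))))
noncomputable def n312 : Strat := .move 1003 n116 (.cons 1044 n311 .nil)
noncomputable def n313 : Strat := .move 922 n0 (.cons 799 n312 .nil)
noncomputable def n314 : Strat := .win 922 1 798
noncomputable def n315 : Strat := .win 880 1 757
noncomputable def n316 : Strat := .win 797 4 756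
noncomputable def n317 : Strat := .win 761 4 757
noncomputable def n318 : Strat := .move 798 n316 (.cons 797 n317 .nil)
noncomputable def n319 : Strat := .win 802 0 757
noncomputable def n320 : Strat := .win 800 0 756
noncomputable def n321 : Strat := .win 713 2 713
noncomputable def n322 : Strat := .win 715 2 714
noncomputable def n323 : Strat := .move 714 n321 (.cons 713 n322 .nil)
noncomputable def n324 : Strat := .win 795 4 754
noncomputable def n325 : Strat := .win 797 4 755
noncomputable def n326 : Strat := .move 796 n324 (.cons 795 n325 .nil)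
noncomputable def n327 : Strat := .move 755 n323 (.cons 715 n326 .nil)
noncomputable def n328 : Strat := .move 756 n320 (.cons 800 n327 .nil)
noncomputable def n329 : Strat := .move 801 n319 (.cons 802 n328 .nil)
noncomputable def n330 : Strat := .win 801 0 756
noncomputable def n331 : Strat := .win 755 0 755
noncomputable def n332 : Strat := .move 800 n330 (.cons 801 n331 .nil)
noncomputable def n333 : Strat := .move 801 n319 (.cons 802 n320 .nil)
noncomputable def n334 : Strat := .win 754 0 754
noncomputable def n335 : Strat := .win 800 0 755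
noncomputable def n336 : Strat := .move 755 n334 (.cons 754 n335 .nil)
noncomputable def n337 : Strat := .move 755 n334 (.cons 754 n323 .nil)
noncomputable def n338 : Strat := .move 756 n332 (.cons 755 n333 (.cons 801 n336 (.cons 800 n337 .nil)))
noncomputable def n339 : Strat := .move 798 n317 (.cons 761 n338 .nil)
noncomputable def n340 : Strat := .move 760 n318 (.cons 798 n329 (.cons 797 n339 .nil))
noncomputable def n341 : Strat := .move 759 n62 (.cons 718 n340 .nil)
noncomputable def n342 : Strat := .move 757 n64 (.cons 716 n341 .nil)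
noncomputable def n343 : Strat := .move 758 n315 (.cons 880 n342 .nil)
noncomputable def n344 : Strat := .move 799 n314 (.cons 922 n343 .nil)
noncomputable def n345 : Strat := .move 1003 n73 (.cons 880 n140 .nil)
noncomputable def n346 : Strat := .win 1005 5 1001
noncomputable def n347 : Strat := .move 1004 n346 (.cons 1005 n132 .nil)
noncomputable def n348 : Strat := .win 1002 1 919
noncomputable def n349 : Strat := .move 1083 n348 (.cons 1002 n225 .nil)
noncomputable def n350 : Strat := .move 1042 n347 (.cons 1041 n349 .nil)
noncomputable def n351 : Strat := .move 961 n123 (.cons 1085 n350 .nil)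
noncomputable def n352 : Strat := .move 920 n122 (.cons 879 n351 .nil)
noncomputable def n353 : Strat := .move 1045 n121 (.cons 1086 n352 .nil)
noncomputable def n354 : Strat := .move 1043 n120 (.cons 1084 n353 .nil)
noncomputable def n355 : Strat := .move 1002 n128 (.cons 1001 n127 .nil)
noncomputable def n356 : Strat := .win 1002 2 1002
noncomputable def n357 : Strat := .win 1089 0 1044
noncomputable def n358 : Strat := .win 1087 0 1043
noncomputable def n359 : Strat := .move 1088 n357 (.cons 1089 n358 .nil)
noncomputable def n360 : Strat := .move 1047 n356 (.cons 1002 n359 .nil)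
noncomputable def n361 : Strat := .win 1007 5 1003
noncomputable def n362 : Strat := .win 1005 5 1002
noncomputable def n363 : Strat := .move 1006 n361 (.cons 1007 n362 .nil)
noncomputable def n364 : Strat := .move 1047 n359 (.cons 1087 n363 .nil)
noncomputable def n365 : Strat := .win 1002 2 1001
noncomputable def n366 : Strat := .win 1000 2 1000
noncomputable def n367 : Strat := .move 1042 n366 (.cons 1000 n347 .nil)
noncomputable def n368 : Strat := .move 1001 n365 (.cons 1002 n367 .nil)
noncomputable def n369 : Strat := .move 1046 n355 (.cons 1001 n360 (.cons 1002 n364 (.cons 1047 n368 .nil)))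
noncomputable def n370 : Strat := .move 1045 n121 (.cons 1086 n369 .nil)
noncomputable def n371 : Strat := .move 1043 n120 (.cons 1084 n370 .nil)
noncomputable def n372 : Strat := .move 799 n354 (.cons 1043 n214 (.cons 920 n371 (.cons 1045 n219 .nil)))
noncomputable def n373 : Strat := .move 1004 n132 (.cons 1041 n346 .nil)
noncomputable def n374 : Strat := .win 1046 0 1001
noncomputable def n375 : Strat := .move 1001 n374 (.cons 1046 n125 .nil)
noncomputable def n376 : Strat := .win 1001 0 1001
noncomputable def n377 : Strat := .move 1046 n127 (.cons 1047 n376 .nil)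
noncomputable def n378 : Strat := .move 1002 n375 (.cons 1000 n377 (.cons 1046 n226 .nil))
noncomputable def n379 : Strat := .move 1004 n346 (.cons 1005 n378 .nil)
noncomputable def n380 : Strat := .move 1002 n124 (.cons 1046 n226 .nil)
noncomputable def n381 : Strat := .move 1001 n366 (.cons 1000 n380 .nil)
noncomputable def n382 : Strat := .move 1042 n373 (.cons 1041 n379 (.cons 1004 n381 .nil))
noncomputable def n383 : Strat := .move 1045 n121 (.cons 1086 n382 .nil)
noncomputable def n384 : Strat := .move 1043 n120 (.cons 1084 n383 .nil)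
noncomputable def n385 : Strat := .move 1085 n217 (.cons 1125 n212 .nil)
noncomputable def n386 : Strat := .move 920 n218 (.cons 1085 n384 (.cons 1043 n213 (.cons 961 n385 .nil)))
noncomputable def n387 : Strat := .move 920 n122 (.cons 879 n384 .nil)
noncomputable def n388 : Strat := .move 920 n122 (.cons 879 n385 .nil)
noncomputable def n389 : Strat := .win 1002 0 1001
noncomputable def n390 : Strat := .move 1001 n389 (.cons 1002 n366 .nil)
noncomputable def n391 : Strat := .move 1002 n127 (.cons 1047 n376 .nil)
noncomputable def n392 : Strat := .win 1048 2 1003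
noncomputable def n393 : Strat := .move 1047 n392 (.cons 1048 n359 .nil)
noncomputable def n394 : Strat := .move 1046 n390 (.cons 1000 n391 (.cons 1002 n393 .nil))
noncomputable def n395 : Strat := .move 1004 n346 (.cons 1005 n394 .nil)
noncomputable def n396 : Strat := .move 1002 n124 (.cons 1046 n254 .nil)
noncomputable def n397 : Strat := .move 1001 n366 (.cons 1000 n396 .nil)
noncomputable def n398 : Strat := .move 1042 n373 (.cons 1041 n395 (.cons 1004 n397 .nil))
noncomputable def n399 : Strat := .move 1045 n121 (.cons 1086 n398 .nil)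
noncomputable def n400 : Strat := .move 1043 n120 (.cons 1084 n399 .nil)
noncomputable def n401 : Strat := .move 1044 n372 (.cons 799 n139 (.cons 1043 n214 (.cons 879 n386 (.cons 1085 n387 (.cons 961 n388 (.cons 1045 n219 (.cons 920 n400 .nil)))))))
noncomputable def n402 : Strat := .move 1003 n73 (.cons 880 n401 .nil)
noncomputable def n403 : Strat := .move 921 n268 (.cons 880 n313 (.cons 1003 n344 (.cons 799 n345 (.cons 922 n402 .nil))))
noncomputable def n404 : Strat := .win 923 6 799
noncomputable def n405 : Strat := .move 964 n404 (.cons 923 n28 .nil)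
noncomputable def n406 : Strat := .move 963 n27 (.cons 1003 n405 .nil)
noncomputable def n407 : Strat := .move 799 n58 (.cons 921 n406 .nil)
noncomputable def n408 : Strat := .move 923 n109 (.cons 960 n110 .nil)
noncomputable def n409 : Strat := .win 921 2 920
noncomputable def n410 : Strat := .win 1002 4 960
noncomputable def n411 : Strat := .win 1000 4 959
noncomputable def n412 : Strat := .move 1007 n151 (.cons 1008 n150 .nil)
noncomputable def n413 : Strat := .move 925 n146 (.cons 926 n145 .nil)
noncomputable def n414 : Strat := .move 966 n412 (.cons 1006 n413 .nil)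
noncomputable def n415 : Strat := .move 960 n411 (.cons 1000 n414 .nil)
noncomputable def n416 : Strat := .move 1001 n410 (.cons 1002 n415 .nil)
noncomputable def n417 : Strat := .move 965 n409 (.cons 921 n416 .nil)
noncomputable def n418 : Strat := .move 920 n173 (.cons 919 n417 .nil)
noncomputable def n419 : Strat := .win 921 0 920
noncomputable def n420 : Strat := .win 967 2 922
noncomputable def n421 : Strat := .move 966 n420 (.cons 967 n412 .nil)
noncomputable def n422 : Strat := .move 965 n419 (.cons 921 n421 .nil)
noncomputable def n423 : Strat := .move 920 n173 (.cons 919 n422 .nil)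
noncomputable def n424 : Strat := .move 923 n110 (.cons 924 n423 .nil)
noncomputable def n425 : Strat := .move 923 n109 (.cons 960 n423 .nil)
noncomputable def n426 : Strat := .move 961 n408 (.cons 923 n418 (.cons 960 n424 (.cons 924 n425 .nil)))
noncomputable def n427 : Strat := .move 964 n28 (.cons 1005 n426 .nil)
noncomputable def n428 : Strat := .move 963 n27 (.cons 1003 n427 .nil)
noncomputable def n429 : Strat := .move 759 n61 (.cons 800 n62 .nil)
noncomputable def n430 : Strat := .move 758 n64 (.cons 716 n429 .nil)
noncomputable def n431 : Strat := .move 757 n63 (.cons 798 n430 .nil)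
noncomputable def n432 : Strat := .move 963 n27 (.cons 1003 n431 .nil)
noncomputable def n433 : Strat := .move 963 n405 (.cons 964 n431 .nil)
noncomputable def n434 : Strat := .win 964 6 799
noncomputable def n435 : Strat := .win 882 6 758
noncomputable def n436 : Strat := .move 758 n435 (.cons 882 n65 .nil)
noncomputable def n437 : Strat := .move 923 n434 (.cons 964 n436 .nil)
noncomputable def n438 : Strat := .move 799 n406 (.cons 964 n432 (.cons 1003 n433 (.cons 963 n437 .nil)))
noncomputable def n439 : Strat := .move 799 n58 (.cons 921 n433 .nil)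
noncomputable def n440 : Strat := .move 1003 n72 (.cons 963 n116 .nil)
noncomputable def n441 : Strat := .move 921 n0 (.cons 799 n440 .nil)
noncomputable def n442 : Strat := .move 799 n58 (.cons 921 n437 .nil)
noncomputable def n443 : Strat := .move 922 n407 (.cons 799 n428 (.cons 921 n438 (.cons 1003 n439 (.cons 964 n441 (.cons 963 n442 .nil)))))
noncomputable def n444 : Strat := .move 799 n58 (.cons 921 n404 .nil)
noncomputable def n445 : Strat := .move 964 n28 (.cons 1005 n444 .nil)
noncomputable def n446 : Strat := .move 963 n27 (.cons 1003 n445 .nil)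
noncomputable def n447 : Strat := .move 921 n32 (.cons 920 n33 .nil)
noncomputable def n448 : Strat := .win 923 5 920
noncomputable def n449 : Strat := .move 919 n198 (.cons 918 n197 .nil)
noncomputable def n450 : Strat := .move 1001 n411 (.cons 1000 n410 .nil)
noncomputable def n451 : Strat := .move 960 n449 (.cons 920 n450 .nil)
noncomputable def n452 : Strat := .move 966 n151 (.cons 1008 n451 .nil)
noncomputable def n453 : Strat := .move 1007 n150 (.cons 1006 n452 .nil)
noncomputable def n454 : Strat := .move 961 n448 (.cons 923 n453 .nil)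
noncomputable def n455 : Strat := .move 924 n35 (.cons 925 n454 .nil)
noncomputable def n456 : Strat := .win 923 4 920
noncomputable def n457 : Strat := .move 960 n280 (.cons 959 n450 .nil)
noncomputable def n458 : Strat := .move 961 n456 (.cons 923 n457 .nil)
noncomputable def n459 : Strat := .move 924 n35 (.cons 925 n458 .nil)
noncomputable def n460 : Strat := .move 921 n32 (.cons 920 n459 .nil)
noncomputable def n461 : Strat := .move 921 n33 (.cons 966 n459 .nil)
noncomputable def n462 : Strat := .move 965 n447 (.cons 921 n455 (.cons 966 n460 (.cons 920 n461 .nil)))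
noncomputable def n463 : Strat := .move 964 n28 (.cons 1005 n462 .nil)
noncomputable def n464 : Strat := .move 963 n27 (.cons 1003 n463 .nil)
noncomputable def n465 : Strat := .win 925 4 921
noncomputable def n466 : Strat := .win 961 5 920
noncomputable def n467 : Strat := .move 924 n465 (.cons 925 n466 .nil)
noncomputable def n468 : Strat := .move 923 n108 (.cons 799 n467 .nil)
noncomputable def n469 : Strat := .move 964 n28 (.cons 1005 n468 .nil)
noncomputable def n470 : Strat := .move 963 n27 (.cons 1003 n469 .nil)
noncomputable def n471 : Strat := .move 921 n0 (.cons 799 n267 .nil)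
noncomputable def n472 : Strat := .win 880 2 880
noncomputable def n473 : Strat := .win 963 4 921
noncomputable def n474 : Strat := .move 925 n472 (.cons 880 n473 .nil)
noncomputable def n475 : Strat := .move 924 n2 (.cons 961 n474 .nil)
noncomputable def n476 : Strat := .win 880 2 879
noncomputable def n477 : Strat := .win 964 0 920
noncomputable def n478 : Strat := .win 966 0 921
noncomputable def n479 : Strat := .move 965 n477 (.cons 964 n478 .nil)
noncomputable def n480 : Strat := .move 920 n283 (.cons 878 n479 .nil)
noncomputable def n481 : Strat := .move 879 n476 (.cons 880 n480 .nil)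
noncomputable def n482 : Strat := .win 965 0 921
noncomputable def n483 : Strat := .win 967 0 922
noncomputable def n484 : Strat := .move 966 n482 (.cons 965 n483 .nil)
noncomputable def n485 : Strat := .move 925 n473 (.cons 963 n484 .nil)
noncomputable def n486 : Strat := .move 924 n474 (.cons 925 n481 (.cons 880 n485 .nil))
noncomputable def n487 : Strat := .move 925 n472 (.cons 880 n484 .nil)
noncomputable def n488 : Strat := .move 924 n2 (.cons 961 n487 .nil)
noncomputable def n489 : Strat := .move 924 n2 (.cons 961 n485 .nil)
noncomputable def n490 : Strat := .move 924 n2 (.cons 961 n481 .nil)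
noncomputable def n491 : Strat := .move 963 n28 (.cons 1005 n29 .nil)
noncomputable def n492 : Strat := .move 964 n11 (.cons 965 n491 .nil)
noncomputable def n493 : Strat := .win 879 2 878
noncomputable def n494 : Strat := .move 919 n97 (.cons 877 n83 .nil)
noncomputable def n495 : Strat := .move 878 n493 (.cons 879 n494 .nil)
noncomputable def n496 : Strat := .move 961 n45 (.cons 960 n495 .nil)
noncomputable def n497 : Strat := .win 1046 7 881
noncomputable def n498 : Strat := .move 1005 n91 (.cons 963 n497 .nil)
noncomputable def n499 : Strat := .move 964 n11 (.cons 965 n498 .nil)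
noncomputable def n500 : Strat := .move 961 n45 (.cons 960 n499 .nil)
noncomputable def n501 : Strat := .win 917 0 917
noncomputable def n502 : Strat := .move 918 n82 (.cons 880 n501 .nil)
noncomputable def n503 : Strat := .move 919 n97 (.cons 877 n502 .nil)
noncomputable def n504 : Strat := .move 878 n493 (.cons 879 n503 .nil)
noncomputable def n505 : Strat := .move 961 n45 (.cons 960 n504 .nil)
noncomputable def n506 : Strat := .move 920 n492 (.cons 964 n496 (.cons 919 n500 (.cons 963 n505 .nil)))
noncomputable def n507 : Strat := .move 923 n475 (.cons 961 n486 (.cons 963 n488 (.cons 880 n489 (.cons 925 n490 (.cons 924 n506 .nil)))))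
noncomputable def n508 : Strat := .move 921 n0 (.cons 799 n507 .nil)
noncomputable def n509 : Strat := .move 922 n446 (.cons 799 n464 (.cons 921 n470 (.cons 963 n471 (.cons 1003 n508 .nil))))
noncomputable def n510 : Strat := .move 922 n0 (.cons 799 n74 .nil)
noncomputable def n511 : Strat := .move 800 n331 (.cons 755 n330 .nil)
noncomputable def n512 : Strat := .win 798 4 756
noncomputable def n513 : Strat := .win 796 4 755
noncomputable def n514 : Strat := .move 797 n512 (.cons 798 n513 .nil)
noncomputable def n515 : Strat := .win 762 4 758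
noncomputable def n516 : Strat := .win 798 4 757
noncomputable def n517 : Strat := .move 761 n515 (.cons 762 n516 .nil)
noncomputable def n518 : Strat := .win 721 5 717
noncomputable def n519 : Strat := .win 719 5 716
noncomputable def n520 : Strat := .move 720 n518 (.cons 721 n519 .nil)
noncomputable def n521 : Strat := .move 761 n515 (.cons 762 n520 .nil)
noncomputable def n522 : Strat := .move 760 n318 (.cons 761 n514 (.cons 797 n517 (.cons 798 n521 .nil)))
noncomputable def n523 : Strat := .move 800 n330 (.cons 801 n522 .nil)
noncomputable def n524 : Strat := .win 803 0 758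
noncomputable def n525 : Strat := .win 801 0 757
noncomputable def n526 : Strat := .move 802 n524 (.cons 803 n525 .nil)
noncomputable def n527 : Strat := .move 761 n526 (.cons 801 n520 .nil)
noncomputable def n528 : Strat := .move 760 n512 (.cons 798 n527 .nil)
noncomputable def n529 : Strat := .move 797 n513 (.cons 796 n528 .nil)
noncomputable def n530 : Strat := .move 800 n331 (.cons 755 n522 .nil)
noncomputable def n531 : Strat := .move 756 n511 (.cons 755 n523 (.cons 800 n529 (.cons 801 n530 .nil)))
noncomputable def n532 : Strat := .move 757 n64 (.cons 716 n531 .nil)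
noncomputable def n533 : Strat := .move 759 n62 (.cons 718 n532 .nil)
noncomputable def n534 : Strat := .move 758 n315 (.cons 880 n533 .nil)
noncomputable def n535 : Strat := .move 799 n314 (.cons 922 n534 .nil)
noncomputable def n536 : Strat := .move 922 n0 (.cons 799 n440 .nil)
noncomputable def n537 : Strat := .move 1003 n73 (.cons 880 n117 .nil)
noncomputable def n538 : Strat := .move 1002 n125 (.cons 1000 n124 .nil)
noncomputable def n539 : Strat := .win 1004 4 1000
noncomputable def n540 : Strat := .move 1041 n250 (.cons 1040 n539 .nil)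
noncomputable def n541 : Strat := .move 1042 n226 (.cons 1082 n540 .nil)
noncomputable def n542 : Strat := .move 1002 n125 (.cons 1000 n541 .nil)
noncomputable def n543 : Strat := .win 1004 5 1000
noncomputable def n544 : Strat := .move 1041 n543 (.cons 1004 n253 .nil)
noncomputable def n545 : Strat := .move 1042 n366 (.cons 1000 n544 .nil)
noncomputable def n546 : Strat := .move 1002 n124 (.cons 1046 n540 .nil)
noncomputable def n547 : Strat := .move 1042 n380 (.cons 1002 n544 (.cons 1082 n546 .nil))
noncomputable def n548 : Strat := .move 1001 n538 (.cons 1046 n542 (.cons 1002 n545 (.cons 1000 n547 .nil)))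
noncomputable def n549 : Strat := .move 1043 n120 (.cons 1084 n548 .nil)
noncomputable def n550 : Strat := .move 1045 n121 (.cons 1086 n549 .nil)
noncomputable def n551 : Strat := .move 920 n213 (.cons 961 n220 (.cons 1127 n218 (.cons 1085 n550 .nil)))
noncomputable def n552 : Strat := .move 920 n122 (.cons 879 n550 .nil)
noncomputable def n553 : Strat := .move 1041 n539 (.cons 1004 n253 .nil)
noncomputable def n554 : Strat := .move 1042 n540 (.cons 1004 n254 (.cons 1040 n553 (.cons 1041 n244 .nil)))
noncomputable def n555 : Strat := .move 1002 n124 (.cons 1046 n554 .nil)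
noncomputable def n556 : Strat := .move 1001 n538 (.cons 1000 n555 (.cons 1002 n545 .nil))
noncomputable def n557 : Strat := .move 1043 n120 (.cons 1084 n556 .nil)
noncomputable def n558 : Strat := .move 1045 n121 (.cons 1086 n557 .nil)
noncomputable def n559 : Strat := .move 1044 n214 (.cons 879 n551 (.cons 1085 n552 (.cons 961 n240 (.cons 1045 n219 (.cons 920 n558 .nil)))))
noncomputable def n560 : Strat := .move 1003 n73 (.cons 880 n559 .nil)
noncomputable def n561 : Strat := .move 921 n510 (.cons 1003 n535 (.cons 880 n536 (.cons 799 n537 (.cons 922 n560 .nil))))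
noncomputable def n562 : Strat := .move 799 n58 (.cons 921 n432 .nil)
noncomputable def n563 : Strat := .move 921 n73 (.cons 880 n116 .nil)
noncomputable def n564 : Strat := .move 1003 n72 (.cons 963 n563 .nil)
noncomputable def n565 : Strat := .move 799 n406 (.cons 963 n437 (.cons 964 n432 .nil))
noncomputable def n566 : Strat := .move 922 n407 (.cons 964 n562 (.cons 963 n442 (.cons 799 n564 (.cons 921 n565 .nil))))
noncomputable def n567 : Strat := .move 922 n28 (.cons 1005 n444 .nil)
noncomputable def n568 : Strat := .move 921 n0 (.cons 799 n34 .nil)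
noncomputable def n569 : Strat := .move 922 n28 (.cons 1005 n568 .nil)
noncomputable def n570 : Strat := .move 922 n28 (.cons 1005 n112 .nil)
noncomputable def n571 : Strat := .move 922 n28 (.cons 1005 n55 .nil)
noncomputable def n572 : Strat := .move 922 n444 (.cons 799 n55 (.cons 921 n112 (.cons 923 n568 .nil)))
noncomputable def n573 : Strat := .win 1005 0 961
noncomputable def n574 : Strat := .move 1006 n573 (.cons 1005 n36 .nil)
noncomputable def n575 : Strat := .move 961 n448 (.cons 923 n574 .nil)
noncomputable def n576 : Strat := .move 924 n35 (.cons 925 n575 .nil)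
noncomputable def n577 : Strat := .move 920 n173 (.cons 919 n409 .nil)
noncomputable def n578 : Strat := .move 961 n573 (.cons 1005 n577 .nil)
noncomputable def n579 : Strat := .move 1006 n36 (.cons 1007 n578 .nil)
noncomputable def n580 : Strat := .move 961 n448 (.cons 923 n577 .nil)
noncomputable def n581 : Strat := .move 924 n35 (.cons 925 n580 .nil)
noncomputable def n582 : Strat := .move 923 n38 (.cons 882 n37 .nil)
noncomputable def n583 : Strat := .win 1087 1 923
noncomputable def n584 : Strat := .win 1089 6 924
noncomputable def n585 : Strat := .win 1050 2 1005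
noncomputable def n586 : Strat := .win 1004 2 1004
noncomputable def n587 : Strat := .move 1049 n585 (.cons 1050 n586 .nil)
noncomputable def n588 : Strat := .move 1048 n584 (.cons 1089 n587 .nil)
noncomputable def n589 : Strat := .move 1005 n158 (.cons 883 n588 .nil)
noncomputable def n590 : Strat := .move 1046 n583 (.cons 1087 n589 .nil)
noncomputable def n591 : Strat := .move 1047 n582 (.cons 923 n590 .nil)
noncomputable def n592 : Strat := .move 1006 n36 (.cons 1007 n591 .nil)
noncomputable def n593 : Strat := .move 924 n35 (.cons 925 n592 .nil)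
noncomputable def n594 : Strat := .move 965 n576 (.cons 923 n579 (.cons 1006 n581 (.cons 961 n593 .nil)))
noncomputable def n595 : Strat := .move 963 n567 (.cons 923 n569 (.cons 921 n570 (.cons 799 n571 (.cons 1005 n572 (.cons 922 n594 .nil)))))
noncomputable def n596 : Strat := .move 922 n0 (.cons 799 n33 .nil)
noncomputable def n597 : Strat := .move 921 n32 (.cons 920 n596 .nil)
noncomputable def n598 : Strat := .move 966 n146 (.cons 926 n152 .nil)
noncomputable def n599 : Strat := .move 925 n145 (.cons 924 n598 .nil)
noncomputable def n600 : Strat := .win 757 7 716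
noncomputable def n601 : Strat := .win 675 7 675
noncomputable def n602 : Strat := .win 677 3 676
noncomputable def n603 : Strat := .win 759 3 717
noncomputable def n604 : Strat := .move 718 n602 (.cons 677 n603 .nil)
noncomputable def n605 : Strat := .move 717 n601 (.cons 675 n604 .nil)
noncomputable def n606 : Strat := .move 716 n600 (.cons 757 n605 .nil)
noncomputable def n607 : Strat := .move 758 n315 (.cons 880 n606 .nil)
noncomputable def n608 : Strat := .move 799 n314 (.cons 922 n607 .nil)
noncomputable def n609 : Strat := .move 921 n32 (.cons 920 n608 .nil)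
noncomputable def n610 : Strat := .move 925 n145 (.cons 924 n609 .nil)
noncomputable def n611 : Strat := .move 965 n597 (.cons 920 n599 (.cons 966 n610 .nil))
noncomputable def n612 : Strat := .move 799 n58 (.cons 921 n67 .nil)
noncomputable def n613 : Strat := .move 922 n28 (.cons 1005 n612 .nil)
noncomputable def n614 : Strat := .win 922 6 840
noncomputable def n615 : Strat := .win 965 0 962
noncomputable def n616 : Strat := .win 1004 2 962
noncomputable def n617 : Strat := .move 1007 n615 (.cons 965 n616 .nil)
noncomputable def n618 : Strat := .move 1006 n157 (.cons 961 n617 .nil)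
noncomputable def n619 : Strat := .move 1005 n614 (.cons 922 n618 .nil)
noncomputable def n620 : Strat := .move 965 n409 (.cons 921 n574 .nil)
noncomputable def n621 : Strat := .move 920 n173 (.cons 919 n620 .nil)
noncomputable def n622 : Strat := .win 1004 0 960
noncomputable def n623 : Strat := .move 1001 n410 (.cons 1002 n411 .nil)
noncomputable def n624 : Strat := .move 960 n622 (.cons 1004 n623 .nil)
noncomputable def n625 : Strat := .move 1005 n166 (.cons 1006 n624 .nil)
noncomputable def n626 : Strat := .move 919 n197 (.cons 920 n198 .nil)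
noncomputable def n627 : Strat := .move 960 n622 (.cons 1004 n626 .nil)
noncomputable def n628 : Strat := .move 960 n626 (.cons 919 n623 .nil)
noncomputable def n629 : Strat := .win 1004 4 963
noncomputable def n630 : Strat := .win 1009 0 964
noncomputable def n631 : Strat := .win 1007 0 963
noncomputable def n632 : Strat := .move 1008 n630 (.cons 1009 n631 .nil)
noncomputable def n633 : Strat := .move 967 n629 (.cons 1004 n632 .nil)
noncomputable def n634 : Strat := .move 966 n146 (.cons 926 n633 .nil)
noncomputable def n635 : Strat := .move 925 n145 (.cons 924 n634 .nil)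
noncomputable def n636 : Strat := .move 965 n409 (.cons 921 n635 .nil)
noncomputable def n637 : Strat := .move 920 n173 (.cons 919 n636 .nil)
noncomputable def n638 : Strat := .move 1005 n627 (.cons 920 n624 (.cons 1004 n628 (.cons 960 n637 .nil)))
noncomputable def n639 : Strat := .move 966 n146 (.cons 926 n412 .nil)
noncomputable def n640 : Strat := .move 925 n145 (.cons 924 n639 .nil)
noncomputable def n641 : Strat := .move 960 n411 (.cons 1000 n640 .nil)
noncomputable def n642 : Strat := .move 1001 n410 (.cons 1002 n641 .nil)
noncomputable def n643 : Strat := .move 965 n409 (.cons 921 n642 .nil)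
noncomputable def n644 : Strat := .move 920 n173 (.cons 919 n643 .nil)
noncomputable def n645 : Strat := .move 961 n621 (.cons 919 n625 (.cons 1006 n638 (.cons 1005 n644 .nil)))
noncomputable def n646 : Strat := .move 963 n569 (.cons 1005 n611 (.cons 920 n613 (.cons 799 n619 (.cons 922 n645 .nil))))
noncomputable def n647 : Strat := .move 922 n108 (.cons 799 n109 .nil)
noncomputable def n648 : Strat := .move 923 n110 (.cons 924 n647 .nil)
noncomputable def n649 : Strat := .move 960 n198 (.cons 918 n623 .nil)
noncomputable def n650 : Strat := .move 919 n197 (.cons 920 n649 .nil)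
noncomputable def n651 : Strat := .win 922 6 799
noncomputable def n652 : Strat := .move 717 n601 (.cons 675 n602 .nil)
noncomputable def n653 : Strat := .move 716 n600 (.cons 757 n652 .nil)
noncomputable def n654 : Strat := .move 718 n603 (.cons 759 n653 .nil)
noncomputable def n655 : Strat := .move 758 n435 (.cons 882 n654 .nil)
noncomputable def n656 : Strat := .move 799 n651 (.cons 922 n655 .nil)
noncomputable def n657 : Strat := .move 923 n110 (.cons 924 n656 .nil)
noncomputable def n658 : Strat := .move 919 n197 (.cons 920 n657 .nil)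
noncomputable def n659 : Strat := .move 961 n648 (.cons 924 n650 (.cons 960 n658 .nil))
noncomputable def n660 : Strat := .win 883 3 882
noncomputable def n661 : Strat := .move 965 n35 (.cons 925 n159 .nil)
noncomputable def n662 : Strat := .move 924 n660 (.cons 883 n661 .nil)
noncomputable def n663 : Strat := .win 965 5 921
noncomputable def n664 : Strat := .win 926 4 922
noncomputable def n665 : Strat := .move 925 n663 (.cons 965 n664 .nil)
noncomputable def n666 : Strat := .move 924 n660 (.cons 883 n665 .nil)
noncomputable def n667 : Strat := .win 1045 1 922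
noncomputable def n668 : Strat := .win 1127 1 963
noncomputable def n669 : Strat := .win 1129 6 964
noncomputable def n670 : Strat := .win 1047 6 923
noncomputable def n671 : Strat := .move 1088 n669 (.cons 1129 n670 .nil)
noncomputable def n672 : Strat := .move 1087 n668 (.cons 1127 n671 .nil)
noncomputable def n673 : Strat := .move 1086 n667 (.cons 1045 n672 .nil)
noncomputable def n674 : Strat := .move 925 n664 (.cons 926 n673 .nil)
noncomputable def n675 : Strat := .move 924 n660 (.cons 883 n674 .nil)
noncomputable def n676 : Strat := .win 965 3 923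
noncomputable def n677 : Strat := .move 1086 n667 (.cons 1045 n668 .nil)
noncomputable def n678 : Strat := .move 1087 n676 (.cons 965 n677 .nil)
noncomputable def n679 : Strat := .move 924 n661 (.cons 965 n674 (.cons 1087 n665 (.cons 925 n678 .nil)))
noncomputable def n680 : Strat := .move 924 n660 (.cons 883 n678 .nil)
noncomputable def n681 : Strat := .move 1088 n670 (.cons 1047 n669 .nil)
noncomputable def n682 : Strat := .move 1087 n668 (.cons 1127 n681 .nil)
noncomputable def n683 : Strat := .move 1086 n667 (.cons 1045 n682 .nil)
noncomputable def n684 : Strat := .move 1046 n662 (.cons 1087 n666 (.cons 965 n675 (.cons 883 n679 (.cons 925 n680 (.cons 924 n683 .nil)))))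
noncomputable def n685 : Strat := .move 923 n92 (.cons 882 n684 .nil)
noncomputable def n686 : Strat := .move 1005 n614 (.cons 922 n685 .nil)
noncomputable def n687 : Strat := .move 961 n166 (.cons 1006 n627 .nil)
noncomputable def n688 : Strat := .move 1005 n614 (.cons 922 n687 .nil)
noncomputable def n689 : Strat := .move 1005 n166 (.cons 1006 n183 .nil)
noncomputable def n690 : Strat := .move 1005 n166 (.cons 1006 n627 .nil)
noncomputable def n691 : Strat := .move 1005 n183 (.cons 923 n627 .nil)
noncomputable def n692 : Strat := .move 961 n689 (.cons 923 n690 (.cons 1006 n691 (.cons 1005 n650 .nil)))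
noncomputable def n693 : Strat := .move 963 n570 (.cons 1005 n659 (.cons 961 n686 (.cons 924 n688 (.cons 922 n692 .nil))))
noncomputable def n694 : Strat := .move 1043 n50 (.cons 1084 n49 .nil)
noncomputable def n695 : Strat := .move 1002 n48 (.cons 1001 n694 .nil)
noncomputable def n696 : Strat := .move 920 n173 (.cons 919 n695 .nil)
noncomputable def n697 : Strat := .move 920 n695 (.cons 1002 n689 .nil)
noncomputable def n698 : Strat := .move 920 n173 (.cons 919 n689 .nil)
noncomputable def n699 : Strat := .move 921 n696 (.cons 919 n697 (.cons 1002 n698 (.cons 920 n689 .nil)))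
noncomputable def n700 : Strat := .move 961 n699 (.cons 1006 n691 (.cons 923 n690 (.cons 920 n689 (.cons 1005 n650 .nil))))
noncomputable def n701 : Strat := .move 924 n466 (.cons 961 n465 .nil)
noncomputable def n702 : Strat := .move 923 n108 (.cons 799 n701 .nil)
noncomputable def n703 : Strat := .move 922 n28 (.cons 1005 n702 .nil)
noncomputable def n704 : Strat := .move 799 n58 (.cons 921 n431 .nil)
noncomputable def n705 : Strat := .move 922 n28 (.cons 1005 n704 .nil)
noncomputable def n706 : Strat := .move 758 n435 (.cons 882 n606 .nil)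
noncomputable def n707 : Strat := .move 799 n651 (.cons 922 n706 .nil)
noncomputable def n708 : Strat := .move 923 n110 (.cons 924 n707 .nil)
noncomputable def n709 : Strat := .move 919 n197 (.cons 920 n708 .nil)
noncomputable def n710 : Strat := .move 961 n648 (.cons 922 n650 (.cons 960 n709 .nil))
noncomputable def n711 : Strat := .move 963 n567 (.cons 922 n700 (.cons 921 n703 (.cons 923 n705 (.cons 1005 n710 .nil))))
noncomputable def n712 : Strat := .move 963 n28 (.cons 1005 n444 .nil)
noncomputable def n713 : Strat := .move 923 n92 (.cons 882 n497 .nil)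
noncomputable def n714 : Strat := .move 1005 n91 (.cons 963 n713 .nil)
noncomputable def n715 : Strat := .move 963 n28 (.cons 1005 n612 .nil)
noncomputable def n716 : Strat := .win 919 2 918
noncomputable def n717 : Strat := .win 921 5 918
noncomputable def n718 : Strat := .win 917 2 917
noncomputable def n719 : Strat := .move 959 n717 (.cons 921 n718 .nil)
noncomputable def n720 : Strat := .move 918 n716 (.cons 919 n719 .nil)
noncomputable def n721 : Strat := .move 960 n411 (.cons 1000 n720 .nil)
noncomputable def n722 : Strat := .move 1001 n410 (.cons 1002 n721 .nil)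
noncomputable def n723 : Strat := .win 921 2 921
noncomputable def n724 : Strat := .move 966 n723 (.cons 921 n412 .nil)
noncomputable def n725 : Strat := .move 965 n35 (.cons 925 n724 .nil)
noncomputable def n726 : Strat := .move 924 n448 (.cons 923 n725 .nil)
noncomputable def n727 : Strat := .move 1001 n410 (.cons 1002 n726 .nil)
noncomputable def n728 : Strat := .move 961 n408 (.cons 923 n722 (.cons 960 n727 .nil))
noncomputable def n729 : Strat := .move 799 n404 (.cons 923 n67 .nil)
noncomputable def n730 : Strat := .move 963 n444 (.cons 799 n728 (.cons 923 n612 (.cons 921 n729 .nil)))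
noncomputable def n731 : Strat := .move 922 n712 (.cons 799 n714 (.cons 923 n715 (.cons 1005 n730 (.cons 963 n444 .nil))))
noncomputable def n732 : Strat := .move 1005 n92 (.cons 882 n497 .nil)
noncomputable def n733 : Strat := .win 920 0 920
noncomputable def n734 : Strat := .move 965 n733 (.cons 920 n478 .nil)
noncomputable def n735 : Strat := .move 921 n2 (.cons 961 n734 .nil)
noncomputable def n736 : Strat := .move 880 n5 (.cons 925 n3 .nil)
noncomputable def n737 : Strat := .move 921 n2 (.cons 961 n736 .nil)
noncomputable def n738 : Strat := .move 921 n734 (.cons 966 n736 .nil)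
noncomputable def n739 : Strat := .win 966 0 922
noncomputable def n740 : Strat := .win 968 0 923
noncomputable def n741 : Strat := .win 886 5 882
noncomputable def n742 : Strat := .win 884 5 881
noncomputable def n743 : Strat := .move 885 n741 (.cons 886 n742 .nil)
noncomputable def n744 : Strat := .move 926 n740 (.cons 968 n743 .nil)
noncomputable def n745 : Strat := .move 967 n739 (.cons 966 n744 .nil)
noncomputable def n746 : Strat := .move 925 n472 (.cons 880 n745 .nil)
noncomputable def n747 : Strat := .move 924 n735 (.cons 966 n737 (.cons 961 n738 (.cons 921 n746 .nil)))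
noncomputable def n748 : Strat := .move 1005 n497 (.cons 1046 n747 .nil)
noncomputable def n749 : Strat := .win 926 2 881
noncomputable def n750 : Strat := .move 925 n472 (.cons 880 n749 .nil)
noncomputable def n751 : Strat := .win 884 4 880
noncomputable def n752 : Strat := .win 920 5 879
noncomputable def n753 : Strat := .move 883 n751 (.cons 884 n752 .nil)
noncomputable def n754 : Strat := .move 921 n2 (.cons 961 n753 .nil)
noncomputable def n755 : Strat := .move 924 n750 (.cons 925 n754 .nil)
noncomputable def n756 : Strat := .move 882 n12 (.cons 1005 n755 .nil)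
noncomputable def n757 : Strat := .win 919 5 878
noncomputable def n758 : Strat := .move 882 n757 (.cons 919 n270 .nil)
noncomputable def n759 : Strat := .move 920 n11 (.cons 965 n758 .nil)
noncomputable def n760 : Strat := .move 920 n758 (.cons 882 n90 .nil)
noncomputable def n761 : Strat := .move 920 n11 (.cons 965 n90 .nil)
noncomputable def n762 : Strat := .move 924 n2 (.cons 961 n736 .nil)
noncomputable def n763 : Strat := .move 921 n759 (.cons 965 n760 (.cons 882 n761 (.cons 920 n762 .nil)))
noncomputable def n764 : Strat := .move 923 n732 (.cons 882 n748 (.cons 1046 n756 (.cons 1005 n763 .nil)))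
noncomputable def n765 : Strat := .move 923 n108 (.cons 799 n732 .nil)
noncomputable def n766 : Strat := .move 922 n444 (.cons 799 n764 (.cons 921 n765 (.cons 923 n704 .nil)))
noncomputable def n767 : Strat := .move 921 n0 (.cons 799 n31 .nil)
noncomputable def n768 : Strat := .move 963 n28 (.cons 1005 n767 .nil)
noncomputable def n769 : Strat := .move 799 n404 (.cons 923 n431 .nil)
noncomputable def n770 : Strat := .move 922 n712 (.cons 923 n768 (.cons 963 n444 (.cons 921 n769 (.cons 799 n714 .nil))))
noncomputable def n771 : Strat := .move 921 n33 (.cons 966 n43 .nil)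
noncomputable def n772 : Strat := .move 921 n32 (.cons 920 n43 .nil)
noncomputable def n773 : Strat := .move 1047 n38 (.cons 882 n37 .nil)
noncomputable def n774 : Strat := .move 1006 n36 (.cons 1007 n773 .nil)
noncomputable def n775 : Strat := .move 923 n466 (.cons 961 n774 .nil)
noncomputable def n776 : Strat := .move 924 n35 (.cons 925 n775 .nil)
noncomputable def n777 : Strat := .move 965 n447 (.cons 920 n771 (.cons 966 n772 (.cons 921 n776 .nil)))
noncomputable def n778 : Strat := .move 963 n28 (.cons 1005 n777 .nil)
noncomputable def n779 : Strat := .move 963 n28 (.cons 1005 n468 .nil)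
noncomputable def n780 : Strat := .move 963 n28 (.cons 1005 n34 .nil)
noncomputable def n781 : Strat := .move 921 n0 (.cons 799 n780 .nil)
noncomputable def n782 : Strat := .move 922 n712 (.cons 799 n778 (.cons 963 n444 (.cons 921 n779 (.cons 923 n781 .nil))))
noncomputable def n783 : Strat := .move 923 n110 (.cons 924 n627 .nil)
noncomputable def n784 : Strat := .move 1005 n166 (.cons 1006 n783 .nil)
noncomputable def n785 : Strat := .move 923 n92 (.cons 882 n627 .nil)
noncomputable def n786 : Strat := .move 1005 n166 (.cons 1006 n785 .nil)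
noncomputable def n787 : Strat := .move 924 n448 (.cons 923 n35 .nil)
noncomputable def n788 : Strat := .move 965 n409 (.cons 921 n787 .nil)
noncomputable def n789 : Strat := .move 920 n173 (.cons 919 n788 .nil)
noncomputable def n790 : Strat := .move 961 n689 (.cons 882 n784 (.cons 924 n786 (.cons 1005 n789 (.cons 923 n690 .nil))))
noncomputable def n791 : Strat := .win 923 2 922
noncomputable def n792 : Strat := .move 1008 n631 (.cons 1007 n630 .nil)
noncomputable def n793 : Strat := .move 967 n791 (.cons 923 n792 .nil)
noncomputable def n794 : Strat := .move 966 n146 (.cons 926 n793 .nil)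
noncomputable def n795 : Strat := .move 925 n145 (.cons 924 n794 .nil)
noncomputable def n796 : Strat := .win 923 5 919
noncomputable def n797 : Strat := .move 960 n796 (.cons 923 n450 .nil)
noncomputable def n798 : Strat := .move 961 n173 (.cons 919 n797 .nil)
noncomputable def n799 : Strat := .move 920 n409 (.cons 921 n798 .nil)
noncomputable def n800 : Strat := .move 925 n145 (.cons 924 n799 .nil)
noncomputable def n801 : Strat := .move 965 n447 (.cons 921 n795 (.cons 966 n800 .nil))
noncomputable def n802 : Strat := .move 922 n28 (.cons 1005 n801 .nil)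
noncomputable def n803 : Strat := .move 922 n31 (.cons 919 n34 (.cons 920 n44 (.cons 965 n54 .nil)))
noncomputable def n804 : Strat := .win 961 2 919
noncomputable def n805 : Strat := .move 919 n804 (.cons 961 n77 .nil)
noncomputable def n806 : Strat := .move 920 n30 (.cons 965 n805 .nil)
noncomputable def n807 : Strat := .win 922 0 919
noncomputable def n808 : Strat := .move 919 n77 (.cons 918 n807 .nil)
noncomputable def n809 : Strat := .move 920 n30 (.cons 965 n808 .nil)
noncomputable def n810 : Strat := .move 922 n33 (.cons 966 n43 .nil)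
noncomputable def n811 : Strat := .move 965 n32 (.cons 920 n810 .nil)
noncomputable def n812 : Strat := .move 922 n47 (.cons 923 n52 .nil)
noncomputable def n813 : Strat := .move 920 n173 (.cons 919 n812 .nil)
noncomputable def n814 : Strat := .move 920 n29 (.cons 919 n52 .nil)
noncomputable def n815 : Strat := .move 960 n280 (.cons 959 n623 .nil)
noncomputable def n816 : Strat := .move 920 n29 (.cons 919 n815 .nil)
noncomputable def n817 : Strat := .move 919 n198 (.cons 918 n623 .nil)
noncomputable def n818 : Strat := .move 960 n280 (.cons 959 n817 .nil)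
noncomputable def n819 : Strat := .win 920 0 919
noncomputable def n820 : Strat := .move 919 n819 (.cons 920 n198 .nil)
noncomputable def n821 : Strat := .move 960 n280 (.cons 959 n820 .nil)
noncomputable def n822 : Strat := .move 922 n814 (.cons 1084 n816 (.cons 920 n818 (.cons 919 n815 (.cons 1002 n821 .nil))))
noncomputable def n823 : Strat := .win 922 4 919
noncomputable def n824 : Strat := .win 958 5 917
noncomputable def n825 : Strat := .win 999 4 958
noncomputable def n826 : Strat := .win 1001 4 959
noncomputable def n827 : Strat := .move 1000 n825 (.cons 999 n826 .nil)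
noncomputable def n828 : Strat := .move 959 n824 (.cons 958 n827 .nil)
noncomputable def n829 : Strat := .move 960 n823 (.cons 922 n828 .nil)
noncomputable def n830 : Strat := .move 923 n110 (.cons 924 n829 .nil)
noncomputable def n831 : Strat := .move 920 n173 (.cons 919 n830 .nil)
noncomputable def n832 : Strat := .move 923 n110 (.cons 924 n695 .nil)
noncomputable def n833 : Strat := .move 920 n173 (.cons 919 n832 .nil)
noncomputable def n834 : Strat := .win 922 5 919
noncomputable def n835 : Strat := .move 960 n834 (.cons 922 n623 .nil)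
noncomputable def n836 : Strat := .move 923 n110 (.cons 924 n835 .nil)
noncomputable def n837 : Strat := .move 923 n110 (.cons 924 n834 .nil)
noncomputable def n838 : Strat := .move 960 n198 (.cons 918 n837 .nil)
noncomputable def n839 : Strat := .move 919 n197 (.cons 920 n838 .nil)
noncomputable def n840 : Strat := .move 961 n813 (.cons 923 n822 (.cons 1002 n831 (.cons 960 n833 (.cons 919 n836 (.cons 1001 n839 .nil)))))
noncomputable def n841 : Strat := .move 965 n478 (.cons 966 n41 .nil)
noncomputable def n842 : Strat := .move 922 n465 (.cons 925 n841 .nil)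
noncomputable def n843 : Strat := .move 923 n466 (.cons 961 n842 .nil)
noncomputable def n844 : Strat := .win 922 4 921
noncomputable def n845 : Strat := .move 923 n844 (.cons 922 n664 .nil)
noncomputable def n846 : Strat := .move 925 n663 (.cons 965 n845 .nil)
noncomputable def n847 : Strat := .move 925 n844 (.cons 922 n664 .nil)
noncomputable def n848 : Strat := .move 923 n466 (.cons 961 n847 .nil)
noncomputable def n849 : Strat := .win 922 5 918
noncomputable def n850 : Strat := .move 959 n718 (.cons 917 n849 .nil)
noncomputable def n851 : Strat := .move 918 n716 (.cons 919 n850 .nil)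
noncomputable def n852 : Strat := .move 960 n411 (.cons 1000 n851 .nil)
noncomputable def n853 : Strat := .move 1001 n410 (.cons 1002 n852 .nil)
noncomputable def n854 : Strat := .move 961 n448 (.cons 923 n853 .nil)
noncomputable def n855 : Strat := .move 923 n466 (.cons 961 n664 .nil)
noncomputable def n856 : Strat := .move 925 n663 (.cons 965 n855 .nil)
noncomputable def n857 : Strat := .win 922 2 921
noncomputable def n858 : Strat := .move 966 n857 (.cons 922 n152 .nil)
noncomputable def n859 : Strat := .move 965 n35 (.cons 925 n858 .nil)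
noncomputable def n860 : Strat := .move 924 n843 (.cons 961 n846 (.cons 965 n848 (.cons 925 n854 (.cons 922 n856 (.cons 923 n859 .nil)))))
noncomputable def n861 : Strat := .move 921 n803 (.cons 922 n806 (.cons 961 n809 (.cons 919 n811 (.cons 965 n840 (.cons 920 n860 .nil)))))
noncomputable def n862 : Strat := .move 1046 n660 (.cons 883 n159 .nil)
noncomputable def n863 : Strat := .move 924 n35 (.cons 925 n862 .nil)
noncomputable def n864 : Strat := .move 924 n158 (.cons 883 n159 .nil)
noncomputable def n865 : Strat := .win 924 3 923
noncomputable def n866 : Strat := .win 1128 3 964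
noncomputable def n867 : Strat := .move 1087 n865 (.cons 924 n866 .nil)
noncomputable def n868 : Strat := .move 1086 n668 (.cons 1127 n667 .nil)
noncomputable def n869 : Strat := .move 1087 n866 (.cons 1128 n868 .nil)
noncomputable def n870 : Strat := .win 1088 6 923
noncomputable def n871 : Strat := .move 924 n584 (.cons 1089 n158 .nil)
noncomputable def n872 : Strat := .move 1048 n587 (.cons 1004 n871 .nil)
noncomputable def n873 : Strat := .move 1047 n870 (.cons 1088 n872 .nil)
noncomputable def n874 : Strat := .move 1046 n864 (.cons 883 n867 (.cons 924 n869 (.cons 1087 n873 .nil)))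
noncomputable def n875 : Strat := .move 1006 n36 (.cons 1007 n874 .nil)
noncomputable def n876 : Strat := .win 968 4 964
noncomputable def n877 : Strat := .move 967 n876 (.cons 968 n629 .nil)
noncomputable def n878 : Strat := .move 966 n146 (.cons 926 n877 .nil)
noncomputable def n879 : Strat := .move 925 n145 (.cons 924 n878 .nil)
noncomputable def n880 : Strat := .move 1006 n36 (.cons 1007 n879 .nil)
noncomputable def n881 : Strat := .win 925 5 922
noncomputable def n882 : Strat := .win 927 5 923
noncomputable def n883 : Strat := .move 967 n882 (.cons 927 n629 .nil)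
noncomputable def n884 : Strat := .move 926 n881 (.cons 925 n883 .nil)
noncomputable def n885 : Strat := .move 966 n151 (.cons 1008 n884 .nil)
noncomputable def n886 : Strat := .move 1007 n150 (.cons 1006 n885 .nil)
noncomputable def n887 : Strat := .move 965 n863 (.cons 925 n875 (.cons 1046 n880 (.cons 924 n886 .nil)))
noncomputable def n888 : Strat := .move 923 n92 (.cons 882 n887 .nil)
noncomputable def n889 : Strat := .move 1005 n614 (.cons 922 n888 .nil)
noncomputable def n890 : Strat := .move 961 n166 (.cons 1006 n183 .nil)
noncomputable def n891 : Strat := .move 1005 n614 (.cons 922 n890 .nil)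
noncomputable def n892 : Strat := .move 963 n571 (.cons 922 n790 (.cons 923 n619 (.cons 1006 n802 (.cons 1005 n861 (.cons 961 n889 (.cons 965 n891 .nil))))))
noncomputable def n893 : Strat := .move 961 n166 (.cons 1006 n110 .nil)
noncomputable def n894 : Strat := .move 925 n664 (.cons 926 n663 .nil)
noncomputable def n895 : Strat := .move 924 n660 (.cons 883 n894 .nil)
noncomputable def n896 : Strat := .move 924 n661 (.cons 1087 n894 (.cons 965 n673 .nil))
noncomputable def n897 : Strat := .move 924 n660 (.cons 883 n673 .nil)
noncomputable def n898 : Strat := .move 1046 n662 (.cons 1087 n895 (.cons 883 n896 (.cons 965 n897 (.cons 924 n683 .nil))))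
noncomputable def n899 : Strat := .move 963 n893 (.cons 961 n898 (.cons 924 n618 .nil))
noncomputable def n900 : Strat := .move 923 n92 (.cons 882 n899 .nil)
noncomputable def n901 : Strat := .move 961 n627 (.cons 920 n624 (.cons 1004 n628 (.cons 960 n637 .nil)))
noncomputable def n902 : Strat := .win 1008 2 963
noncomputable def n903 : Strat := .move 1007 n616 (.cons 1004 n902 .nil)
noncomputable def n904 : Strat := .move 1006 n157 (.cons 961 n903 .nil)
noncomputable def n905 : Strat := .move 1046 n159 (.cons 1087 n158 .nil)
noncomputable def n906 : Strat := .move 924 n35 (.cons 925 n905 .nil)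
noncomputable def n907 : Strat := .move 1006 n36 (.cons 1007 n906 .nil)
noncomputable def n908 : Strat := .move 920 n409 (.cons 921 n635 .nil)
noncomputable def n909 : Strat := .win 842 1 841
noncomputable def n910 : Strat := .win 1006 1 882
noncomputable def n911 : Strat := .move 883 n909 (.cons 842 n910 .nil)
noncomputable def n912 : Strat := .move 1046 n159 (.cons 1087 n911 .nil)
noncomputable def n913 : Strat := .move 924 n35 (.cons 925 n912 .nil)
noncomputable def n914 : Strat := .move 967 n629 (.cons 1004 n882 .nil)
noncomputable def n915 : Strat := .move 926 n881 (.cons 925 n914 .nil)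
noncomputable def n916 : Strat := .move 966 n151 (.cons 1008 n915 .nil)
noncomputable def n917 : Strat := .move 1007 n150 (.cons 1006 n916 .nil)
noncomputable def n918 : Strat := .win 1006 4 964
noncomputable def n919 : Strat := .win 1010 0 965
noncomputable def n920 : Strat := .win 1008 0 964
noncomputable def n921 : Strat := .move 1009 n919 (.cons 1010 n920 .nil)
noncomputable def n922 : Strat := .move 968 n918 (.cons 1006 n921 .nil)
noncomputable def n923 : Strat := .move 967 n629 (.cons 1004 n922 .nil)
noncomputable def n924 : Strat := .move 967 n629 (.cons 1004 n792 .nil)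
noncomputable def n925 : Strat := .move 967 n629 (.cons 1004 n876 .nil)
noncomputable def n926 : Strat := .move 1006 n36 (.cons 1007 n925 .nil)
noncomputable def n927 : Strat := .move 966 n152 (.cons 1007 n923 (.cons 1006 n924 (.cons 1008 n926 .nil)))
noncomputable def n928 : Strat := .move 921 n32 (.cons 920 n927 .nil)
noncomputable def n929 : Strat := .move 965 n907 (.cons 1006 n908 (.cons 1007 n913 (.cons 924 n917 (.cons 925 n928 .nil))))
noncomputable def n930 : Strat := .move 961 n166 (.cons 1006 n628 .nil)
noncomputable def n931 : Strat := .move 963 n618 (.cons 1006 n901 (.cons 965 n904 (.cons 1007 n687 (.cons 961 n929 (.cons 1004 n930 .nil)))))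
noncomputable def n932 : Strat := .move 1087 n676 (.cons 965 n681 .nil)
noncomputable def n933 : Strat := .move 924 n660 (.cons 883 n932 .nil)
noncomputable def n934 : Strat := .win 1086 1 922
noncomputable def n935 : Strat := .win 1043 5 1002
noncomputable def n936 : Strat := .move 1044 n361 (.cons 1007 n935 .nil)
noncomputable def n937 : Strat := .win 1044 5 1003
noncomputable def n938 : Strat := .win 1008 4 1004
noncomputable def n939 : Strat := .move 1007 n937 (.cons 1044 n938 .nil)
noncomputable def n940 : Strat := .win 965 6 924
noncomputable def n941 : Strat := .win 1090 0 1045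
noncomputable def n942 : Strat := .move 1089 n940 (.cons 965 n941 .nil)
noncomputable def n943 : Strat := .move 1048 n587 (.cons 1004 n942 .nil)
noncomputable def n944 : Strat := .move 1006 n936 (.cons 1043 n939 (.cons 1007 n943 .nil))
noncomputable def n945 : Strat := .move 1045 n934 (.cons 1086 n944 .nil)
noncomputable def n946 : Strat := .move 1047 n870 (.cons 1088 n945 .nil)
noncomputable def n947 : Strat := .move 924 n660 (.cons 883 n946 .nil)
noncomputable def n948 : Strat := .move 1087 n669 (.cons 1129 n677 .nil)
noncomputable def n949 : Strat := .move 1088 n670 (.cons 1047 n948 .nil)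
noncomputable def n950 : Strat := .move 1046 n680 (.cons 1127 n933 (.cons 1087 n947 (.cons 924 n949 .nil)))
noncomputable def n951 : Strat := .move 923 n92 (.cons 882 n950 .nil)
noncomputable def n952 : Strat := .move 963 n466 (.cons 961 n894 .nil)
noncomputable def n953 : Strat := .move 1046 n660 (.cons 883 n678 .nil)
noncomputable def n954 : Strat := .move 1046 n660 (.cons 883 n673 .nil)
noncomputable def n955 : Strat := .move 925 n664 (.cons 926 n954 .nil)
noncomputable def n956 : Strat := .move 963 n894 (.cons 925 n953 (.cons 965 n955 .nil))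
noncomputable def n957 : Strat := .move 963 n466 (.cons 961 n955 .nil)
noncomputable def n958 : Strat := .move 963 n466 (.cons 961 n953 .nil)
noncomputable def n959 : Strat := .move 924 n952 (.cons 961 n956 (.cons 965 n957 (.cons 925 n958 (.cons 963 n953 .nil))))
noncomputable def n960 : Strat := .move 923 n92 (.cons 882 n959 .nil)
noncomputable def n961 : Strat := .move 961 n166 (.cons 1006 n184 .nil)
noncomputable def n962 : Strat := .win 1043 3 879
noncomputable def n963 : Strat := .move 880 n962 (.cons 1043 n9 .nil)
noncomputable def n964 : Strat := .move 1002 n48 (.cons 1001 n963 .nil)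
noncomputable def n965 : Strat := .move 921 n30 (.cons 965 n964 .nil)
noncomputable def n966 : Strat := .move 920 n173 (.cons 919 n965 .nil)
noncomputable def n967 : Strat := .move 882 n627 (.cons 960 n966 (.cons 920 n624 .nil))
noncomputable def n968 : Strat := .move 961 n184 (.cons 923 n967 (.cons 882 n783 (.cons 960 n183 .nil)))
noncomputable def n969 : Strat := .move 1006 n615 (.cons 965 n616 .nil)
noncomputable def n970 : Strat := .move 1006 n616 (.cons 1004 n902 .nil)
noncomputable def n971 : Strat := .move 965 n151 (.cons 1008 n147 .nil)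
noncomputable def n972 : Strat := .win 924 2 923
noncomputable def n973 : Strat := .win 928 5 924
noncomputable def n974 : Strat := .win 926 5 923
noncomputable def n975 : Strat := .move 927 n973 (.cons 928 n974 .nil)
noncomputable def n976 : Strat := .move 968 n972 (.cons 924 n975 .nil)
noncomputable def n977 : Strat := .move 923 n92 (.cons 882 n976 .nil)
noncomputable def n978 : Strat := .move 967 n629 (.cons 1004 n977 .nil)
noncomputable def n979 : Strat := .win 883 1 841
noncomputable def n980 : Strat := .win 968 2 923
noncomputable def n981 : Strat := .move 967 n980 (.cons 968 n629 .nil)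
noncomputable def n982 : Strat := .move 923 n92 (.cons 882 n981 .nil)
noncomputable def n983 : Strat := .move 842 n979 (.cons 883 n982 .nil)
noncomputable def n984 : Strat := .move 924 n35 (.cons 925 n983 .nil)
noncomputable def n985 : Strat := .move 965 n147 (.cons 925 n978 (.cons 926 n984 (.cons 924 n915 .nil)))
noncomputable def n986 : Strat := .move 965 n151 (.cons 1008 n978 .nil)
noncomputable def n987 : Strat := .move 965 n151 (.cons 1008 n915 .nil)
noncomputable def n988 : Strat := .move 965 n151 (.cons 1008 n984 .nil)
noncomputable def n989 : Strat := .win 1048 7 883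
noncomputable def n990 : Strat := .win 801 1 800
noncomputable def n991 : Strat := .win 884 7 842
noncomputable def n992 : Strat := .move 842 n990 (.cons 801 n991 .nil)
noncomputable def n993 : Strat := .move 883 n989 (.cons 1048 n992 .nil)
noncomputable def n994 : Strat := .move 924 n664 (.cons 926 n993 .nil)
noncomputable def n995 : Strat := .move 923 n92 (.cons 882 n994 .nil)
noncomputable def n996 : Strat := .win 924 4 922
noncomputable def n997 : Strat := .win 1048 3 884
noncomputable def n998 : Strat := .win 803 1 802
noncomputable def n999 : Strat := .win 884 3 843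
noncomputable def n1000 : Strat := .move 844 n998 (.cons 803 n999 .nil)
noncomputable def n1001 : Strat := .move 885 n997 (.cons 1048 n1000 .nil)
noncomputable def n1002 : Strat := .move 926 n996 (.cons 924 n1001 .nil)
noncomputable def n1003 : Strat := .move 923 n92 (.cons 882 n1002 .nil)
noncomputable def n1004 : Strat := .win 803 3 802
noncomputable def n1005 : Strat := .win 885 3 843
noncomputable def n1006 : Strat := .move 844 n1004 (.cons 803 n1005 .nil)
noncomputable def n1007 : Strat := .win 967 6 843
noncomputable def n1008 : Strat := .win 1049 6 884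
noncomputable def n1009 : Strat := .move 1008 n1007 (.cons 967 n1008 .nil)
noncomputable def n1010 : Strat := .move 843 n1006 (.cons 885 n1009 .nil)
noncomputable def n1011 : Strat := .win 1090 6 925
noncomputable def n1012 : Strat := .win 1008 6 884
noncomputable def n1013 : Strat := .move 1049 n1011 (.cons 1090 n1012 .nil)
noncomputable def n1014 : Strat := .win 924 7 883
noncomputable def n1015 : Strat := .win 842 7 842
noncomputable def n1016 : Strat := .move 883 n1014 (.cons 924 n1015 .nil)
noncomputable def n1017 : Strat := .move 1048 n1013 (.cons 1008 n1016 .nil)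
noncomputable def n1018 : Strat := .win 801 7 801
noncomputable def n1019 : Strat := .win 883 7 842
noncomputable def n1020 : Strat := .move 842 n1018 (.cons 801 n1019 .nil)
noncomputable def n1021 : Strat := .move 843 n1006 (.cons 885 n1020 .nil)
noncomputable def n1022 : Strat := .move 884 n1010 (.cons 843 n1017 (.cons 1049 n1021 .nil))
noncomputable def n1023 : Strat := .move 923 n92 (.cons 882 n1022 .nil)
noncomputable def n1024 : Strat := .win 967 1 843
noncomputable def n1025 : Strat := .move 844 n1024 (.cons 967 n998 .nil)
noncomputable def n1026 : Strat := .move 885 n997 (.cons 1048 n1025 .nil)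
noncomputable def n1027 : Strat := .move 926 n996 (.cons 924 n1026 .nil)
noncomputable def n1028 : Strat := .move 923 n92 (.cons 882 n1027 .nil)
noncomputable def n1029 : Strat := .win 926 3 884
noncomputable def n1030 : Strat := .win 844 3 843
noncomputable def n1031 : Strat := .move 885 n1029 (.cons 926 n1030 .nil)
noncomputable def n1032 : Strat := .move 1048 n1031 (.cons 844 n1013 .nil)
noncomputable def n1033 : Strat := .move 843 n1009 (.cons 1049 n1020 .nil)
noncomputable def n1034 : Strat := .move 884 n1010 (.cons 843 n1032 (.cons 1049 n1021 (.cons 885 n1033 .nil)))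
noncomputable def n1035 : Strat := .move 923 n92 (.cons 882 n1034 .nil)
noncomputable def n1036 : Strat := .win 885 3 884
noncomputable def n1037 : Strat := .win 883 7 883
noncomputable def n1038 : Strat := .win 923 4 922
noncomputable def n1039 : Strat := .move 924 n1037 (.cons 883 n1038 .nil)
noncomputable def n1040 : Strat := .move 926 n1036 (.cons 885 n1039 .nil)
noncomputable def n1041 : Strat := .win 967 3 925
noncomputable def n1042 : Strat := .win 1129 1 965
noncomputable def n1043 : Strat := .win 1047 1 924
noncomputable def n1044 : Strat := .move 1088 n1042 (.cons 1129 n1043 .nil)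
noncomputable def n1045 : Strat := .move 1089 n1041 (.cons 967 n1044 .nil)
noncomputable def n1046 : Strat := .move 926 n1036 (.cons 885 n1045 .nil)
noncomputable def n1047 : Strat := .move 884 n1012 (.cons 1008 n1016 .nil)
noncomputable def n1048 : Strat := .move 1049 n1011 (.cons 1090 n1047 .nil)
noncomputable def n1049 : Strat := .move 1048 n1040 (.cons 923 n1046 (.cons 926 n1048 .nil))
noncomputable def n1050 : Strat := .win 923 7 840
noncomputable def n1051 : Strat := .win 926 0 881
noncomputable def n1052 : Strat := .move 883 n1051 (.cons 926 n1015 .nil)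
noncomputable def n1053 : Strat := .win 843 5 840
noncomputable def n1054 : Strat := .move 883 n1053 (.cons 843 n1051 .nil)
noncomputable def n1055 : Strat := .move 844 n1005 (.cons 885 n1054 .nil)
noncomputable def n1056 : Strat := .move 883 n1053 (.cons 843 n1015 .nil)
noncomputable def n1057 : Strat := .move 844 n1005 (.cons 885 n1056 .nil)
noncomputable def n1058 : Strat := .move 884 n1052 (.cons 842 n1055 (.cons 926 n1057 (.cons 883 n1010 .nil)))
noncomputable def n1059 : Strat := .move 882 n1050 (.cons 923 n1058 .nil)
noncomputable def n1060 : Strat := .win 882 0 881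
noncomputable def n1061 : Strat := .move 884 n1060 (.cons 882 n1015 .nil)
noncomputable def n1062 : Strat := .move 883 n1014 (.cons 924 n1061 .nil)
noncomputable def n1063 : Strat := .move 926 n1036 (.cons 885 n1062 .nil)
noncomputable def n1064 : Strat := .move 926 n1062 (.cons 883 n1045 .nil)
noncomputable def n1065 : Strat := .move 1048 n1063 (.cons 882 n1046 (.cons 885 n1064 (.cons 926 n1048 .nil)))
noncomputable def n1066 : Strat := .move 925 n995 (.cons 842 n1003 (.cons 926 n1023 (.cons 884 n1028 (.cons 924 n1035 (.cons 882 n1049 (.cons 1048 n1059 (.cons 923 n1065 .nil)))))))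
noncomputable def n1067 : Strat := .move 966 n971 (.cons 1008 n985 (.cons 925 n986 (.cons 924 n987 (.cons 926 n988 (.cons 965 n1066 .nil)))))
noncomputable def n1068 : Strat := .move 1006 n615 (.cons 965 n902 .nil)
noncomputable def n1069 : Strat := .move 1007 n969 (.cons 965 n970 (.cons 1006 n1067 (.cons 1004 n1068 .nil)))
noncomputable def n1070 : Strat := .move 963 n961 (.cons 1006 n968 (.cons 1004 n890 (.cons 924 n687 (.cons 961 n1069 .nil))))
noncomputable def n1071 : Strat := .move 1006 n938 (.cons 1008 n937 .nil)
noncomputable def n1072 : Strat := .move 963 n615 (.cons 965 n157 .nil)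
noncomputable def n1073 : Strat := .move 1006 n937 (.cons 1044 n1072 .nil)
noncomputable def n1074 : Strat := .win 1008 5 1004
noncomputable def n1075 : Strat := .win 1091 0 1046
noncomputable def n1076 : Strat := .win 1089 0 1045
noncomputable def n1077 : Strat := .move 1090 n1075 (.cons 1091 n1076 .nil)
noncomputable def n1078 : Strat := .move 1049 n586 (.cons 1004 n1077 .nil)
noncomputable def n1079 : Strat := .move 1048 n1074 (.cons 1008 n1078 .nil)
noncomputable def n1080 : Strat := .move 1007 n1071 (.cons 1008 n1073 (.cons 1006 n1079 .nil))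
noncomputable def n1081 : Strat := .move 1047 n870 (.cons 1088 n1080 .nil)
noncomputable def n1082 : Strat := .move 1045 n934 (.cons 1086 n1081 .nil)
noncomputable def n1083 : Strat := .win 1086 1 963
noncomputable def n1084 : Strat := .win 1168 1 1004
noncomputable def n1085 : Strat := .win 1004 7 963
noncomputable def n1086 : Strat := .win 965 3 964
noncomputable def n1087 : Strat := .move 1006 n1086 (.cons 965 n157 .nil)
noncomputable def n1088 : Strat := .move 963 n1085 (.cons 1004 n1087 .nil)
noncomputable def n1089 : Strat := .move 1128 n1084 (.cons 1168 n1088 .nil)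
noncomputable def n1090 : Strat := .move 1127 n1083 (.cons 1086 n1089 .nil)
noncomputable def n1091 : Strat := .move 1087 n669 (.cons 1129 n1090 .nil)
noncomputable def n1092 : Strat := .move 1088 n670 (.cons 1047 n1091 .nil)
noncomputable def n1093 : Strat := .move 1128 n1085 (.cons 1004 n1086 .nil)
noncomputable def n1094 : Strat := .move 963 n157 (.cons 961 n1093 .nil)
noncomputable def n1095 : Strat := .move 965 n36 (.cons 1007 n866 .nil)
noncomputable def n1096 : Strat := .move 963 n157 (.cons 961 n1095 .nil)
noncomputable def n1097 : Strat := .win 1047 3 1005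
noncomputable def n1098 : Strat := .win 1211 6 1046
noncomputable def n1099 : Strat := .win 1129 6 1005
noncomputable def n1100 : Strat := .move 1170 n1098 (.cons 1211 n1099 .nil)
noncomputable def n1101 : Strat := .move 1169 n1097 (.cons 1047 n1100 .nil)
noncomputable def n1102 : Strat := .move 1128 n1086 (.cons 965 n1101 .nil)
noncomputable def n1103 : Strat := .move 1007 n616 (.cons 1004 n615 .nil)
noncomputable def n1104 : Strat := .move 963 n157 (.cons 961 n1103 .nil)
noncomputable def n1105 : Strat := .win 1007 2 962
noncomputable def n1106 : Strat := .win 1128 7 963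
noncomputable def n1107 : Strat := .move 1004 n1105 (.cons 1007 n1106 .nil)
noncomputable def n1108 : Strat := .move 963 n157 (.cons 961 n1107 .nil)
noncomputable def n1109 : Strat := .move 1006 n1094 (.cons 1004 n1096 (.cons 963 n1102 (.cons 1128 n1104 (.cons 965 n1108 .nil))))
noncomputable def n1110 : Strat := .move 1087 n668 (.cons 1127 n1109 .nil)
noncomputable def n1111 : Strat := .move 1086 n667 (.cons 1045 n1110 .nil)
noncomputable def n1112 : Strat := .win 1088 6 964
noncomputable def n1113 : Strat := .win 1170 6 1005
noncomputable def n1114 : Strat := .move 1128 n1113 (.cons 1170 n1088 .nil)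
noncomputable def n1115 : Strat := .move 1129 n1112 (.cons 1088 n1114 .nil)
noncomputable def n1116 : Strat := .move 1087 n668 (.cons 1127 n1115 .nil)
noncomputable def n1117 : Strat := .move 1086 n667 (.cons 1045 n1116 .nil)
noncomputable def n1118 : Strat := .move 963 n157 (.cons 961 n617 .nil)
noncomputable def n1119 : Strat := .move 1087 n669 (.cons 1129 n1093 .nil)
noncomputable def n1120 : Strat := .move 1088 n670 (.cons 1047 n1119 .nil)
noncomputable def n1121 : Strat := .move 963 n157 (.cons 961 n1120 .nil)
noncomputable def n1122 : Strat := .move 1007 n615 (.cons 965 n902 .nil)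
noncomputable def n1123 : Strat := .move 963 n617 (.cons 1007 n1120 (.cons 965 n903 (.cons 1004 n1122 .nil)))
noncomputable def n1124 : Strat := .move 963 n157 (.cons 961 n903 .nil)
noncomputable def n1125 : Strat := .move 963 n157 (.cons 961 n1122 .nil)
noncomputable def n1126 : Strat := .win 1045 4 1004
noncomputable def n1127 : Strat := .win 1009 4 1005
noncomputable def n1128 : Strat := .move 1008 n1126 (.cons 1045 n1127 .nil)
noncomputable def n1129 : Strat := .win 1050 0 1005
noncomputable def n1130 : Strat := .win 1048 0 1004
noncomputable def n1131 : Strat := .move 1049 n1129 (.cons 1050 n1130 .nil)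
noncomputable def n1132 : Strat := .win 968 5 964
noncomputable def n1133 : Strat := .win 966 5 963
noncomputable def n1134 : Strat := .move 967 n1132 (.cons 968 n1133 .nil)
noncomputable def n1135 : Strat := .move 1004 n1131 (.cons 1048 n1134 .nil)
noncomputable def n1136 : Strat := .move 1008 n1126 (.cons 1045 n1135 .nil)
noncomputable def n1137 : Strat := .win 1004 0 1004
noncomputable def n1138 : Strat := .move 1049 n585 (.cons 1050 n1137 .nil)
noncomputable def n1139 : Strat := .move 1045 n941 (.cons 1090 n937 .nil)
noncomputable def n1140 : Strat := .win 1171 7 1006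
noncomputable def n1141 : Strat := .win 965 7 965
noncomputable def n1142 : Strat := .move 1130 n1140 (.cons 1171 n1141 .nil)
noncomputable def n1143 : Strat := .move 1089 n1139 (.cons 1044 n1142 .nil)
noncomputable def n1144 : Strat := .move 1048 n1138 (.cons 1004 n1143 .nil)
noncomputable def n1145 : Strat := .move 1008 n1127 (.cons 1009 n1135 .nil)
noncomputable def n1146 : Strat := .move 1007 n1128 (.cons 1009 n1136 (.cons 1008 n1144 (.cons 1045 n1145 .nil)))
noncomputable def n1147 : Strat := .move 1047 n870 (.cons 1088 n1146 .nil)
noncomputable def n1148 : Strat := .move 1006 n1118 (.cons 1007 n1121 (.cons 961 n1123 (.cons 965 n1124 (.cons 1004 n1125 (.cons 963 n1147 .nil)))))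
noncomputable def n1149 : Strat := .move 1046 n1082 (.cons 1045 n1092 (.cons 1088 n1111 (.cons 1047 n1117 (.cons 963 n949 (.cons 1086 n1148 .nil)))))
noncomputable def n1150 : Strat := .move 923 n92 (.cons 882 n1149 .nil)
noncomputable def n1151 : Strat := .move 963 n466 (.cons 961 n673 .nil)
noncomputable def n1152 : Strat := .move 924 n660 (.cons 883 n1151 .nil)
noncomputable def n1153 : Strat := .move 1128 n1084 (.cons 1168 n1085 .nil)
noncomputable def n1154 : Strat := .move 1127 n1083 (.cons 1086 n1153 .nil)
noncomputable def n1155 : Strat := .move 1087 n669 (.cons 1129 n1154 .nil)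
noncomputable def n1156 : Strat := .move 1088 n670 (.cons 1047 n1155 .nil)
noncomputable def n1157 : Strat := .move 963 n466 (.cons 961 n1156 .nil)
noncomputable def n1158 : Strat := .move 924 n660 (.cons 883 n1157 .nil)
noncomputable def n1159 : Strat := .move 963 n616 (.cons 1004 n157 .nil)
noncomputable def n1160 : Strat := .move 1006 n938 (.cons 1008 n1159 .nil)
noncomputable def n1161 : Strat := .win 963 2 962
noncomputable def n1162 : Strat := .win 1049 0 1004
noncomputable def n1163 : Strat := .move 1004 n1161 (.cons 963 n1162 .nil)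
noncomputable def n1164 : Strat := .move 1006 n937 (.cons 1044 n1163 .nil)
noncomputable def n1165 : Strat := .move 1006 n937 (.cons 1044 n1159 .nil)
noncomputable def n1166 : Strat := .move 1006 n585 (.cons 1050 n937 .nil)
noncomputable def n1167 : Strat := .move 1049 n1077 (.cons 1089 n1166 .nil)
noncomputable def n1168 : Strat := .move 1048 n1164 (.cons 1006 n1078 (.cons 1049 n1165 (.cons 1004 n1167 .nil)))
noncomputable def n1169 : Strat := .move 1007 n1071 (.cons 1044 n1160 (.cons 1006 n1079 (.cons 1008 n1168 .nil)))
noncomputable def n1170 : Strat := .move 1047 n870 (.cons 1088 n1169 .nil)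
noncomputable def n1171 : Strat := .move 1045 n934 (.cons 1086 n1170 .nil)
noncomputable def n1172 : Strat := .move 1129 n1113 (.cons 1170 n1112 .nil)
noncomputable def n1173 : Strat := .move 1128 n1085 (.cons 1004 n1172 .nil)
noncomputable def n1174 : Strat := .move 1087 n668 (.cons 1127 n1173 .nil)
noncomputable def n1175 : Strat := .move 1086 n667 (.cons 1045 n1174 .nil)
noncomputable def n1176 : Strat := .move 963 n466 (.cons 961 n1175 .nil)
noncomputable def n1177 : Strat := .move 924 n660 (.cons 883 n1176 .nil)
noncomputable def n1178 : Strat := .move 1087 n677 (.cons 1086 n681 .nil)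
noncomputable def n1179 : Strat := .move 924 n660 (.cons 883 n1178 .nil)
noncomputable def n1180 : Strat := .win 1047 5 1003
noncomputable def n1181 : Strat := .move 1044 n1180 (.cons 1047 n935 .nil)
noncomputable def n1182 : Strat := .move 1007 n902 (.cons 1008 n1181 .nil)
noncomputable def n1183 : Strat := .move 1045 n934 (.cons 1086 n1182 .nil)
noncomputable def n1184 : Strat := .move 963 n157 (.cons 961 n1183 .nil)
noncomputable def n1185 : Strat := .win 1044 4 1003
noncomputable def n1186 : Strat := .move 1004 n1185 (.cons 1044 n1161 .nil)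
noncomputable def n1187 : Strat := .move 1007 n938 (.cons 1008 n1186 .nil)
noncomputable def n1188 : Strat := .move 1045 n934 (.cons 1086 n1187 .nil)
noncomputable def n1189 : Strat := .move 1007 n616 (.cons 1004 n1181 .nil)
noncomputable def n1190 : Strat := .move 963 n157 (.cons 961 n1189 .nil)
noncomputable def n1191 : Strat := .move 1045 n934 (.cons 1086 n1190 .nil)
noncomputable def n1192 : Strat := .move 963 n157 (.cons 961 n868 .nil)
noncomputable def n1193 : Strat := .move 963 n1085 (.cons 1004 n157 .nil)
noncomputable def n1194 : Strat := .move 1128 n1193 (.cons 961 n1101 .nil)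
noncomputable def n1195 : Strat := .move 1127 n1084 (.cons 1168 n1083 .nil)
noncomputable def n1196 : Strat := .move 1128 n868 (.cons 1045 n1195 (.cons 1127 n1101 .nil))
noncomputable def n1197 : Strat := .move 1087 n1192 (.cons 1127 n1194 (.cons 963 n1196 .nil))
noncomputable def n1198 : Strat := .win 1004 4 1003
noncomputable def n1199 : Strat := .move 1044 n1198 (.cons 1004 n935 .nil)
noncomputable def n1200 : Strat := .move 1007 n938 (.cons 1008 n1199 .nil)
noncomputable def n1201 : Strat := .move 1045 n934 (.cons 1086 n1200 .nil)
noncomputable def n1202 : Strat := .move 1006 n1124 (.cons 1004 n1184 (.cons 961 n1188 (.cons 1008 n1191 (.cons 1007 n1197 (.cons 963 n1201 .nil)))))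
noncomputable def n1203 : Strat := .move 924 n660 (.cons 883 n1202 .nil)
noncomputable def n1204 : Strat := .move 924 n660 (.cons 883 n466 .nil)
noncomputable def n1205 : Strat := .win 924 3 882
noncomputable def n1206 : Strat := .win 1209 1 1045
noncomputable def n1207 : Strat := .win 1127 1 1004
noncomputable def n1208 : Strat := .move 1168 n1206 (.cons 1209 n1207 .nil)
noncomputable def n1209 : Strat := .move 1169 n1208 (.cons 1127 n1100 .nil)
noncomputable def n1210 : Strat := .move 1128 n1085 (.cons 1004 n1209 .nil)
noncomputable def n1211 : Strat := .win 1006 3 1005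
noncomputable def n1212 : Strat := .move 1047 n1211 (.cons 1006 n870 .nil)
noncomputable def n1213 : Strat := .move 1169 n1208 (.cons 1127 n1212 .nil)
noncomputable def n1214 : Strat := .move 1128 n1085 (.cons 1004 n1213 .nil)
noncomputable def n1215 : Strat := .move 1087 n681 (.cons 1047 n1173 (.cons 1088 n1210 (.cons 1129 n1214 .nil)))
noncomputable def n1216 : Strat := .move 883 n1205 (.cons 924 n1215 .nil)
noncomputable def n1217 : Strat := .move 963 n893 (.cons 924 n904 (.cons 1006 n1204 (.cons 961 n1216 .nil)))
noncomputable def n1218 : Strat := .move 1046 n1152 (.cons 1045 n1158 (.cons 924 n1171 (.cons 1047 n1177 (.cons 963 n1179 (.cons 1088 n1203 (.cons 1086 n1217 .nil))))))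
noncomputable def n1219 : Strat := .move 923 n92 (.cons 882 n1218 .nil)
noncomputable def n1220 : Strat := .move 1005 n900 (.cons 923 n931 (.cons 963 n951 (.cons 1006 n960 (.cons 1046 n1070 (.cons 924 n1150 (.cons 965 n1219 .nil))))))
noncomputable def n1221 : Strat := .move 922 n58 (.cons 921 n404 .nil)
noncomputable def n1222 : Strat := .move 759 n62 (.cons 718 n61 .nil)
noncomputable def n1223 : Strat := .move 758 n64 (.cons 716 n1222 .nil)
noncomputable def n1224 : Strat := .move 757 n63 (.cons 798 n1223 .nil)
noncomputable def n1225 : Strat := .move 922 n404 (.cons 923 n1224 .nil)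
noncomputable def n1226 : Strat := .move 922 n58 (.cons 921 n1224 .nil)
noncomputable def n1227 : Strat := .move 798 n317 (.cons 761 n316 .nil)
noncomputable def n1228 : Strat := .move 760 n514 (.cons 796 n1227 (.cons 798 n521 .nil))
noncomputable def n1229 : Strat := .move 800 n330 (.cons 801 n1228 .nil)
noncomputable def n1230 : Strat := .move 800 n331 (.cons 755 n1228 .nil)
noncomputable def n1231 : Strat := .move 756 n511 (.cons 755 n1229 (.cons 801 n1230 (.cons 800 n529 .nil)))
noncomputable def n1232 : Strat := .move 759 n62 (.cons 718 n1231 .nil)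
noncomputable def n1233 : Strat := .move 757 n64 (.cons 716 n1232 .nil)
noncomputable def n1234 : Strat := .move 920 n173 (.cons 919 n30 .nil)
noncomputable def n1235 : Strat := .move 961 n110 (.cons 924 n1234 .nil)
noncomputable def n1236 : Strat := .move 924 n35 (.cons 925 n466 .nil)
noncomputable def n1237 : Strat := .move 965 n32 (.cons 920 n1236 .nil)
noncomputable def n1238 : Strat := .move 965 n32 (.cons 920 n414 .nil)
noncomputable def n1239 : Strat := .move 961 n110 (.cons 924 n451 .nil)
noncomputable def n1240 : Strat := .move 924 n466 (.cons 961 n665 .nil)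
noncomputable def n1241 : Strat := .move 963 n1235 (.cons 919 n1237 (.cons 961 n1238 (.cons 965 n1239 (.cons 920 n1240 (.cons 924 n806 .nil)))))
noncomputable def n1242 : Strat := .move 923 n435 (.cons 882 n1241 .nil)
noncomputable def n1243 : Strat := .move 759 n62 (.cons 718 n1242 .nil)
noncomputable def n1244 : Strat := .move 921 n315 (.cons 880 n1243 .nil)
noncomputable def n1245 : Strat := .move 963 n1237 (.cons 925 n1235 (.cons 965 n1239 (.cons 961 n1238 (.cons 924 n806 (.cons 920 n1240 .nil)))))
noncomputable def n1246 : Strat := .move 921 n315 (.cons 880 n1245 .nil)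
noncomputable def n1247 : Strat := .move 757 n64 (.cons 716 n1246 .nil)
noncomputable def n1248 : Strat := .move 923 n435 (.cons 882 n1247 .nil)
noncomputable def n1249 : Strat := .move 758 n1233 (.cons 716 n1244 (.cons 718 n1248 .nil))
noncomputable def n1250 : Strat := .move 799 n1221 (.cons 921 n1225 (.cons 923 n1226 (.cons 922 n1249 .nil)))
noncomputable def n1251 : Strat := .move 964 n595 (.cons 923 n646 (.cons 921 n693 (.cons 965 n711 (.cons 920 n731 (.cons 963 n766 (.cons 961 n770 (.cons 919 n782 (.cons 799 n892 (.cons 922 n1220 (.cons 1005 n1250 .nil))))))))))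
noncomputable def n1252 : Strat := .move 922 n27 (.cons 1003 n113 .nil)
noncomputable def n1253 : Strat := .move 1005 n622 (.cons 1004 n166 .nil)
noncomputable def n1254 : Strat := .move 964 n410 (.cons 1002 n1253 .nil)
noncomputable def n1255 : Strat := .move 1001 n411 (.cons 1000 n1254 .nil)
noncomputable def n1256 : Strat := .move 964 n197 (.cons 920 n1253 .nil)
noncomputable def n1257 : Strat := .move 919 n198 (.cons 918 n1256 .nil)
noncomputable def n1258 : Strat := .move 964 n410 (.cons 1002 n449 .nil)
noncomputable def n1259 : Strat := .move 1001 n411 (.cons 1000 n1258 .nil)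
noncomputable def n1260 : Strat := .win 1005 0 960
noncomputable def n1261 : Strat := .win 959 0 959
noncomputable def n1262 : Strat := .win 1043 6 878
noncomputable def n1263 : Strat := .win 837 6 837
noncomputable def n1264 : Strat := .move 878 n1262 (.cons 1043 n1263 .nil)
noncomputable def n1265 : Strat := .win 1084 7 919
noncomputable def n1266 : Strat := .win 878 6 878
noncomputable def n1267 : Strat := .move 1043 n1265 (.cons 1084 n1266 .nil)
noncomputable def n1268 : Strat := .win 879 1 878
noncomputable def n1269 : Strat := .win 1083 3 919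
noncomputable def n1270 : Strat := .move 920 n1268 (.cons 879 n1269 .nil)
noncomputable def n1271 : Strat := .move 1042 n222 (.cons 1041 n1270 .nil)
noncomputable def n1272 : Strat := .move 1002 n1264 (.cons 837 n1267 (.cons 1043 n1271 .nil))
noncomputable def n1273 : Strat := .move 1003 n1261 (.cons 959 n1272 .nil)
noncomputable def n1274 : Strat := .move 1004 n1260 (.cons 1005 n1273 .nil)
noncomputable def n1275 : Strat := .move 919 n198 (.cons 918 n1274 .nil)
noncomputable def n1276 : Strat := .move 1001 n411 (.cons 1000 n1275 .nil)
noncomputable def n1277 : Strat := .move 960 n1255 (.cons 1001 n1257 (.cons 1006 n1259 (.cons 964 n1276 .nil)))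
noncomputable def n1278 : Strat := .move 1002 n1263 (.cons 837 n1262 .nil)
noncomputable def n1279 : Strat := .win 797 3 796
noncomputable def n1280 : Strat := .win 879 3 837
noncomputable def n1281 : Strat := .move 838 n1279 (.cons 797 n1280 .nil)
noncomputable def n1282 : Strat := .move 837 n98 (.cons 1002 n1281 .nil)
noncomputable def n1283 : Strat := .win 795 7 795
noncomputable def n1284 : Strat := .win 877 7 836
noncomputable def n1285 : Strat := .move 836 n1283 (.cons 795 n1284 .nil)
noncomputable def n1286 : Strat := .move 837 n1281 (.cons 879 n1285 .nil)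
noncomputable def n1287 : Strat := .win 1002 6 878
noncomputable def n1288 : Strat := .win 1084 6 919
noncomputable def n1289 : Strat := .win 920 3 878
noncomputable def n1290 : Strat := .win 838 3 837
noncomputable def n1291 : Strat := .move 879 n1289 (.cons 920 n1290 .nil)
noncomputable def n1292 : Strat := .move 1042 n1288 (.cons 1084 n1291 .nil)
noncomputable def n1293 : Strat := .move 1043 n1287 (.cons 1002 n1292 .nil)
noncomputable def n1294 : Strat := .move 878 n1278 (.cons 1043 n1282 (.cons 1002 n1286 (.cons 837 n1293 .nil)))
noncomputable def n1295 : Strat := .move 1001 n411 (.cons 1000 n1294 .nil)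
noncomputable def n1296 : Strat := .move 919 n198 (.cons 918 n1295 .nil)
noncomputable def n1297 : Strat := .move 1005 n622 (.cons 1004 n1296 .nil)
noncomputable def n1298 : Strat := .move 1000 n826 (.cons 1001 n825 .nil)
noncomputable def n1299 : Strat := .move 959 n718 (.cons 917 n1298 .nil)
noncomputable def n1300 : Strat := .move 918 n716 (.cons 919 n1299 .nil)
noncomputable def n1301 : Strat := .move 1005 n622 (.cons 1004 n1300 .nil)
noncomputable def n1302 : Strat := .win 1003 0 959
noncomputable def n1303 : Strat := .move 1004 n1260 (.cons 1005 n1302 .nil)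
noncomputable def n1304 : Strat := .move 959 n825 (.cons 999 n1303 .nil)
noncomputable def n1305 : Strat := .move 1000 n826 (.cons 1001 n1304 .nil)
noncomputable def n1306 : Strat := .win 1042 3 878
noncomputable def n1307 : Strat := .move 837 n99 (.cons 796 n1285 .nil)
noncomputable def n1308 : Strat := .move 920 n1306 (.cons 1042 n1307 .nil)
noncomputable def n1309 : Strat := .move 879 n1290 (.cons 838 n1308 .nil)
noncomputable def n1310 : Strat := .win 1044 6 879
noncomputable def n1311 : Strat := .win 1042 1 878
noncomputable def n1312 : Strat := .move 920 n1310 (.cons 1044 n1311 .nil)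
noncomputable def n1313 : Strat := .move 1003 n201 (.cons 1004 n1312 .nil)
noncomputable def n1314 : Strat := .move 879 n1290 (.cons 838 n1313 .nil)
noncomputable def n1315 : Strat := .move 1002 n1262 (.cons 1043 n1314 .nil)
noncomputable def n1316 : Strat := .move 878 n1278 (.cons 1002 n1309 (.cons 837 n1315 .nil))
noncomputable def n1317 : Strat := .move 919 n198 (.cons 918 n1316 .nil)
noncomputable def n1318 : Strat := .move 1001 n411 (.cons 1000 n1317 .nil)
noncomputable def n1319 : Strat := .move 918 n716 (.cons 919 n718 .nil)
noncomputable def n1320 : Strat := .move 959 n825 (.cons 999 n1319 .nil)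
noncomputable def n1321 : Strat := .move 1000 n826 (.cons 1001 n1320 .nil)
noncomputable def n1322 : Strat := .move 959 n1302 (.cons 1003 n1319 .nil)
noncomputable def n1323 : Strat := .move 1004 n1260 (.cons 1005 n1322 .nil)
noncomputable def n1324 : Strat := .move 960 n1276 (.cons 1003 n1297 (.cons 1002 n1301 (.cons 918 n1305 (.cons 1005 n1318 (.cons 1004 n1321 (.cons 1000 n1323 .nil))))))
noncomputable def n1325 : Strat := .win 965 4 961
noncomputable def n1326 : Strat := .move 1044 n174 (.cons 879 n123 .nil)
noncomputable def n1327 : Strat := .move 920 n173 (.cons 919 n1326 .nil)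
noncomputable def n1328 : Strat := .move 1003 n1325 (.cons 965 n1327 .nil)
noncomputable def n1329 : Strat := .move 1002 n48 (.cons 1001 n1328 .nil)
noncomputable def n1330 : Strat := .move 1005 n166 (.cons 1006 n1329 .nil)
noncomputable def n1331 : Strat := .win 1003 4 961
noncomputable def n1332 : Strat := .move 965 n1331 (.cons 1003 n787 .nil)
noncomputable def n1333 : Strat := .move 1002 n48 (.cons 1001 n1332 .nil)
noncomputable def n1334 : Strat := .move 964 n172 (.cons 924 n1330 (.cons 1005 n1333 .nil))
noncomputable def n1335 : Strat := .move 964 n166 (.cons 1006 n168 .nil)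
noncomputable def n1336 : Strat := .win 1003 2 961
noncomputable def n1337 : Strat := .move 1006 n1336 (.cons 1003 n1105 .nil)
noncomputable def n1338 : Strat := .move 1004 n167 (.cons 960 n1337 .nil)
noncomputable def n1339 : Strat := .move 964 n197 (.cons 920 n168 .nil)
noncomputable def n1340 : Strat := .move 919 n198 (.cons 918 n1339 .nil)
noncomputable def n1341 : Strat := .move 960 n622 (.cons 1004 n1340 .nil)
noncomputable def n1342 : Strat := .move 1005 n1335 (.cons 964 n1338 (.cons 1006 n1341 .nil))
noncomputable def n1343 : Strat := .move 960 n622 (.cons 1004 n450 .nil)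
noncomputable def n1344 : Strat := .move 1005 n166 (.cons 1006 n1343 .nil)
noncomputable def n1345 : Strat := .move 964 n172 (.cons 1005 n1333 (.cons 923 n1344 .nil))
noncomputable def n1346 : Strat := .move 964 n166 (.cons 1006 n183 .nil)
noncomputable def n1347 : Strat := .move 964 n183 (.cons 923 n627 .nil)
noncomputable def n1348 : Strat := .move 964 n166 (.cons 1006 n627 .nil)
noncomputable def n1349 : Strat := .move 960 n622 (.cons 1004 n1296 .nil)
noncomputable def n1350 : Strat := .move 1005 n1346 (.cons 1006 n1347 (.cons 923 n1348 (.cons 964 n1349 .nil)))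
noncomputable def n1351 : Strat := .win 964 2 919
noncomputable def n1352 : Strat := .win 838 1 837
noncomputable def n1353 : Strat := .move 879 n1352 (.cons 838 n1306 .nil)
noncomputable def n1354 : Strat := .move 920 n1351 (.cons 964 n1353 .nil)
noncomputable def n1355 : Strat := .move 919 n198 (.cons 918 n1354 .nil)
noncomputable def n1356 : Strat := .move 1001 n411 (.cons 1000 n1355 .nil)
noncomputable def n1357 : Strat := .win 964 4 960
noncomputable def n1358 : Strat := .move 1043 n1266 (.cons 878 n1265 .nil)
noncomputable def n1359 : Strat := .move 919 n198 (.cons 918 n1358 .nil)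
noncomputable def n1360 : Strat := .move 1002 n1357 (.cons 964 n1359 .nil)
noncomputable def n1361 : Strat := .move 1001 n411 (.cons 1000 n1360 .nil)
noncomputable def n1362 : Strat := .win 1043 7 878
noncomputable def n1363 : Strat := .move 878 n1263 (.cons 837 n1362 .nil)
noncomputable def n1364 : Strat := .win 1085 6 920
noncomputable def n1365 : Strat := .move 1003 n174 (.cons 879 n201 .nil)
noncomputable def n1366 : Strat := .move 1044 n1364 (.cons 1085 n1365 .nil)
noncomputable def n1367 : Strat := .move 1043 n1265 (.cons 1084 n1366 .nil)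
noncomputable def n1368 : Strat := .move 879 n1310 (.cons 1044 n282 .nil)
noncomputable def n1369 : Strat := .move 1003 n201 (.cons 1004 n1368 .nil)
noncomputable def n1370 : Strat := .move 878 n1263 (.cons 837 n1369 .nil)
noncomputable def n1371 : Strat := .move 1002 n1363 (.cons 878 n1367 (.cons 1043 n1370 .nil))
noncomputable def n1372 : Strat := .move 920 n1351 (.cons 964 n1371 .nil)
noncomputable def n1373 : Strat := .move 919 n198 (.cons 918 n1372 .nil)
noncomputable def n1374 : Strat := .move 920 n1269 (.cons 1083 n1268 .nil)
noncomputable def n1375 : Strat := .win 1124 3 960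
noncomputable def n1376 : Strat := .win 1125 6 960
noncomputable def n1377 : Strat := .win 1043 6 919
noncomputable def n1378 : Strat := .win 1123 1 959
noncomputable def n1379 : Strat := .win 1041 1 918
noncomputable def n1380 : Strat := .move 1082 n1378 (.cons 1123 n1379 .nil)
noncomputable def n1381 : Strat := .move 919 n1377 (.cons 1043 n1380 .nil)
noncomputable def n1382 : Strat := .move 1084 n1376 (.cons 1125 n1381 .nil)
noncomputable def n1383 : Strat := .move 1083 n1375 (.cons 1124 n1382 .nil)
noncomputable def n1384 : Strat := .move 919 n1288 (.cons 1084 n1266 .nil)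
noncomputable def n1385 : Strat := .win 1125 7 960
noncomputable def n1386 : Strat := .win 919 6 919
noncomputable def n1387 : Strat := .move 1084 n1385 (.cons 1125 n1386 .nil)
noncomputable def n1388 : Strat := .win 1082 1 918
noncomputable def n1389 : Strat := .move 919 n1388 (.cons 1082 n1266 .nil)
noncomputable def n1390 : Strat := .win 1003 5 999
noncomputable def n1391 : Strat := .win 1039 5 998
noncomputable def n1392 : Strat := .move 1040 n1390 (.cons 1003 n1391 .nil)
noncomputable def n1393 : Strat := .move 1041 n1389 (.cons 878 n1392 .nil)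
noncomputable def n1394 : Strat := .win 1126 6 961
noncomputable def n1395 : Strat := .win 1044 6 920
noncomputable def n1396 : Strat := .move 1085 n1394 (.cons 1126 n1395 .nil)
noncomputable def n1397 : Strat := .move 1084 n1385 (.cons 1125 n1396 .nil)
noncomputable def n1398 : Strat := .move 1043 n1384 (.cons 878 n1387 (.cons 1084 n1393 (.cons 919 n1397 .nil)))
noncomputable def n1399 : Strat := .move 920 n1268 (.cons 879 n1398 .nil)
noncomputable def n1400 : Strat := .move 1042 n1374 (.cons 920 n1383 (.cons 1083 n1399 .nil))
noncomputable def n1401 : Strat := .move 1002 n1357 (.cons 964 n1400 .nil)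
noncomputable def n1402 : Strat := .move 1001 n411 (.cons 1000 n1401 .nil)
noncomputable def n1403 : Strat := .win 1002 0 958
noncomputable def n1404 : Strat := .win 918 2 917
noncomputable def n1405 : Strat := .win 916 2 916
noncomputable def n1406 : Strat := .move 917 n1404 (.cons 918 n1405 .nil)
noncomputable def n1407 : Strat := .move 958 n1403 (.cons 1002 n1406 .nil)
noncomputable def n1408 : Strat := .move 1003 n200 (.cons 1004 n1407 .nil)
noncomputable def n1409 : Strat := .move 959 n825 (.cons 999 n1408 .nil)
noncomputable def n1410 : Strat := .move 1000 n826 (.cons 1001 n1409 .nil)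
noncomputable def n1411 : Strat := .move 960 n1259 (.cons 964 n1318 (.cons 1002 n1356 (.cons 920 n1361 (.cons 1001 n1373 (.cons 918 n1402 (.cons 919 n1410 .nil))))))
noncomputable def n1412 : Strat := .move 961 n1277 (.cons 964 n1324 (.cons 960 n1334 (.cons 1001 n1342 (.cons 920 n1345 (.cons 1003 n1350 (.cons 1005 n1411 .nil))))))
noncomputable def n1413 : Strat := .move 964 n570 (.cons 1005 n659 (.cons 961 n686 (.cons 924 n688 (.cons 922 n692 .nil))))
noncomputable def n1414 : Strat := .move 922 n27 (.cons 1003 n112 .nil)
noncomputable def n1415 : Strat := .move 922 n27 (.cons 1003 n769 .nil)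
noncomputable def n1416 : Strat := .win 961 4 960
noncomputable def n1417 : Strat := .win 1000 5 959
noncomputable def n1418 : Strat := .move 1001 n1416 (.cons 961 n1417 .nil)
noncomputable def n1419 : Strat := .move 1002 n1325 (.cons 965 n1418 .nil)
noncomputable def n1420 : Strat := .move 1003 n142 (.cons 922 n1419 .nil)
noncomputable def n1421 : Strat := .move 1002 n48 (.cons 1001 n1331 .nil)
noncomputable def n1422 : Strat := .move 961 n448 (.cons 923 n1421 .nil)
noncomputable def n1423 : Strat := .move 924 n35 (.cons 925 n1422 .nil)
noncomputable def n1424 : Strat := .move 1003 n143 (.cons 1002 n155 .nil)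
noncomputable def n1425 : Strat := .move 966 n147 (.cons 925 n152 .nil)
noncomputable def n1426 : Strat := .move 959 n200 (.cons 1004 n827 .nil)
noncomputable def n1427 : Strat := .move 960 n198 (.cons 918 n1426 .nil)
noncomputable def n1428 : Strat := .move 919 n197 (.cons 920 n1427 .nil)
noncomputable def n1429 : Strat := .move 961 n448 (.cons 923 n1428 .nil)
noncomputable def n1430 : Strat := .move 924 n35 (.cons 925 n1429 .nil)
noncomputable def n1431 : Strat := .move 1003 n148 (.cons 924 n155 (.cons 1004 n1425 (.cons 966 n1430 .nil)))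
noncomputable def n1432 : Strat := .move 960 n198 (.cons 918 n450 .nil)
noncomputable def n1433 : Strat := .move 919 n197 (.cons 920 n1432 .nil)
noncomputable def n1434 : Strat := .move 966 n151 (.cons 1008 n1433 .nil)
noncomputable def n1435 : Strat := .move 1007 n150 (.cons 1006 n1434 .nil)
noncomputable def n1436 : Strat := .move 961 n448 (.cons 923 n1435 .nil)
noncomputable def n1437 : Strat := .move 924 n35 (.cons 925 n1436 .nil)
noncomputable def n1438 : Strat := .move 965 n1423 (.cons 925 n1424 (.cons 1002 n1431 (.cons 1003 n1437 .nil)))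
noncomputable def n1439 : Strat := .move 964 n1414 (.cons 1003 n659 (.cons 924 n1415 (.cons 799 n1420 (.cons 922 n1438 .nil))))
noncomputable def n1440 : Strat := .move 1005 n157 (.cons 961 n160 .nil)
noncomputable def n1441 : Strat := .move 924 n35 (.cons 925 n1440 .nil)
noncomputable def n1442 : Strat := .move 1006 n36 (.cons 1007 n1441 .nil)
noncomputable def n1443 : Strat := .move 965 n155 (.cons 1004 n1442 (.cons 1006 n148 .nil))
noncomputable def n1444 : Strat := .move 965 n143 (.cons 1002 n1442 .nil)
noncomputable def n1445 : Strat := .move 920 n173 (.cons 919 n1368 .nil)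
noncomputable def n1446 : Strat := .move 1004 n167 (.cons 960 n1445 .nil)
noncomputable def n1447 : Strat := .move 1005 n166 (.cons 1006 n1446 .nil)
noncomputable def n1448 : Strat := .move 1002 n48 (.cons 1001 n1447 .nil)
noncomputable def n1449 : Strat := .move 918 n718 (.cons 917 n716 .nil)
noncomputable def n1450 : Strat := .move 959 n199 (.cons 958 n1449 .nil)
noncomputable def n1451 : Strat := .move 960 n622 (.cons 1004 n1450 .nil)
noncomputable def n1452 : Strat := .move 1005 n166 (.cons 1006 n1451 .nil)
noncomputable def n1453 : Strat := .move 1002 n48 (.cons 1001 n1452 .nil)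
noncomputable def n1454 : Strat := .move 1004 n1261 (.cons 959 n1260 .nil)
noncomputable def n1455 : Strat := .move 960 n411 (.cons 1000 n1454 .nil)
noncomputable def n1456 : Strat := .move 1001 n410 (.cons 1002 n1455 .nil)
noncomputable def n1457 : Strat := .move 961 n1448 (.cons 1002 n690 (.cons 1005 n177 (.cons 920 n1453 (.cons 919 n1456 .nil))))
noncomputable def n1458 : Strat := .move 964 n156 (.cons 1002 n1443 (.cons 1004 n1444 (.cons 1006 n149 (.cons 965 n1457 .nil))))
noncomputable def n1459 : Strat := .move 1003 n142 (.cons 922 n1458 .nil)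
noncomputable def n1460 : Strat := .move 922 n27 (.cons 1003 n469 .nil)
noncomputable def n1461 : Strat := .move 964 n28 (.cons 1005 n769 .nil)
noncomputable def n1462 : Strat := .move 922 n27 (.cons 1003 n1461 .nil)
noncomputable def n1463 : Strat := .win 1126 3 962
noncomputable def n1464 : Strat := .win 920 7 920
noncomputable def n1465 : Strat := .win 1006 2 961
noncomputable def n1466 : Strat := .move 1005 n167 (.cons 960 n1465 .nil)
noncomputable def n1467 : Strat := .move 961 n1464 (.cons 920 n1466 .nil)
noncomputable def n1468 : Strat := .move 1004 n1463 (.cons 1126 n1467 .nil)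
noncomputable def n1469 : Strat := .move 960 n1261 (.cons 959 n1260 .nil)
noncomputable def n1470 : Strat := .move 961 n1464 (.cons 920 n1469 .nil)
noncomputable def n1471 : Strat := .move 1004 n1463 (.cons 1126 n1470 .nil)
noncomputable def n1472 : Strat := .win 1002 7 961
noncomputable def n1473 : Strat := .win 1084 1 961
noncomputable def n1474 : Strat := .win 1166 1 1002
noncomputable def n1475 : Strat := .move 1125 n1473 (.cons 1084 n1474 .nil)
noncomputable def n1476 : Strat := .move 1126 n1472 (.cons 1002 n1475 .nil)
noncomputable def n1477 : Strat := .move 961 n1464 (.cons 920 n1476 .nil)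
noncomputable def n1478 : Strat := .win 1042 2 1042
noncomputable def n1479 : Strat := .win 1088 2 1043
noncomputable def n1480 : Strat := .move 1087 n1478 (.cons 1042 n1479 .nil)
noncomputable def n1481 : Strat := .win 1087 2 1042
noncomputable def n1482 : Strat := .win 1041 0 1041
noncomputable def n1483 : Strat := .move 1042 n1481 (.cons 1087 n1482 .nil)
noncomputable def n1484 : Strat := .win 1129 0 1084
noncomputable def n1485 : Strat := .win 1045 6 963
noncomputable def n1486 : Strat := .move 1128 n1484 (.cons 1129 n1485 .nil)
noncomputable def n1487 : Strat := .move 1087 n1479 (.cons 1088 n1486 .nil)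
noncomputable def n1488 : Strat := .win 1002 4 1001
noncomputable def n1489 : Strat := .move 1005 n1488 (.cons 1002 n248 .nil)
noncomputable def n1490 : Strat := .move 1042 n1482 (.cons 1041 n1489 .nil)
noncomputable def n1491 : Strat := .move 1043 n1480 (.cons 1088 n1483 (.cons 1042 n1487 (.cons 1087 n1490 .nil)))
noncomputable def n1492 : Strat := .move 1084 n216 (.cons 1125 n1491 .nil)
noncomputable def n1493 : Strat := .move 1086 n211 (.cons 1127 n1492 .nil)
noncomputable def n1494 : Strat := .move 1004 n1463 (.cons 1126 n1493 .nil)
noncomputable def n1495 : Strat := .move 1004 n1260 (.cons 1005 n1261 .nil)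
noncomputable def n1496 : Strat := .move 1087 n1479 (.cons 1088 n1478 .nil)
noncomputable def n1497 : Strat := .win 1002 7 919
noncomputable def n1498 : Strat := .move 919 n1497 (.cons 1002 n198 .nil)
noncomputable def n1499 : Strat := .move 1043 n1483 (.cons 1041 n1496 (.cons 1087 n1498 .nil))
noncomputable def n1500 : Strat := .move 960 n1495 (.cons 959 n1499 .nil)
noncomputable def n1501 : Strat := .move 1086 n211 (.cons 1127 n1500 .nil)
noncomputable def n1502 : Strat := .move 1084 n216 (.cons 1125 n1501 .nil)
noncomputable def n1503 : Strat := .move 961 n1464 (.cons 920 n1502 .nil)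
noncomputable def n1504 : Strat := .move 1044 n1468 (.cons 1006 n1471 (.cons 1004 n1477 (.cons 961 n1494 (.cons 1126 n1503 .nil))))
noncomputable def n1505 : Strat := .win 1086 6 962
noncomputable def n1506 : Strat := .win 1168 6 1003
noncomputable def n1507 : Strat := .move 1127 n1505 (.cons 1086 n1506 .nil)
noncomputable def n1508 : Strat := .move 961 n1464 (.cons 920 n1472 .nil)
noncomputable def n1509 : Strat := .move 1126 n1507 (.cons 1086 n1508 .nil)
noncomputable def n1510 : Strat := .move 1126 n1475 (.cons 1125 n1507 .nil)
noncomputable def n1511 : Strat := .win 1046 5 1042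
noncomputable def n1512 : Strat := .win 1082 5 1041
noncomputable def n1513 : Strat := .move 1045 n1511 (.cons 1046 n1512 .nil)
noncomputable def n1514 : Strat := .win 1002 1 960
noncomputable def n1515 : Strat := .win 1123 4 1082
noncomputable def n1516 : Strat := .move 1124 n1514 (.cons 1002 n1515 .nil)
noncomputable def n1517 : Strat := .move 1043 n1483 (.cons 1041 n1496 (.cons 1087 n1516 .nil))
noncomputable def n1518 : Strat := .move 1083 n1513 (.cons 1082 n1517 .nil)
noncomputable def n1519 : Strat := .move 961 n1464 (.cons 920 n1518 .nil)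
noncomputable def n1520 : Strat := .move 1086 n211 (.cons 1127 n1519 .nil)
noncomputable def n1521 : Strat := .move 1084 n216 (.cons 1125 n1520 .nil)
noncomputable def n1522 : Strat := .move 1044 n1477 (.cons 1084 n1509 (.cons 1002 n1510 (.cons 1126 n1521 .nil)))
noncomputable def n1523 : Strat := .move 1083 n1511 (.cons 1046 n1512 .nil)
noncomputable def n1524 : Strat := .win 1083 5 1042
noncomputable def n1525 : Strat := .win 1047 4 1043
noncomputable def n1526 : Strat := .move 1046 n1524 (.cons 1083 n1525 .nil)
noncomputable def n1527 : Strat := .win 1128 6 963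
noncomputable def n1528 : Strat := .win 1089 2 1044
noncomputable def n1529 : Strat := .win 1043 2 1043
noncomputable def n1530 : Strat := .move 1088 n1528 (.cons 1089 n1529 .nil)
noncomputable def n1531 : Strat := .move 1087 n1527 (.cons 1128 n1530 .nil)
noncomputable def n1532 : Strat := .move 1045 n1523 (.cons 1082 n1526 (.cons 1046 n1531 .nil))
noncomputable def n1533 : Strat := .move 1084 n216 (.cons 1125 n1532 .nil)
noncomputable def n1534 : Strat := .move 1086 n211 (.cons 1127 n1533 .nil)
noncomputable def n1535 : Strat := .move 1004 n1463 (.cons 1126 n1534 .nil)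
noncomputable def n1536 : Strat := .move 1043 n1479 (.cons 1088 n1478 .nil)
noncomputable def n1537 : Strat := .win 1047 5 1043
noncomputable def n1538 : Strat := .win 1004 6 963
noncomputable def n1539 : Strat := .move 1128 n1538 (.cons 1004 n1484 .nil)
noncomputable def n1540 : Strat := .move 1045 n1524 (.cons 1083 n1539 .nil)
noncomputable def n1541 : Strat := .move 1046 n1537 (.cons 1047 n1540 .nil)
noncomputable def n1542 : Strat := .move 1087 n1536 (.cons 1043 n1541 .nil)
noncomputable def n1543 : Strat := .move 1084 n216 (.cons 1125 n1542 .nil)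
noncomputable def n1544 : Strat := .move 1086 n211 (.cons 1127 n1543 .nil)
noncomputable def n1545 : Strat := .win 1045 0 1042
noncomputable def n1546 : Strat := .move 1087 n1545 (.cons 1045 n1479 .nil)
noncomputable def n1547 : Strat := .move 1042 n1482 (.cons 1041 n1546 .nil)
noncomputable def n1548 : Strat := .win 1046 7 963
noncomputable def n1549 : Strat := .move 1128 n1548 (.cons 1046 n1485 .nil)
noncomputable def n1550 : Strat := .move 1087 n1479 (.cons 1088 n1549 .nil)
noncomputable def n1551 : Strat := .move 1005 n248 (.cons 1006 n1550 .nil)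
noncomputable def n1552 : Strat := .move 1043 n1547 (.cons 1045 n1490 (.cons 1042 n1551 .nil))
noncomputable def n1553 : Strat := .move 1086 n211 (.cons 1127 n1552 .nil)
noncomputable def n1554 : Strat := .move 1004 n1463 (.cons 1126 n1553 .nil)
noncomputable def n1555 : Strat := .win 1004 3 962
noncomputable def n1556 : Strat := .move 1126 n1555 (.cons 1004 n1475 .nil)
noncomputable def n1557 : Strat := .win 1130 0 1085
noncomputable def n1558 : Strat := .win 1128 0 1084
noncomputable def n1559 : Strat := .move 1129 n1557 (.cons 1130 n1558 .nil)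
noncomputable def n1560 : Strat := .move 1088 n1529 (.cons 1043 n1559 .nil)
noncomputable def n1561 : Strat := .win 1048 5 1044
noncomputable def n1562 : Strat := .win 1046 5 1043
noncomputable def n1563 : Strat := .move 1047 n1561 (.cons 1048 n1562 .nil)
noncomputable def n1564 : Strat := .move 1088 n1559 (.cons 1128 n1563 .nil)
noncomputable def n1565 : Strat := .win 1043 2 1042
noncomputable def n1566 : Strat := .win 1041 2 1041
noncomputable def n1567 : Strat := .move 1083 n1566 (.cons 1041 n1513 .nil)
noncomputable def n1568 : Strat := .move 1042 n1565 (.cons 1043 n1567 .nil)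
noncomputable def n1569 : Strat := .move 1087 n1536 (.cons 1042 n1560 (.cons 1043 n1564 (.cons 1088 n1568 .nil)))
noncomputable def n1570 : Strat := .move 1084 n216 (.cons 1125 n1569 .nil)
noncomputable def n1571 : Strat := .move 1086 n211 (.cons 1127 n1570 .nil)
noncomputable def n1572 : Strat := .move 1044 n1494 (.cons 1042 n1535 (.cons 1126 n1544 (.cons 1084 n1554 (.cons 1127 n1556 (.cons 1004 n1571 .nil)))))
noncomputable def n1573 : Strat := .move 961 n1464 (.cons 920 n1500 .nil)
noncomputable def n1574 : Strat := .move 1086 n211 (.cons 1127 n1573 .nil)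
noncomputable def n1575 : Strat := .move 1044 n216 (.cons 1125 n1574 .nil)
noncomputable def n1576 : Strat := .win 1044 6 962
noncomputable def n1577 : Strat := .win 1128 0 1083
noncomputable def n1578 : Strat := .win 1004 7 962
noncomputable def n1579 : Strat := .move 1045 n1511 (.cons 1046 n1578 .nil)
noncomputable def n1580 : Strat := .move 1083 n1577 (.cons 1128 n1579 .nil)
noncomputable def n1581 : Strat := .move 1127 n1576 (.cons 1044 n1580 .nil)
noncomputable def n1582 : Strat := .move 1045 n1538 (.cons 1004 n1524 .nil)
noncomputable def n1583 : Strat := .move 1128 n1484 (.cons 1129 n1582 .nil)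
noncomputable def n1584 : Strat := .move 1046 n1537 (.cons 1047 n1583 .nil)
noncomputable def n1585 : Strat := .win 1044 2 1043
noncomputable def n1586 : Strat := .move 1043 n1585 (.cons 1044 n1478 .nil)
noncomputable def n1587 : Strat := .move 1088 n1557 (.cons 1130 n1586 .nil)
noncomputable def n1588 : Strat := .move 1129 n1558 (.cons 1128 n1587 .nil)
noncomputable def n1589 : Strat := .move 1046 n1537 (.cons 1047 n1588 .nil)
noncomputable def n1590 : Strat := .move 1088 n1585 (.cons 1044 n1559 .nil)
noncomputable def n1591 : Strat := .move 1043 n1478 (.cons 1042 n1590 .nil)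
noncomputable def n1592 : Strat := .win 1045 5 1042
noncomputable def n1593 : Strat := .move 1042 n1565 (.cons 1043 n1566 .nil)
noncomputable def n1594 : Strat := .move 1083 n1592 (.cons 1045 n1593 .nil)
noncomputable def n1595 : Strat := .move 1046 n1537 (.cons 1047 n1594 .nil)
noncomputable def n1596 : Strat := .move 1087 n1584 (.cons 1045 n1589 (.cons 1046 n1591 (.cons 1128 n1595 .nil)))
noncomputable def n1597 : Strat := .move 1044 n211 (.cons 1127 n1519 .nil)
noncomputable def n1598 : Strat := .move 1042 n1482 (.cons 1041 n1481 .nil)
noncomputable def n1599 : Strat := .move 1043 n1598 (.cons 1087 n1498 .nil)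
noncomputable def n1600 : Strat := .move 960 n1495 (.cons 959 n1599 .nil)
noncomputable def n1601 : Strat := .move 961 n1464 (.cons 920 n1600 .nil)
noncomputable def n1602 : Strat := .move 1044 n211 (.cons 1127 n1601 .nil)
noncomputable def n1603 : Strat := .move 1127 n1577 (.cons 1128 n1579 .nil)
noncomputable def n1604 : Strat := .win 1042 2 1041
noncomputable def n1605 : Strat := .win 1040 2 1040
noncomputable def n1606 : Strat := .win 1122 4 1081
noncomputable def n1607 : Strat := .win 1124 4 1082
noncomputable def n1608 : Strat := .move 1123 n1606 (.cons 1122 n1607 .nil)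
noncomputable def n1609 : Strat := .move 1082 n1605 (.cons 1040 n1608 .nil)
noncomputable def n1610 : Strat := .move 1041 n1604 (.cons 1042 n1609 .nil)
noncomputable def n1611 : Strat := .move 1127 n1577 (.cons 1128 n1610 .nil)
noncomputable def n1612 : Strat := .move 1127 n1579 (.cons 1045 n1610 .nil)
noncomputable def n1613 : Strat := .move 1046 n1537 (.cons 1047 n1592 .nil)
noncomputable def n1614 : Strat := .move 1087 n1565 (.cons 1043 n1613 .nil)
noncomputable def n1615 : Strat := .move 1042 n1566 (.cons 1041 n1614 .nil)
noncomputable def n1616 : Strat := .move 1083 n1603 (.cons 1045 n1611 (.cons 1128 n1612 (.cons 1127 n1615 .nil)))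
noncomputable def n1617 : Strat := .move 1086 n1581 (.cons 1127 n1596 (.cons 1004 n1597 (.cons 1046 n1602 (.cons 1044 n1616 .nil))))
noncomputable def n1618 : Strat := .win 1044 1 961
noncomputable def n1619 : Strat := .win 1043 3 961
noncomputable def n1620 : Strat := .win 959 2 959
noncomputable def n1621 : Strat := .win 1083 6 960
noncomputable def n1622 : Strat := .move 1042 n1621 (.cons 1083 n222 .nil)
noncomputable def n1623 : Strat := .move 960 n1620 (.cons 959 n1622 .nil)
noncomputable def n1624 : Strat := .win 1047 0 1002
noncomputable def n1625 : Strat := .win 1045 0 1001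
noncomputable def n1626 : Strat := .move 1046 n1624 (.cons 1047 n1625 .nil)
noncomputable def n1627 : Strat := .win 961 2 961
noncomputable def n1628 : Strat := .move 1006 n1105 (.cons 1007 n1627 .nil)
noncomputable def n1629 : Strat := .move 1005 n1626 (.cons 1045 n1628 .nil)
noncomputable def n1630 : Strat := .move 1004 n1623 (.cons 960 n1629 .nil)
noncomputable def n1631 : Strat := .move 1001 n1417 (.cons 1000 n1630 .nil)
noncomputable def n1632 : Strat := .move 1002 n1619 (.cons 1043 n1631 .nil)
noncomputable def n1633 : Strat := .move 1125 n1618 (.cons 1044 n1632 .nil)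
noncomputable def n1634 : Strat := .move 1086 n211 (.cons 1127 n1542 .nil)
noncomputable def n1635 : Strat := .move 1044 n216 (.cons 1125 n1634 .nil)
noncomputable def n1636 : Strat := .move 1044 n216 (.cons 1125 n1520 .nil)
noncomputable def n1637 : Strat := .move 1087 n1530 (.cons 1043 n1539 .nil)
noncomputable def n1638 : Strat := .move 1045 n1523 (.cons 1082 n1526 (.cons 1046 n1637 .nil))
noncomputable def n1639 : Strat := .move 961 n1464 (.cons 920 n1638 .nil)
noncomputable def n1640 : Strat := .move 1086 n211 (.cons 1127 n1639 .nil)
noncomputable def n1641 : Strat := .move 1044 n216 (.cons 1125 n1640 .nil)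
noncomputable def n1642 : Strat := .move 1044 n216 (.cons 1125 n211 .nil)
noncomputable def n1643 : Strat := .move 1044 n216 (.cons 1125 n1513 .nil)
noncomputable def n1644 : Strat := .win 1087 4 1083
noncomputable def n1645 : Strat := .win 1166 6 1001
noncomputable def n1646 : Strat := .win 960 6 960
noncomputable def n1647 : Strat := .move 1001 n1645 (.cons 1166 n1646 .nil)
noncomputable def n1648 : Strat := .move 1125 n1644 (.cons 1087 n1647 .nil)
noncomputable def n1649 : Strat := .move 1124 n1515 (.cons 1123 n1648 .nil)
noncomputable def n1650 : Strat := .move 1042 n1566 (.cons 1041 n1649 .nil)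
noncomputable def n1651 : Strat := .win 1044 5 1041
noncomputable def n1652 : Strat := .move 1045 n1651 (.cons 1044 n1511 .nil)
noncomputable def n1653 : Strat := .move 1082 n1606 (.cons 1122 n1652 .nil)
noncomputable def n1654 : Strat := .move 1123 n1607 (.cons 1124 n1653 .nil)
noncomputable def n1655 : Strat := .move 1042 n1566 (.cons 1041 n1654 .nil)
noncomputable def n1656 : Strat := .move 1083 n1643 (.cons 1044 n1650 (.cons 1125 n1655 .nil))
noncomputable def n1657 : Strat := .move 1127 n1576 (.cons 1044 n1577 .nil)
noncomputable def n1658 : Strat := .move 1127 n1578 (.cons 1004 n1577 .nil)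
noncomputable def n1659 : Strat := .move 1045 n1511 (.cons 1046 n1658 .nil)
noncomputable def n1660 : Strat := .move 1123 n1607 (.cons 1124 n1659 .nil)
noncomputable def n1661 : Strat := .move 1042 n1566 (.cons 1041 n1660 .nil)
noncomputable def n1662 : Strat := .move 1083 n1657 (.cons 1127 n1655 (.cons 1044 n1661 .nil))
noncomputable def n1663 : Strat := .move 1124 n1515 (.cons 1123 n1644 .nil)
noncomputable def n1664 : Strat := .move 1042 n1566 (.cons 1041 n1647 .nil)
noncomputable def n1665 : Strat := .move 1124 n1644 (.cons 1087 n1664 .nil)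
noncomputable def n1666 : Strat := .move 1042 n1566 (.cons 1041 n1659 .nil)
noncomputable def n1667 : Strat := .move 1125 n1663 (.cons 1123 n1665 (.cons 1124 n1666 .nil))
noncomputable def n1668 : Strat := .move 1042 n1649 (.cons 1125 n1660 (.cons 1124 n1659 .nil))
noncomputable def n1669 : Strat := .win 1125 4 1083
noncomputable def n1670 : Strat := .win 1127 0 1083
noncomputable def n1671 : Strat := .move 1128 n1484 (.cons 1129 n1670 .nil)
noncomputable def n1672 : Strat := .move 1087 n1669 (.cons 1125 n1671 .nil)
noncomputable def n1673 : Strat := .move 1124 n1515 (.cons 1123 n1672 .nil)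
noncomputable def n1674 : Strat := .move 1083 n1667 (.cons 1127 n1650 (.cons 1125 n1661 (.cons 1041 n1668 (.cons 1124 n1666 (.cons 1042 n1673 .nil)))))
noncomputable def n1675 : Strat := .move 1086 n1642 (.cons 1127 n1656 (.cons 1125 n1662 (.cons 1044 n1674 .nil)))
noncomputable def n1676 : Strat := .move 1087 n1565 (.cons 1043 n1671 .nil)
noncomputable def n1677 : Strat := .move 1042 n1566 (.cons 1041 n1676 .nil)
noncomputable def n1678 : Strat := .move 1124 n1669 (.cons 1125 n1515 .nil)
noncomputable def n1679 : Strat := .move 1087 n1565 (.cons 1043 n1678 .nil)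
noncomputable def n1680 : Strat := .move 1042 n1566 (.cons 1041 n1679 .nil)
noncomputable def n1681 : Strat := .move 1002 n242 (.cons 961 n1417 .nil)
noncomputable def n1682 : Strat := .move 1125 n1645 (.cons 1166 n1646 .nil)
noncomputable def n1683 : Strat := .move 1001 n1681 (.cons 1000 n1682 .nil)
noncomputable def n1684 : Strat := .move 1124 n1515 (.cons 1123 n1683 .nil)
noncomputable def n1685 : Strat := .move 1042 n1566 (.cons 1041 n1684 .nil)
noncomputable def n1686 : Strat := .move 1083 n1677 (.cons 1127 n1680 (.cons 1087 n1685 (.cons 1042 n1673 .nil)))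
noncomputable def n1687 : Strat := .move 1087 n1669 (.cons 1125 n1613 .nil)
noncomputable def n1688 : Strat := .move 1124 n1515 (.cons 1123 n1687 .nil)
noncomputable def n1689 : Strat := .move 1083 n1680 (.cons 1043 n1650 (.cons 1042 n1688 (.cons 1124 n1615 (.cons 1087 n1685 .nil))))
noncomputable def n1690 : Strat := .win 1124 4 1083
noncomputable def n1691 : Strat := .win 1002 3 961
noncomputable def n1692 : Strat := .move 1043 n1691 (.cons 1002 n1478 .nil)
noncomputable def n1693 : Strat := .move 1087 n1690 (.cons 1124 n1692 .nil)
noncomputable def n1694 : Strat := .move 1083 n1511 (.cons 1046 n1670 .nil)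
noncomputable def n1695 : Strat := .move 1045 n1538 (.cons 1004 n1694 .nil)
noncomputable def n1696 : Strat := .move 1128 n1484 (.cons 1129 n1695 .nil)
noncomputable def n1697 : Strat := .move 1087 n1690 (.cons 1124 n1696 .nil)
noncomputable def n1698 : Strat := .move 1087 n1692 (.cons 1043 n1696 .nil)
noncomputable def n1699 : Strat := .move 1124 n1515 (.cons 1123 n1659 .nil)
noncomputable def n1700 : Strat := .move 1002 n1619 (.cons 1043 n1417 .nil)
noncomputable def n1701 : Strat := .move 1042 n1645 (.cons 1166 n1646 .nil)
noncomputable def n1702 : Strat := .move 1001 n1700 (.cons 1000 n1701 .nil)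
noncomputable def n1703 : Strat := .move 1124 n1515 (.cons 1123 n1702 .nil)
noncomputable def n1704 : Strat := .move 1002 n1619 (.cons 1043 n1659 .nil)
noncomputable def n1705 : Strat := .move 1083 n1699 (.cons 1004 n1703 (.cons 1124 n1704 .nil))
noncomputable def n1706 : Strat := .move 1125 n1693 (.cons 1043 n1697 (.cons 1124 n1698 (.cons 1087 n1705 .nil)))
noncomputable def n1707 : Strat := .win 1166 7 1001
noncomputable def n1708 : Strat := .move 1001 n1646 (.cons 960 n1707 .nil)
noncomputable def n1709 : Strat := .move 1042 n1566 (.cons 1041 n1708 .nil)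
noncomputable def n1710 : Strat := .move 1083 n1709 (.cons 1042 n1659 .nil)
noncomputable def n1711 : Strat := .move 1043 n1691 (.cons 1002 n1710 .nil)
noncomputable def n1712 : Strat := .move 1125 n1693 (.cons 1124 n1698 (.cons 1043 n1697 (.cons 1087 n1711 .nil)))
noncomputable def n1713 : Strat := .win 1005 7 963
noncomputable def n1714 : Strat := .move 1046 n1713 (.cons 1005 n1537 .nil)
noncomputable def n1715 : Strat := .move 1004 n1485 (.cons 1045 n1714 .nil)
noncomputable def n1716 : Strat := .move 1128 n1484 (.cons 1129 n1715 .nil)
noncomputable def n1717 : Strat := .move 1125 n1690 (.cons 1124 n1691 .nil)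
noncomputable def n1718 : Strat := .move 1043 n1478 (.cons 1042 n1717 .nil)
noncomputable def n1719 : Strat := .move 1046 n1537 (.cons 1047 n1718 .nil)
noncomputable def n1720 : Strat := .move 1128 n1484 (.cons 1129 n1719 .nil)
noncomputable def n1721 : Strat := .move 1125 n1691 (.cons 1002 n1690 .nil)
noncomputable def n1722 : Strat := .move 1043 n1478 (.cons 1042 n1721 .nil)
noncomputable def n1723 : Strat := .move 1087 n1716 (.cons 1045 n1720 (.cons 1128 n1722 .nil))
noncomputable def n1724 : Strat := .win 1002 3 1001
noncomputable def n1725 : Strat := .win 1206 3 1042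
noncomputable def n1726 : Strat := .move 1165 n1724 (.cons 1002 n1725 .nil)
noncomputable def n1727 : Strat := .move 1124 n1515 (.cons 1123 n1726 .nil)
noncomputable def n1728 : Strat := .move 1042 n1566 (.cons 1041 n1727 .nil)
noncomputable def n1729 : Strat := .move 1042 n1727 (.cons 1124 n1659 .nil)
noncomputable def n1730 : Strat := .move 1041 n1604 (.cons 1042 n1659 .nil)
noncomputable def n1731 : Strat := .move 1043 n1728 (.cons 1041 n1729 (.cons 1042 n1699 (.cons 1124 n1730 .nil)))
noncomputable def n1732 : Strat := .move 1083 n1685 (.cons 1125 n1731 (.cons 1123 n1666 (.cons 1042 n1603 .nil)))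
noncomputable def n1733 : Strat := .move 1042 n1676 (.cons 1043 n1659 (.cons 1127 n1614 .nil))
noncomputable def n1734 : Strat := .move 1127 n1577 (.cons 1128 n1578 .nil)
noncomputable def n1735 : Strat := .move 1045 n1511 (.cons 1046 n1734 .nil)
noncomputable def n1736 : Strat := .move 1083 n1677 (.cons 1127 n1615 (.cons 1043 n1666 (.cons 1041 n1733 (.cons 1042 n1735 .nil))))
noncomputable def n1737 : Strat := .move 1083 n1673 (.cons 1124 n1735 (.cons 1127 n1688 .nil))
noncomputable def n1738 : Strat := .move 1086 n1686 (.cons 1043 n1674 (.cons 1125 n1616 (.cons 1127 n1689 (.cons 1041 n1706 (.cons 1123 n1712 (.cons 1083 n1723 (.cons 1087 n1732 (.cons 1124 n1736 (.cons 1042 n1737 .nil)))))))))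
noncomputable def n1739 : Strat := .move 1084 n1575 (.cons 1125 n1617 (.cons 1086 n1633 (.cons 961 n1635 (.cons 1004 n1636 (.cons 1042 n1641 (.cons 1043 n1675 (.cons 1044 n1738 .nil)))))))
noncomputable def n1740 : Strat := .move 1126 n1475 (.cons 1084 n1508 .nil)
noncomputable def n1741 : Strat := .move 1126 n1555 (.cons 1004 n1508 .nil)
noncomputable def n1742 : Strat := .move 959 n200 (.cons 1004 n1449 .nil)
noncomputable def n1743 : Strat := .win 1042 6 919
noncomputable def n1744 : Strat := .move 1043 n1743 (.cons 1042 n1497 .nil)
noncomputable def n1745 : Strat := .move 919 n198 (.cons 918 n1744 .nil)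
noncomputable def n1746 : Strat := .move 1001 n411 (.cons 1000 n1745 .nil)
noncomputable def n1747 : Strat := .move 960 n1454 (.cons 1005 n1742 (.cons 959 n1746 .nil))
noncomputable def n1748 : Strat := .move 1084 n216 (.cons 1125 n1747 .nil)
noncomputable def n1749 : Strat := .move 961 n1464 (.cons 920 n1748 .nil)
noncomputable def n1750 : Strat := .move 1044 n1556 (.cons 1004 n1740 (.cons 1084 n1741 (.cons 1126 n1749 .nil)))
noncomputable def n1751 : Strat := .move 1126 n1555 (.cons 1004 n1507 .nil)
noncomputable def n1752 : Strat := .move 1043 n1478 (.cons 1042 n1479 .nil)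
noncomputable def n1753 : Strat := .move 1045 n1523 (.cons 1082 n1526 (.cons 1046 n1539 .nil))
noncomputable def n1754 : Strat := .move 1087 n1752 (.cons 1088 n1753 .nil)
noncomputable def n1755 : Strat := .move 1084 n216 (.cons 1125 n1754 .nil)
noncomputable def n1756 : Strat := .move 1086 n211 (.cons 1127 n1755 .nil)
noncomputable def n1757 : Strat := .move 961 n1464 (.cons 920 n1756 .nil)
noncomputable def n1758 : Strat := .move 1044 n1556 (.cons 1004 n1510 (.cons 1125 n1751 (.cons 1126 n1757 .nil)))
noncomputable def n1759 : Strat := .move 1126 n1555 (.cons 1004 n1472 .nil)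
noncomputable def n1760 : Strat := .move 1044 n1464 (.cons 920 n1759 .nil)
noncomputable def n1761 : Strat := .win 1002 4 1000
noncomputable def n1762 : Strat := .move 1041 n1388 (.cons 1082 n1761 .nil)
noncomputable def n1763 : Strat := .win 879 3 878
noncomputable def n1764 : Strat := .move 920 n1763 (.cons 879 n1269 .nil)
noncomputable def n1765 : Strat := .move 1042 n1762 (.cons 1002 n1764 .nil)
noncomputable def n1766 : Strat := .move 919 n198 (.cons 918 n1765 .nil)
noncomputable def n1767 : Strat := .move 1001 n411 (.cons 1000 n1766 .nil)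
noncomputable def n1768 : Strat := .move 1004 n1260 (.cons 1005 n1767 .nil)
noncomputable def n1769 : Strat := .move 1004 n1261 (.cons 959 n1767 .nil)
noncomputable def n1770 : Strat := .move 960 n1454 (.cons 959 n1768 (.cons 1005 n1769 (.cons 1004 n1321 .nil)))
noncomputable def n1771 : Strat := .move 1126 n1472 (.cons 1002 n1507 .nil)
noncomputable def n1772 : Strat := .move 1044 n1464 (.cons 920 n1771 .nil)
noncomputable def n1773 : Strat := .move 1004 n1463 (.cons 1126 n1466 .nil)
noncomputable def n1774 : Strat := .move 1044 n1464 (.cons 920 n1773 .nil)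
noncomputable def n1775 : Strat := .move 1044 n211 (.cons 1127 n1463 .nil)
noncomputable def n1776 : Strat := .win 1045 7 962
noncomputable def n1777 : Strat := .move 1127 n1776 (.cons 1045 n1576 .nil)
noncomputable def n1778 : Strat := .win 1045 1 962
noncomputable def n1779 : Strat := .win 1044 3 962
noncomputable def n1780 : Strat := .move 1126 n1778 (.cons 1045 n1779 .nil)
noncomputable def n1781 : Strat := .win 1127 7 962
noncomputable def n1782 : Strat := .win 1126 1 962
noncomputable def n1783 : Strat := .move 1045 n1781 (.cons 1127 n1782 .nil)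
noncomputable def n1784 : Strat := .move 1086 n1775 (.cons 1126 n1777 (.cons 1127 n1780 (.cons 1044 n1783 .nil)))
noncomputable def n1785 : Strat := .move 919 n198 (.cons 918 n1784 .nil)
noncomputable def n1786 : Strat := .move 1004 n1260 (.cons 1005 n1785 .nil)
noncomputable def n1787 : Strat := .move 1000 n826 (.cons 1001 n1786 .nil)
noncomputable def n1788 : Strat := .move 960 n1454 (.cons 1004 n1321 (.cons 959 n1787 .nil))
noncomputable def n1789 : Strat := .move 961 n1760 (.cons 1044 n1770 (.cons 1004 n1772 (.cons 1002 n1774 (.cons 920 n1788 .nil))))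
noncomputable def n1790 : Strat := .move 1126 n1475 (.cons 1125 n1508 .nil)
noncomputable def n1791 : Strat := .move 1086 n211 (.cons 1127 n1638 .nil)
noncomputable def n1792 : Strat := .move 1084 n216 (.cons 1125 n1791 .nil)
noncomputable def n1793 : Strat := .move 961 n1464 (.cons 920 n1792 .nil)
noncomputable def n1794 : Strat := .move 1044 n1556 (.cons 1004 n1790 (.cons 1125 n1741 (.cons 1126 n1793 .nil)))
noncomputable def n1795 : Strat := .win 1125 3 961
noncomputable def n1796 : Strat := .win 919 7 919
noncomputable def n1797 : Strat := .move 959 n200 (.cons 1004 n199 .nil)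
noncomputable def n1798 : Strat := .move 960 n1796 (.cons 919 n1797 .nil)
noncomputable def n1799 : Strat := .move 961 n1394 (.cons 1126 n1798 .nil)
noncomputable def n1800 : Strat := .move 1002 n1795 (.cons 1125 n1799 .nil)
noncomputable def n1801 : Strat := .move 1004 n222 (.cons 1041 n131 .nil)
noncomputable def n1802 : Strat := .win 1040 0 1040
noncomputable def n1803 : Strat := .move 1041 n539 (.cons 1004 n1802 .nil)
noncomputable def n1804 : Strat := .move 1004 n1620 (.cons 959 n131 .nil)
noncomputable def n1805 : Strat := .move 960 n1386 (.cons 919 n1804 .nil)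
noncomputable def n1806 : Strat := .win 1083 2 1041
noncomputable def n1807 : Strat := .move 1086 n1806 (.cons 1083 n1481 .nil)
noncomputable def n1808 : Strat := .move 1041 n1802 (.cons 1040 n1807 .nil)
noncomputable def n1809 : Strat := .move 1042 n1801 (.cons 1005 n1803 (.cons 1041 n1805 (.cons 1004 n1808 .nil)))
noncomputable def n1810 : Strat := .move 1001 n1417 (.cons 1000 n1809 .nil)
noncomputable def n1811 : Strat := .move 959 n825 (.cons 999 n199 .nil)
noncomputable def n1812 : Strat := .move 1000 n826 (.cons 1001 n1811 .nil)
noncomputable def n1813 : Strat := .move 960 n1796 (.cons 919 n1812 .nil)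
noncomputable def n1814 : Strat := .move 961 n1394 (.cons 1126 n1813 .nil)
noncomputable def n1815 : Strat := .win 1124 1 960
noncomputable def n1816 : Strat := .win 920 1 919
noncomputable def n1817 : Strat := .move 1086 n1566 (.cons 1041 n1481 .nil)
noncomputable def n1818 : Strat := .move 1042 n1816 (.cons 920 n1817 .nil)
noncomputable def n1819 : Strat := .move 1083 n1815 (.cons 1124 n1818 .nil)
noncomputable def n1820 : Strat := .move 961 n1394 (.cons 1126 n1819 .nil)
noncomputable def n1821 : Strat := .move 1002 n1799 (.cons 1126 n1810 (.cons 1004 n1814 (.cons 960 n1820 .nil)))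
noncomputable def n1822 : Strat := .move 1002 n1795 (.cons 1125 n1810 .nil)
noncomputable def n1823 : Strat := .move 1002 n1795 (.cons 1125 n1814 .nil)
noncomputable def n1824 : Strat := .move 1002 n1795 (.cons 1125 n1820 .nil)
noncomputable def n1825 : Strat := .move 1087 n1478 (.cons 1042 n1696 .nil)
noncomputable def n1826 : Strat := .win 1126 4 1084
noncomputable def n1827 : Strat := .move 1088 n1826 (.cons 1126 n1559 .nil)
noncomputable def n1828 : Strat := .move 1125 n1690 (.cons 1124 n1827 .nil)
noncomputable def n1829 : Strat := .move 1087 n1478 (.cons 1042 n1828 .nil)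
noncomputable def n1830 : Strat := .move 1088 n1826 (.cons 1126 n1563 .nil)
noncomputable def n1831 : Strat := .move 1125 n1690 (.cons 1124 n1830 .nil)
noncomputable def n1832 : Strat := .move 1087 n1478 (.cons 1042 n1831 .nil)
noncomputable def n1833 : Strat := .move 1087 n1696 (.cons 1128 n1831 (.cons 1046 n1828 .nil))
noncomputable def n1834 : Strat := .move 1045 n1578 (.cons 1004 n1511 .nil)
noncomputable def n1835 : Strat := .move 1127 n1577 (.cons 1128 n1834 .nil)
noncomputable def n1836 : Strat := .move 1083 n1835 (.cons 1127 n1610 .nil)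
noncomputable def n1837 : Strat := .move 1086 n1825 (.cons 1127 n1829 (.cons 1128 n1832 (.cons 1042 n1833 (.cons 1087 n1836 .nil))))
noncomputable def n1838 : Strat := .move 1043 n1800 (.cons 1125 n1821 (.cons 1126 n1822 (.cons 1004 n1823 (.cons 960 n1824 (.cons 1002 n1837 .nil)))))
noncomputable def n1839 : Strat := .move 1043 n1825 (.cons 1127 n1829 (.cons 1128 n1832 (.cons 1042 n1833 (.cons 1087 n1836 .nil))))
noncomputable def n1840 : Strat := .move 1041 n1806 (.cons 1083 n1802 .nil)
noncomputable def n1841 : Strat := .move 1042 n1481 (.cons 1087 n1840 .nil)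
noncomputable def n1842 : Strat := .move 1083 n1566 (.cons 1041 n1659 .nil)
noncomputable def n1843 : Strat := .move 1042 n1481 (.cons 1087 n1842 .nil)
noncomputable def n1844 : Strat := .move 1087 n1537 (.cons 1047 n1669 .nil)
noncomputable def n1845 : Strat := .move 1046 n1592 (.cons 1045 n1844 .nil)
noncomputable def n1846 : Strat := .move 1124 n1515 (.cons 1123 n1845 .nil)
noncomputable def n1847 : Strat := .move 1083 n1673 (.cons 1129 n1699 (.cons 1124 n1659 (.cons 1128 n1846 .nil)))
noncomputable def n1848 : Strat := .move 1087 n1478 (.cons 1042 n1716 .nil)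
noncomputable def n1849 : Strat := .move 1083 n1666 (.cons 1004 n1610 (.cons 1041 n1660 .nil))
noncomputable def n1850 : Strat := .move 1043 n1841 (.cons 1040 n1843 (.cons 1042 n1847 (.cons 1083 n1848 (.cons 1087 n1849 .nil))))
noncomputable def n1851 : Strat := .move 1004 n1782 (.cons 1126 n1781 .nil)
noncomputable def n1852 : Strat := .win 1126 0 1082
noncomputable def n1853 : Strat := .move 1082 n1852 (.cons 1126 n1608 .nil)
noncomputable def n1854 : Strat := .move 1127 n1577 (.cons 1128 n1853 .nil)
noncomputable def n1855 : Strat := .move 1083 n1511 (.cons 1046 n1854 .nil)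
noncomputable def n1856 : Strat := .move 1046 n1537 (.cons 1047 n1524 .nil)
noncomputable def n1857 : Strat := .move 1087 n1527 (.cons 1128 n1856 .nil)
noncomputable def n1858 : Strat := .move 1004 n1782 (.cons 1126 n1857 .nil)
noncomputable def n1859 : Strat := .move 1004 n1781 (.cons 1127 n1857 .nil)
noncomputable def n1860 : Strat := .move 1045 n1851 (.cons 1004 n1855 (.cons 1127 n1858 (.cons 1126 n1859 .nil)))
noncomputable def n1861 : Strat := .move 1045 n1782 (.cons 1126 n1781 .nil)
noncomputable def n1862 : Strat := .move 1083 n1593 (.cons 1041 n1678 .nil)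
noncomputable def n1863 : Strat := .move 1087 n1527 (.cons 1128 n1862 .nil)
noncomputable def n1864 : Strat := .move 1045 n1782 (.cons 1126 n1863 .nil)
noncomputable def n1865 : Strat := .move 1045 n1781 (.cons 1127 n1863 .nil)
noncomputable def n1866 : Strat := .move 1083 n1515 (.cons 1123 n1671 .nil)
noncomputable def n1867 : Strat := .move 1124 n1669 (.cons 1125 n1866 .nil)
noncomputable def n1868 : Strat := .move 1083 n1671 (.cons 1127 n1593 .nil)
noncomputable def n1869 : Strat := .move 1124 n1669 (.cons 1125 n1868 .nil)
noncomputable def n1870 : Strat := .move 1083 n1566 (.cons 1041 n1670 .nil)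
noncomputable def n1871 : Strat := .move 1042 n1565 (.cons 1043 n1870 .nil)
noncomputable def n1872 : Strat := .move 1128 n1484 (.cons 1129 n1871 .nil)
noncomputable def n1873 : Strat := .move 1083 n1515 (.cons 1123 n1566 .nil)
noncomputable def n1874 : Strat := .move 1042 n1565 (.cons 1043 n1873 .nil)
noncomputable def n1875 : Strat := .move 1124 n1669 (.cons 1125 n1874 .nil)
noncomputable def n1876 : Strat := .move 1087 n1867 (.cons 1123 n1869 (.cons 1124 n1872 (.cons 1128 n1875 (.cons 1083 n1828 .nil))))
noncomputable def n1877 : Strat := .move 1004 n1861 (.cons 1127 n1864 (.cons 1126 n1865 (.cons 1045 n1876 .nil)))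
noncomputable def n1878 : Strat := .win 1082 0 1082
noncomputable def n1879 : Strat := .win 1088 4 1084
noncomputable def n1880 : Strat := .move 1125 n1879 (.cons 1088 n1690 .nil)
noncomputable def n1881 : Strat := .move 1087 n1593 (.cons 1041 n1880 .nil)
noncomputable def n1882 : Strat := .move 1126 n1878 (.cons 1082 n1881 .nil)
noncomputable def n1883 : Strat := .move 1127 n1577 (.cons 1128 n1882 .nil)
noncomputable def n1884 : Strat := .move 1083 n1603 (.cons 1046 n1883 (.cons 1127 n1615 .nil))
noncomputable def n1885 : Strat := .move 1043 n1478 (.cons 1042 n1828 .nil)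
noncomputable def n1886 : Strat := .move 1043 n1478 (.cons 1042 n1831 .nil)
noncomputable def n1887 : Strat := .move 1043 n1478 (.cons 1042 n1716 .nil)
noncomputable def n1888 : Strat := .move 1087 n1885 (.cons 1128 n1886 (.cons 1088 n1887 (.cons 1043 n1716 .nil)))
noncomputable def n1889 : Strat := .move 1041 n1605 (.cons 1040 n1604 .nil)
noncomputable def n1890 : Strat := .move 1082 n1852 (.cons 1126 n1889 .nil)
noncomputable def n1891 : Strat := .move 1127 n1577 (.cons 1128 n1890 .nil)
noncomputable def n1892 : Strat := .move 1082 n1606 (.cons 1122 n1889 .nil)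
noncomputable def n1893 : Strat := .move 1123 n1607 (.cons 1124 n1892 .nil)
noncomputable def n1894 : Strat := .move 1083 n1603 (.cons 1046 n1891 (.cons 1127 n1893 .nil))
noncomputable def n1895 : Strat := .move 1087 n1669 (.cons 1125 n1565 .nil)
noncomputable def n1896 : Strat := .move 1042 n1566 (.cons 1041 n1895 .nil)
noncomputable def n1897 : Strat := .move 1124 n1515 (.cons 1123 n1896 .nil)
noncomputable def n1898 : Strat := .move 1004 n1781 (.cons 1127 n1782 .nil)
noncomputable def n1899 : Strat := .move 1045 n1511 (.cons 1046 n1898 .nil)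
noncomputable def n1900 : Strat := .move 1042 n1566 (.cons 1041 n1899 .nil)
noncomputable def n1901 : Strat := .move 1124 n1515 (.cons 1123 n1900 .nil)
noncomputable def n1902 : Strat := .move 1045 n1511 (.cons 1046 n1851 .nil)
noncomputable def n1903 : Strat := .move 1083 n1897 (.cons 1125 n1901 (.cons 1124 n1902 .nil))
noncomputable def n1904 : Strat := .move 1045 n1511 (.cons 1046 n1854 .nil)
noncomputable def n1905 : Strat := .move 1045 n1511 (.cons 1046 n1680 .nil)
noncomputable def n1906 : Strat := .move 1083 n1891 (.cons 1042 n1904 (.cons 1128 n1905 .nil))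
noncomputable def n1907 : Strat := .move 1083 n1511 (.cons 1046 n1891 .nil)
noncomputable def n1908 : Strat := .move 1045 n1851 (.cons 1004 n1907 (.cons 1127 n1858 (.cons 1126 n1859 .nil)))
noncomputable def n1909 : Strat := .move 1042 n1566 (.cons 1041 n1481 .nil)
noncomputable def n1910 : Strat := .move 1127 n1852 (.cons 1126 n1577 .nil)
noncomputable def n1911 : Strat := .move 1082 n1910 (.cons 1128 n1608 .nil)
noncomputable def n1912 : Strat := .move 1042 n1481 (.cons 1087 n1911 .nil)
noncomputable def n1913 : Strat := .move 1082 n1910 (.cons 1128 n1889 .nil)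
noncomputable def n1914 : Strat := .move 1124 n1515 (.cons 1123 n1913 .nil)
noncomputable def n1915 : Strat := .move 1043 n1909 (.cons 1041 n1912 (.cons 1042 n1673 (.cons 1087 n1914 .nil)))
noncomputable def n1916 : Strat := .move 1082 n1606 (.cons 1122 n1910 .nil)
noncomputable def n1917 : Strat := .move 1123 n1607 (.cons 1124 n1916 .nil)
noncomputable def n1918 : Strat := .move 1042 n1566 (.cons 1041 n1917 .nil)
noncomputable def n1919 : Strat := .move 1083 n1915 (.cons 1129 n1897 (.cons 1041 n1673 (.cons 1124 n1677 (.cons 1087 n1918 .nil))))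
noncomputable def n1920 : Strat := .move 1086 n1839 (.cons 1126 n1850 (.cons 1042 n1860 (.cons 1046 n1877 (.cons 1123 n1884 (.cons 1083 n1888 (.cons 1087 n1894 (.cons 1128 n1903 (.cons 1004 n1906 (.cons 1124 n1908 (.cons 1045 n1919 .nil))))))))))
noncomputable def n1921 : Strat := .move 960 n1796 (.cons 919 n201 .nil)
noncomputable def n1922 : Strat := .move 961 n1394 (.cons 1126 n1921 .nil)
noncomputable def n1923 : Strat := .move 1043 n1795 (.cons 1125 n1922 .nil)
noncomputable def n1924 : Strat := .move 1002 n1417 (.cons 1000 n1923 .nil)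
noncomputable def n1925 : Strat := .move 961 n411 (.cons 1000 n1454 .nil)
noncomputable def n1926 : Strat := .move 919 n1379 (.cons 1041 n1377 .nil)
noncomputable def n1927 : Strat := .move 1082 n1378 (.cons 1123 n1926 .nil)
noncomputable def n1928 : Strat := .move 1083 n1376 (.cons 1125 n1927 .nil)
noncomputable def n1929 : Strat := .win 1000 1 877
noncomputable def n1930 : Strat := .move 1041 n1929 (.cons 1000 n1388 .nil)
noncomputable def n1931 : Strat := .move 879 n1290 (.cons 838 n1289 .nil)
noncomputable def n1932 : Strat := .move 878 n1930 (.cons 1082 n1931 .nil)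
noncomputable def n1933 : Strat := .move 919 n1377 (.cons 1043 n1932 .nil)
noncomputable def n1934 : Strat := .win 1164 1 1000
noncomputable def n1935 : Strat := .win 1082 1 959
noncomputable def n1936 : Strat := .move 1123 n1934 (.cons 1164 n1935 .nil)
noncomputable def n1937 : Strat := .win 1000 7 959
noncomputable def n1938 : Strat := .win 918 7 918
noncomputable def n1939 : Strat := .move 959 n1937 (.cons 1000 n1938 .nil)
noncomputable def n1940 : Strat := .move 1124 n1936 (.cons 1082 n1939 .nil)
noncomputable def n1941 : Strat := .move 1083 n1376 (.cons 1125 n1940 .nil)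
noncomputable def n1942 : Strat := .win 959 7 918
noncomputable def n1943 : Strat := .win 877 7 877
noncomputable def n1944 : Strat := .move 918 n1942 (.cons 959 n1943 .nil)
noncomputable def n1945 : Strat := .move 919 n1377 (.cons 1043 n1944 .nil)
noncomputable def n1946 : Strat := .move 1083 n1376 (.cons 1125 n1945 .nil)
noncomputable def n1947 : Strat := .move 1042 n1928 (.cons 1083 n1933 (.cons 919 n1941 (.cons 1082 n1946 .nil)))
noncomputable def n1948 : Strat := .win 920 3 919
noncomputable def n1949 : Strat := .move 1083 n1948 (.cons 920 n1376 .nil)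
noncomputable def n1950 : Strat := .move 1042 n1377 (.cons 1043 n1949 .nil)
noncomputable def n1951 : Strat := .move 919 n198 (.cons 918 n1950 .nil)
noncomputable def n1952 : Strat := .move 961 n1454 (.cons 1004 n1951 .nil)
noncomputable def n1953 : Strat := .move 961 n411 (.cons 1000 n1951 .nil)
noncomputable def n1954 : Strat := .move 960 n1925 (.cons 961 n1947 (.cons 1000 n1952 (.cons 959 n1953 .nil)))
noncomputable def n1955 : Strat := .move 1041 n1802 (.cons 1040 n539 .nil)
noncomputable def n1956 : Strat := .move 920 n130 (.cons 1083 n1268 .nil)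
noncomputable def n1957 : Strat := .move 1042 n1955 (.cons 1004 n1956 .nil)
noncomputable def n1958 : Strat := .move 961 n1394 (.cons 1126 n1957 .nil)
noncomputable def n1959 : Strat := .move 1043 n1795 (.cons 1125 n1958 .nil)
noncomputable def n1960 : Strat := .move 1002 n1417 (.cons 1000 n1959 .nil)
noncomputable def n1961 : Strat := .move 1043 n1394 (.cons 1126 n1921 .nil)
noncomputable def n1962 : Strat := .move 960 n1796 (.cons 919 n1495 .nil)
noncomputable def n1963 : Strat := .move 1043 n1394 (.cons 1126 n1962 .nil)
noncomputable def n1964 : Strat := .move 879 n282 (.cons 838 n1311 .nil)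
noncomputable def n1965 : Strat := .win 878 7 878
noncomputable def n1966 : Strat := .win 960 7 919
noncomputable def n1967 : Strat := .move 919 n1965 (.cons 878 n1966 .nil)
noncomputable def n1968 : Strat := .move 920 n1964 (.cons 1042 n1967 .nil)
noncomputable def n1969 : Strat := .move 1043 n1394 (.cons 1126 n1968 .nil)
noncomputable def n1970 : Strat := .move 1043 n1394 (.cons 1126 n1957 .nil)
noncomputable def n1971 : Strat := .move 1004 n1260 (.cons 1005 n222 .nil)
noncomputable def n1972 : Strat := .move 1083 n1948 (.cons 920 n1375 .nil)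
noncomputable def n1973 : Strat := .move 1042 n1971 (.cons 1041 n1972 .nil)
noncomputable def n1974 : Strat := .move 960 n201 (.cons 1004 n1450 (.cons 958 n1495 (.cons 959 n1973 .nil)))
noncomputable def n1975 : Strat := .move 961 n1961 (.cons 958 n1963 (.cons 1004 n1969 (.cons 960 n1970 (.cons 1043 n1974 .nil))))
noncomputable def n1976 : Strat := .move 1002 n1417 (.cons 1000 n1975 .nil)
noncomputable def n1977 : Strat := .move 961 n1394 (.cons 1126 n1968 .nil)
noncomputable def n1978 : Strat := .move 1043 n1795 (.cons 1125 n1977 .nil)
noncomputable def n1979 : Strat := .move 1002 n1417 (.cons 1000 n1978 .nil)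
noncomputable def n1980 : Strat := .win 961 0 960
noncomputable def n1981 : Strat := .move 1005 n1980 (.cons 961 n1626 .nil)
noncomputable def n1982 : Strat := .move 1004 n1620 (.cons 959 n1981 .nil)
noncomputable def n1983 : Strat := .move 1002 n1417 (.cons 1000 n1982 .nil)
noncomputable def n1984 : Strat := .move 961 n1375 (.cons 1124 n1948 .nil)
noncomputable def n1985 : Strat := .move 1083 n1376 (.cons 1125 n1984 .nil)
noncomputable def n1986 : Strat := .move 1041 n1388 (.cons 1082 n539 .nil)
noncomputable def n1987 : Strat := .win 961 2 918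
noncomputable def n1988 : Strat := .move 918 n1943 (.cons 877 n1987 .nil)
noncomputable def n1989 : Strat := .move 919 n1986 (.cons 1004 n1988 .nil)
noncomputable def n1990 : Strat := .win 919 1 918
noncomputable def n1991 : Strat := .move 1041 n1990 (.cons 919 n539 .nil)
noncomputable def n1992 : Strat := .move 1083 n1378 (.cons 1123 n1376 .nil)
noncomputable def n1993 : Strat := .move 1082 n1991 (.cons 1004 n1992 .nil)
noncomputable def n1994 : Strat := .move 1042 n1985 (.cons 1083 n1989 (.cons 961 n1993 .nil))
noncomputable def n1995 : Strat := .move 1002 n1417 (.cons 1000 n1994 .nil)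
noncomputable def n1996 : Strat := .win 1002 5 959
noncomputable def n1997 : Strat := .win 961 4 959
noncomputable def n1998 : Strat := .move 1000 n1996 (.cons 1002 n1997 .nil)
noncomputable def n1999 : Strat := .move 1041 n1605 (.cons 1040 n1990 .nil)
noncomputable def n2000 : Strat := .move 1082 n1378 (.cons 1123 n1999 .nil)
noncomputable def n2001 : Strat := .move 1083 n1376 (.cons 1125 n2000 .nil)
noncomputable def n2002 : Strat := .win 1004 2 959
noncomputable def n2003 : Strat := .move 1002 n2002 (.cons 1004 n1417 .nil)
noncomputable def n2004 : Strat := .move 959 n1938 (.cons 918 n2003 .nil)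
noncomputable def n2005 : Strat := .move 1083 n1376 (.cons 1125 n2004 .nil)
noncomputable def n2006 : Strat := .move 1004 n222 (.cons 1041 n1620 .nil)
noncomputable def n2007 : Strat := .move 1002 n1417 (.cons 1000 n2006 .nil)
noncomputable def n2008 : Strat := .move 1042 n2001 (.cons 1040 n2005 (.cons 1083 n2007 .nil))
noncomputable def n2009 : Strat := .move 961 n1948 (.cons 920 n1495 .nil)
noncomputable def n2010 : Strat := .move 1083 n1376 (.cons 1125 n2009 .nil)
noncomputable def n2011 : Strat := .move 1002 n1985 (.cons 1083 n1989 (.cons 961 n1993 .nil))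
noncomputable def n2012 : Strat := .move 1004 n222 (.cons 1041 n1260 .nil)
noncomputable def n2013 : Strat := .move 1083 n1375 (.cons 1124 n1376 .nil)
noncomputable def n2014 : Strat := .move 961 n2012 (.cons 1005 n2013 .nil)
noncomputable def n2015 : Strat := .move 1083 n1938 (.cons 918 n1376 .nil)
noncomputable def n2016 : Strat := .move 959 n2002 (.cons 1004 n2015 .nil)
noncomputable def n2017 : Strat := .move 919 n1943 (.cons 877 n1987 .nil)
noncomputable def n2018 : Strat := .move 1083 n1942 (.cons 959 n1376 .nil)
noncomputable def n2019 : Strat := .move 918 n2017 (.cons 961 n2018 .nil)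
noncomputable def n2020 : Strat := .move 1002 n2006 (.cons 959 n2014 (.cons 1041 n2016 (.cons 1004 n2019 .nil)))
noncomputable def n2021 : Strat := .move 961 n1260 (.cons 1005 n1261 .nil)
noncomputable def n2022 : Strat := .move 961 n198 (.cons 918 n1260 .nil)
noncomputable def n2023 : Strat := .move 1041 n1761 (.cons 1002 n1388 .nil)
noncomputable def n2024 : Strat := .move 919 n2022 (.cons 1005 n2023 .nil)
noncomputable def n2025 : Strat := .win 1002 2 959
noncomputable def n2026 : Strat := .win 961 0 959
noncomputable def n2027 : Strat := .move 959 n2025 (.cons 1002 n2026 .nil)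
noncomputable def n2028 : Strat := .move 1002 n222 (.cons 1041 n1620 .nil)
noncomputable def n2029 : Strat := .move 1004 n2021 (.cons 959 n2024 (.cons 1005 n2027 (.cons 961 n2028 .nil)))
noncomputable def n2030 : Strat := .move 1042 n2010 (.cons 959 n2011 (.cons 920 n2020 (.cons 1004 n2001 (.cons 1083 n2029 .nil))))
noncomputable def n2031 : Strat := .move 960 n1983 (.cons 959 n1995 (.cons 1004 n1998 (.cons 1002 n1925 (.cons 961 n2008 (.cons 1000 n2030 .nil)))))
noncomputable def n2032 : Strat := .move 1043 n1795 (.cons 1125 n1955 .nil)
noncomputable def n2033 : Strat := .move 1043 n1795 (.cons 1125 n223 .nil)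
noncomputable def n2034 : Strat := .win 1043 0 1040
noncomputable def n2035 : Strat := .move 1040 n1391 (.cons 1039 n2034 .nil)
noncomputable def n2036 : Strat := .move 1041 n539 (.cons 1004 n2035 .nil)
noncomputable def n2037 : Strat := .move 960 n1376 (.cons 1125 n2006 .nil)
noncomputable def n2038 : Strat := .win 1082 2 1040
noncomputable def n2039 : Strat := .win 1039 0 1039
noncomputable def n2040 : Strat := .move 1040 n2038 (.cons 1082 n2039 .nil)
noncomputable def n2041 : Strat := .move 1041 n539 (.cons 1004 n2040 .nil)
noncomputable def n2042 : Strat := .move 959 n1938 (.cons 918 n2002 .nil)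
noncomputable def n2043 : Strat := .move 960 n1376 (.cons 1125 n2042 .nil)
noncomputable def n2044 : Strat := .win 1207 7 1042
noncomputable def n2045 : Strat := .win 1124 6 1001
noncomputable def n2046 : Strat := .move 1166 n2044 (.cons 1207 n2045 .nil)
noncomputable def n2047 : Strat := .move 1125 n1646 (.cons 960 n2046 .nil)
noncomputable def n2048 : Strat := .move 1083 n2037 (.cons 960 n2041 (.cons 1041 n2043 (.cons 1004 n2047 .nil)))
noncomputable def n2049 : Strat := .move 1004 n131 (.cons 1005 n1620 .nil)
noncomputable def n2050 : Strat := .move 960 n1386 (.cons 919 n2049 .nil)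
noncomputable def n2051 : Strat := .move 1043 n1795 (.cons 1125 n2050 .nil)
noncomputable def n2052 : Strat := .move 1083 n1646 (.cons 960 n2046 .nil)
noncomputable def n2053 : Strat := .move 1125 n1619 (.cons 1043 n2052 .nil)
noncomputable def n2054 : Strat := .move 1042 n2032 (.cons 1040 n2033 (.cons 1125 n2036 (.cons 1043 n2048 (.cons 1041 n2051 (.cons 1004 n2053 .nil)))))
noncomputable def n2055 : Strat := .move 1002 n1417 (.cons 1000 n2054 .nil)
noncomputable def n2056 : Strat := .move 1002 n1795 (.cons 1125 n1803 .nil)
noncomputable def n2057 : Strat := .move 961 n1394 (.cons 1126 n1956 .nil)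
noncomputable def n2058 : Strat := .move 1002 n1795 (.cons 1125 n2057 .nil)
noncomputable def n2059 : Strat := .move 1125 n1707 (.cons 1166 n1621 .nil)
noncomputable def n2060 : Strat := .move 960 n1386 (.cons 919 n2059 .nil)
noncomputable def n2061 : Strat := .move 1041 n1761 (.cons 1002 n1802 .nil)
noncomputable def n2062 : Strat := .move 1002 n131 (.cons 1005 n222 .nil)
noncomputable def n2063 : Strat := .move 1004 n2061 (.cons 1040 n2062 (.cons 1002 n2021 .nil))
noncomputable def n2064 : Strat := .move 960 n1386 (.cons 919 n2063 .nil)
noncomputable def n2065 : Strat := .move 1043 n2056 (.cons 1004 n2058 (.cons 1002 n2060 (.cons 1125 n2064 .nil)))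
noncomputable def n2066 : Strat := .move 960 n2010 (.cons 959 n2011 (.cons 920 n2020 (.cons 1004 n2001 (.cons 1083 n2029 .nil))))
noncomputable def n2067 : Strat := .move 1043 n1795 (.cons 1125 n1803 .nil)
noncomputable def n2068 : Strat := .move 1004 n222 (.cons 1041 n1629 .nil)
noncomputable def n2069 : Strat := .move 1043 n1795 (.cons 1125 n2057 .nil)
noncomputable def n2070 : Strat := .move 1002 n2067 (.cons 1040 n2033 (.cons 1043 n2068 (.cons 1004 n2069 .nil)))
noncomputable def n2071 : Strat := .move 1043 n1386 (.cons 919 n2059 .nil)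
noncomputable def n2072 : Strat := .move 961 n1495 (.cons 959 n1949 .nil)
noncomputable def n2073 : Strat := .move 1043 n1386 (.cons 919 n2072 .nil)
noncomputable def n2074 : Strat := .move 919 n1377 (.cons 1043 n1988 .nil)
noncomputable def n2075 : Strat := .move 960 n2071 (.cons 1166 n2073 (.cons 1083 n2074 (.cons 919 n2010 .nil)))
noncomputable def n2076 : Strat := .move 1043 n1386 (.cons 919 n2063 .nil)
noncomputable def n2077 : Strat := .move 1002 n1620 (.cons 959 n222 .nil)
noncomputable def n2078 : Strat := .move 1004 n2062 (.cons 1041 n2021 (.cons 1005 n2077 .nil))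
noncomputable def n2079 : Strat := .move 1043 n1386 (.cons 919 n2078 .nil)
noncomputable def n2080 : Strat := .win 836 7 836
noncomputable def n2081 : Strat := .win 918 7 877
noncomputable def n2082 : Strat := .move 877 n2080 (.cons 836 n2081 .nil)
noncomputable def n2083 : Strat := .move 878 n1931 (.cons 920 n2082 .nil)
noncomputable def n2084 : Strat := .move 919 n1377 (.cons 1043 n2083 .nil)
noncomputable def n2085 : Strat := .win 1002 1 878
noncomputable def n2086 : Strat := .move 879 n2085 (.cons 1002 n1352 .nil)
noncomputable def n2087 : Strat := .move 920 n1269 (.cons 1083 n2086 .nil)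
noncomputable def n2088 : Strat := .move 961 n1495 (.cons 959 n2087 .nil)
noncomputable def n2089 : Strat := .move 960 n2076 (.cons 1040 n2079 (.cons 961 n2084 (.cons 919 n2088 .nil)))
noncomputable def n2090 : Strat := .move 1125 n1621 (.cons 1083 n1691 .nil)
noncomputable def n2091 : Strat := .move 1043 n1386 (.cons 919 n2090 .nil)
noncomputable def n2092 : Strat := .move 1083 n1376 (.cons 1125 n1380 .nil)
noncomputable def n2093 : Strat := .move 919 n2092 (.cons 1083 n2083 .nil)
noncomputable def n2094 : Strat := .move 1043 n1707 (.cons 1166 n1691 .nil)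
noncomputable def n2095 : Strat := .move 1125 n1621 (.cons 1083 n2094 .nil)
noncomputable def n2096 : Strat := .move 960 n2091 (.cons 1125 n2084 (.cons 1043 n2093 (.cons 919 n2095 .nil)))
noncomputable def n2097 : Strat := .move 1125 n1707 (.cons 1166 n1691 .nil)
noncomputable def n2098 : Strat := .move 1043 n1386 (.cons 919 n2097 .nil)
noncomputable def n2099 : Strat := .win 1043 4 1001
noncomputable def n2100 : Strat := .move 1005 n2099 (.cons 1043 n1980 .nil)
noncomputable def n2101 : Strat := .move 1002 n222 (.cons 1041 n2100 .nil)
noncomputable def n2102 : Strat := .move 1004 n2021 (.cons 959 n2101 (.cons 1005 n2077 .nil))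
noncomputable def n2103 : Strat := .move 960 n2098 (.cons 1043 n2029 (.cons 1002 n2074 (.cons 919 n2102 .nil)))
noncomputable def n2104 : Strat := .move 1042 n2065 (.cons 1043 n2066 (.cons 960 n2070 (.cons 1002 n2075 (.cons 1125 n2089 (.cons 961 n2096 (.cons 1083 n2103 .nil))))))
noncomputable def n2105 : Strat := .move 1001 n1924 (.cons 1002 n1954 (.cons 960 n1960 (.cons 1125 n1976 (.cons 1004 n1979 (.cons 1043 n2031 (.cons 961 n2055 (.cons 1000 n2104 .nil)))))))
noncomputable def n2106 : Strat := .move 1083 n1603 (.cons 1046 n1891 (.cons 1127 n1688 .nil))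
noncomputable def n2107 : Strat := .move 1004 n1776 (.cons 1045 n1853 .nil)
noncomputable def n2108 : Strat := .move 1127 n1577 (.cons 1128 n2107 .nil)
noncomputable def n2109 : Strat := .move 1042 n1566 (.cons 1041 n1648 .nil)
noncomputable def n2110 : Strat := .move 1124 n1515 (.cons 1123 n2109 .nil)
noncomputable def n2111 : Strat := .move 1083 n1891 (.cons 1040 n2108 (.cons 1127 n2110 .nil))
noncomputable def n2112 : Strat := .win 1005 0 1002
noncomputable def n2113 : Strat := .move 1002 n2112 (.cons 1005 n376 .nil)
noncomputable def n2114 : Strat := .move 1047 n392 (.cons 1048 n2113 .nil)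
noncomputable def n2115 : Strat := .move 1046 n1524 (.cons 1083 n2114 .nil)
noncomputable def n2116 : Strat := .move 1004 n1782 (.cons 1126 n2115 .nil)
noncomputable def n2117 : Strat := .move 1004 n1781 (.cons 1127 n2115 .nil)
noncomputable def n2118 : Strat := .move 1045 n1851 (.cons 1004 n1907 (.cons 1127 n2116 (.cons 1126 n2117 .nil)))
noncomputable def n2119 : Strat := .move 1082 n1606 (.cons 1122 n1605 .nil)
noncomputable def n2120 : Strat := .move 1041 n1604 (.cons 1042 n2119 .nil)
noncomputable def n2121 : Strat := .move 1123 n1607 (.cons 1124 n2120 .nil)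
noncomputable def n2122 : Strat := .move 1127 n1577 (.cons 1128 n2121 .nil)
noncomputable def n2123 : Strat := .move 1087 n1669 (.cons 1125 n1564 .nil)
noncomputable def n2124 : Strat := .move 1124 n1515 (.cons 1123 n2123 .nil)
noncomputable def n2125 : Strat := .move 1125 n1644 (.cons 1087 n1664 .nil)
noncomputable def n2126 : Strat := .move 1124 n1515 (.cons 1123 n2125 .nil)
noncomputable def n2127 : Strat := .move 1083 n1891 (.cons 1126 n2122 (.cons 1127 n2124 (.cons 1128 n2126 .nil)))
noncomputable def n2128 : Strat := .win 1087 5 1043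
noncomputable def n2129 : Strat := .move 1047 n392 (.cons 1048 n2128 .nil)
noncomputable def n2130 : Strat := .move 1046 n1524 (.cons 1083 n2129 .nil)
noncomputable def n2131 : Strat := .move 1004 n1781 (.cons 1127 n2130 .nil)
noncomputable def n2132 : Strat := .move 1083 n1511 (.cons 1046 n1893 .nil)
noncomputable def n2133 : Strat := .move 1045 n1851 (.cons 1126 n2131 (.cons 1004 n2132 .nil))
noncomputable def n2134 : Strat := .move 1004 n1782 (.cons 1126 n2130 .nil)
noncomputable def n2135 : Strat := .move 1045 n1851 (.cons 1127 n2134 (.cons 1004 n1855 (.cons 1126 n2131 .nil)))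
noncomputable def n2136 : Strat := .move 961 n1465 (.cons 1006 n167 .nil)
noncomputable def n2137 : Strat := .move 1005 n1548 (.cons 1046 n2136 .nil)
noncomputable def n2138 : Strat := .move 1004 n1485 (.cons 1045 n2137 .nil)
noncomputable def n2139 : Strat := .move 1128 n1484 (.cons 1129 n2138 .nil)
noncomputable def n2140 : Strat := .move 1087 n1716 (.cons 1128 n1831 (.cons 1047 n2139 (.cons 1046 n1828 .nil)))
noncomputable def n2141 : Strat := .move 1086 n2106 (.cons 1126 n1674 (.cons 1046 n2111 (.cons 1087 n2118 (.cons 1045 n2127 (.cons 1128 n2133 (.cons 1042 n2135 (.cons 1083 n2140 .nil)))))))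
noncomputable def n2142 : Strat := .move 1043 n1796 (.cons 919 n1394 .nil)
noncomputable def n2143 : Strat := .move 961 n1260 (.cons 1005 n2142 .nil)
noncomputable def n2144 : Strat := .move 960 n1620 (.cons 959 n2143 .nil)
noncomputable def n2145 : Strat := .move 1043 n1386 (.cons 919 n131 .nil)
noncomputable def n2146 : Strat := .move 1042 n222 (.cons 1041 n2145 .nil)
noncomputable def n2147 : Strat := .move 1086 n1781 (.cons 1127 n1782 .nil)
noncomputable def n2148 : Strat := .move 1045 n374 (.cons 1046 n2147 .nil)
noncomputable def n2149 : Strat := .move 960 n2143 (.cons 961 n2146 (.cons 1005 n2148 .nil))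
noncomputable def n2150 : Strat := .move 1005 n2099 (.cons 1043 n1626 .nil)
noncomputable def n2151 : Strat := .move 1042 n222 (.cons 1041 n2150 .nil)
noncomputable def n2152 : Strat := .move 1042 n222 (.cons 1041 n2148 .nil)
noncomputable def n2153 : Strat := .move 1004 n2144 (.cons 959 n2149 (.cons 960 n2151 (.cons 1005 n2152 .nil)))
noncomputable def n2154 : Strat := .move 1002 n1417 (.cons 1000 n2153 .nil)
noncomputable def n2155 : Strat := .move 1083 n1380 (.cons 1041 n1944 .nil)
noncomputable def n2156 : Strat := .move 919 n1377 (.cons 1043 n2155 .nil)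
noncomputable def n2157 : Strat := .move 1123 n1607 (.cons 1124 n1935 .nil)
noncomputable def n2158 : Strat := .move 1086 n1566 (.cons 1041 n2157 .nil)
noncomputable def n2159 : Strat := .win 1086 2 1041
noncomputable def n2160 : Strat := .move 1040 n2039 (.cons 1039 n2034 .nil)
noncomputable def n2161 : Strat := .move 1041 n2159 (.cons 1086 n2160 .nil)
noncomputable def n2162 : Strat := .move 1083 n2158 (.cons 1086 n1940 (.cons 1082 n2161 .nil))
noncomputable def n2163 : Strat := .move 1041 n2159 (.cons 1086 n1990 .nil)
noncomputable def n2164 : Strat := .move 1082 n1378 (.cons 1123 n2163 .nil)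
noncomputable def n2165 : Strat := .move 1086 n1515 (.cons 1123 n1566 .nil)
noncomputable def n2166 : Strat := .win 1086 4 1082
noncomputable def n2167 : Strat := .move 1123 n2166 (.cons 1086 n1934 .nil)
noncomputable def n2168 : Strat := .move 1124 n2165 (.cons 1041 n2167 (.cons 1123 n1939 .nil))
noncomputable def n2169 : Strat := .move 1082 n1605 (.cons 1040 n1990 .nil)
noncomputable def n2170 : Strat := .move 1041 n2159 (.cons 1086 n2169 .nil)
noncomputable def n2171 : Strat := .move 1124 n2166 (.cons 1086 n1934 .nil)
noncomputable def n2172 : Strat := .move 1123 n1935 (.cons 1082 n2171 .nil)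
noncomputable def n2173 : Strat := .move 1083 n2164 (.cons 1082 n2168 (.cons 1123 n2170 (.cons 1086 n2000 (.cons 1041 n2172 .nil))))
noncomputable def n2174 : Strat := .move 1083 n2172 (.cons 1123 n1945 .nil)
noncomputable def n2175 : Strat := .move 1043 n1481 (.cons 1087 n1386 .nil)
noncomputable def n2176 : Strat := .move 1086 n1566 (.cons 1041 n2175 .nil)
noncomputable def n2177 : Strat := .move 1083 n2176 (.cons 1086 n1945 (.cons 919 n2161 (.cons 1043 n2168 .nil)))
noncomputable def n2178 : Strat := .move 1042 n1933 (.cons 838 n2156 (.cons 919 n2162 (.cons 1043 n2173 (.cons 1041 n2174 (.cons 1082 n2177 .nil)))))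
noncomputable def n2179 : Strat := .move 961 n198 (.cons 918 n1495 .nil)
noncomputable def n2180 : Strat := .move 919 n1377 (.cons 1043 n2179 .nil)
noncomputable def n2181 : Strat := .move 1083 n2158 (.cons 1086 n2009 .nil)
noncomputable def n2182 : Strat := .move 1043 n1802 (.cons 1040 n1386 .nil)
noncomputable def n2183 : Strat := .move 1041 n2159 (.cons 1086 n2182 .nil)
noncomputable def n2184 : Strat := .move 1083 n2183 (.cons 1041 n2172 (.cons 1086 n1927 .nil))
noncomputable def n2185 : Strat := .move 1042 n2074 (.cons 877 n2180 (.cons 919 n2181 (.cons 961 n2184 .nil)))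
noncomputable def n2186 : Strat := .move 1042 n1377 (.cons 1043 n1764 .nil)
noncomputable def n2187 : Strat := .move 919 n198 (.cons 918 n2186 .nil)
noncomputable def n2188 : Strat := .move 961 n411 (.cons 1000 n2187 .nil)
noncomputable def n2189 : Strat := .move 960 n1925 (.cons 961 n2178 (.cons 1000 n2185 (.cons 959 n2188 .nil)))
noncomputable def n2190 : Strat := .move 1002 n2144 (.cons 959 n2149 (.cons 960 n2151 (.cons 1005 n2152 .nil)))
noncomputable def n2191 : Strat := .move 1005 n2099 (.cons 1043 n1628 .nil)
noncomputable def n2192 : Strat := .move 1042 n222 (.cons 1041 n2191 .nil)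
noncomputable def n2193 : Strat := .move 1002 n2151 (.cons 1042 n2148 (.cons 1045 n2192 .nil))
noncomputable def n2194 : Strat := .move 1046 n1524 (.cons 1083 n389 .nil)
noncomputable def n2195 : Strat := .move 1045 n1781 (.cons 1127 n2194 .nil)
noncomputable def n2196 : Strat := .move 1087 n1671 (.cons 1127 n1593 .nil)
noncomputable def n2197 : Strat := .move 1082 n1889 (.cons 1042 n1608 .nil)
noncomputable def n2198 : Strat := .move 1083 n1913 (.cons 1082 n2196 (.cons 1042 n1911 (.cons 1128 n2197 .nil)))
noncomputable def n2199 : Strat := .move 1045 n1511 (.cons 1046 n1782 .nil)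
noncomputable def n2200 : Strat := .move 1087 n1593 (.cons 1041 n1613 .nil)
noncomputable def n2201 : Strat := .move 1045 n1527 (.cons 1128 n1782 .nil)
noncomputable def n2202 : Strat := .move 1087 n1593 (.cons 1041 n2201 .nil)
noncomputable def n2203 : Strat := .move 1083 n2199 (.cons 1126 n2200 (.cons 1046 n2202 (.cons 1045 n2197 .nil)))
noncomputable def n2204 : Strat := .move 1086 n1861 (.cons 1126 n2195 (.cons 1045 n2198 (.cons 1127 n2203 .nil)))
noncomputable def n2205 : Strat := .move 960 n1620 (.cons 959 n1981 .nil)
noncomputable def n2206 : Strat := .move 1002 n2144 (.cons 919 n2205 (.cons 960 n2148 .nil))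
noncomputable def n2207 : Strat := .move 1042 n2099 (.cons 1043 n222 .nil)
noncomputable def n2208 : Strat := .move 1005 n1980 (.cons 961 n2207 .nil)
noncomputable def n2209 : Strat := .move 960 n1620 (.cons 959 n2208 .nil)
noncomputable def n2210 : Strat := .move 960 n1386 (.cons 919 n1620 .nil)
noncomputable def n2211 : Strat := .move 1043 n131 (.cons 1005 n2210 .nil)
noncomputable def n2212 : Strat := .move 1042 n222 (.cons 1041 n2211 .nil)
noncomputable def n2213 : Strat := .move 1002 n2144 (.cons 919 n2209 (.cons 960 n2192 (.cons 961 n2212 (.cons 1005 n2152 .nil))))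
noncomputable def n2214 : Strat := .move 961 n1261 (.cons 959 n1260 .nil)
noncomputable def n2215 : Strat := .move 1043 n131 (.cons 1005 n1386 .nil)
noncomputable def n2216 : Strat := .move 1042 n222 (.cons 1041 n2215 .nil)
noncomputable def n2217 : Strat := .move 1002 n1620 (.cons 959 n2216 .nil)
noncomputable def n2218 : Strat := .move 959 n2026 (.cons 961 n2025 .nil)
noncomputable def n2219 : Strat := .move 1002 n1626 (.cons 1045 n2207 .nil)
noncomputable def n2220 : Strat := .move 1005 n1980 (.cons 961 n2219 .nil)
noncomputable def n2221 : Strat := .move 960 n2214 (.cons 961 n2217 (.cons 1005 n2218 (.cons 959 n2220 .nil)))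
noncomputable def n2222 : Strat := .move 1043 n1497 (.cons 1002 n1743 .nil)
noncomputable def n2223 : Strat := .move 919 n198 (.cons 918 n2222 .nil)
noncomputable def n2224 : Strat := .move 961 n1261 (.cons 959 n2223 .nil)
noncomputable def n2225 : Strat := .move 961 n1260 (.cons 1005 n2223 .nil)
noncomputable def n2226 : Strat := .move 960 n2214 (.cons 1005 n2224 (.cons 961 n2217 (.cons 959 n2225 .nil)))
noncomputable def n2227 : Strat := .move 961 n167 (.cons 960 n1465 .nil)
noncomputable def n2228 : Strat := .move 1002 n1624 (.cons 1047 n1625 .nil)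
noncomputable def n2229 : Strat := .win 1002 0 1002
noncomputable def n2230 : Strat := .win 1048 0 1003
noncomputable def n2231 : Strat := .move 1006 n2230 (.cons 1048 n1105 .nil)
noncomputable def n2232 : Strat := .move 1047 n2229 (.cons 1002 n2231 .nil)
noncomputable def n2233 : Strat := .move 1045 n389 (.cons 1002 n2147 .nil)
noncomputable def n2234 : Strat := .win 1045 2 1003
noncomputable def n2235 : Strat := .win 1006 0 1003
noncomputable def n2236 : Strat := .move 1048 n2234 (.cons 1045 n2235 .nil)
noncomputable def n2237 : Strat := .win 1086 5 1043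
noncomputable def n2238 : Strat := .move 1087 n2237 (.cons 1086 n1106 .nil)
noncomputable def n2239 : Strat := .move 1047 n2231 (.cons 1007 n2236 (.cons 1048 n2238 .nil))
noncomputable def n2240 : Strat := .move 1046 n2228 (.cons 1045 n2232 (.cons 1047 n2233 (.cons 1002 n2239 .nil)))
noncomputable def n2241 : Strat := .move 1002 n1624 (.cons 1047 n1620 .nil)
noncomputable def n2242 : Strat := .move 960 n1980 (.cons 961 n2241 .nil)
noncomputable def n2243 : Strat := .move 1002 n1620 (.cons 959 n1625 .nil)
noncomputable def n2244 : Strat := .move 960 n1980 (.cons 961 n2243 .nil)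
noncomputable def n2245 : Strat := .move 1045 n1524 (.cons 1083 n1781 .nil)
noncomputable def n2246 : Strat := .move 1045 n1524 (.cons 1083 n1782 .nil)
noncomputable def n2247 : Strat := .move 1087 n1537 (.cons 1047 n1106 .nil)
noncomputable def n2248 : Strat := .move 1086 n1783 (.cons 1126 n2245 (.cons 1127 n2246 (.cons 1045 n2247 .nil)))
noncomputable def n2249 : Strat := .move 1046 n2228 (.cons 1045 n2242 (.cons 1047 n2244 (.cons 1002 n2248 .nil)))
noncomputable def n2250 : Strat := .move 1005 n2227 (.cons 961 n2240 (.cons 1006 n2249 .nil))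
noncomputable def n2251 : Strat := .move 1087 n1527 (.cons 1128 n1537 .nil)
noncomputable def n2252 : Strat := .move 1046 n1524 (.cons 1083 n2251 .nil)
noncomputable def n2253 : Strat := .move 1045 n1781 (.cons 1127 n2252 .nil)
noncomputable def n2254 : Strat := .move 1086 n1861 (.cons 1126 n2253 (.cons 1045 n2198 (.cons 1127 n2203 .nil)))
noncomputable def n2255 : Strat := .move 1004 n2190 (.cons 960 n2193 (.cons 1005 n2204 (.cons 1041 n2206 (.cons 1047 n2213 (.cons 1126 n2221 (.cons 1045 n2226 (.cons 1043 n2250 (.cons 1002 n2254 .nil))))))))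
noncomputable def n2256 : Strat := .move 1004 n2151 (.cons 1042 n2148 (.cons 1045 n2192 .nil))
noncomputable def n2257 : Strat := .move 1002 n1417 (.cons 1000 n2256 .nil)
noncomputable def n2258 : Strat := .move 960 n1620 (.cons 959 n2216 .nil)
noncomputable def n2259 : Strat := .move 1004 n2148 (.cons 1127 n2151 (.cons 1045 n2258 .nil))
noncomputable def n2260 : Strat := .move 1002 n1417 (.cons 1000 n2259 .nil)
noncomputable def n2261 : Strat := .move 961 n411 (.cons 1000 n2223 .nil)
noncomputable def n2262 : Strat := .win 878 1 877
noncomputable def n2263 : Strat := .move 1000 n2262 (.cons 878 n1996 .nil)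
noncomputable def n2264 : Strat := .move 1041 n1388 (.cons 1082 n2263 .nil)
noncomputable def n2265 : Strat := .move 919 n1377 (.cons 1043 n2264 .nil)
noncomputable def n2266 : Strat := .win 1124 7 959
noncomputable def n2267 : Strat := .move 1000 n2266 (.cons 1124 n1996 .nil)
noncomputable def n2268 : Strat := .move 959 n1938 (.cons 918 n2267 .nil)
noncomputable def n2269 : Strat := .move 1083 n2158 (.cons 1086 n2268 (.cons 1124 n2161 .nil))
noncomputable def n2270 : Strat := .move 1083 n2164 (.cons 1082 n2268 .nil)
noncomputable def n2271 : Strat := .move 1083 n2176 (.cons 1086 n1945 (.cons 919 n2161 (.cons 1043 n2268 .nil)))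
noncomputable def n2272 : Strat := .move 1042 n2265 (.cons 878 n2156 (.cons 919 n2269 (.cons 1043 n2270 (.cons 1041 n2174 (.cons 1082 n2271 .nil)))))
noncomputable def n2273 : Strat := .move 961 n1269 (.cons 1083 n198 .nil)
noncomputable def n2274 : Strat := .move 920 n1763 (.cons 879 n2273 .nil)
noncomputable def n2275 : Strat := .move 919 n1377 (.cons 1043 n2274 .nil)
noncomputable def n2276 : Strat := .win 961 3 919
noncomputable def n2277 : Strat := .move 920 n2276 (.cons 961 n1763 .nil)
noncomputable def n2278 : Strat := .move 1083 n1380 (.cons 1041 n2277 .nil)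
noncomputable def n2279 : Strat := .move 919 n1988 (.cons 961 n2155 (.cons 877 n2274 (.cons 918 n2278 .nil)))
noncomputable def n2280 : Strat := .win 1002 3 960
noncomputable def n2281 : Strat := .move 961 n2280 (.cons 1002 n1948 .nil)
noncomputable def n2282 : Strat := .move 1124 n1936 (.cons 1082 n2281 .nil)
noncomputable def n2283 : Strat := .move 1083 n2158 (.cons 1086 n2282 (.cons 1082 n2161 .nil))
noncomputable def n2284 : Strat := .move 1042 n2074 (.cons 877 n2275 (.cons 1043 n2279 (.cons 961 n2156 (.cons 919 n2283 .nil))))
noncomputable def n2285 : Strat := .move 960 n2261 (.cons 1002 n2188 (.cons 918 n1998 (.cons 961 n2272 (.cons 1000 n2284 .nil))))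
noncomputable def n2286 : Strat := .win 1043 7 919
noncomputable def n2287 : Strat := .move 919 n2286 (.cons 1043 n198 .nil)
noncomputable def n2288 : Strat := .move 961 n1260 (.cons 1005 n2287 .nil)
noncomputable def n2289 : Strat := .move 960 n1620 (.cons 959 n2288 .nil)
noncomputable def n2290 : Strat := .move 1004 n2144 (.cons 960 n2148 (.cons 1126 n2289 .nil))
noncomputable def n2291 : Strat := .move 1002 n1417 (.cons 1000 n2290 .nil)
noncomputable def n2292 : Strat := .move 1004 n1620 (.cons 959 n2148 .nil)
noncomputable def n2293 : Strat := .move 1002 n1417 (.cons 1000 n2292 .nil)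
noncomputable def n2294 : Strat := .move 1082 n1605 (.cons 1040 n1378 .nil)
noncomputable def n2295 : Strat := .move 1041 n2159 (.cons 1086 n2294 .nil)
noncomputable def n2296 : Strat := .move 1042 n2009 (.cons 961 n2295 .nil)
noncomputable def n2297 : Strat := .move 1041 n1990 (.cons 919 n2159 .nil)
noncomputable def n2298 : Strat := .move 1082 n1378 (.cons 1123 n2297 .nil)
noncomputable def n2299 : Strat := .move 1042 n2009 (.cons 961 n2298 .nil)
noncomputable def n2300 : Strat := .move 1041 n2159 (.cons 1086 n1605 .nil)
noncomputable def n2301 : Strat := .move 1082 n1378 (.cons 1123 n2300 .nil)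
noncomputable def n2302 : Strat := .move 961 n1948 (.cons 920 n716 .nil)
noncomputable def n2303 : Strat := .move 918 n1942 (.cons 959 n2302 .nil)
noncomputable def n2304 : Strat := .move 1042 n2301 (.cons 1082 n2303 .nil)
noncomputable def n2305 : Strat := .move 1127 n1577 (.cons 1128 n1852 .nil)
noncomputable def n2306 : Strat := .move 1123 n1607 (.cons 1124 n1606 .nil)
noncomputable def n2307 : Strat := .move 1082 n2305 (.cons 1126 n2306 .nil)
noncomputable def n2308 : Strat := .move 1045 n1782 (.cons 1126 n1511 .nil)
noncomputable def n2309 : Strat := .move 1004 n2021 (.cons 959 n2308 .nil)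
noncomputable def n2310 : Strat := .move 1086 n1659 (.cons 1045 n2307 (.cons 1128 n1899 (.cons 1127 n2309 .nil)))
noncomputable def n2311 : Strat := .move 1042 n1566 (.cons 1041 n2157 .nil)
noncomputable def n2312 : Strat := .move 1086 n2311 (.cons 1042 n1659 .nil)
noncomputable def n2313 : Strat := .move 1041 n1990 (.cons 919 n1605 .nil)
noncomputable def n2314 : Strat := .move 1082 n1378 (.cons 1123 n2313 .nil)
noncomputable def n2315 : Strat := .move 1042 n2009 (.cons 961 n2314 .nil)
noncomputable def n2316 : Strat := .move 1042 n1948 (.cons 920 n1566 .nil)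
noncomputable def n2317 : Strat := .move 961 n1495 (.cons 959 n2316 .nil)
noncomputable def n2318 : Strat := .move 1087 n1671 (.cons 1127 n1613 .nil)
noncomputable def n2319 : Strat := .move 1086 n1659 (.cons 1045 n2317 (.cons 1004 n2318 .nil))
noncomputable def n2320 : Strat := .move 1083 n2296 (.cons 1040 n2299 (.cons 1004 n2304 (.cons 1042 n2310 (.cons 961 n2312 (.cons 1086 n2315 (.cons 1082 n2319 .nil))))))
noncomputable def n2321 : Strat := .move 960 n1998 (.cons 961 n2293 (.cons 1002 n1925 (.cons 1000 n2320 .nil)))
noncomputable def n2322 : Strat := .move 1001 n2154 (.cons 1002 n2189 (.cons 1000 n2255 (.cons 960 n2257 (.cons 961 n2260 (.cons 1004 n2285 (.cons 1086 n1976 (.cons 1042 n2291 (.cons 1043 n2321 .nil))))))))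
noncomputable def n2323 : Strat := .win 1048 4 1044
noncomputable def n2324 : Strat := .move 1047 n2128 (.cons 1087 n2323 .nil)
noncomputable def n2325 : Strat := .move 1046 n1524 (.cons 1083 n2324 .nil)
noncomputable def n2326 : Strat := .move 1043 n1478 (.cons 1042 n1691 .nil)
noncomputable def n2327 : Strat := .move 1125 n1690 (.cons 1124 n2326 .nil)
noncomputable def n2328 : Strat := .move 1083 n1670 (.cons 1127 n1593 .nil)
noncomputable def n2329 : Strat := .move 1128 n1484 (.cons 1129 n2328 .nil)
noncomputable def n2330 : Strat := .move 1087 n2327 (.cons 1002 n1828 (.cons 1125 n2329 .nil))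
noncomputable def n2331 : Strat := .move 1088 n1561 (.cons 1048 n1826 .nil)
noncomputable def n2332 : Strat := .move 1047 n1562 (.cons 1046 n2331 .nil)
noncomputable def n2333 : Strat := .move 1125 n1690 (.cons 1124 n2332 .nil)
noncomputable def n2334 : Strat := .move 1088 n1561 (.cons 1048 n1559 .nil)
noncomputable def n2335 : Strat := .move 1047 n1562 (.cons 1046 n2334 .nil)
noncomputable def n2336 : Strat := .move 1087 n2327 (.cons 1002 n2333 (.cons 1125 n2335 .nil))
noncomputable def n2337 : Strat := .move 1045 n2325 (.cons 1046 n2330 (.cons 1087 n1907 (.cons 1083 n2336 .nil)))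
noncomputable def n2338 : Strat := .move 1042 n1566 (.cons 1041 n1683 .nil)
noncomputable def n2339 : Strat := .move 1124 n1515 (.cons 1123 n2338 .nil)
noncomputable def n2340 : Strat := .move 1082 n1605 (.cons 1040 n1852 .nil)
noncomputable def n2341 : Strat := .move 1041 n1604 (.cons 1042 n2340 .nil)
noncomputable def n2342 : Strat := .move 1127 n1577 (.cons 1128 n2341 .nil)
noncomputable def n2343 : Strat := .move 1045 n1511 (.cons 1046 n2342 .nil)
noncomputable def n2344 : Strat := .move 1083 n2339 (.cons 1041 n1904 (.cons 1123 n2343 .nil))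
noncomputable def n2345 : Strat := .move 1045 n1511 (.cons 1046 n1891 .nil)
noncomputable def n2346 : Strat := .move 1045 n1511 (.cons 1046 n1610 .nil)
noncomputable def n2347 : Strat := .move 1087 n1484 (.cons 1129 n1593 .nil)
noncomputable def n2348 : Strat := .move 1128 n1670 (.cons 1127 n2347 .nil)
noncomputable def n2349 : Strat := .move 1045 n1891 (.cons 1127 n1610 (.cons 1041 n1854 (.cons 1082 n2348 .nil)))
noncomputable def n2350 : Strat := .move 1045 n1511 (.cons 1046 n2348 .nil)
noncomputable def n2351 : Strat := .move 1083 n2345 (.cons 1041 n1904 (.cons 1127 n2346 (.cons 1046 n2349 (.cons 1082 n2350 (.cons 1045 n1677 .nil)))))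
noncomputable def n2352 : Strat := .win 1039 2 1039
noncomputable def n2353 : Strat := .win 1041 2 1040
noncomputable def n2354 : Strat := .move 1040 n2352 (.cons 1039 n2353 .nil)
noncomputable def n2355 : Strat := .win 1121 4 1080
noncomputable def n2356 : Strat := .win 1123 4 1081
noncomputable def n2357 : Strat := .move 1122 n2355 (.cons 1121 n2356 .nil)
noncomputable def n2358 : Strat := .move 1081 n2354 (.cons 1041 n2357 .nil)
noncomputable def n2359 : Strat := .move 1082 n1852 (.cons 1126 n2358 .nil)
noncomputable def n2360 : Strat := .move 1127 n1577 (.cons 1128 n2359 .nil)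
noncomputable def n2361 : Strat := .win 1089 4 1085
noncomputable def n2362 : Strat := .win 1125 4 1084
noncomputable def n2363 : Strat := .move 1088 n2361 (.cons 1089 n2362 .nil)
noncomputable def n2364 : Strat := .move 1087 n1613 (.cons 1045 n2363 .nil)
noncomputable def n2365 : Strat := .move 1126 n1878 (.cons 1082 n2364 .nil)
noncomputable def n2366 : Strat := .move 1127 n1577 (.cons 1128 n2365 .nil)
noncomputable def n2367 : Strat := .move 1083 n1677 (.cons 1042 n2360 (.cons 1127 n1615 (.cons 1041 n2366 .nil)))
noncomputable def n2368 : Strat := .move 1045 n1511 (.cons 1046 n1673 .nil)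
noncomputable def n2369 : Strat := .move 1087 n1678 (.cons 1123 n1613 .nil)
noncomputable def n2370 : Strat := .move 1082 n1852 (.cons 1126 n2369 .nil)
noncomputable def n2371 : Strat := .move 1087 n1613 (.cons 1045 n1880 .nil)
noncomputable def n2372 : Strat := .move 1126 n1878 (.cons 1082 n2371 .nil)
noncomputable def n2373 : Strat := .move 1127 n1853 (.cons 1124 n2359 (.cons 1122 n2370 (.cons 1082 n1688 (.cons 1123 n2372 .nil))))
noncomputable def n2374 : Strat := .move 1127 n1577 (.cons 1128 n2372 .nil)
noncomputable def n2375 : Strat := .move 1083 n2368 (.cons 1124 n2360 (.cons 1128 n2373 (.cons 1127 n1688 (.cons 1123 n2374 .nil))))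
noncomputable def n2376 : Strat := .move 1083 n1897 (.cons 1124 n1615 (.cons 1042 n1688 (.cons 1087 n2339 .nil)))
noncomputable def n2377 : Strat := .move 1041 n1802 (.cons 1040 n1806 .nil)
noncomputable def n2378 : Strat := .move 1042 n1481 (.cons 1087 n2377 .nil)
noncomputable def n2379 : Strat := .move 961 n1394 (.cons 1126 n2378 .nil)
noncomputable def n2380 : Strat := .move 1043 n1795 (.cons 1125 n2379 .nil)
noncomputable def n2381 : Strat := .move 1124 n242 (.cons 961 n1515 .nil)
noncomputable def n2382 : Strat := .move 1042 n1566 (.cons 1041 n2381 .nil)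
noncomputable def n2383 : Strat := .move 1083 n2382 (.cons 1042 n1911 (.cons 1123 n1913 .nil))
noncomputable def n2384 : Strat := .move 1001 n1417 (.cons 1000 n2383 .nil)
noncomputable def n2385 : Strat := .win 1122 5 1081
noncomputable def n2386 : Strat := .win 1083 4 1082
noncomputable def n2387 : Strat := .move 1123 n2385 (.cons 1122 n2386 .nil)
noncomputable def n2388 : Strat := .move 1124 n1644 (.cons 1087 n2387 .nil)
noncomputable def n2389 : Strat := .move 1125 n1619 (.cons 1043 n2388 .nil)
noncomputable def n2390 : Strat := .move 1001 n1417 (.cons 1000 n2389 .nil)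
noncomputable def n2391 : Strat := .win 1126 5 1082
noncomputable def n2392 : Strat := .move 1123 n2391 (.cons 1126 n2385 .nil)
noncomputable def n2393 : Strat := .move 1124 n1644 (.cons 1087 n2392 .nil)
noncomputable def n2394 : Strat := .move 1125 n1619 (.cons 1043 n2393 .nil)
noncomputable def n2395 : Strat := .move 1001 n1417 (.cons 1000 n2394 .nil)
noncomputable def n2396 : Strat := .move 1002 n2380 (.cons 1043 n2384 (.cons 1041 n2390 (.cons 1083 n2395 .nil)))
noncomputable def n2397 : Strat := .move 1042 n1816 (.cons 920 n1481 .nil)
noncomputable def n2398 : Strat := .move 1083 n1815 (.cons 1124 n2397 .nil)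
noncomputable def n2399 : Strat := .move 961 n1394 (.cons 1126 n2398 .nil)
noncomputable def n2400 : Strat := .move 1043 n1795 (.cons 1125 n2399 .nil)
noncomputable def n2401 : Strat := .move 1087 n1671 (.cons 1127 n1678 .nil)
noncomputable def n2402 : Strat := .move 1083 n2401 (.cons 1087 n1911 (.cons 1123 n2318 (.cons 1127 n2369 .nil)))
noncomputable def n2403 : Strat := .move 1001 n1417 (.cons 1000 n2402 .nil)
noncomputable def n2404 : Strat := .win 1042 3 960
noncomputable def n2405 : Strat := .win 1043 1 960
noncomputable def n2406 : Strat := .move 961 n2404 (.cons 1042 n2405 .nil)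
noncomputable def n2407 : Strat := .move 1124 n1515 (.cons 1123 n2406 .nil)
noncomputable def n2408 : Strat := .move 1083 n2407 (.cons 1124 n2318 .nil)
noncomputable def n2409 : Strat := .move 1001 n1417 (.cons 1000 n2408 .nil)
noncomputable def n2410 : Strat := .move 961 n1815 (.cons 1124 n1394 .nil)
noncomputable def n2411 : Strat := .move 1043 n1795 (.cons 1125 n2410 .nil)
noncomputable def n2412 : Strat := .win 961 1 960
noncomputable def n2413 : Strat := .move 1124 n2412 (.cons 961 n1515 .nil)
noncomputable def n2414 : Strat := .move 1043 n1795 (.cons 1125 n2413 .nil)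
noncomputable def n2415 : Strat := .win 961 6 961
noncomputable def n2416 : Strat := .move 1043 n2415 (.cons 961 n1795 .nil)
noncomputable def n2417 : Strat := .move 1127 n1878 (.cons 1082 n1577 .nil)
noncomputable def n2418 : Strat := .move 1126 n2416 (.cons 1125 n2417 .nil)
noncomputable def n2419 : Strat := .move 1083 n2411 (.cons 1043 n1911 (.cons 1126 n2414 (.cons 1124 n2418 .nil)))
noncomputable def n2420 : Strat := .move 1001 n1417 (.cons 1000 n2419 .nil)
noncomputable def n2421 : Strat := .move 1042 n130 (.cons 1083 n1481 .nil)
noncomputable def n2422 : Strat := .move 920 n2421 (.cons 1087 n1967 .nil)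
noncomputable def n2423 : Strat := .move 961 n1394 (.cons 1126 n2422 .nil)
noncomputable def n2424 : Strat := .move 1043 n1795 (.cons 1125 n2423 .nil)
noncomputable def n2425 : Strat := .move 1002 n2400 (.cons 1043 n2403 (.cons 1125 n2409 (.cons 1087 n2420 (.cons 1083 n2395 (.cons 1124 n2424 .nil)))))
noncomputable def n2426 : Strat := .move 1043 n1795 (.cons 1125 n1478 .nil)
noncomputable def n2427 : Strat := .move 1043 n1478 (.cons 1042 n1564 .nil)
noncomputable def n2428 : Strat := .move 1002 n2426 (.cons 1125 n2427 (.cons 1043 n1828 .nil))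
noncomputable def n2429 : Strat := .move 1125 n1690 (.cons 1124 n1692 .nil)
noncomputable def n2430 : Strat := .move 1043 n1795 (.cons 1125 n1564 .nil)
noncomputable def n2431 : Strat := .move 1088 n1557 (.cons 1130 n1563 .nil)
noncomputable def n2432 : Strat := .move 1129 n1558 (.cons 1128 n2431 .nil)
noncomputable def n2433 : Strat := .move 1002 n2426 (.cons 1125 n2427 (.cons 1042 n2430 (.cons 1043 n2432 .nil)))
noncomputable def n2434 : Strat := .move 1087 n2428 (.cons 1129 n2429 (.cons 1124 n2433 (.cons 1002 n1828 (.cons 1125 n2432 .nil))))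
noncomputable def n2435 : Strat := .move 1086 n2337 (.cons 1087 n2344 (.cons 1125 n2351 (.cons 1124 n2367 (.cons 1042 n2375 (.cons 1127 n2376 (.cons 1045 n2396 (.cons 1041 n2425 (.cons 1083 n2434 .nil))))))))
noncomputable def n2436 : Strat := .move 1083 n1511 (.cons 1046 n1673 .nil)
noncomputable def n2437 : Strat := .move 1045 n1851 (.cons 1004 n2436 (.cons 1127 n2134 .nil))
noncomputable def n2438 : Strat := .move 1045 n1851 (.cons 1004 n1855 (.cons 1127 n2116 (.cons 1126 n2117 .nil)))
noncomputable def n2439 : Strat := .move 1128 n1484 (.cons 1129 n1830 .nil)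
noncomputable def n2440 : Strat := .move 1125 n1690 (.cons 1124 n2439 .nil)
noncomputable def n2441 : Strat := .win 1083 0 1083
noncomputable def n2442 : Strat := .move 1127 n1084 (.cons 1168 n2441 .nil)
noncomputable def n2443 : Strat := .move 1005 n1085 (.cons 1004 n2442 .nil)
noncomputable def n2444 : Strat := .move 1046 n1537 (.cons 1047 n2443 .nil)
noncomputable def n2445 : Strat := .move 1128 n1484 (.cons 1129 n2444 .nil)
noncomputable def n2446 : Strat := .move 1087 n1828 (.cons 1130 n2440 (.cons 1125 n2445 (.cons 1128 n1831 .nil)))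
noncomputable def n2447 : Strat := .move 1125 n1690 (.cons 1124 n1716 .nil)
noncomputable def n2448 : Strat := .move 1087 n1828 (.cons 1088 n2447 (.cons 1125 n1716 (.cons 1128 n1831 .nil)))
noncomputable def n2449 : Strat := .move 1045 n1851 (.cons 1126 n2131 (.cons 1004 n2325 .nil))
noncomputable def n2450 : Strat := .move 1083 n1511 (.cons 1046 n1678 .nil)
noncomputable def n2451 : Strat := .move 1087 n1527 (.cons 1128 n2450 .nil)
noncomputable def n2452 : Strat := .move 1004 n1782 (.cons 1126 n2451 .nil)
noncomputable def n2453 : Strat := .move 1045 n1851 (.cons 1127 n2452 (.cons 1004 n2436 .nil))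
noncomputable def n2454 : Strat := .win 1080 0 1080
noncomputable def n2455 : Strat := .win 1126 0 1081
noncomputable def n2456 : Strat := .move 1081 n2454 (.cons 1080 n2455 .nil)
noncomputable def n2457 : Strat := .move 1125 n1644 (.cons 1087 n2456 .nil)
noncomputable def n2458 : Strat := .move 1124 n1515 (.cons 1123 n2457 .nil)
noncomputable def n2459 : Strat := .move 1124 n2454 (.cons 1080 n1644 .nil)
noncomputable def n2460 : Strat := .move 1125 n2455 (.cons 1126 n2459 .nil)
noncomputable def n2461 : Strat := .move 1081 n2354 (.cons 1041 n2460 .nil)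
noncomputable def n2462 : Strat := .move 1082 n2306 (.cons 1122 n2458 (.cons 1123 n2461 (.cons 1124 n2358 .nil)))
noncomputable def n2463 : Strat := .move 1128 n1670 (.cons 1127 n1484 .nil)
noncomputable def n2464 : Strat := .win 1081 0 1081
noncomputable def n2465 : Strat := .win 1127 0 1082
noncomputable def n2466 : Strat := .move 1082 n2464 (.cons 1081 n2465 .nil)
noncomputable def n2467 : Strat := .move 1126 n1879 (.cons 1088 n2466 .nil)
noncomputable def n2468 : Strat := .move 1125 n1690 (.cons 1124 n2467 .nil)
noncomputable def n2469 : Strat := .move 1087 n2463 (.cons 1127 n1828 (.cons 1128 n2468 .nil))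
noncomputable def n2470 : Strat := .move 1083 n1854 (.cons 1127 n2462 (.cons 1124 n2360 (.cons 1122 n1673 (.cons 1123 n2469 .nil))))
noncomputable def n2471 : Strat := .move 1086 n2437 (.cons 1087 n2438 (.cons 1045 n2446 (.cons 1083 n2448 (.cons 1004 n2375 (.cons 1126 n1737 (.cons 1128 n2449 (.cons 1047 n2453 (.cons 1046 n2470 .nil))))))))
noncomputable def n2472 : Strat := .move 1045 n1851 (.cons 1004 n2325 .nil)
noncomputable def n2473 : Strat := .move 1002 n1795 (.cons 1125 n2378 .nil)
noncomputable def n2474 : Strat := .move 1002 n2378 (.cons 1042 n1799 .nil)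
noncomputable def n2475 : Strat := .move 1087 n1478 (.cons 1042 n2432 .nil)
noncomputable def n2476 : Strat := .move 1043 n2473 (.cons 1125 n2474 (.cons 1041 n1800 (.cons 1002 n2475 .nil)))
noncomputable def n2477 : Strat := .move 1043 n1478 (.cons 1042 n1795 .nil)
noncomputable def n2478 : Strat := .move 1001 n374 (.cons 1046 n1417 .nil)
noncomputable def n2479 : Strat := .move 1002 n2477 (.cons 1125 n2478 .nil)
noncomputable def n2480 : Strat := .move 1087 n1527 (.cons 1128 n2479 .nil)
noncomputable def n2481 : Strat := .move 1045 n1781 (.cons 1127 n2480 .nil)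
noncomputable def n2482 : Strat := .move 1045 n1782 (.cons 1126 n2480 .nil)
noncomputable def n2483 : Strat := .move 1006 n1627 (.cons 961 n1105 .nil)
noncomputable def n2484 : Strat := .move 1046 n2229 (.cons 1002 n2128 .nil)
noncomputable def n2485 : Strat := .move 1047 n2230 (.cons 1048 n2484 .nil)
noncomputable def n2486 : Strat := .move 1006 n1105 (.cons 1007 n2485 .nil)
noncomputable def n2487 : Strat := .move 1043 n187 (.cons 1042 n1795 .nil)
noncomputable def n2488 : Strat := .move 1001 n1620 (.cons 959 n1417 .nil)
noncomputable def n2489 : Strat := .move 1002 n2487 (.cons 1125 n2488 .nil)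
noncomputable def n2490 : Strat := .move 960 n1980 (.cons 961 n2489 .nil)
noncomputable def n2491 : Strat := .move 1005 n2227 (.cons 960 n2483 (.cons 961 n2486 (.cons 1006 n2490 .nil)))
noncomputable def n2492 : Strat := .move 1004 n1861 (.cons 1126 n2481 (.cons 1127 n2482 (.cons 1045 n2491 .nil)))
noncomputable def n2493 : Strat := .move 1083 n1511 (.cons 1046 n1566 .nil)
noncomputable def n2494 : Strat := .move 1042 n1565 (.cons 1043 n2493 .nil)
noncomputable def n2495 : Strat := .move 1087 n1527 (.cons 1128 n2494 .nil)
noncomputable def n2496 : Strat := .move 1004 n1782 (.cons 1126 n2495 .nil)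
noncomputable def n2497 : Strat := .move 1004 n1781 (.cons 1127 n2495 .nil)
noncomputable def n2498 : Strat := .move 1045 n1851 (.cons 1004 n1907 (.cons 1127 n2496 (.cons 1126 n2497 .nil)))
noncomputable def n2499 : Strat := .win 1004 1 962
noncomputable def n2500 : Strat := .move 1002 n2415 (.cons 961 n1795 .nil)
noncomputable def n2501 : Strat := .move 1043 n2500 (.cons 1125 n2378 .nil)
noncomputable def n2502 : Strat := .move 1126 n2499 (.cons 1004 n2501 .nil)
noncomputable def n2503 : Strat := .win 1130 2 1085
noncomputable def n2504 : Strat := .win 1087 0 1084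
noncomputable def n2505 : Strat := .move 1129 n2503 (.cons 1130 n2504 .nil)
noncomputable def n2506 : Strat := .move 1128 n2441 (.cons 1083 n2505 .nil)
noncomputable def n2507 : Strat := .move 1127 n1578 (.cons 1004 n2506 .nil)
noncomputable def n2508 : Strat := .move 1088 n1826 (.cons 1126 n1557 .nil)
noncomputable def n2509 : Strat := .move 1125 n2326 (.cons 1002 n2508 .nil)
noncomputable def n2510 : Strat := .move 1129 n1558 (.cons 1128 n2509 .nil)
noncomputable def n2511 : Strat := .move 1125 n1826 (.cons 1126 n1691 .nil)
noncomputable def n2512 : Strat := .move 1043 n1478 (.cons 1042 n2511 .nil)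
noncomputable def n2513 : Strat := .win 1131 0 1086
noncomputable def n2514 : Strat := .win 1129 0 1085
noncomputable def n2515 : Strat := .move 1130 n2513 (.cons 1131 n2514 .nil)
noncomputable def n2516 : Strat := .win 1127 4 1085
noncomputable def n2517 : Strat := .move 1126 n2516 (.cons 1127 n2362 .nil)
noncomputable def n2518 : Strat := .move 1089 n2515 (.cons 1129 n2517 .nil)
noncomputable def n2519 : Strat := .win 1049 5 1045
noncomputable def n2520 : Strat := .win 1047 5 1044
noncomputable def n2521 : Strat := .move 1048 n2519 (.cons 1049 n2520 .nil)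
noncomputable def n2522 : Strat := .move 1089 n2515 (.cons 1129 n2521 .nil)
noncomputable def n2523 : Strat := .move 1088 n2512 (.cons 1043 n2518 (.cons 1126 n2522 .nil))
noncomputable def n2524 : Strat := .move 1089 n2517 (.cons 1125 n2521 .nil)
noncomputable def n2525 : Strat := .move 1088 n1559 (.cons 1128 n2518 (.cons 1130 n2524 .nil))
noncomputable def n2526 : Strat := .move 1125 n1879 (.cons 1088 n1691 .nil)
noncomputable def n2527 : Strat := .move 1043 n1478 (.cons 1042 n2526 .nil)
noncomputable def n2528 : Strat := .move 1083 n1878 (.cons 1082 n1577 .nil)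
noncomputable def n2529 : Strat := .move 1127 n2528 (.cons 1128 n2363 .nil)
noncomputable def n2530 : Strat := .move 1043 n1478 (.cons 1042 n2500 .nil)
noncomputable def n2531 : Strat := .move 1083 n1593 (.cons 1041 n2417 .nil)
noncomputable def n2532 : Strat := .move 1126 n2527 (.cons 1043 n2529 (.cons 1088 n2530 (.cons 1125 n2531 .nil)))
noncomputable def n2533 : Strat := .move 1087 n1872 (.cons 1041 n2510 (.cons 1128 n2523 (.cons 1043 n2525 (.cons 1129 n2532 .nil))))
noncomputable def n2534 : Strat := .move 1045 n1851 (.cons 1127 n2502 (.cons 1126 n2507 (.cons 1004 n2533 .nil)))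
noncomputable def n2535 : Strat := .move 1086 n2472 (.cons 1087 n2118 (.cons 1045 n2476 (.cons 1083 n2492 (.cons 1004 n2367 (.cons 1126 n1736 (.cons 1047 n2498 (.cons 1046 n2534 .nil)))))))
noncomputable def n2536 : Strat := .move 1083 n1376 (.cons 1125 n2172 .nil)
noncomputable def n2537 : Strat := .move 1042 n2536 (.cons 1125 n2174 (.cons 1164 n1946 (.cons 1083 n2084 .nil)))
noncomputable def n2538 : Strat := .move 919 n1377 (.cons 1043 n198 .nil)
noncomputable def n2539 : Strat := .move 961 n411 (.cons 1000 n2538 .nil)
noncomputable def n2540 : Strat := .move 961 n411 (.cons 1000 n1949 .nil)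
noncomputable def n2541 : Strat := .move 1042 n2539 (.cons 918 n2540 (.cons 961 n2536 .nil))
noncomputable def n2542 : Strat := .move 960 n1925 (.cons 961 n2537 (.cons 959 n2541 .nil))
noncomputable def n2543 : Strat := .move 919 n1743 (.cons 1042 n1266 .nil)
noncomputable def n2544 : Strat := .move 960 n1620 (.cons 959 n2543 .nil)
noncomputable def n2545 : Strat := .move 1005 n187 (.cons 1042 n1626 .nil)
noncomputable def n2546 : Strat := .move 1004 n2544 (.cons 960 n2545 (.cons 1042 n2148 .nil))
noncomputable def n2547 : Strat := .move 1043 n1795 (.cons 1125 n2546 .nil)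
noncomputable def n2548 : Strat := .move 1002 n1417 (.cons 1000 n2547 .nil)
noncomputable def n2549 : Strat := .move 1004 n2144 (.cons 919 n2205 (.cons 960 n2148 .nil))
noncomputable def n2550 : Strat := .move 1002 n1417 (.cons 1000 n2549 .nil)
noncomputable def n2551 : Strat := .move 1042 n130 (.cons 1083 n1268 .nil)
noncomputable def n2552 : Strat := .win 1042 1 919
noncomputable def n2553 : Strat := .move 1083 n2552 (.cons 1042 n1815 .nil)
noncomputable def n2554 : Strat := .move 920 n2551 (.cons 879 n2553 (.cons 1083 n1964 (.cons 1042 n1967 .nil)))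
noncomputable def n2555 : Strat := .move 961 n1394 (.cons 1126 n2554 .nil)
noncomputable def n2556 : Strat := .move 1043 n1795 (.cons 1125 n2555 .nil)
noncomputable def n2557 : Strat := .move 1002 n1417 (.cons 1000 n2556 .nil)
noncomputable def n2558 : Strat := .move 960 n1260 (.cons 1005 n1261 .nil)
noncomputable def n2559 : Strat := .move 961 n1394 (.cons 1126 n2558 .nil)
noncomputable def n2560 : Strat := .win 1086 1 962
noncomputable def n2561 : Strat := .move 1126 n2560 (.cons 1086 n2415 .nil)
noncomputable def n2562 : Strat := .move 1045 n374 (.cons 1046 n2561 .nil)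
noncomputable def n2563 : Strat := .move 1004 n2559 (.cons 961 n2545 (.cons 1005 n2562 .nil))
noncomputable def n2564 : Strat := .move 1043 n1795 (.cons 1125 n2563 .nil)
noncomputable def n2565 : Strat := .move 1002 n1417 (.cons 1000 n2564 .nil)
noncomputable def n2566 : Strat := .move 961 n1465 (.cons 1006 n1394 .nil)
noncomputable def n2567 : Strat := .move 1005 n187 (.cons 1042 n2566 .nil)
noncomputable def n2568 : Strat := .move 1004 n2545 (.cons 1005 n2562 (.cons 1045 n2567 .nil))
noncomputable def n2569 : Strat := .move 1043 n1795 (.cons 1125 n2568 .nil)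
noncomputable def n2570 : Strat := .move 1002 n1417 (.cons 1000 n2569 .nil)
noncomputable def n2571 : Strat := .move 1087 n2327 (.cons 1002 n1828 (.cons 1125 n1696 .nil))
noncomputable def n2572 : Strat := .move 1087 n1690 (.cons 1124 n1827 .nil)
noncomputable def n2573 : Strat := .move 1087 n1690 (.cons 1124 n2332 .nil)
noncomputable def n2574 : Strat := .move 1045 n1856 (.cons 1083 n1898 .nil)
noncomputable def n2575 : Strat := .move 1004 n1527 (.cons 1128 n1781 .nil)
noncomputable def n2576 : Strat := .move 1045 n1856 (.cons 1083 n2575 .nil)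
noncomputable def n2577 : Strat := .move 1087 n1827 (.cons 1088 n2574 (.cons 1126 n2576 .nil))
noncomputable def n2578 : Strat := .move 1124 n1515 (.cons 1123 n1701 .nil)
noncomputable def n2579 : Strat := .move 1083 n2578 (.cons 1124 n1835 .nil)
noncomputable def n2580 : Strat := .move 1125 n2572 (.cons 1130 n2573 (.cons 1124 n2577 (.cons 1087 n2579 .nil)))
noncomputable def n2581 : Strat := .move 1045 n1511 (.cons 1046 n2401 .nil)
noncomputable def n2582 : Strat := .move 1083 n1659 (.cons 1004 n2581 (.cons 1045 n1673 (.cons 1127 n1688 .nil)))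
noncomputable def n2583 : Strat := .move 1042 n1707 (.cons 1166 n1481 .nil)
noncomputable def n2584 : Strat := .move 1043 n1691 (.cons 1002 n2583 .nil)
noncomputable def n2585 : Strat := .move 960 n1386 (.cons 919 n1621 .nil)
noncomputable def n2586 : Strat := .move 1042 n1707 (.cons 1166 n2585 .nil)
noncomputable def n2587 : Strat := .move 1043 n1691 (.cons 1002 n2586 .nil)
noncomputable def n2588 : Strat := .move 1125 n2584 (.cons 1043 n2577 (.cons 1087 n2587 .nil))
noncomputable def n2589 : Strat := .move 1045 n1511 (.cons 1046 n1911 .nil)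
noncomputable def n2590 : Strat := .move 1125 n1644 (.cons 1087 n1701 .nil)
noncomputable def n2591 : Strat := .move 1124 n1515 (.cons 1123 n2590 .nil)
noncomputable def n2592 : Strat := .move 1083 n1659 (.cons 1004 n2589 (.cons 1045 n2591 .nil))
noncomputable def n2593 : Strat := .move 1046 n389 (.cons 1002 n1524 .nil)
noncomputable def n2594 : Strat := .move 1004 n1781 (.cons 1127 n2593 .nil)
noncomputable def n2595 : Strat := .move 1004 n1782 (.cons 1126 n2593 .nil)
noncomputable def n2596 : Strat := .move 1083 n1511 (.cons 1046 n1911 .nil)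
noncomputable def n2597 : Strat := .move 1045 n1851 (.cons 1126 n2594 (.cons 1127 n2595 (.cons 1004 n2596 .nil)))
noncomputable def n2598 : Strat := .move 1087 n1690 (.cons 1124 n1478 .nil)
noncomputable def n2599 : Strat := .move 1043 n1691 (.cons 1002 n2598 .nil)
noncomputable def n2600 : Strat := .move 1043 n2598 (.cons 1042 n2388 (.cons 1124 n2583 (.cons 1087 n2586 .nil)))
noncomputable def n2601 : Strat := .move 1125 n2599 (.cons 1002 n2600 (.cons 1043 n2388 (.cons 1087 n2587 .nil)))
noncomputable def n2602 : Strat := .move 1087 n2327 (.cons 1002 n1828 (.cons 1125 n1716 .nil))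
noncomputable def n2603 : Strat := .move 1086 n2571 (.cons 1043 n2580 (.cons 1088 n2582 (.cons 1124 n2588 (.cons 1129 n2592 (.cons 1125 n2597 (.cons 1046 n2601 (.cons 1083 n2602 .nil)))))))
noncomputable def n2604 : Strat := .move 1042 n1376 (.cons 1125 n2009 .nil)
noncomputable def n2605 : Strat := .move 959 n1938 (.cons 918 n200 .nil)
noncomputable def n2606 : Strat := .move 961 n1948 (.cons 920 n2605 .nil)
noncomputable def n2607 : Strat := .move 1042 n1376 (.cons 1125 n2606 .nil)
noncomputable def n2608 : Strat := .move 1124 n1934 (.cons 1164 n2166 .nil)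
noncomputable def n2609 : Strat := .move 1123 n1935 (.cons 1082 n2608 .nil)
noncomputable def n2610 : Strat := .move 1042 n1376 (.cons 1125 n2609 .nil)
noncomputable def n2611 : Strat := .move 1086 n1659 (.cons 1045 n2401 (.cons 1128 n1899 (.cons 1127 n2309 .nil)))
noncomputable def n2612 : Strat := .win 1042 1 959
noncomputable def n2613 : Strat := .move 1082 n1606 (.cons 1122 n2612 .nil)
noncomputable def n2614 : Strat := .move 1123 n1607 (.cons 1124 n2613 .nil)
noncomputable def n2615 : Strat := .move 1086 n1659 (.cons 1045 n2614 .nil)
noncomputable def n2616 : Strat := .move 1083 n2604 (.cons 1005 n2607 (.cons 1004 n2610 (.cons 1042 n2611 (.cons 1125 n2615 .nil))))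
noncomputable def n2617 : Strat := .move 960 n1925 (.cons 961 n2293 (.cons 959 n1998 (.cons 1000 n2616 .nil)))
noncomputable def n2618 : Strat := .move 1001 n1924 (.cons 1002 n2542 (.cons 961 n2548 (.cons 1125 n2550 (.cons 959 n2557 (.cons 919 n2565 (.cons 960 n2570 (.cons 1000 n2603 (.cons 1043 n2617 .nil))))))))
noncomputable def n2619 : Strat := .move 1087 n1669 (.cons 1125 n1593 .nil)
noncomputable def n2620 : Strat := .move 1124 n1515 (.cons 1123 n2619 .nil)
noncomputable def n2621 : Strat := .move 1045 n1511 (.cons 1046 n2620 .nil)
noncomputable def n2622 : Strat := .move 1083 n1902 (.cons 1004 n2368 (.cons 1045 n1673 (.cons 1127 n2621 .nil)))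
noncomputable def n2623 : Strat := .move 1083 n1511 (.cons 1046 n2348 .nil)
noncomputable def n2624 : Strat := .move 1045 n1851 (.cons 1127 n2134 (.cons 1004 n2623 .nil))
noncomputable def n2625 : Strat := .move 1083 n1592 (.cons 1045 n1670 .nil)
noncomputable def n2626 : Strat := .move 1046 n1537 (.cons 1047 n2625 .nil)
noncomputable def n2627 : Strat := .move 1128 n1484 (.cons 1129 n2626 .nil)
noncomputable def n2628 : Strat := .move 1087 n2429 (.cons 1042 n1828 (.cons 1125 n2627 .nil))
noncomputable def n2629 : Strat := .move 1083 n1511 (.cons 1046 n2620 .nil)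
noncomputable def n2630 : Strat := .move 1087 n1527 (.cons 1128 n1718 .nil)
noncomputable def n2631 : Strat := .move 1004 n1782 (.cons 1126 n2630 .nil)
noncomputable def n2632 : Strat := .move 1045 n2629 (.cons 1083 n2631 (.cons 1125 n2134 (.cons 1087 n2116 .nil)))
noncomputable def n2633 : Strat := .move 1083 n1735 (.cons 1045 n2339 .nil)
noncomputable def n2634 : Strat := .move 1004 n1781 (.cons 1127 n2630 .nil)
noncomputable def n2635 : Strat := .move 1045 n1851 (.cons 1126 n2634 (.cons 1127 n2631 (.cons 1004 n2336 .nil)))
noncomputable def n2636 : Strat := .move 1083 n1670 (.cons 1127 n1678 .nil)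
noncomputable def n2637 : Strat := .move 1045 n1538 (.cons 1004 n2636 .nil)
noncomputable def n2638 : Strat := .move 1128 n1484 (.cons 1129 n2637 .nil)
noncomputable def n2639 : Strat := .move 1045 n1538 (.cons 1004 n2328 .nil)
noncomputable def n2640 : Strat := .move 1128 n1484 (.cons 1129 n2639 .nil)
noncomputable def n2641 : Strat := .move 1087 n2429 (.cons 1043 n2638 (.cons 1125 n2640 .nil))
noncomputable def n2642 : Strat := .move 1083 n1673 (.cons 1087 n2339 (.cons 1124 n1677 .nil))
noncomputable def n2643 : Strat := .move 1086 n2622 (.cons 1125 n2624 (.cons 1004 n2628 (.cons 1127 n2632 (.cons 1087 n2633 (.cons 1128 n2472 (.cons 1083 n2635 (.cons 1046 n2641 (.cons 1045 n2642 .nil))))))))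
noncomputable def n2644 : Strat := .move 1043 n1795 (.cons 1125 n1799 .nil)
noncomputable def n2645 : Strat := .move 960 n201 (.cons 1004 n2142 .nil)
noncomputable def n2646 : Strat := .move 960 n1495 (.cons 959 n2142 .nil)
noncomputable def n2647 : Strat := .move 1005 n1465 (.cons 1006 n167 .nil)
noncomputable def n2648 : Strat := .move 1004 n2558 (.cons 959 n2647 (.cons 1005 n2148 .nil))
noncomputable def n2649 : Strat := .move 960 n1261 (.cons 959 n2287 .nil)
noncomputable def n2650 : Strat := .move 1005 n1465 (.cons 1006 n1626 .nil)
noncomputable def n2651 : Strat := .move 1004 n2558 (.cons 959 n2647 (.cons 1005 n2649 (.cons 960 n2650 .nil)))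
noncomputable def n2652 : Strat := .move 961 n2645 (.cons 958 n2646 (.cons 960 n1970 (.cons 1004 n1969 (.cons 1043 n2648 (.cons 1126 n2651 .nil)))))
noncomputable def n2653 : Strat := .move 1001 n1417 (.cons 1000 n2652 .nil)
noncomputable def n2654 : Strat := .move 1043 n1795 (.cons 1125 n1810 .nil)
noncomputable def n2655 : Strat := .move 1043 n1795 (.cons 1125 n1820 .nil)
noncomputable def n2656 : Strat := .move 1004 n222 (.cons 1041 n2148 .nil)
noncomputable def n2657 : Strat := .move 960 n1980 (.cons 961 n1620 .nil)
noncomputable def n2658 : Strat := .move 1005 n2657 (.cons 959 n1626 .nil)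
noncomputable def n2659 : Strat := .move 1004 n222 (.cons 1041 n2658 .nil)
noncomputable def n2660 : Strat := .move 1041 n2159 (.cons 1086 n2040 .nil)
noncomputable def n2661 : Strat := .move 961 n1948 (.cons 920 n1375 .nil)
noncomputable def n2662 : Strat := .move 960 n1376 (.cons 1125 n2661 .nil)
noncomputable def n2663 : Strat := .move 1083 n2660 (.cons 1041 n2662 .nil)
noncomputable def n2664 : Strat := .win 961 0 958
noncomputable def n2665 : Strat := .win 957 0 957
noncomputable def n2666 : Strat := .move 958 n2664 (.cons 961 n2665 .nil)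
noncomputable def n2667 : Strat := .move 959 n2002 (.cons 1004 n2666 .nil)
noncomputable def n2668 : Strat := .move 1083 n1376 (.cons 1125 n2661 .nil)
noncomputable def n2669 : Strat := .move 960 n2667 (.cons 959 n2668 (.cons 961 n2016 .nil))
noncomputable def n2670 : Strat := .move 1042 n2656 (.cons 1126 n2659 (.cons 1004 n2663 (.cons 1041 n2669 .nil)))
noncomputable def n2671 : Strat := .move 1001 n1417 (.cons 1000 n2670 .nil)
noncomputable def n2672 : Strat := .move 1002 n2644 (.cons 1125 n2653 (.cons 961 n2654 (.cons 960 n2655 (.cons 1043 n2671 .nil))))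
noncomputable def n2673 : Strat := .move 961 n2645 (.cons 958 n2646 (.cons 960 n1970 (.cons 1043 n1974 (.cons 1004 n1969 .nil))))
noncomputable def n2674 : Strat := .move 1001 n1417 (.cons 1000 n2673 .nil)
noncomputable def n2675 : Strat := .move 1041 n2159 (.cons 1086 n539 .nil)
noncomputable def n2676 : Strat := .move 1042 n2675 (.cons 1004 n2662 .nil)
noncomputable def n2677 : Strat := .move 1040 n2039 (.cons 1039 n2038 .nil)
noncomputable def n2678 : Strat := .move 1041 n2159 (.cons 1086 n2677 .nil)
noncomputable def n2679 : Strat := .move 1042 n2675 (.cons 1004 n2678 (.cons 1086 n2037 (.cons 1041 n2043 .nil)))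
noncomputable def n2680 : Strat := .move 1042 n2662 (.cons 960 n2678 .nil)
noncomputable def n2681 : Strat := .move 1123 n1934 (.cons 1164 n2166 .nil)
noncomputable def n2682 : Strat := .move 1124 n242 (.cons 961 n2681 .nil)
noncomputable def n2683 : Strat := .move 1042 n2662 (.cons 960 n2682 (.cons 1124 n2043 .nil))
noncomputable def n2684 : Strat := .win 1125 0 1081
noncomputable def n2685 : Strat := .move 1126 n2684 (.cons 1125 n2465 .nil)
noncomputable def n2686 : Strat := .move 1081 n2685 (.cons 1127 n2354 .nil)
noncomputable def n2687 : Strat := .move 1086 n2305 (.cons 1126 n2306 .nil)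
noncomputable def n2688 : Strat := .move 1082 n2686 (.cons 1081 n2687 (.cons 1127 n2358 .nil))
noncomputable def n2689 : Strat := .move 1041 n1605 (.cons 1040 n539 .nil)
noncomputable def n2690 : Strat := .move 960 n1378 (.cons 1123 n1376 .nil)
noncomputable def n2691 : Strat := .move 1042 n2689 (.cons 1004 n2690 .nil)
noncomputable def n2692 : Strat := .win 960 1 959
noncomputable def n2693 : Strat := .move 1123 n2692 (.cons 960 n1606 .nil)
noncomputable def n2694 : Strat := .move 1042 n2689 (.cons 1004 n2693 .nil)
noncomputable def n2695 : Strat := .move 1081 n2685 (.cons 1127 n2357 .nil)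
noncomputable def n2696 : Strat := .move 1082 n2691 (.cons 1042 n2686 (.cons 1125 n2694 (.cons 1040 n2695 .nil)))
noncomputable def n2697 : Strat := .move 1042 n2159 (.cons 1086 n539 .nil)
noncomputable def n2698 : Strat := .move 1041 n1605 (.cons 1040 n2697 .nil)
noncomputable def n2699 : Strat := .move 1082 n2698 (.cons 1041 n2687 (.cons 1086 n2694 .nil))
noncomputable def n2700 : Strat := .move 1083 n2676 (.cons 920 n2679 (.cons 1004 n2680 (.cons 1041 n2683 (.cons 1042 n2688 (.cons 1086 n2696 (.cons 1125 n2699 .nil))))))
noncomputable def n2701 : Strat := .move 1001 n1417 (.cons 1000 n2700 .nil)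
noncomputable def n2702 : Strat := .move 1002 n2644 (.cons 1125 n2674 (.cons 961 n2654 (.cons 960 n2655 (.cons 1043 n2701 .nil))))
noncomputable def n2703 : Strat := .move 1087 n2429 (.cons 1125 n1716 .nil)
noncomputable def n2704 : Strat := .move 1047 n2112 (.cons 1005 n392 .nil)
noncomputable def n2705 : Strat := .move 1046 n376 (.cons 1001 n2704 .nil)
noncomputable def n2706 : Strat := .move 1005 n2136 (.cons 960 n1628 (.cons 1006 n2487 .nil))
noncomputable def n2707 : Strat := .move 1002 n2478 (.cons 1000 n2705 (.cons 1046 n2706 .nil))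
noncomputable def n2708 : Strat := .move 1045 n1781 (.cons 1127 n2707 .nil)
noncomputable def n2709 : Strat := .move 1045 n1782 (.cons 1126 n2707 .nil)
noncomputable def n2710 : Strat := .win 1046 0 1002
noncomputable def n2711 : Strat := .move 1047 n2230 (.cons 1048 n2710 .nil)
noncomputable def n2712 : Strat := .move 1002 n2711 (.cons 1046 n2487 .nil)
noncomputable def n2713 : Strat := .move 1006 n1105 (.cons 1007 n2712 .nil)
noncomputable def n2714 : Strat := .move 1005 n2227 (.cons 960 n2483 (.cons 961 n2713 (.cons 1006 n2490 .nil)))
noncomputable def n2715 : Strat := .move 1004 n1861 (.cons 1126 n2708 (.cons 1127 n2709 (.cons 1045 n2714 .nil)))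
noncomputable def n2716 : Strat := .move 1087 n2429 (.cons 1125 n2139 .nil)
noncomputable def n2717 : Strat := .win 1001 4 1000
noncomputable def n2718 : Strat := .move 1004 n2717 (.cons 1001 n131 .nil)
noncomputable def n2719 : Strat := .move 1041 n1802 (.cons 1040 n2718 .nil)
noncomputable def n2720 : Strat := .move 1042 n1481 (.cons 1087 n2719 .nil)
noncomputable def n2721 : Strat := .move 1002 n1795 (.cons 1125 n2720 .nil)
noncomputable def n2722 : Strat := .move 1087 n1478 (.cons 1042 n1690 .nil)
noncomputable def n2723 : Strat := .move 1125 n1691 (.cons 1002 n2722 .nil)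
noncomputable def n2724 : Strat := .move 1002 n2717 (.cons 1001 n131 .nil)
noncomputable def n2725 : Strat := .move 1004 n1783 (.cons 1126 n2724 .nil)
noncomputable def n2726 : Strat := .move 1041 n1802 (.cons 1040 n2725 .nil)
noncomputable def n2727 : Strat := .move 1042 n1481 (.cons 1087 n2726 .nil)
noncomputable def n2728 : Strat := .move 1043 n1800 (.cons 959 n2721 (.cons 1004 n2723 (.cons 1125 n2727 (.cons 1002 n1829 .nil))))
noncomputable def n2729 : Strat := .move 1045 n1527 (.cons 1128 n1781 .nil)
noncomputable def n2730 : Strat := .move 1005 n1106 (.cons 1128 n2136 .nil)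
noncomputable def n2731 : Strat := .move 1004 n1783 (.cons 1126 n2729 (.cons 1127 n2201 (.cons 1045 n2730 .nil)))
noncomputable def n2732 : Strat := .move 1046 n1537 (.cons 1047 n2731 .nil)
noncomputable def n2733 : Strat := .move 1129 n1558 (.cons 1128 n1557 .nil)
noncomputable def n2734 : Strat := .win 1132 0 1087
noncomputable def n2735 : Strat := .win 1130 0 1086
noncomputable def n2736 : Strat := .move 1131 n2734 (.cons 1132 n2735 .nil)
noncomputable def n2737 : Strat := .win 1128 4 1086
noncomputable def n2738 : Strat := .win 1126 4 1085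
noncomputable def n2739 : Strat := .move 1127 n2737 (.cons 1128 n2738 .nil)
noncomputable def n2740 : Strat := .move 1090 n2736 (.cons 1130 n2739 .nil)
noncomputable def n2741 : Strat := .move 1089 n2521 (.cons 1047 n2740 .nil)
noncomputable def n2742 : Strat := .win 1090 4 1086
noncomputable def n2743 : Strat := .move 1128 n2742 (.cons 1090 n1484 .nil)
noncomputable def n2744 : Strat := .move 1127 n2738 (.cons 1126 n2743 .nil)
noncomputable def n2745 : Strat := .move 1089 n2521 (.cons 1047 n2744 .nil)
noncomputable def n2746 : Strat := .move 1088 n2733 (.cons 1129 n2741 (.cons 1128 n2522 (.cons 1130 n2745 .nil)))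
noncomputable def n2747 : Strat := .win 1002 6 961
noncomputable def n2748 : Strat := .move 1043 n2747 (.cons 1002 n1478 .nil)
noncomputable def n2749 : Strat := .move 961 n2748 (.cons 1042 n2558 .nil)
noncomputable def n2750 : Strat := .move 1004 n1778 (.cons 1045 n2749 .nil)
noncomputable def n2751 : Strat := .move 961 n2748 (.cons 1042 n2647 .nil)
noncomputable def n2752 : Strat := .move 1004 n1778 (.cons 1045 n2751 .nil)
noncomputable def n2753 : Strat := .move 1089 n2516 (.cons 1127 n2515 .nil)
noncomputable def n2754 : Strat := .move 1088 n1563 (.cons 1046 n2753 .nil)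
noncomputable def n2755 : Strat := .move 1126 n2750 (.cons 959 n2752 (.cons 1043 n2754 .nil))
noncomputable def n2756 : Strat := .move 1087 n1716 (.cons 1047 n2139 (.cons 1129 n2732 (.cons 1004 n2432 (.cons 1046 n2746 (.cons 1128 n2755 .nil)))))
noncomputable def n2757 : Strat := .move 1086 n2703 (.cons 1087 n2715 (.cons 1004 n2434 (.cons 1043 n2140 (.cons 1047 n2716 (.cons 1046 n2728 (.cons 1125 n2756 .nil))))))
noncomputable def n2758 : Strat := .move 1084 n1838 (.cons 1002 n1920 (.cons 1086 n2105 (.cons 1043 n2141 (.cons 1125 n2322 (.cons 1004 n2435 (.cons 1126 n1738 (.cons 1042 n2471 (.cons 1124 n2535 (.cons 1041 n2618 (.cons 1082 n2643 (.cons 1123 n2672 (.cons 1046 n2702 (.cons 1083 n2757 .nil)))))))))))))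
noncomputable def n2759 : Strat := .move 1085 n1504 (.cons 1004 n1522 (.cons 961 n1572 (.cons 1126 n1739 (.cons 1086 n1750 (.cons 1002 n1758 (.cons 1084 n1789 (.cons 1042 n1794 (.cons 1044 n2758 .nil))))))))
noncomputable def n2760 : Strat := .move 1003 n142 (.cons 922 n2759 .nil)
noncomputable def n2761 : Strat := .move 963 n1252 (.cons 922 n1412 (.cons 1003 n1413 (.cons 1005 n1439 (.cons 923 n1459 (.cons 960 n1460 (.cons 924 n1462 (.cons 964 n2760 .nil)))))))
noncomputable def n2762 : Strat := .move 961 n1375 (.cons 1124 n1816 .nil)
noncomputable def n2763 : Strat := .move 1083 n225 (.cons 1082 n2762 .nil)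
noncomputable def n2764 : Strat := .move 1042 n223 (.cons 1041 n2763 .nil)
noncomputable def n2765 : Strat := .move 1001 n125 (.cons 1000 n2764 .nil)
noncomputable def n2766 : Strat := .win 1126 7 961
noncomputable def n2767 : Strat := .win 920 6 920
noncomputable def n2768 : Strat := .move 1085 n2766 (.cons 1126 n2767 .nil)
noncomputable def n2769 : Strat := .win 960 2 960
noncomputable def n2770 : Strat := .move 1004 n2769 (.cons 960 n187 .nil)
noncomputable def n2771 : Strat := .move 961 n2768 (.cons 920 n2770 .nil)
noncomputable def n2772 : Strat := .move 1005 n230 (.cons 1006 n2771 .nil)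
noncomputable def n2773 : Strat := .move 1046 n127 (.cons 1047 n2772 .nil)
noncomputable def n2774 : Strat := .move 1002 n221 (.cons 1046 n2765 (.cons 1001 n2773 .nil))
noncomputable def n2775 : Strat := .move 1045 n121 (.cons 1086 n2774 .nil)
noncomputable def n2776 : Strat := .move 1043 n120 (.cons 1084 n2775 .nil)
noncomputable def n2777 : Strat := .win 963 0 960
noncomputable def n2778 : Strat := .move 960 n2777 (.cons 963 n1261 .nil)
noncomputable def n2779 : Strat := .move 1005 n1465 (.cons 1006 n2778 .nil)
noncomputable def n2780 : Strat := .win 1002 2 960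
noncomputable def n2781 : Strat := .move 960 n2780 (.cons 1002 n2777 .nil)
noncomputable def n2782 : Strat := .move 1005 n1465 (.cons 1006 n2781 .nil)
noncomputable def n2783 : Strat := .move 960 n2780 (.cons 1002 n1261 .nil)
noncomputable def n2784 : Strat := .move 1005 n1465 (.cons 1006 n2783 .nil)
noncomputable def n2785 : Strat := .win 1001 3 919
noncomputable def n2786 : Strat := .move 1083 n2785 (.cons 1001 n348 .nil)
noncomputable def n2787 : Strat := .move 1042 n132 (.cons 1041 n2786 .nil)
noncomputable def n2788 : Strat := .move 960 n1261 (.cons 959 n2787 .nil)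
noncomputable def n2789 : Strat := .move 1042 n1488 (.cons 1002 n132 .nil)
noncomputable def n2790 : Strat := .move 1005 n1465 (.cons 1006 n2789 .nil)
noncomputable def n2791 : Strat := .move 1004 n2779 (.cons 959 n2782 (.cons 963 n2784 (.cons 1005 n2788 (.cons 960 n2790 .nil))))
noncomputable def n2792 : Strat := .move 961 n123 (.cons 1085 n2791 .nil)
noncomputable def n2793 : Strat := .move 920 n122 (.cons 879 n2792 .nil)
noncomputable def n2794 : Strat := .move 1043 n120 (.cons 1084 n2793 .nil)
noncomputable def n2795 : Strat := .move 1002 n221 (.cons 1001 n234 (.cons 1046 n229 .nil))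
noncomputable def n2796 : Strat := .move 920 n122 (.cons 879 n2795 .nil)
noncomputable def n2797 : Strat := .move 1045 n121 (.cons 1086 n2796 .nil)
noncomputable def n2798 : Strat := .move 1043 n120 (.cons 1084 n2797 .nil)
noncomputable def n2799 : Strat := .win 1042 5 1001
noncomputable def n2800 : Strat := .move 1004 n2799 (.cons 1042 n393 .nil)
noncomputable def n2801 : Strat := .move 1005 n230 (.cons 1006 n2800 .nil)
noncomputable def n2802 : Strat := .win 1004 5 1001
noncomputable def n2803 : Strat := .move 1001 n365 (.cons 1002 n366 .nil)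
noncomputable def n2804 : Strat := .move 1042 n2802 (.cons 1004 n2803 .nil)
noncomputable def n2805 : Strat := .move 1005 n230 (.cons 1006 n2804 .nil)
noncomputable def n2806 : Strat := .move 1046 n355 (.cons 1002 n2801 (.cons 1047 n2805 .nil))
noncomputable def n2807 : Strat := .move 1045 n121 (.cons 1086 n2806 .nil)
noncomputable def n2808 : Strat := .move 1043 n120 (.cons 1084 n2807 .nil)
noncomputable def n2809 : Strat := .move 1044 n214 (.cons 879 n2776 (.cons 1086 n2794 (.cons 1085 n2798 (.cons 961 n2808 .nil))))
noncomputable def n2810 : Strat := .move 921 n73 (.cons 880 n2809 .nil)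
noncomputable def n2811 : Strat := .win 1002 6 879
noncomputable def n2812 : Strat := .move 879 n282 (.cons 838 n2811 .nil)
noncomputable def n2813 : Strat := .move 1044 n123 (.cons 1085 n2812 .nil)
noncomputable def n2814 : Strat := .win 882 4 878
noncomputable def n2815 : Strat := .win 878 4 877
noncomputable def n2816 : Strat := .move 918 n501 (.cons 917 n2815 .nil)
noncomputable def n2817 : Strat := .move 919 n2814 (.cons 882 n2816 .nil)
noncomputable def n2818 : Strat := .win 999 5 958
noncomputable def n2819 : Strat := .win 963 5 959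
noncomputable def n2820 : Strat := .move 1000 n2818 (.cons 999 n2819 .nil)
noncomputable def n2821 : Strat := .move 1001 n1311 (.cons 1042 n2820 .nil)
noncomputable def n2822 : Strat := .move 1002 n1310 (.cons 1044 n2821 .nil)
noncomputable def n2823 : Strat := .move 880 n2817 (.cons 919 n2822 .nil)
noncomputable def n2824 : Strat := .move 879 n282 (.cons 838 n2823 .nil)
noncomputable def n2825 : Strat := .move 880 n2814 (.cons 882 n2816 .nil)
noncomputable def n2826 : Strat := .move 1001 n411 (.cons 1000 n1306 .nil)
noncomputable def n2827 : Strat := .move 960 n1495 (.cons 959 n2826 .nil)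
noncomputable def n2828 : Strat := .move 963 n1351 (.cons 964 n2827 .nil)
noncomputable def n2829 : Strat := .move 880 n2814 (.cons 882 n2828 .nil)
noncomputable def n2830 : Strat := .win 960 2 918
noncomputable def n2831 : Strat := .move 963 n1351 (.cons 964 n2830 .nil)
noncomputable def n2832 : Strat := .move 918 n501 (.cons 917 n2831 .nil)
noncomputable def n2833 : Strat := .move 880 n2816 (.cons 878 n2832 (.cons 918 n2828 .nil))
noncomputable def n2834 : Strat := .move 1001 n1306 (.cons 1042 n411 .nil)
noncomputable def n2835 : Strat := .move 960 n198 (.cons 918 n2834 .nil)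
noncomputable def n2836 : Strat := .move 963 n1351 (.cons 964 n2835 .nil)
noncomputable def n2837 : Strat := .move 919 n2825 (.cons 918 n2829 (.cons 882 n2833 (.cons 880 n2836 .nil)))
noncomputable def n2838 : Strat := .move 879 n282 (.cons 838 n2837 .nil)
noncomputable def n2839 : Strat := .move 880 n2815 (.cons 878 n2814 .nil)
noncomputable def n2840 : Strat := .move 963 n2830 (.cons 960 n2839 .nil)
noncomputable def n2841 : Strat := .move 880 n2814 (.cons 882 n2815 .nil)
noncomputable def n2842 : Strat := .move 918 n2831 (.cons 964 n2840 (.cons 963 n2841 .nil))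
noncomputable def n2843 : Strat := .move 919 n2832 (.cons 917 n2842 (.cons 918 n2828 (.cons 960 n2825 .nil)))
noncomputable def n2844 : Strat := .move 879 n2811 (.cons 1002 n2843 .nil)
noncomputable def n2845 : Strat := .move 1044 n123 (.cons 1085 n2844 .nil)
noncomputable def n2846 : Strat := .move 960 n1261 (.cons 959 n2777 .nil)
noncomputable def n2847 : Strat := .move 1005 n1465 (.cons 1006 n2846 .nil)
noncomputable def n2848 : Strat := .move 1045 n374 (.cons 1046 n125 .nil)
noncomputable def n2849 : Strat := .move 1001 n222 (.cons 1041 n2848 .nil)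
noncomputable def n2850 : Strat := .move 1042 n2099 (.cons 1043 n2849 .nil)
noncomputable def n2851 : Strat := .move 1002 n2769 (.cons 960 n2850 .nil)
noncomputable def n2852 : Strat := .move 1005 n1465 (.cons 1006 n2851 .nil)
noncomputable def n2853 : Strat := .move 1005 n2777 (.cons 963 n2780 .nil)
noncomputable def n2854 : Strat := .move 960 n1261 (.cons 959 n2853 .nil)
noncomputable def n2855 : Strat := .win 965 5 961
noncomputable def n2856 : Strat := .move 963 n48 (.cons 1001 n173 .nil)
noncomputable def n2857 : Strat := .move 964 n2855 (.cons 965 n2856 .nil)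
noncomputable def n2858 : Strat := .win 963 2 919
noncomputable def n2859 : Strat := .move 919 n1965 (.cons 878 n2858 .nil)
noncomputable def n2860 : Strat := .move 964 n2855 (.cons 965 n2859 .nil)
noncomputable def n2861 : Strat := .move 1043 n187 (.cons 1042 n2860 .nil)
noncomputable def n2862 : Strat := .move 1002 n2857 (.cons 963 n2850 (.cons 1001 n2861 .nil))
noncomputable def n2863 : Strat := .move 1005 n1465 (.cons 1006 n2862 .nil)
noncomputable def n2864 : Strat := .win 1045 0 1000
noncomputable def n2865 : Strat := .win 963 4 959
noncomputable def n2866 : Strat := .move 1000 n2864 (.cons 1045 n2865 .nil)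
noncomputable def n2867 : Strat := .move 963 n1357 (.cons 964 n411 .nil)
noncomputable def n2868 : Strat := .move 1042 n222 (.cons 1041 n1269 .nil)
noncomputable def n2869 : Strat := .move 1002 n2866 (.cons 963 n2848 (.cons 1045 n2867 (.cons 1000 n2868 .nil)))
noncomputable def n2870 : Strat := .move 1002 n2866 (.cons 963 n2868 .nil)
noncomputable def n2871 : Strat := .move 919 n198 (.cons 918 n1351 .nil)
noncomputable def n2872 : Strat := .move 963 n411 (.cons 1000 n2871 .nil)
noncomputable def n2873 : Strat := .win 1043 5 1000
noncomputable def n2874 : Strat := .move 1041 n1761 (.cons 1002 n2873 .nil)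
noncomputable def n2875 : Strat := .move 1042 n1269 (.cons 1083 n2874 .nil)
noncomputable def n2876 : Strat := .move 1001 n2869 (.cons 1046 n2870 (.cons 1002 n2872 (.cons 963 n2875 .nil)))
noncomputable def n2877 : Strat := .move 960 n1261 (.cons 959 n2876 .nil)
noncomputable def n2878 : Strat := .move 1004 n2847 (.cons 963 n2852 (.cons 1006 n2854 (.cons 960 n2863 (.cons 1005 n2877 .nil))))
noncomputable def n2879 : Strat := .move 1044 n123 (.cons 1085 n2878 .nil)
noncomputable def n2880 : Strat := .move 920 n2813 (.cons 1085 n2824 (.cons 1044 n2838 (.cons 838 n2845 (.cons 879 n2879 .nil))))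
noncomputable def n2881 : Strat := .move 1004 n1465 (.cons 1006 n2846 .nil)
noncomputable def n2882 : Strat := .win 963 4 960
noncomputable def n2883 : Strat := .move 1001 n2882 (.cons 963 n1626 .nil)
noncomputable def n2884 : Strat := .move 964 n2855 (.cons 965 n2883 .nil)
noncomputable def n2885 : Strat := .win 882 1 881
noncomputable def n2886 : Strat := .move 923 n934 (.cons 1086 n2885 .nil)
noncomputable def n2887 : Strat := .move 1045 n376 (.cons 1001 n2886 .nil)
noncomputable def n2888 : Strat := .move 1046 n1624 (.cons 1047 n2887 .nil)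
noncomputable def n2889 : Strat := .move 964 n2855 (.cons 965 n2888 .nil)
noncomputable def n2890 : Strat := .move 1042 n222 (.cons 1041 n2099 .nil)
noncomputable def n2891 : Strat := .move 1001 n2882 (.cons 963 n2890 .nil)
noncomputable def n2892 : Strat := .move 1046 n1624 (.cons 1047 n2891 .nil)
noncomputable def n2893 : Strat := .move 964 n2855 (.cons 965 n2892 .nil)
noncomputable def n2894 : Strat := .move 1001 n2882 (.cons 963 n2207 .nil)
noncomputable def n2895 : Strat := .move 964 n2855 (.cons 965 n2894 .nil)
noncomputable def n2896 : Strat := .move 1000 n2819 (.cons 963 n2818 .nil)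
noncomputable def n2897 : Strat := .move 1001 n1625 (.cons 1045 n2896 .nil)
noncomputable def n2898 : Strat := .move 1046 n1624 (.cons 1047 n2897 .nil)
noncomputable def n2899 : Strat := .move 1084 n1795 (.cons 1125 n2898 .nil)
noncomputable def n2900 : Strat := .move 1043 n187 (.cons 1042 n2899 .nil)
noncomputable def n2901 : Strat := .win 963 5 920
noncomputable def n2902 : Strat := .move 924 n660 (.cons 883 n2901 .nil)
noncomputable def n2903 : Strat := .move 1046 n1624 (.cons 1047 n2902 .nil)
noncomputable def n2904 : Strat := .move 923 n92 (.cons 882 n2903 .nil)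
noncomputable def n2905 : Strat := .move 964 n2855 (.cons 965 n2904 .nil)
noncomputable def n2906 : Strat := .move 1002 n2884 (.cons 963 n2889 (.cons 1045 n2893 (.cons 1046 n2895 (.cons 964 n2900 (.cons 1001 n2905 .nil)))))
noncomputable def n2907 : Strat := .move 1004 n1465 (.cons 1006 n2906 .nil)
noncomputable def n2908 : Strat := .move 960 n1261 (.cons 959 n2780 .nil)
noncomputable def n2909 : Strat := .move 1004 n1465 (.cons 1006 n2908 .nil)
noncomputable def n2910 : Strat := .move 1004 n2846 (.cons 960 n2906 (.cons 963 n2908 .nil))
noncomputable def n2911 : Strat := .move 1002 n48 (.cons 1001 n1325 .nil)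
noncomputable def n2912 : Strat := .move 963 n166 (.cons 1006 n2911 .nil)
noncomputable def n2913 : Strat := .move 963 n2911 (.cons 965 n183 .nil)
noncomputable def n2914 : Strat := .move 963 n166 (.cons 1006 n183 .nil)
noncomputable def n2915 : Strat := .move 1087 n676 (.cons 965 n868 .nil)
noncomputable def n2916 : Strat := .move 924 n660 (.cons 883 n2915 .nil)
noncomputable def n2917 : Strat := .move 1087 n669 (.cons 1129 n868 .nil)
noncomputable def n2918 : Strat := .move 1088 n670 (.cons 1047 n2917 .nil)
noncomputable def n2919 : Strat := .move 1087 n676 (.cons 965 n671 .nil)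
noncomputable def n2920 : Strat := .move 924 n660 (.cons 883 n2919 .nil)
noncomputable def n2921 : Strat := .move 1006 n361 (.cons 1007 n935 .nil)
noncomputable def n2922 : Strat := .move 1044 n356 (.cons 1002 n2921 .nil)
noncomputable def n2923 : Strat := .move 1047 n870 (.cons 1088 n2922 .nil)
noncomputable def n2924 : Strat := .move 1045 n934 (.cons 1086 n2923 .nil)
noncomputable def n2925 : Strat := .move 1046 n2916 (.cons 924 n2918 (.cons 1086 n2920 (.cons 1087 n2924 .nil)))
noncomputable def n2926 : Strat := .move 923 n92 (.cons 882 n2925 .nil)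
noncomputable def n2927 : Strat := .move 964 n2912 (.cons 1006 n2913 (.cons 965 n2914 (.cons 963 n2926 .nil)))
noncomputable def n2928 : Strat := .move 1005 n2881 (.cons 960 n2907 (.cons 963 n2909 (.cons 1006 n2910 (.cons 1004 n2927 .nil))))
noncomputable def n2929 : Strat := .move 879 n282 (.cons 838 n1310 .nil)
noncomputable def n2930 : Strat := .move 879 n1310 (.cons 1044 n1311 .nil)
noncomputable def n2931 : Strat := .win 1043 1 919
noncomputable def n2932 : Strat := .move 1083 n2931 (.cons 1043 n1375 .nil)
noncomputable def n2933 : Strat := .move 1042 n222 (.cons 1041 n2932 .nil)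
noncomputable def n2934 : Strat := .move 1004 n2650 (.cons 1005 n2933 .nil)
noncomputable def n2935 : Strat := .move 1044 n123 (.cons 1085 n2934 .nil)
noncomputable def n2936 : Strat := .move 920 n2929 (.cons 838 n2930 (.cons 879 n2935 (.cons 1044 n1964 .nil)))
noncomputable def n2937 : Strat := .move 963 n1357 (.cons 964 n2936 .nil)
noncomputable def n2938 : Strat := .move 1085 n1464 (.cons 920 n2766 .nil)
noncomputable def n2939 : Strat := .move 1044 n2864 (.cons 1045 n2938 .nil)
noncomputable def n2940 : Strat := .move 1000 n2818 (.cons 999 n2939 .nil)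
noncomputable def n2941 : Strat := .move 1001 n2820 (.cons 1000 n2937 (.cons 963 n2940 .nil))
noncomputable def n2942 : Strat := .win 880 4 877
noncomputable def n2943 : Strat := .move 918 n501 (.cons 917 n2942 .nil)
noncomputable def n2944 : Strat := .move 919 n1362 (.cons 1043 n2943 .nil)
noncomputable def n2945 : Strat := .move 878 n286 (.cons 837 n2944 .nil)
noncomputable def n2946 : Strat := .move 879 n282 (.cons 838 n2945 .nil)
noncomputable def n2947 : Strat := .move 1044 n1364 (.cons 1085 n134 .nil)
noncomputable def n2948 : Strat := .win 1044 5 1000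
noncomputable def n2949 : Strat := .move 1041 n250 (.cons 1040 n2948 .nil)
noncomputable def n2950 : Strat := .move 1004 n131 (.cons 1005 n2949 .nil)
noncomputable def n2951 : Strat := .move 1042 n130 (.cons 1083 n2950 .nil)
noncomputable def n2952 : Strat := .move 1083 n1815 (.cons 1124 n2552 .nil)
noncomputable def n2953 : Strat := .move 1084 n1795 (.cons 1125 n2952 .nil)
noncomputable def n2954 : Strat := .move 919 n1965 (.cons 878 n2953 .nil)
noncomputable def n2955 : Strat := .move 1044 n1364 (.cons 1085 n2954 .nil)
noncomputable def n2956 : Strat := .move 1084 n1795 (.cons 1125 n1394 .nil)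
noncomputable def n2957 : Strat := .move 1085 n1395 (.cons 1044 n2956 .nil)
noncomputable def n2958 : Strat := .move 1085 n1394 (.cons 1126 n2553 .nil)
noncomputable def n2959 : Strat := .move 1084 n1795 (.cons 1125 n2958 .nil)
noncomputable def n2960 : Strat := .move 1043 n2947 (.cons 1085 n2951 (.cons 1004 n2955 (.cons 1083 n2957 (.cons 1044 n2959 .nil))))
noncomputable def n2961 : Strat := .move 920 n175 (.cons 1044 n2946 (.cons 879 n2960 .nil))
noncomputable def n2962 : Strat := .move 1004 n1465 (.cons 1006 n2855 .nil)
noncomputable def n2963 : Strat := .move 1046 n1625 (.cons 1045 n1624 .nil)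
noncomputable def n2964 : Strat := .move 1004 n2855 (.cons 965 n2963 .nil)
noncomputable def n2965 : Strat := .win 1044 2 1002
noncomputable def n2966 : Strat := .move 1047 n2965 (.cons 1044 n870 .nil)
noncomputable def n2967 : Strat := .move 1045 n934 (.cons 1086 n2966 .nil)
noncomputable def n2968 : Strat := .move 924 n676 (.cons 965 n660 .nil)
noncomputable def n2969 : Strat := .move 1087 n2968 (.cons 883 n671 .nil)
noncomputable def n2970 : Strat := .win 1043 2 1001
noncomputable def n2971 : Strat := .move 1044 n127 (.cons 1047 n2970 .nil)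
noncomputable def n2972 : Strat := .move 1045 n934 (.cons 1086 n2971 .nil)
noncomputable def n2973 : Strat := .move 1087 n868 (.cons 1045 n2968 .nil)
noncomputable def n2974 : Strat := .move 1046 n2967 (.cons 1045 n2969 (.cons 1088 n2972 (.cons 1047 n2973 .nil)))
noncomputable def n2975 : Strat := .move 923 n92 (.cons 882 n2974 .nil)
noncomputable def n2976 : Strat := .move 1004 n1465 (.cons 1006 n2963 .nil)
noncomputable def n2977 : Strat := .move 1005 n2962 (.cons 1006 n2964 (.cons 1004 n2975 (.cons 965 n2976 .nil)))
noncomputable def n2978 : Strat := .move 964 n2882 (.cons 963 n2977 .nil)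
noncomputable def n2979 : Strat := .win 958 2 958
noncomputable def n2980 : Strat := .win 1040 4 999
noncomputable def n2981 : Strat := .win 1083 6 918
noncomputable def n2982 : Strat := .win 877 6 877
noncomputable def n2983 : Strat := .move 918 n2981 (.cons 1083 n2982 .nil)
noncomputable def n2984 : Strat := .move 1042 n539 (.cons 1004 n2983 .nil)
noncomputable def n2985 : Strat := .move 1041 n2980 (.cons 1040 n2984 .nil)
noncomputable def n2986 : Strat := .move 959 n2979 (.cons 958 n2985 .nil)
noncomputable def n2987 : Strat := .move 1000 n2818 (.cons 999 n2986 .nil)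
noncomputable def n2988 : Strat := .move 1001 n2820 (.cons 1000 n2978 (.cons 963 n2987 .nil))
noncomputable def n2989 : Strat := .move 963 n1357 (.cons 964 n1417 .nil)
noncomputable def n2990 : Strat := .win 918 4 877
noncomputable def n2991 : Strat := .move 880 n2990 (.cons 918 n2814 .nil)
noncomputable def n2992 : Strat := .move 919 n1362 (.cons 1043 n2991 .nil)
noncomputable def n2993 : Strat := .move 878 n286 (.cons 837 n2992 .nil)
noncomputable def n2994 : Strat := .move 879 n282 (.cons 838 n2993 .nil)
noncomputable def n2995 : Strat := .move 879 n1311 (.cons 1042 n2993 .nil)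
noncomputable def n2996 : Strat := .move 1005 n1465 (.cons 1006 n2207 .nil)
noncomputable def n2997 : Strat := .move 1004 n2650 (.cons 1047 n2996 (.cons 1005 n2933 .nil))
noncomputable def n2998 : Strat := .move 920 n1964 (.cons 1042 n2994 (.cons 838 n2995 (.cons 879 n2997 .nil)))
noncomputable def n2999 : Strat := .move 963 n1357 (.cons 964 n2998 .nil)
noncomputable def n3000 : Strat := .move 963 n1417 (.cons 1000 n2998 .nil)
noncomputable def n3001 : Strat := .move 920 n2931 (.cons 1043 n1268 .nil)
noncomputable def n3002 : Strat := .move 1083 n1375 (.cons 1124 n3001 .nil)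
noncomputable def n3003 : Strat := .move 1042 n539 (.cons 1004 n3002 .nil)
noncomputable def n3004 : Strat := .move 1041 n2980 (.cons 1040 n3003 .nil)
noncomputable def n3005 : Strat := .move 1000 n2818 (.cons 999 n3004 .nil)
noncomputable def n3006 : Strat := .move 1001 n2989 (.cons 1000 n2999 (.cons 964 n3000 (.cons 963 n3005 .nil)))
noncomputable def n3007 : Strat := .move 920 n123 (.cons 1085 n174 .nil)
noncomputable def n3008 : Strat := .move 1044 n2864 (.cons 1045 n3007 .nil)
noncomputable def n3009 : Strat := .move 959 n2979 (.cons 958 n3008 .nil)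
noncomputable def n3010 : Strat := .move 1000 n2819 (.cons 963 n3009 .nil)
noncomputable def n3011 : Strat := .move 920 n174 (.cons 879 n123 .nil)
noncomputable def n3012 : Strat := .move 1045 n127 (.cons 1047 n934 .nil)
noncomputable def n3013 : Strat := .move 1044 n3011 (.cons 1085 n3012 .nil)
noncomputable def n3014 : Strat := .move 1046 n2967 (.cons 1045 n2969 (.cons 1088 n3013 (.cons 1047 n2973 .nil)))
noncomputable def n3015 : Strat := .move 923 n92 (.cons 882 n3014 .nil)
noncomputable def n3016 : Strat := .move 1005 n2962 (.cons 1006 n2964 (.cons 965 n2976 (.cons 1004 n3015 .nil)))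
noncomputable def n3017 : Strat := .move 964 n2882 (.cons 963 n3016 .nil)
noncomputable def n3018 : Strat := .move 1000 n2818 (.cons 999 n3009 .nil)
noncomputable def n3019 : Strat := .move 1001 n2820 (.cons 999 n3010 (.cons 1000 n3017 (.cons 963 n3018 .nil)))
noncomputable def n3020 : Strat := .move 1001 n1311 (.cons 1042 n2989 .nil)
noncomputable def n3021 : Strat := .move 1004 n3020 (.cons 964 n2821 (.cons 1001 n2993 .nil))
noncomputable def n3022 : Strat := .move 879 n282 (.cons 838 n3021 .nil)
noncomputable def n3023 : Strat := .win 1044 7 920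
noncomputable def n3024 : Strat := .move 1084 n1795 (.cons 1125 n2553 .nil)
noncomputable def n3025 : Strat := .move 1084 n1394 (.cons 1126 n2553 .nil)
noncomputable def n3026 : Strat := .move 963 n1417 (.cons 1000 n1351 .nil)
noncomputable def n3027 : Strat := .move 1041 n539 (.cons 1004 n250 .nil)
noncomputable def n3028 : Strat := .move 1001 n2896 (.cons 999 n3026 (.cons 963 n3027 .nil))
noncomputable def n3029 : Strat := .move 919 n1965 (.cons 878 n3028 .nil)
noncomputable def n3030 : Strat := .move 1042 n130 (.cons 1083 n3029 .nil)
noncomputable def n3031 : Strat := .move 1043 n2956 (.cons 1126 n3024 (.cons 1125 n3025 (.cons 1084 n3030 .nil)))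
noncomputable def n3032 : Strat := .move 1085 n3023 (.cons 1044 n3031 .nil)
noncomputable def n3033 : Strat := .move 920 n175 (.cons 1044 n3022 (.cons 879 n3032 .nil))
noncomputable def n3034 : Strat := .move 964 n48 (.cons 1001 n1325 .nil)
noncomputable def n3035 : Strat := .win 1001 5 959
noncomputable def n3036 : Strat := .move 1084 n1394 (.cons 1126 n1795 .nil)
noncomputable def n3037 : Strat := .move 1085 n1395 (.cons 1044 n3036 .nil)
noncomputable def n3038 : Strat := .win 999 2 999
noncomputable def n3039 : Strat := .move 1041 n3038 (.cons 999 n250 .nil)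
noncomputable def n3040 : Strat := .move 1042 n130 (.cons 1083 n3039 .nil)
noncomputable def n3041 : Strat := .move 1044 n1364 (.cons 1085 n3040 .nil)
noncomputable def n3042 : Strat := .move 1043 n3037 (.cons 1044 n2953 (.cons 1084 n3041 .nil))
noncomputable def n3043 : Strat := .move 920 n175 (.cons 1044 n2994 (.cons 879 n3042 .nil))
noncomputable def n3044 : Strat := .move 1000 n3035 (.cons 1001 n3043 .nil)
noncomputable def n3045 : Strat := .move 964 n1325 (.cons 965 n176 .nil)
noncomputable def n3046 : Strat := .move 963 n3034 (.cons 964 n3044 (.cons 1001 n3045 .nil))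
noncomputable def n3047 : Strat := .move 1002 n2941 (.cons 1001 n2961 (.cons 920 n2988 (.cons 1044 n3006 (.cons 1043 n3019 (.cons 1005 n3033 (.cons 1004 n3046 .nil))))))
noncomputable def n3048 : Strat := .move 1005 n1465 (.cons 1006 n2769 .nil)
noncomputable def n3049 : Strat := .move 1042 n1269 (.cons 1083 n222 .nil)
noncomputable def n3050 : Strat := .move 1001 n2848 (.cons 1000 n3049 .nil)
noncomputable def n3051 : Strat := .move 960 n1261 (.cons 959 n3050 .nil)
noncomputable def n3052 : Strat := .move 1005 n1465 (.cons 1006 n2850 .nil)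
noncomputable def n3053 : Strat := .move 1004 n3048 (.cons 1005 n3051 (.cons 960 n3052 .nil))
noncomputable def n3054 : Strat := .move 1044 n174 (.cons 879 n3053 .nil)
noncomputable def n3055 : Strat := .win 960 1 877
noncomputable def n3056 : Strat := .move 1041 n3055 (.cons 960 n2980 .nil)
noncomputable def n3057 : Strat := .move 919 n1362 (.cons 1043 n3056 .nil)
noncomputable def n3058 : Strat := .move 878 n286 (.cons 837 n3057 .nil)
noncomputable def n3059 : Strat := .move 1000 n2818 (.cons 999 n3058 .nil)
noncomputable def n3060 : Strat := .move 1001 n1311 (.cons 1042 n3059 .nil)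
noncomputable def n3061 : Strat := .move 879 n282 (.cons 838 n3060 .nil)
noncomputable def n3062 : Strat := .move 1041 n2717 (.cons 1001 n250 .nil)
noncomputable def n3063 : Strat := .move 1004 n131 (.cons 1005 n3062 .nil)
noncomputable def n3064 : Strat := .move 1042 n130 (.cons 1083 n3063 .nil)
noncomputable def n3065 : Strat := .move 1043 n2956 (.cons 1125 n3025 (.cons 1084 n3064 .nil))
noncomputable def n3066 : Strat := .move 1085 n3023 (.cons 1044 n3065 .nil)
noncomputable def n3067 : Strat := .move 920 n175 (.cons 1085 n3054 (.cons 1044 n3061 (.cons 879 n3066 .nil)))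
noncomputable def n3068 : Strat := .win 1005 2 960
noncomputable def n3069 : Strat := .move 1043 n1795 (.cons 1125 n1796 .nil)
noncomputable def n3070 : Strat := .win 1085 1 961
noncomputable def n3071 : Strat := .move 1000 n2864 (.cons 1045 n2818 .nil)
noncomputable def n3072 : Strat := .move 1001 n1622 (.cons 1041 n3071 .nil)
noncomputable def n3073 : Strat := .move 1044 n3070 (.cons 1085 n3072 .nil)
noncomputable def n3074 : Strat := .move 1125 n1619 (.cons 1043 n3073 .nil)
noncomputable def n3075 : Strat := .win 1044 0 1000
noncomputable def n3076 : Strat := .move 1045 n3075 (.cons 1044 n374 .nil)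
noncomputable def n3077 : Strat := .move 1000 n2818 (.cons 999 n3076 .nil)
noncomputable def n3078 : Strat := .move 878 n2080 (.cons 836 n1263 .nil)
noncomputable def n3079 : Strat := .move 1042 n2081 (.cons 918 n222 .nil)
noncomputable def n3080 : Strat := .move 877 n3078 (.cons 837 n3079 .nil)
noncomputable def n3081 : Strat := .move 1001 n3077 (.cons 1000 n3080 .nil)
noncomputable def n3082 : Strat := .move 919 n2286 (.cons 1043 n3081 .nil)
noncomputable def n3083 : Strat := .win 1042 4 1000
noncomputable def n3084 : Strat := .move 1041 n2980 (.cons 1040 n3083 .nil)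
noncomputable def n3085 : Strat := .move 1000 n2818 (.cons 999 n3084 .nil)
noncomputable def n3086 : Strat := .move 1083 n1376 (.cons 1125 n1375 .nil)
noncomputable def n3087 : Strat := .move 1042 n222 (.cons 1041 n3086 .nil)
noncomputable def n3088 : Strat := .move 1001 n3077 (.cons 1044 n3085 (.cons 1000 n3087 .nil))
noncomputable def n3089 : Strat := .move 1084 n3069 (.cons 919 n3074 (.cons 1125 n3082 (.cons 1043 n3088 .nil)))
noncomputable def n3090 : Strat := .move 1004 n3068 (.cons 1005 n3089 .nil)
noncomputable def n3091 : Strat := .win 1042 6 877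
noncomputable def n3092 : Strat := .win 836 6 836
noncomputable def n3093 : Strat := .move 877 n3091 (.cons 1042 n3092 .nil)
noncomputable def n3094 : Strat := .win 1083 7 918
noncomputable def n3095 : Strat := .move 1042 n3094 (.cons 1083 n2982 .nil)
noncomputable def n3096 : Strat := .win 1082 3 918
noncomputable def n3097 : Strat := .move 919 n2262 (.cons 878 n3096 .nil)
noncomputable def n3098 : Strat := .move 1041 n2980 (.cons 1040 n3097 .nil)
noncomputable def n3099 : Strat := .move 1001 n3093 (.cons 836 n3095 (.cons 1042 n3098 .nil))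
noncomputable def n3100 : Strat := .move 918 n718 (.cons 917 n3099 .nil)
noncomputable def n3101 : Strat := .move 1000 n825 (.cons 999 n3100 .nil)
noncomputable def n3102 : Strat := .move 959 n199 (.cons 958 n3101 .nil)
noncomputable def n3103 : Strat := .move 960 n1797 (.cons 959 n3090 (.cons 1004 n3102 .nil))
noncomputable def n3104 : Strat := .move 1001 n2818 (.cons 999 n2864 .nil)
noncomputable def n3105 : Strat := .move 919 n1966 (.cons 960 n1965 .nil)
noncomputable def n3106 : Strat := .move 1084 n1795 (.cons 1125 n3105 .nil)
noncomputable def n3107 : Strat := .move 1041 n250 (.cons 1040 n3038 .nil)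
noncomputable def n3108 : Strat := .move 1042 n130 (.cons 1083 n3107 .nil)
noncomputable def n3109 : Strat := .move 1043 n2953 (.cons 1124 n3106 (.cons 1084 n3108 .nil))
noncomputable def n3110 : Strat := .move 1001 n2864 (.cons 1045 n2953 .nil)
noncomputable def n3111 : Strat := .move 1084 n1966 (.cons 960 n1795 .nil)
noncomputable def n3112 : Strat := .move 919 n1965 (.cons 878 n3111 .nil)
noncomputable def n3113 : Strat := .move 1001 n2864 (.cons 1045 n3112 .nil)
noncomputable def n3114 : Strat := .win 1001 0 1000
noncomputable def n3115 : Strat := .win 1086 0 1042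
noncomputable def n3116 : Strat := .move 1042 n3115 (.cons 1086 n130 .nil)
noncomputable def n3117 : Strat := .win 1088 0 1043
noncomputable def n3118 : Strat := .move 1046 n3117 (.cons 1088 n127 .nil)
noncomputable def n3119 : Strat := .move 1087 n3116 (.cons 1083 n3118 .nil)
noncomputable def n3120 : Strat := .move 1045 n3114 (.cons 1001 n3119 .nil)
noncomputable def n3121 : Strat := .move 1045 n2953 (.cons 1084 n3119 (.cons 1042 n3106 .nil))
noncomputable def n3122 : Strat := .move 1043 n3110 (.cons 1124 n3113 (.cons 1084 n3120 (.cons 1001 n3121 (.cons 1045 n2953 .nil))))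
noncomputable def n3123 : Strat := .move 1000 n3104 (.cons 1001 n3109 (.cons 999 n3122 .nil))
noncomputable def n3124 : Strat := .move 1044 n123 (.cons 1085 n3123 .nil)
noncomputable def n3125 : Strat := .move 1044 n174 (.cons 879 n3123 .nil)
noncomputable def n3126 : Strat := .move 920 n175 (.cons 879 n3124 (.cons 1085 n3125 (.cons 1044 n2946 .nil)))
noncomputable def n3127 : Strat := .move 1000 n2818 (.cons 999 n2864 .nil)
noncomputable def n3128 : Strat := .move 1083 n1375 (.cons 1124 n2931 .nil)
noncomputable def n3129 : Strat := .move 1042 n539 (.cons 1004 n3128 .nil)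
noncomputable def n3130 : Strat := .move 1041 n2980 (.cons 1040 n3129 .nil)
noncomputable def n3131 : Strat := .move 1000 n2818 (.cons 999 n3130 .nil)
noncomputable def n3132 : Strat := .move 1000 n2864 (.cons 1045 n3130 .nil)
noncomputable def n3133 : Strat := .move 1042 n222 (.cons 1041 n3128 .nil)
noncomputable def n3134 : Strat := .move 1004 n2650 (.cons 1047 n2996 (.cons 1005 n3133 .nil))
noncomputable def n3135 : Strat := .move 1001 n3127 (.cons 1045 n3131 (.cons 999 n3132 (.cons 1000 n3134 .nil)))
noncomputable def n3136 : Strat := .move 920 n174 (.cons 879 n3135 .nil)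
noncomputable def n3137 : Strat := .win 1046 4 1042
noncomputable def n3138 : Strat := .move 1045 n3137 (.cons 1046 n1512 .nil)
noncomputable def n3139 : Strat := .move 1083 n1815 (.cons 1124 n3138 .nil)
noncomputable def n3140 : Strat := .move 1043 n1483 (.cons 1041 n1496 (.cons 1087 n3139 .nil))
noncomputable def n3141 : Strat := .move 1086 n211 (.cons 1127 n3140 .nil)
noncomputable def n3142 : Strat := .move 1084 n216 (.cons 1125 n3141 .nil)
noncomputable def n3143 : Strat := .move 1085 n2766 (.cons 1126 n3142 .nil)
noncomputable def n3144 : Strat := .move 1044 n2938 (.cons 1085 n3136 (.cons 920 n3143 .nil))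
noncomputable def n3145 : Strat := .move 1084 n1795 (.cons 1125 n1796 .nil)
noncomputable def n3146 : Strat := .move 1041 n250 (.cons 1040 n2717 .nil)
noncomputable def n3147 : Strat := .move 1042 n1816 (.cons 920 n3146 .nil)
noncomputable def n3148 : Strat := .move 1083 n1815 (.cons 1124 n3147 .nil)
noncomputable def n3149 : Strat := .move 1084 n1795 (.cons 1125 n3148 .nil)
noncomputable def n3150 : Strat := .move 1084 n1796 (.cons 919 n3148 .nil)
noncomputable def n3151 : Strat := .move 1042 n130 (.cons 1083 n3146 .nil)
noncomputable def n3152 : Strat := .move 879 n291 (.cons 1001 n282 .nil)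
noncomputable def n3153 : Strat := .move 1042 n130 (.cons 1083 n3152 .nil)
noncomputable def n3154 : Strat := .win 919 7 878
noncomputable def n3155 : Strat := .move 879 n286 (.cons 837 n282 .nil)
noncomputable def n3156 : Strat := .move 878 n3154 (.cons 919 n3155 .nil)
noncomputable def n3157 : Strat := .move 920 n3151 (.cons 1040 n3153 (.cons 1042 n3156 .nil))
noncomputable def n3158 : Strat := .move 1043 n3145 (.cons 919 n3149 (.cons 1125 n3150 (.cons 1084 n3157 .nil)))
noncomputable def n3159 : Strat := .move 1004 n3068 (.cons 1005 n3158 .nil)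
noncomputable def n3160 : Strat := .win 878 3 877
noncomputable def n3161 : Strat := .move 1041 n3160 (.cons 878 n3096 .nil)
noncomputable def n3162 : Strat := .win 1041 3 877
noncomputable def n3163 : Strat := .win 837 1 836
noncomputable def n3164 : Strat := .move 878 n3162 (.cons 1041 n3163 .nil)
noncomputable def n3165 : Strat := .win 1081 1 917
noncomputable def n3166 : Strat := .win 1001 4 999
noncomputable def n3167 : Strat := .move 1040 n3165 (.cons 1081 n3166 .nil)
noncomputable def n3168 : Strat := .move 1041 n3096 (.cons 1082 n3167 .nil)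
noncomputable def n3169 : Strat := .win 1001 6 878
noncomputable def n3170 : Strat := .move 1043 n3169 (.cons 1001 n1265 .nil)
noncomputable def n3171 : Strat := .move 878 n3163 (.cons 837 n3170 .nil)
noncomputable def n3172 : Strat := .move 919 n3161 (.cons 1082 n3164 (.cons 878 n3168 (.cons 1041 n3171 .nil)))
noncomputable def n3173 : Strat := .move 918 n718 (.cons 917 n3172 .nil)
noncomputable def n3174 : Strat := .move 1000 n825 (.cons 999 n3173 .nil)
noncomputable def n3175 : Strat := .move 959 n199 (.cons 958 n3174 .nil)
noncomputable def n3176 : Strat := .move 960 n1797 (.cons 959 n3159 (.cons 1004 n3175 .nil))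
noncomputable def n3177 : Strat := .move 1042 n1270 (.cons 920 n3077 .nil)
noncomputable def n3178 : Strat := .move 1000 n2818 (.cons 999 n3075 .nil)
noncomputable def n3179 : Strat := .move 1045 n374 (.cons 1046 n3178 .nil)
noncomputable def n3180 : Strat := .move 1044 n125 (.cons 1000 n3011 .nil)
noncomputable def n3181 : Strat := .move 1045 n374 (.cons 1046 n3180 .nil)
noncomputable def n3182 : Strat := .move 879 n1352 (.cons 838 n1310 .nil)
noncomputable def n3183 : Strat := .move 879 n1352 (.cons 838 n1311 .nil)
noncomputable def n3184 : Strat := .move 1084 n1796 (.cons 919 n1795 .nil)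
noncomputable def n3185 : Strat := .move 919 n1266 (.cons 878 n1265 .nil)
noncomputable def n3186 : Strat := .win 999 0 999
noncomputable def n3187 : Strat := .move 1000 n2864 (.cons 1045 n3186 .nil)
noncomputable def n3188 : Strat := .move 1044 n1364 (.cons 1085 n3187 .nil)
noncomputable def n3189 : Strat := .move 1043 n3184 (.cons 1125 n3185 (.cons 919 n3188 .nil))
noncomputable def n3190 : Strat := .move 920 n3182 (.cons 838 n2930 (.cons 1044 n3183 (.cons 879 n3189 .nil)))
noncomputable def n3191 : Strat := .move 1043 n1266 (.cons 878 n1288 .nil)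
noncomputable def n3192 : Strat := .move 878 n1263 (.cons 837 n2082 .nil)
noncomputable def n3193 : Strat := .move 1084 n1377 (.cons 1043 n3086 .nil)
noncomputable def n3194 : Strat := .move 919 n1264 (.cons 837 n3191 (.cons 1043 n3192 (.cons 878 n3193 .nil)))
noncomputable def n3195 : Strat := .win 920 1 878
noncomputable def n3196 : Strat := .move 878 n1290 (.cons 838 n1263 .nil)
noncomputable def n3197 : Strat := .move 879 n3195 (.cons 920 n3196 .nil)
noncomputable def n3198 : Strat := .move 918 n501 (.cons 917 n1943 .nil)
noncomputable def n3199 : Strat := .move 920 n1268 (.cons 879 n3198 .nil)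
noncomputable def n3200 : Strat := .move 919 n1264 (.cons 837 n3191 (.cons 1043 n3197 (.cons 878 n3199 .nil)))
noncomputable def n3201 : Strat := .move 1042 n1270 (.cons 920 n3194 (.cons 1083 n3200 .nil))
noncomputable def n3202 : Strat := .move 1001 n3177 (.cons 920 n3179 (.cons 999 n3181 (.cons 1046 n3190 (.cons 1044 n3201 .nil))))
noncomputable def n3203 : Strat := .move 1004 n3068 (.cons 1005 n3202 .nil)
noncomputable def n3204 : Strat := .move 1044 n2864 (.cons 1045 n3011 .nil)
noncomputable def n3205 : Strat := .move 1001 n3093 (.cons 836 n3095 (.cons 1042 n3204 .nil))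
noncomputable def n3206 : Strat := .move 918 n718 (.cons 917 n3205 .nil)
noncomputable def n3207 : Strat := .move 1000 n825 (.cons 999 n3206 .nil)
noncomputable def n3208 : Strat := .move 959 n199 (.cons 958 n3207 .nil)
noncomputable def n3209 : Strat := .move 960 n1797 (.cons 959 n3203 (.cons 1004 n3208 .nil))
noncomputable def n3210 : Strat := .move 1046 n376 (.cons 1001 n127 .nil)
noncomputable def n3211 : Strat := .win 1087 0 1042
noncomputable def n3212 : Strat := .move 1042 n3211 (.cons 1087 n132 .nil)
noncomputable def n3213 : Strat := .move 1043 n3184 (.cons 1125 n3212 .nil)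
noncomputable def n3214 : Strat := .move 1086 n1781 (.cons 1127 n3213 .nil)
noncomputable def n3215 : Strat := .move 1045 n375 (.cons 1000 n3210 (.cons 1046 n3214 .nil))
noncomputable def n3216 : Strat := .move 1044 n2938 (.cons 1085 n3215 .nil)
noncomputable def n3217 : Strat := .move 1004 n3068 (.cons 1005 n3216 .nil)
noncomputable def n3218 : Strat := .move 960 n1797 (.cons 959 n3217 (.cons 1004 n3175 .nil))
noncomputable def n3219 : Strat := .win 960 0 959
noncomputable def n3220 : Strat := .move 1000 n2818 (.cons 999 n2979 .nil)
noncomputable def n3221 : Strat := .move 920 n1268 (.cons 879 n2932 .nil)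
noncomputable def n3222 : Strat := .move 1042 n222 (.cons 1041 n3221 .nil)
noncomputable def n3223 : Strat := .move 1001 n3220 (.cons 1000 n3222 .nil)
noncomputable def n3224 : Strat := .move 959 n3219 (.cons 960 n3223 .nil)
noncomputable def n3225 : Strat := .move 1001 n222 (.cons 1041 n2963 .nil)
noncomputable def n3226 : Strat := .move 1042 n2099 (.cons 1043 n3225 .nil)
noncomputable def n3227 : Strat := .move 1005 n1465 (.cons 1006 n3226 .nil)
noncomputable def n3228 : Strat := .move 1004 n3048 (.cons 1005 n3224 (.cons 960 n3227 .nil))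
noncomputable def n3229 : Strat := .move 1042 n130 (.cons 1083 n132 .nil)
noncomputable def n3230 : Strat := .move 1043 n3229 (.cons 1041 n3184 .nil)
noncomputable def n3231 : Strat := .move 960 n1261 (.cons 959 n3230 .nil)
noncomputable def n3232 : Strat := .move 920 n174 (.cons 879 n3231 .nil)
noncomputable def n3233 : Strat := .move 960 n1796 (.cons 919 n1261 .nil)
noncomputable def n3234 : Strat := .move 1043 n3233 (.cons 959 n1483 .nil)
noncomputable def n3235 : Strat := .move 1086 n211 (.cons 1127 n3234 .nil)
noncomputable def n3236 : Strat := .move 1084 n216 (.cons 1125 n3235 .nil)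
noncomputable def n3237 : Strat := .move 1085 n2766 (.cons 1126 n3236 .nil)
noncomputable def n3238 : Strat := .move 1044 n2938 (.cons 1085 n3232 (.cons 920 n3237 .nil))
noncomputable def n3239 : Strat := .win 1045 4 1042
noncomputable def n3240 : Strat := .move 1083 n3239 (.cons 1045 n1815 .nil)
noncomputable def n3241 : Strat := .move 1046 n1624 (.cons 1047 n3240 .nil)
noncomputable def n3242 : Strat := .move 1084 n1795 (.cons 1125 n3241 .nil)
noncomputable def n3243 : Strat := .move 1043 n187 (.cons 1042 n3242 .nil)
noncomputable def n3244 : Strat := .move 1005 n1465 (.cons 1006 n3243 .nil)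
noncomputable def n3245 : Strat := .move 1044 n2938 (.cons 1085 n3244 .nil)
noncomputable def n3246 : Strat := .move 1004 n3048 (.cons 1005 n3238 (.cons 960 n3245 .nil))
noncomputable def n3247 : Strat := .move 959 n200 (.cons 1004 n3101 .nil)
noncomputable def n3248 : Strat := .win 919 1 877
noncomputable def n3249 : Strat := .move 1041 n3248 (.cons 919 n2980 .nil)
noncomputable def n3250 : Strat := .move 878 n286 (.cons 837 n3249 .nil)
noncomputable def n3251 : Strat := .move 1000 n2818 (.cons 999 n3250 .nil)
noncomputable def n3252 : Strat := .move 1001 n1311 (.cons 1042 n3251 .nil)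
noncomputable def n3253 : Strat := .move 879 n282 (.cons 838 n3252 .nil)
noncomputable def n3254 : Strat := .move 879 n1310 (.cons 1044 n3252 .nil)
noncomputable def n3255 : Strat := .move 1001 n2868 (.cons 1083 n3071 .nil)
noncomputable def n3256 : Strat := .move 1044 n123 (.cons 1085 n3255 .nil)
noncomputable def n3257 : Strat := .move 1004 n3068 (.cons 1005 n3256 .nil)
noncomputable def n3258 : Strat := .move 920 n2929 (.cons 1044 n3253 (.cons 838 n3254 (.cons 879 n3257 .nil)))
noncomputable def n3259 : Strat := .move 960 n1797 (.cons 1004 n3102 (.cons 958 n3247 (.cons 959 n3258 .nil)))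
noncomputable def n3260 : Strat := .move 960 n1261 (.cons 959 n3068 .nil)
noncomputable def n3261 : Strat := .move 1044 n1464 (.cons 920 n2766 .nil)
noncomputable def n3262 : Strat := .move 1001 n125 (.cons 1000 n374 .nil)
noncomputable def n3263 : Strat := .move 1083 n1512 (.cons 1082 n1815 .nil)
noncomputable def n3264 : Strat := .move 1043 n3263 (.cons 1124 n3233 .nil)
noncomputable def n3265 : Strat := .move 1045 n3262 (.cons 1046 n3264 .nil)
noncomputable def n3266 : Strat := .move 1084 n216 (.cons 1125 n3265 .nil)
noncomputable def n3267 : Strat := .move 1044 n2766 (.cons 1126 n3266 .nil)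
noncomputable def n3268 : Strat := .move 1044 n1464 (.cons 920 n3266 .nil)
noncomputable def n3269 : Strat := .move 1043 n1795 (.cons 1125 n1394 .nil)
noncomputable def n3270 : Strat := .move 960 n1261 (.cons 959 n1796 .nil)
noncomputable def n3271 : Strat := .move 1043 n1394 (.cons 1126 n3270 .nil)
noncomputable def n3272 : Strat := .move 1043 n1795 (.cons 1125 n3270 .nil)
noncomputable def n3273 : Strat := .move 1046 n1524 (.cons 1083 n376 .nil)
noncomputable def n3274 : Strat := .move 1045 n1781 (.cons 1127 n3273 .nil)
noncomputable def n3275 : Strat := .move 1125 n1826 (.cons 1126 n1690 .nil)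
noncomputable def n3276 : Strat := .move 1088 n1559 (.cons 1128 n3275 .nil)
noncomputable def n3277 : Strat := .move 1083 n1671 (.cons 1127 n1678 .nil)
noncomputable def n3278 : Strat := .move 1088 n3275 (.cons 1124 n1563 .nil)
noncomputable def n3279 : Strat := .move 1087 n3276 (.cons 1088 n3277 (.cons 1124 n1564 (.cons 1128 n3278 .nil)))
noncomputable def n3280 : Strat := .move 1045 n1524 (.cons 1083 n376 .nil)
noncomputable def n3281 : Strat := .move 1046 n1537 (.cons 1047 n3280 .nil)
noncomputable def n3282 : Strat := .move 1087 n3281 (.cons 1046 n3276 .nil)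
noncomputable def n3283 : Strat := .move 1046 n1537 (.cons 1047 n376 .nil)
noncomputable def n3284 : Strat := .move 1045 n1781 (.cons 1127 n3283 .nil)
noncomputable def n3285 : Strat := .move 1087 n3284 (.cons 1045 n3276 .nil)
noncomputable def n3286 : Strat := .win 1126 2 1084
noncomputable def n3287 : Strat := .move 1129 n3286 (.cons 1126 n2504 .nil)
noncomputable def n3288 : Strat := .move 1128 n2441 (.cons 1083 n3287 .nil)
noncomputable def n3289 : Strat := .move 1127 n1776 (.cons 1045 n3288 .nil)
noncomputable def n3290 : Strat := .move 1086 n3274 (.cons 1045 n3279 (.cons 1127 n3282 (.cons 1083 n3285 (.cons 1046 n3289 .nil))))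
noncomputable def n3291 : Strat := .move 1084 n3269 (.cons 1125 n3271 (.cons 1126 n3272 (.cons 1043 n3290 .nil)))
noncomputable def n3292 : Strat := .move 1085 n3261 (.cons 920 n3267 (.cons 1126 n3268 (.cons 1044 n3291 .nil)))
noncomputable def n3293 : Strat := .move 964 n2855 (.cons 965 n2887 .nil)
noncomputable def n3294 : Strat := .move 1046 n1624 (.cons 1047 n3293 .nil)
noncomputable def n3295 : Strat := .move 1005 n1465 (.cons 1006 n3294 .nil)
noncomputable def n3296 : Strat := .move 1085 n3261 (.cons 1044 n3295 .nil)
noncomputable def n3297 : Strat := .move 1004 n3260 (.cons 1005 n3292 (.cons 960 n3296 .nil))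
noncomputable def n3298 : Strat := .move 1002 n3067 (.cons 920 n3103 (.cons 1004 n3126 (.cons 960 n3144 (.cons 1044 n3176 (.cons 1041 n3209 (.cons 1083 n3218 (.cons 1084 n3228 (.cons 1001 n3246 (.cons 1043 n3259 (.cons 1042 n3297 .nil))))))))))
noncomputable def n3299 : Strat := .move 959 n200 (.cons 1004 n1407 .nil)
noncomputable def n3300 : Strat := .win 1000 4 958
noncomputable def n3301 : Strat := .win 998 4 957
noncomputable def n3302 : Strat := .move 999 n3300 (.cons 1000 n3301 .nil)
noncomputable def n3303 : Strat := .move 958 n1403 (.cons 1002 n3302 .nil)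
noncomputable def n3304 : Strat := .move 959 n200 (.cons 1004 n3303 .nil)
noncomputable def n3305 : Strat := .move 958 n1406 (.cons 916 n3302 .nil)
noncomputable def n3306 : Strat := .move 959 n200 (.cons 1004 n3305 .nil)
noncomputable def n3307 : Strat := .move 1042 n2982 (.cons 877 n3094 .nil)
noncomputable def n3308 : Strat := .move 1001 n2865 (.cons 963 n3307 .nil)
noncomputable def n3309 : Strat := .move 918 n718 (.cons 917 n3308 .nil)
noncomputable def n3310 : Strat := .move 1000 n825 (.cons 999 n3309 .nil)
noncomputable def n3311 : Strat := .move 959 n200 (.cons 1004 n3310 .nil)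
noncomputable def n3312 : Strat := .move 959 n1407 (.cons 958 n3310 (.cons 918 n3303 .nil))
noncomputable def n3313 : Strat := .move 919 n198 (.cons 918 n1272 .nil)
noncomputable def n3314 : Strat := .move 1001 n411 (.cons 1000 n3313 .nil)
noncomputable def n3315 : Strat := .move 1004 n1260 (.cons 1005 n3314 .nil)
noncomputable def n3316 : Strat := .win 966 4 962
noncomputable def n3317 : Strat := .move 924 n35 (.cons 925 n448 .nil)
noncomputable def n3318 : Strat := .move 965 n3316 (.cons 966 n3317 .nil)
noncomputable def n3319 : Strat := .move 964 n197 (.cons 920 n3318 .nil)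
noncomputable def n3320 : Strat := .move 919 n198 (.cons 918 n3319 .nil)
noncomputable def n3321 : Strat := .move 1004 n1260 (.cons 1005 n3320 .nil)
noncomputable def n3322 : Strat := .move 963 n1255 (.cons 1005 n1259 (.cons 964 n3315 (.cons 1002 n3321 .nil)))
noncomputable def n3323 : Strat := .move 960 n3299 (.cons 916 n3304 (.cons 1002 n3306 (.cons 958 n3311 (.cons 1004 n3312 (.cons 959 n3322 .nil)))))
noncomputable def n3324 : Strat := .move 918 n718 (.cons 917 n3093 .nil)
noncomputable def n3325 : Strat := .move 1002 n199 (.cons 958 n3324 .nil)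
noncomputable def n3326 : Strat := .move 1001 n2865 (.cons 963 n3325 .nil)
noncomputable def n3327 : Strat := .move 1000 n825 (.cons 999 n3326 .nil)
noncomputable def n3328 : Strat := .move 959 n200 (.cons 1004 n3327 .nil)
noncomputable def n3329 : Strat := .move 879 n282 (.cons 838 n2834 .nil)
noncomputable def n3330 : Strat := .move 920 n1351 (.cons 964 n3329 .nil)
noncomputable def n3331 : Strat := .move 919 n198 (.cons 918 n3330 .nil)
noncomputable def n3332 : Strat := .move 1004 n1261 (.cons 959 n3331 .nil)
noncomputable def n3333 : Strat := .move 1004 n1261 (.cons 959 n3320 .nil)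
noncomputable def n3334 : Strat := .move 879 n282 (.cons 838 n2826 .nil)
noncomputable def n3335 : Strat := .move 920 n1351 (.cons 964 n3334 .nil)
noncomputable def n3336 : Strat := .move 919 n198 (.cons 918 n3335 .nil)
noncomputable def n3337 : Strat := .move 963 n3332 (.cons 918 n1426 (.cons 1001 n3333 (.cons 1004 n3336 .nil)))
noncomputable def n3338 : Strat := .move 918 n718 (.cons 917 n3307 .nil)
noncomputable def n3339 : Strat := .move 1001 n2865 (.cons 963 n3338 .nil)
noncomputable def n3340 : Strat := .move 1000 n825 (.cons 999 n3339 .nil)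
noncomputable def n3341 : Strat := .move 959 n3327 (.cons 1000 n1407 (.cons 918 n3303 (.cons 958 n3340 .nil)))
noncomputable def n3342 : Strat := .move 1004 n1264 (.cons 837 n1267 (.cons 1043 n1271 .nil))
noncomputable def n3343 : Strat := .move 919 n198 (.cons 918 n3342 .nil)
noncomputable def n3344 : Strat := .move 1002 n1357 (.cons 964 n3343 .nil)
noncomputable def n3345 : Strat := .move 1001 n411 (.cons 1000 n3344 .nil)
noncomputable def n3346 : Strat := .move 1043 n1965 (.cons 878 n1265 .nil)
noncomputable def n3347 : Strat := .move 1002 n1310 (.cons 1044 n3346 .nil)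
noncomputable def n3348 : Strat := .move 879 n282 (.cons 838 n3347 .nil)
noncomputable def n3349 : Strat := .move 920 n1351 (.cons 964 n3348 .nil)
noncomputable def n3350 : Strat := .move 919 n198 (.cons 918 n3349 .nil)
noncomputable def n3351 : Strat := .move 1084 n1386 (.cons 919 n1795 .nil)
noncomputable def n3352 : Strat := .move 1043 n3351 (.cons 1125 n1384 (.cons 919 n540 .nil))
noncomputable def n3353 : Strat := .move 1042 n1269 (.cons 1083 n3352 .nil)
noncomputable def n3354 : Strat := .move 920 n3183 (.cons 1042 n3182 (.cons 879 n3353 .nil))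
noncomputable def n3355 : Strat := .move 1002 n1357 (.cons 964 n3354 .nil)
noncomputable def n3356 : Strat := .move 1001 n411 (.cons 1000 n3355 .nil)
noncomputable def n3357 : Strat := .move 879 n1311 (.cons 1042 n1310 .nil)
noncomputable def n3358 : Strat := .win 1043 5 999
noncomputable def n3359 : Strat := .move 1040 n3358 (.cons 1043 n1391 .nil)
noncomputable def n3360 : Strat := .move 1041 n539 (.cons 1004 n3359 .nil)
noncomputable def n3361 : Strat := .move 1042 n1269 (.cons 1083 n3360 .nil)
noncomputable def n3362 : Strat := .move 920 n3183 (.cons 838 n3357 (.cons 1042 n3182 (.cons 879 n3361 .nil)))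
noncomputable def n3363 : Strat := .move 1002 n1357 (.cons 964 n3362 .nil)
noncomputable def n3364 : Strat := .move 1001 n411 (.cons 1000 n3363 .nil)
noncomputable def n3365 : Strat := .move 879 n1311 (.cons 1042 n1352 .nil)
noncomputable def n3366 : Strat := .move 1042 n1269 (.cons 1083 n1268 .nil)
noncomputable def n3367 : Strat := .move 879 n1310 (.cons 1044 n1352 .nil)
noncomputable def n3368 : Strat := .move 1041 n539 (.cons 1004 n1388 .nil)
noncomputable def n3369 : Strat := .move 1042 n1269 (.cons 1083 n3368 .nil)
noncomputable def n3370 : Strat := .move 920 n3365 (.cons 838 n3366 (.cons 1042 n3367 (.cons 879 n3369 .nil)))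
noncomputable def n3371 : Strat := .move 1002 n3342 (.cons 1041 n1267 (.cons 1043 n3370 .nil))
noncomputable def n3372 : Strat := .move 1001 n411 (.cons 1000 n3371 .nil)
noncomputable def n3373 : Strat := .move 919 n198 (.cons 918 n3372 .nil)
noncomputable def n3374 : Strat := .move 963 n3345 (.cons 878 n1259 (.cons 1000 n3350 (.cons 918 n3356 (.cons 919 n3364 (.cons 1002 n3336 (.cons 964 n3373 (.cons 920 n1361 .nil)))))))
noncomputable def n3375 : Strat := .move 960 n3328 (.cons 1002 n3337 (.cons 1000 n3299 (.cons 1004 n3341 (.cons 959 n3374 (.cons 918 n3304 .nil)))))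
noncomputable def n3376 : Strat := .move 964 n2911 (.cons 1002 n172 .nil)
noncomputable def n3377 : Strat := .win 960 4 959
noncomputable def n3378 : Strat := .move 1000 n3377 (.cons 960 n1996 .nil)
noncomputable def n3379 : Strat := .move 1043 n2948 (.cons 1044 n1288 .nil)
noncomputable def n3380 : Strat := .move 1041 n1388 (.cons 1082 n3379 .nil)
noncomputable def n3381 : Strat := .move 1042 n1764 (.cons 1083 n3380 .nil)
noncomputable def n3382 : Strat := .move 919 n198 (.cons 918 n3381 .nil)
noncomputable def n3383 : Strat := .move 1004 n1260 (.cons 1005 n3382 .nil)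
noncomputable def n3384 : Strat := .move 960 n411 (.cons 1000 n3383 .nil)
noncomputable def n3385 : Strat := .move 920 n1964 (.cons 838 n3357 (.cons 1042 n2929 (.cons 879 n2935 .nil)))
noncomputable def n3386 : Strat := .move 1002 n1417 (.cons 1000 n3385 .nil)
noncomputable def n3387 : Strat := .move 960 n1260 (.cons 1005 n3313 .nil)
noncomputable def n3388 : Strat := .move 1002 n2890 (.cons 1042 n2963 .nil)
noncomputable def n3389 : Strat := .move 1005 n1465 (.cons 1006 n3388 .nil)
noncomputable def n3390 : Strat := .move 960 n1260 (.cons 1005 n3382 .nil)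
noncomputable def n3391 : Strat := .move 1042 n1763 (.cons 879 n1269 .nil)
noncomputable def n3392 : Strat := .move 879 n1306 (.cons 1042 n1352 .nil)
noncomputable def n3393 : Strat := .move 1042 n1269 (.cons 1083 n1762 .nil)
noncomputable def n3394 : Strat := .move 1044 n2811 (.cons 1002 n123 .nil)
noncomputable def n3395 : Strat := .move 879 n1352 (.cons 838 n3394 .nil)
noncomputable def n3396 : Strat := .move 920 n3391 (.cons 1083 n3392 (.cons 879 n3393 (.cons 1042 n3395 .nil)))
noncomputable def n3397 : Strat := .move 919 n198 (.cons 918 n3396 .nil)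
noncomputable def n3398 : Strat := .move 960 n1260 (.cons 1005 n3397 .nil)
noncomputable def n3399 : Strat := .move 1044 n1464 (.cons 920 n1463 .nil)
noncomputable def n3400 : Strat := .win 919 3 878
noncomputable def n3401 : Strat := .move 960 n3400 (.cons 919 n1269 .nil)
noncomputable def n3402 : Strat := .move 1042 n2085 (.cons 1002 n3401 .nil)
noncomputable def n3403 : Strat := .move 879 n282 (.cons 838 n3402 .nil)
noncomputable def n3404 : Strat := .move 920 n3023 (.cons 1044 n3403 .nil)
noncomputable def n3405 : Strat := .move 1086 n1782 (.cons 1126 n1781 .nil)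
noncomputable def n3406 : Strat := .move 1045 n374 (.cons 1046 n3405 .nil)
noncomputable def n3407 : Strat := .move 1042 n222 (.cons 1041 n3406 .nil)
noncomputable def n3408 : Strat := .move 1002 n3222 (.cons 1083 n3407 (.cons 1042 n3406 .nil))
noncomputable def n3409 : Strat := .move 1044 n1463 (.cons 1126 n211 .nil)
noncomputable def n3410 : Strat := .move 1126 n1779 (.cons 1044 n1778 .nil)
noncomputable def n3411 : Strat := .move 1086 n3409 (.cons 1127 n3410 (.cons 1044 n1783 (.cons 1126 n1777 .nil)))
noncomputable def n3412 : Strat := .move 1085 n3399 (.cons 1126 n3404 (.cons 1044 n3408 (.cons 920 n3411 .nil)))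
noncomputable def n3413 : Strat := .move 1004 n3387 (.cons 960 n3389 (.cons 1002 n3390 (.cons 1043 n3398 (.cons 1041 n2647 (.cons 1005 n3412 .nil)))))
noncomputable def n3414 : Strat := .move 1001 n3378 (.cons 1002 n3384 (.cons 960 n3386 (.cons 1000 n3413 .nil)))
noncomputable def n3415 : Strat := .move 1005 n622 (.cons 1004 n92 .nil)
noncomputable def n3416 : Strat := .move 923 n110 (.cons 924 n3415 .nil)
noncomputable def n3417 : Strat := .move 960 n198 (.cons 918 n3416 .nil)
noncomputable def n3418 : Strat := .move 919 n197 (.cons 920 n3417 .nil)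
noncomputable def n3419 : Strat := .move 960 n622 (.cons 1004 n198 .nil)
noncomputable def n3420 : Strat := .move 1005 n166 (.cons 1006 n3419 .nil)
noncomputable def n3421 : Strat := .move 919 n197 (.cons 920 n3420 .nil)
noncomputable def n3422 : Strat := .move 966 n144 (.cons 1004 n412 .nil)
noncomputable def n3423 : Strat := .move 965 n35 (.cons 925 n3422 .nil)
noncomputable def n3424 : Strat := .move 924 n448 (.cons 923 n3423 .nil)
noncomputable def n3425 : Strat := .move 960 n198 (.cons 918 n3424 .nil)
noncomputable def n3426 : Strat := .move 919 n197 (.cons 920 n3425 .nil)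
noncomputable def n3427 : Strat := .move 964 n172 (.cons 1006 n3418 (.cons 923 n3421 (.cons 1005 n3426 .nil)))
noncomputable def n3428 : Strat := .move 964 n2911 (.cons 1002 n3426 (.cons 965 n177 .nil))
noncomputable def n3429 : Strat := .move 964 n2911 (.cons 1002 n3418 .nil)
noncomputable def n3430 : Strat := .move 963 n3376 (.cons 964 n3414 (.cons 1002 n3427 (.cons 1005 n3428 (.cons 1006 n3429 .nil))))
noncomputable def n3431 : Strat := .move 963 n1260 (.cons 1005 n3314 .nil)
noncomputable def n3432 : Strat := .move 960 n1261 (.cons 959 n3431 .nil)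
noncomputable def n3433 : Strat := .move 960 n2777 (.cons 963 n2780 .nil)
noncomputable def n3434 : Strat := .move 1005 n1465 (.cons 1006 n3433 .nil)
noncomputable def n3435 : Strat := .move 1005 n1465 (.cons 1006 n2908 .nil)
noncomputable def n3436 : Strat := .move 963 n411 (.cons 1000 n3313 .nil)
noncomputable def n3437 : Strat := .move 963 n411 (.cons 1000 n3382 .nil)
noncomputable def n3438 : Strat := .move 1083 n1375 (.cons 1124 n1948 .nil)
noncomputable def n3439 : Strat := .move 1042 n222 (.cons 1041 n3438 .nil)
noncomputable def n3440 : Strat := .move 1002 n1264 (.cons 837 n1267 (.cons 1043 n3439 .nil))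
noncomputable def n3441 : Strat := .move 919 n198 (.cons 918 n3440 .nil)
noncomputable def n3442 : Strat := .move 963 n411 (.cons 1000 n3441 .nil)
noncomputable def n3443 : Strat := .move 1002 n1262 (.cons 1043 n1263 .nil)
noncomputable def n3444 : Strat := .move 1043 n1288 (.cons 1084 n1287 .nil)
noncomputable def n3445 : Strat := .move 1042 n1764 (.cons 1083 n1291 (.cons 879 n3444 .nil))
noncomputable def n3446 : Strat := .move 878 n3443 (.cons 837 n3445 (.cons 1043 n1282 (.cons 1002 n1286 .nil)))
noncomputable def n3447 : Strat := .move 919 n198 (.cons 918 n3446 .nil)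
noncomputable def n3448 : Strat := .move 963 n411 (.cons 1000 n3447 .nil)
noncomputable def n3449 : Strat := .move 963 n411 (.cons 1000 n3397 .nil)
noncomputable def n3450 : Strat := .move 1042 n1762 (.cons 1002 n1291 .nil)
noncomputable def n3451 : Strat := .move 878 n3443 (.cons 837 n3450 (.cons 1002 n1286 .nil))
noncomputable def n3452 : Strat := .move 919 n198 (.cons 918 n3451 .nil)
noncomputable def n3453 : Strat := .move 963 n411 (.cons 1000 n3452 .nil)
noncomputable def n3454 : Strat := .move 1042 n2085 (.cons 1002 n1269 .nil)
noncomputable def n3455 : Strat := .move 879 n1352 (.cons 838 n3454 .nil)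
noncomputable def n3456 : Strat := .move 1042 n3400 (.cons 919 n2085 .nil)
noncomputable def n3457 : Strat := .move 879 n1352 (.cons 838 n3456 .nil)
noncomputable def n3458 : Strat := .move 1044 n2873 (.cons 1043 n123 .nil)
noncomputable def n3459 : Strat := .move 1041 n1761 (.cons 1002 n3458 .nil)
noncomputable def n3460 : Strat := .move 1042 n1269 (.cons 1083 n3459 .nil)
noncomputable def n3461 : Strat := .move 1042 n3400 (.cons 919 n1269 .nil)
noncomputable def n3462 : Strat := .move 879 n1352 (.cons 838 n3461 .nil)
noncomputable def n3463 : Strat := .move 920 n3455 (.cons 1083 n3457 (.cons 879 n3460 (.cons 1042 n3395 (.cons 1002 n3462 .nil))))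
noncomputable def n3464 : Strat := .move 963 n411 (.cons 1000 n3463 .nil)
noncomputable def n3465 : Strat := .move 1002 n1311 (.cons 1042 n1310 .nil)
noncomputable def n3466 : Strat := .move 879 n1352 (.cons 838 n3465 .nil)
noncomputable def n3467 : Strat := .move 918 n1943 (.cons 877 n501 .nil)
noncomputable def n3468 : Strat := .move 919 n3467 (.cons 917 n1264 .nil)
noncomputable def n3469 : Strat := .move 1002 n222 (.cons 1041 n3468 .nil)
noncomputable def n3470 : Strat := .move 1042 n1269 (.cons 1083 n3469 .nil)
noncomputable def n3471 : Strat := .move 1044 n123 (.cons 1085 n2811 .nil)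
noncomputable def n3472 : Strat := .move 879 n1352 (.cons 838 n3471 .nil)
noncomputable def n3473 : Strat := .move 1042 n1269 (.cons 1083 n3400 .nil)
noncomputable def n3474 : Strat := .move 879 n1352 (.cons 838 n3473 .nil)
noncomputable def n3475 : Strat := .move 920 n3466 (.cons 879 n3470 (.cons 1042 n3472 (.cons 1002 n3474 .nil)))
noncomputable def n3476 : Strat := .move 1045 n374 (.cons 1046 n3075 .nil)
noncomputable def n3477 : Strat := .move 1002 n2818 (.cons 999 n3476 .nil)
noncomputable def n3478 : Strat := .move 1000 n2865 (.cons 963 n3477 .nil)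
noncomputable def n3479 : Strat := .move 1001 n3436 (.cons 1002 n3437 (.cons 879 n3442 (.cons 1041 n3448 (.cons 1043 n3449 (.cons 1083 n3453 (.cons 918 n3464 (.cons 963 n3475 (.cons 1042 n3478 .nil))))))))
noncomputable def n3480 : Strat := .move 960 n1261 (.cons 959 n3479 .nil)
noncomputable def n3481 : Strat := .move 1001 n2963 (.cons 1047 n2896 .nil)
noncomputable def n3482 : Strat := .move 1085 n1394 (.cons 1126 n3481 .nil)
noncomputable def n3483 : Strat := .move 1084 n1795 (.cons 1125 n3482 .nil)
noncomputable def n3484 : Strat := .move 1043 n187 (.cons 1042 n3483 .nil)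
noncomputable def n3485 : Strat := .win 1044 4 1042
noncomputable def n3486 : Strat := .move 1083 n3485 (.cons 1044 n1815 .nil)
noncomputable def n3487 : Strat := .move 1045 n376 (.cons 1001 n3486 .nil)
noncomputable def n3488 : Strat := .move 1046 n1624 (.cons 1047 n3487 .nil)
noncomputable def n3489 : Strat := .move 1084 n1795 (.cons 1125 n3488 .nil)
noncomputable def n3490 : Strat := .move 1043 n187 (.cons 1042 n3489 .nil)
noncomputable def n3491 : Strat := .move 1043 n187 (.cons 1042 n2898 .nil)
noncomputable def n3492 : Strat := .move 1001 n1625 (.cons 1045 n2820 .nil)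
noncomputable def n3493 : Strat := .move 1046 n1624 (.cons 1047 n3492 .nil)
noncomputable def n3494 : Strat := .move 1001 n222 (.cons 1041 n2820 .nil)
noncomputable def n3495 : Strat := .move 1042 n2099 (.cons 1043 n3494 .nil)
noncomputable def n3496 : Strat := .move 1085 n2767 (.cons 920 n2766 .nil)
noncomputable def n3497 : Strat := .move 920 n1364 (.cons 1085 n174 .nil)
noncomputable def n3498 : Strat := .move 1044 n3496 (.cons 1126 n3497 (.cons 1085 n3242 .nil))
noncomputable def n3499 : Strat := .move 1043 n187 (.cons 1042 n3498 .nil)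
noncomputable def n3500 : Strat := .move 1002 n3484 (.cons 963 n3490 (.cons 1084 n3491 (.cons 1043 n3493 (.cons 1046 n3495 (.cons 1001 n3499 .nil)))))
noncomputable def n3501 : Strat := .move 1005 n1465 (.cons 1006 n3500 .nil)
noncomputable def n3502 : Strat := .move 1004 n3432 (.cons 959 n3434 (.cons 963 n3435 (.cons 1002 n2847 (.cons 1005 n3480 (.cons 960 n3501 .nil)))))
noncomputable def n3503 : Strat := .win 963 2 918
noncomputable def n3504 : Strat := .move 878 n3163 (.cons 837 n3162 .nil)
noncomputable def n3505 : Strat := .move 1000 n825 (.cons 999 n3504 .nil)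
noncomputable def n3506 : Strat := .move 919 n3503 (.cons 963 n3505 .nil)
noncomputable def n3507 : Strat := .move 918 n718 (.cons 917 n3506 .nil)
noncomputable def n3508 : Strat := .move 959 n1407 (.cons 1002 n3305 (.cons 916 n3303 (.cons 958 n3507 .nil)))
noncomputable def n3509 : Strat := .move 959 n200 (.cons 1004 n3507 .nil)
noncomputable def n3510 : Strat := .move 1004 n1465 (.cons 1006 n2777 .nil)
noncomputable def n3511 : Strat := .move 1004 n1465 (.cons 1006 n2780 .nil)
noncomputable def n3512 : Strat := .move 963 n183 (.cons 882 n449 .nil)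
noncomputable def n3513 : Strat := .move 963 n166 (.cons 1006 n449 .nil)
noncomputable def n3514 : Strat := .move 1125 n1474 (.cons 1166 n1473 .nil)
noncomputable def n3515 : Strat := .move 1126 n1472 (.cons 1002 n3514 .nil)
noncomputable def n3516 : Strat := .move 1085 n1464 (.cons 920 n3515 .nil)
noncomputable def n3517 : Strat := .move 1127 n1506 (.cons 1168 n1505 .nil)
noncomputable def n3518 : Strat := .move 1126 n1472 (.cons 1002 n3517 .nil)
noncomputable def n3519 : Strat := .move 1085 n1464 (.cons 920 n3518 .nil)
noncomputable def n3520 : Strat := .move 1126 n3514 (.cons 1084 n3517 .nil)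
noncomputable def n3521 : Strat := .move 1085 n1464 (.cons 920 n3520 .nil)
noncomputable def n3522 : Strat := .move 1047 n356 (.cons 1002 n870 .nil)
noncomputable def n3523 : Strat := .move 1045 n934 (.cons 1086 n3522 .nil)
noncomputable def n3524 : Strat := .move 1046 n3523 (.cons 1045 n2969 (.cons 1088 n2973 .nil))
noncomputable def n3525 : Strat := .move 1044 n3516 (.cons 1166 n3519 (.cons 1002 n3521 (.cons 1085 n3524 .nil)))
noncomputable def n3526 : Strat := .move 923 n92 (.cons 882 n3525 .nil)
noncomputable def n3527 : Strat := .move 964 n2914 (.cons 1006 n3512 (.cons 882 n3513 (.cons 963 n3526 .nil)))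
noncomputable def n3528 : Strat := .move 1004 n2777 (.cons 963 n2780 .nil)
noncomputable def n3529 : Strat := .move 1005 n3510 (.cons 963 n3511 (.cons 1004 n3527 (.cons 1006 n3528 .nil)))
noncomputable def n3530 : Strat := .move 960 n3299 (.cons 1004 n3508 (.cons 917 n3304 (.cons 958 n3509 (.cons 959 n3529 .nil))))
noncomputable def n3531 : Strat := .move 1005 n1465 (.cons 1006 n2777 .nil)
noncomputable def n3532 : Strat := .move 1004 n1261 (.cons 959 n3531 .nil)
noncomputable def n3533 : Strat := .move 963 n2911 (.cons 965 n449 .nil)
noncomputable def n3534 : Strat := .move 1086 n211 (.cons 1127 n667 .nil)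
noncomputable def n3535 : Strat := .move 1085 n1464 (.cons 920 n3534 .nil)
noncomputable def n3536 : Strat := .move 1046 n3535 (.cons 1085 n2973 (.cons 1045 n2969 .nil))
noncomputable def n3537 : Strat := .move 1044 n3516 (.cons 1085 n3524 (.cons 1002 n3536 .nil))
noncomputable def n3538 : Strat := .move 923 n92 (.cons 882 n3537 .nil)
noncomputable def n3539 : Strat := .move 964 n2912 (.cons 1006 n3533 (.cons 965 n3513 (.cons 963 n3538 .nil)))
noncomputable def n3540 : Strat := .move 1005 n3510 (.cons 963 n3511 (.cons 1006 n3528 (.cons 1004 n3539 .nil)))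
noncomputable def n3541 : Strat := .move 878 n1263 (.cons 837 n3170 .nil)
noncomputable def n3542 : Strat := .move 919 n3503 (.cons 963 n3541 .nil)
noncomputable def n3543 : Strat := .move 918 n718 (.cons 917 n3542 .nil)
noncomputable def n3544 : Strat := .move 1002 n199 (.cons 958 n3543 .nil)
noncomputable def n3545 : Strat := .win 917 2 916
noncomputable def n3546 : Strat := .win 915 2 915
noncomputable def n3547 : Strat := .win 999 4 957
noncomputable def n3548 : Strat := .win 997 4 956
noncomputable def n3549 : Strat := .move 998 n3547 (.cons 999 n3548 .nil)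
noncomputable def n3550 : Strat := .move 957 n3546 (.cons 915 n3549 .nil)
noncomputable def n3551 : Strat := .move 916 n3545 (.cons 917 n3550 .nil)
noncomputable def n3552 : Strat := .move 958 n1403 (.cons 1002 n3551 .nil)
noncomputable def n3553 : Strat := .move 1042 n3094 (.cons 1083 n1943 .nil)
noncomputable def n3554 : Strat := .move 878 n1290 (.cons 838 n2942 .nil)
noncomputable def n3555 : Strat := .move 879 n1289 (.cons 920 n3554 .nil)
noncomputable def n3556 : Strat := .move 1042 n1943 (.cons 877 n3555 .nil)
noncomputable def n3557 : Strat := .win 877 6 836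
noncomputable def n3558 : Strat := .move 879 n1290 (.cons 838 n2942 .nil)
noncomputable def n3559 : Strat := .win 796 1 795
noncomputable def n3560 : Strat := .move 837 n1283 (.cons 795 n3559 .nil)
noncomputable def n3561 : Strat := .move 878 n3558 (.cons 880 n3560 .nil)
noncomputable def n3562 : Strat := .move 836 n3557 (.cons 877 n3561 .nil)
noncomputable def n3563 : Strat := .move 1042 n3094 (.cons 1083 n3555 .nil)
noncomputable def n3564 : Strat := .move 1001 n3553 (.cons 1083 n3556 (.cons 1042 n3562 (.cons 877 n3563 .nil)))
noncomputable def n3565 : Strat := .move 919 n3503 (.cons 963 n3564 .nil)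
noncomputable def n3566 : Strat := .move 918 n718 (.cons 917 n3565 .nil)
noncomputable def n3567 : Strat := .move 963 n1351 (.cons 964 n198 .nil)
noncomputable def n3568 : Strat := .move 919 n3567 (.cons 918 n3346 .nil)
noncomputable def n3569 : Strat := .move 1044 n123 (.cons 1085 n3568 .nil)
noncomputable def n3570 : Strat := .move 919 n3567 (.cons 918 n1358 .nil)
noncomputable def n3571 : Strat := .move 1001 n1311 (.cons 1042 n3570 .nil)
noncomputable def n3572 : Strat := .move 879 n282 (.cons 838 n3571 .nil)
noncomputable def n3573 : Strat := .move 920 n2929 (.cons 879 n3569 (.cons 1044 n3572 .nil))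
noncomputable def n3574 : Strat := .move 1002 n199 (.cons 958 n3573 .nil)
noncomputable def n3575 : Strat := .move 959 n3544 (.cons 918 n3552 (.cons 1002 n3566 (.cons 917 n3574 .nil)))
noncomputable def n3576 : Strat := .move 960 n3532 (.cons 959 n3540 (.cons 1005 n3299 (.cons 1004 n3575 .nil)))
noncomputable def n3577 : Strat := .move 1004 n1260 (.cons 1005 n3331 .nil)
noncomputable def n3578 : Strat := .move 963 n1454 (.cons 959 n3577 (.cons 1004 n3336 .nil))
noncomputable def n3579 : Strat := .move 1005 n622 (.cons 1004 n1335 .nil)
noncomputable def n3580 : Strat := .move 1001 n411 (.cons 1000 n3383 .nil)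
noncomputable def n3581 : Strat := .move 963 n3577 (.cons 1005 n3336 (.cons 919 n3579 (.cons 964 n3580 .nil)))
noncomputable def n3582 : Strat := .win 959 2 917
noncomputable def n3583 : Strat := .win 916 0 916
noncomputable def n3584 : Strat := .move 917 n3582 (.cons 959 n3583 .nil)
noncomputable def n3585 : Strat := .move 919 n3503 (.cons 963 n3584 .nil)
noncomputable def n3586 : Strat := .win 920 0 917
noncomputable def n3587 : Strat := .move 917 n3582 (.cons 959 n3586 .nil)
noncomputable def n3588 : Strat := .move 919 n3503 (.cons 963 n3587 .nil)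
noncomputable def n3589 : Strat := .move 917 n3583 (.cons 916 n3586 .nil)
noncomputable def n3590 : Strat := .move 919 n3503 (.cons 963 n3589 .nil)
noncomputable def n3591 : Strat := .move 1001 n2865 (.cons 963 n3095 .nil)
noncomputable def n3592 : Strat := .move 1000 n825 (.cons 999 n3591 .nil)
noncomputable def n3593 : Strat := .move 959 n718 (.cons 917 n3592 .nil)
noncomputable def n3594 : Strat := .move 919 n3503 (.cons 963 n3504 .nil)
noncomputable def n3595 : Strat := .move 1000 n825 (.cons 999 n3594 .nil)
noncomputable def n3596 : Strat := .move 1001 n3092 (.cons 836 n3091 .nil)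
noncomputable def n3597 : Strat := .win 1001 6 836
noncomputable def n3598 : Strat := .win 796 3 795
noncomputable def n3599 : Strat := .win 878 3 836
noncomputable def n3600 : Strat := .move 837 n3598 (.cons 796 n3599 .nil)
noncomputable def n3601 : Strat := .move 836 n3597 (.cons 1001 n3600 .nil)
noncomputable def n3602 : Strat := .win 794 7 794
noncomputable def n3603 : Strat := .win 876 7 835
noncomputable def n3604 : Strat := .move 835 n3602 (.cons 794 n3603 .nil)
noncomputable def n3605 : Strat := .move 836 n3600 (.cons 878 n3604 .nil)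
noncomputable def n3606 : Strat := .win 1001 6 877
noncomputable def n3607 : Strat := .win 919 3 877
noncomputable def n3608 : Strat := .win 837 3 836
noncomputable def n3609 : Strat := .move 878 n3607 (.cons 919 n3608 .nil)
noncomputable def n3610 : Strat := .move 1041 n2981 (.cons 1083 n3609 .nil)
noncomputable def n3611 : Strat := .move 1042 n3606 (.cons 1001 n3610 .nil)
noncomputable def n3612 : Strat := .move 877 n3596 (.cons 1042 n3601 (.cons 1001 n3605 (.cons 836 n3611 .nil)))
noncomputable def n3613 : Strat := .move 1000 n825 (.cons 999 n3612 .nil)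
noncomputable def n3614 : Strat := .move 959 n3595 (.cons 1000 n3565 (.cons 919 n3592 (.cons 963 n3613 .nil)))
noncomputable def n3615 : Strat := .move 959 n718 (.cons 917 n3613 .nil)
noncomputable def n3616 : Strat := .move 918 n3585 (.cons 916 n3588 (.cons 959 n3590 (.cons 919 n3593 (.cons 917 n3614 (.cons 963 n3615 .nil)))))
noncomputable def n3617 : Strat := .move 960 n3578 (.cons 959 n3581 (.cons 963 n3306 (.cons 918 n3532 (.cons 1004 n3616 .nil))))
noncomputable def n3618 : Strat := .move 958 n1406 (.cons 917 n3302 .nil)
noncomputable def n3619 : Strat := .move 959 n3327 (.cons 1000 n3544 (.cons 1001 n1407 (.cons 1002 n3618 (.cons 918 n3303 (.cons 958 n3340 .nil)))))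
noncomputable def n3620 : Strat := .move 965 n143 (.cons 1002 n787 .nil)
noncomputable def n3621 : Strat := .move 964 n197 (.cons 920 n3620 .nil)
noncomputable def n3622 : Strat := .move 919 n198 (.cons 918 n3621 .nil)
noncomputable def n3623 : Strat := .win 879 1 837
noncomputable def n3624 : Strat := .move 1005 n92 (.cons 882 n166 .nil)
noncomputable def n3625 : Strat := .move 923 n110 (.cons 924 n3624 .nil)
noncomputable def n3626 : Strat := .move 838 n3623 (.cons 879 n3625 .nil)
noncomputable def n3627 : Strat := .move 920 n173 (.cons 919 n3626 .nil)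
noncomputable def n3628 : Strat := .move 964 n410 (.cons 1002 n3627 .nil)
noncomputable def n3629 : Strat := .move 1001 n411 (.cons 1000 n3628 .nil)
noncomputable def n3630 : Strat := .move 1005 n166 (.cons 1006 n92 .nil)
noncomputable def n3631 : Strat := .move 923 n110 (.cons 924 n3630 .nil)
noncomputable def n3632 : Strat := .move 964 n410 (.cons 1002 n3631 .nil)
noncomputable def n3633 : Strat := .move 1001 n411 (.cons 1000 n3632 .nil)
noncomputable def n3634 : Strat := .win 880 2 836
noncomputable def n3635 : Strat := .move 837 n3634 (.cons 880 n1283 .nil)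
noncomputable def n3636 : Strat := .move 836 n1284 (.cons 877 n3635 .nil)
noncomputable def n3637 : Strat := .move 879 n1290 (.cons 838 n3636 .nil)
noncomputable def n3638 : Strat := .move 1002 n1310 (.cons 1044 n1262 .nil)
noncomputable def n3639 : Strat := .move 920 n1306 (.cons 1042 n3638 .nil)
noncomputable def n3640 : Strat := .move 879 n1290 (.cons 838 n3639 .nil)
noncomputable def n3641 : Strat := .move 878 n1278 (.cons 1002 n3637 (.cons 837 n3640 .nil))
noncomputable def n3642 : Strat := .move 1001 n411 (.cons 1000 n3641 .nil)
noncomputable def n3643 : Strat := .move 919 n198 (.cons 918 n3642 .nil)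
noncomputable def n3644 : Strat := .move 963 n1259 (.cons 1001 n3622 (.cons 1002 n1356 (.cons 918 n3629 (.cons 920 n1361 (.cons 919 n3633 (.cons 964 n3643 .nil))))))
noncomputable def n3645 : Strat := .move 919 n2262 (.cons 878 n1388 .nil)
noncomputable def n3646 : Strat := .win 1002 4 999
noncomputable def n3647 : Strat := .move 1040 n3646 (.cons 1002 n3165 .nil)
noncomputable def n3648 : Strat := .move 1041 n3645 (.cons 1082 n3647 .nil)
noncomputable def n3649 : Strat := .move 1042 n2982 (.cons 877 n3648 .nil)
noncomputable def n3650 : Strat := .move 878 n3248 (.cons 919 n3608 .nil)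
noncomputable def n3651 : Strat := .win 1123 3 959
noncomputable def n3652 : Strat := .win 919 3 918
noncomputable def n3653 : Strat := .move 1082 n3651 (.cons 1123 n3652 .nil)
noncomputable def n3654 : Strat := .move 1041 n3097 (.cons 1082 n3650 (.cons 878 n3653 (.cons 919 n3647 .nil)))
noncomputable def n3655 : Strat := .move 877 n3092 (.cons 836 n3654 .nil)
noncomputable def n3656 : Strat := .move 1042 n3094 (.cons 1083 n3648 .nil)
noncomputable def n3657 : Strat := .move 1001 n3307 (.cons 1083 n3649 (.cons 1042 n3655 (.cons 877 n3656 .nil)))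
noncomputable def n3658 : Strat := .move 918 n718 (.cons 917 n3657 .nil)
noncomputable def n3659 : Strat := .move 1000 n825 (.cons 999 n3658 .nil)
noncomputable def n3660 : Strat := .move 959 n1407 (.cons 916 n3303 (.cons 1002 n3305 (.cons 958 n3659 .nil)))
noncomputable def n3661 : Strat := .move 1001 n2865 (.cons 963 n3324 .nil)
noncomputable def n3662 : Strat := .move 1000 n825 (.cons 999 n3661 .nil)
noncomputable def n3663 : Strat := .move 1002 n199 (.cons 958 n3662 .nil)
noncomputable def n3664 : Strat := .move 959 n3663 (.cons 1000 n1407 (.cons 917 n3303 (.cons 958 n3340 .nil)))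
noncomputable def n3665 : Strat := .move 1001 n1311 (.cons 1042 n2867 .nil)
noncomputable def n3666 : Strat := .move 1002 n1310 (.cons 1044 n3665 .nil)
noncomputable def n3667 : Strat := .move 963 n1351 (.cons 964 n411 .nil)
noncomputable def n3668 : Strat := .move 1001 n1306 (.cons 1042 n3667 .nil)
noncomputable def n3669 : Strat := .move 919 n2814 (.cons 882 n3668 .nil)
noncomputable def n3670 : Strat := .move 878 n1362 (.cons 1043 n1263 .nil)
noncomputable def n3671 : Strat := .move 919 n2814 (.cons 882 n3670 .nil)
noncomputable def n3672 : Strat := .move 1002 n1310 (.cons 1044 n3671 .nil)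
noncomputable def n3673 : Strat := .move 880 n3666 (.cons 1002 n3669 (.cons 1000 n3672 .nil))
noncomputable def n3674 : Strat := .move 879 n282 (.cons 838 n3673 .nil)
noncomputable def n3675 : Strat := .move 1042 n1269 (.cons 1083 n2085 .nil)
noncomputable def n3676 : Strat := .move 879 n1352 (.cons 838 n3675 .nil)
noncomputable def n3677 : Strat := .move 1001 n411 (.cons 1000 n3676 .nil)
noncomputable def n3678 : Strat := .move 1002 n1310 (.cons 1044 n1311 .nil)
noncomputable def n3679 : Strat := .move 879 n1352 (.cons 838 n3678 .nil)
noncomputable def n3680 : Strat := .move 1001 n411 (.cons 1000 n3679 .nil)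
noncomputable def n3681 : Strat := .move 1001 n411 (.cons 1000 n3474 .nil)
noncomputable def n3682 : Strat := .move 879 n3675 (.cons 1002 n3473 (.cons 1083 n3678 (.cons 1042 n3471 .nil)))
noncomputable def n3683 : Strat := .move 1001 n411 (.cons 1000 n3682 .nil)
noncomputable def n3684 : Strat := .move 1001 n411 (.cons 1000 n3472 .nil)
noncomputable def n3685 : Strat := .move 879 n282 (.cons 838 n3471 .nil)
noncomputable def n3686 : Strat := .win 919 5 916
noncomputable def n3687 : Strat := .move 916 n3546 (.cons 915 n3545 .nil)
noncomputable def n3688 : Strat := .move 957 n3686 (.cons 919 n3687 .nil)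
noncomputable def n3689 : Strat := .move 958 n1403 (.cons 1002 n3688 .nil)
noncomputable def n3690 : Strat := .move 959 n825 (.cons 999 n3689 .nil)
noncomputable def n3691 : Strat := .move 1000 n826 (.cons 1001 n3690 .nil)
noncomputable def n3692 : Strat := .move 963 n3677 (.cons 1083 n3680 (.cons 1002 n3681 (.cons 838 n3683 (.cons 1042 n3684 (.cons 1001 n3685 (.cons 879 n3691 .nil))))))
noncomputable def n3693 : Strat := .win 998 5 957
noncomputable def n3694 : Strat := .win 959 4 958
noncomputable def n3695 : Strat := .move 999 n3693 (.cons 998 n3694 .nil)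
noncomputable def n3696 : Strat := .move 1000 n2865 (.cons 963 n3695 .nil)
noncomputable def n3697 : Strat := .move 1042 n3400 (.cons 919 n3696 .nil)
noncomputable def n3698 : Strat := .move 1001 n3473 (.cons 1083 n3697 (.cons 1042 n3696 .nil))
noncomputable def n3699 : Strat := .move 879 n2811 (.cons 1002 n3698 .nil)
noncomputable def n3700 : Strat := .move 1044 n123 (.cons 1085 n3699 .nil)
noncomputable def n3701 : Strat := .move 1042 n2085 (.cons 1002 n3400 .nil)
noncomputable def n3702 : Strat := .move 999 n3694 (.cons 959 n3693 .nil)
noncomputable def n3703 : Strat := .move 1000 n2865 (.cons 963 n3702 .nil)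
noncomputable def n3704 : Strat := .move 1001 n3675 (.cons 1083 n3701 (.cons 1002 n3473 (.cons 1042 n3703 .nil)))
noncomputable def n3705 : Strat := .move 879 n282 (.cons 838 n3704 .nil)
noncomputable def n3706 : Strat := .move 1044 n123 (.cons 1085 n3698 .nil)
noncomputable def n3707 : Strat := .move 879 n282 (.cons 838 n3706 .nil)
noncomputable def n3708 : Strat := .move 964 n173 (.cons 919 n2911 .nil)
noncomputable def n3709 : Strat := .move 964 n173 (.cons 919 n3620 .nil)
noncomputable def n3710 : Strat := .move 964 n173 (.cons 919 n3625 .nil)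
noncomputable def n3711 : Strat := .move 1000 n826 (.cons 1001 n3710 .nil)
noncomputable def n3712 : Strat := .move 1001 n411 (.cons 1000 n3625 .nil)
noncomputable def n3713 : Strat := .move 964 n2911 (.cons 1001 n3620 (.cons 965 n450 (.cons 1002 n3712 .nil)))
noncomputable def n3714 : Strat := .move 963 n3708 (.cons 964 n3691 (.cons 1001 n3709 (.cons 1002 n3711 (.cons 919 n3713 .nil))))
noncomputable def n3715 : Strat := .move 920 n3674 (.cons 964 n3692 (.cons 1001 n3685 (.cons 838 n3700 (.cons 1044 n3705 (.cons 1002 n3707 (.cons 879 n3714 .nil))))))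
noncomputable def n3716 : Strat := .move 960 n3619 (.cons 1002 n3616 (.cons 959 n3644 (.cons 1001 n3508 (.cons 963 n3660 (.cons 919 n3664 (.cons 1000 n3575 (.cons 918 n3715 .nil)))))))
noncomputable def n3717 : Strat := .move 961 n2880 (.cons 920 n2928 (.cons 960 n3047 (.cons 963 n3298 (.cons 1044 n3323 (.cons 1005 n3375 (.cons 959 n3430 (.cons 964 n3502 (.cons 1001 n3530 (.cons 1000 n3576 (.cons 1002 n3617 (.cons 1004 n3716 .nil)))))))))))
noncomputable def n3718 : Strat := .move 921 n214 (.cons 879 n2776 (.cons 1086 n2794 (.cons 1085 n2798 (.cons 961 n2808 .nil))))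
noncomputable def n3719 : Strat := .win 921 6 921
noncomputable def n3720 : Strat := .win 1168 7 1003
noncomputable def n3721 : Strat := .move 1127 n1578 (.cons 1004 n3720 .nil)
noncomputable def n3722 : Strat := .move 1086 n3719 (.cons 921 n3721 .nil)
noncomputable def n3723 : Strat := .win 1004 0 1001
noncomputable def n3724 : Strat := .move 1046 n127 (.cons 1047 n3723 .nil)
noncomputable def n3725 : Strat := .move 1001 n125 (.cons 1000 n3724 .nil)
noncomputable def n3726 : Strat := .win 921 1 920
noncomputable def n3727 : Strat := .move 1084 n3726 (.cons 921 n1795 .nil)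
noncomputable def n3728 : Strat := .win 1083 4 1042
noncomputable def n3729 : Strat := .move 1084 n1795 (.cons 1125 n3728 .nil)
noncomputable def n3730 : Strat := .move 1084 n3726 (.cons 921 n3728 .nil)
noncomputable def n3731 : Strat := .win 1169 7 1004
noncomputable def n3732 : Strat := .win 963 7 963
noncomputable def n3733 : Strat := .move 1128 n3731 (.cons 1169 n3732 .nil)
noncomputable def n3734 : Strat := .move 1087 n3117 (.cons 1088 n3733 .nil)
noncomputable def n3735 : Strat := .move 1004 n187 (.cons 1042 n3734 .nil)
noncomputable def n3736 : Strat := .move 1005 n230 (.cons 1006 n3735 .nil)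
noncomputable def n3737 : Strat := .move 1043 n3727 (.cons 921 n3729 (.cons 1125 n3730 (.cons 1084 n3736 .nil)))
noncomputable def n3738 : Strat := .move 1046 n127 (.cons 1047 n3737 .nil)
noncomputable def n3739 : Strat := .move 1043 n124 (.cons 1046 n3727 .nil)
noncomputable def n3740 : Strat := .move 1001 n125 (.cons 1000 n3739 .nil)
noncomputable def n3741 : Strat := .win 961 2 960
noncomputable def n3742 : Strat := .move 960 n3741 (.cons 961 n1620 .nil)
noncomputable def n3743 : Strat := .move 1005 n2099 (.cons 1043 n3742 .nil)
noncomputable def n3744 : Strat := .move 1042 n222 (.cons 1041 n3743 .nil)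
noncomputable def n3745 : Strat := .win 963 5 960
noncomputable def n3746 : Strat := .move 1005 n2855 (.cons 965 n3742 .nil)
noncomputable def n3747 : Strat := .move 964 n3745 (.cons 963 n3746 .nil)
noncomputable def n3748 : Strat := .move 1005 n2855 (.cons 965 n2207 .nil)
noncomputable def n3749 : Strat := .move 964 n3745 (.cons 963 n3748 .nil)
noncomputable def n3750 : Strat := .win 1043 4 1041
noncomputable def n3751 : Strat := .move 1082 n1378 (.cons 1123 n3750 .nil)
noncomputable def n3752 : Strat := .move 1083 n3751 (.cons 1043 n2661 .nil)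
noncomputable def n3753 : Strat := .move 960 n1620 (.cons 959 n3752 .nil)
noncomputable def n3754 : Strat := .move 1042 n222 (.cons 1041 n3753 .nil)
noncomputable def n3755 : Strat := .move 1004 n3744 (.cons 1042 n3747 (.cons 961 n3749 (.cons 1005 n3754 .nil)))
noncomputable def n3756 : Strat := .move 1001 n125 (.cons 1000 n3755 .nil)
noncomputable def n3757 : Strat := .move 1002 n3725 (.cons 1001 n3738 (.cons 1047 n3740 (.cons 1046 n3756 .nil)))
noncomputable def n3758 : Strat := .move 1042 n3211 (.cons 1087 n373 .nil)
noncomputable def n3759 : Strat := .move 1002 n124 (.cons 1046 n2763 .nil)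
noncomputable def n3760 : Strat := .move 1001 n366 (.cons 1000 n3759 .nil)
noncomputable def n3761 : Strat := .move 1042 n373 (.cons 1004 n3760 .nil)
noncomputable def n3762 : Strat := .move 1042 n3211 (.cons 1087 n3760 .nil)
noncomputable def n3763 : Strat := .move 1002 n127 (.cons 1047 n128 .nil)
noncomputable def n3764 : Strat := .move 1002 n128 (.cons 1001 n3729 .nil)
noncomputable def n3765 : Strat := .move 1002 n127 (.cons 1047 n3729 .nil)
noncomputable def n3766 : Strat := .move 1047 n361 (.cons 1007 n359 .nil)
noncomputable def n3767 : Strat := .move 1006 n362 (.cons 1005 n3766 .nil)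
noncomputable def n3768 : Strat := .move 1046 n3763 (.cons 1047 n3764 (.cons 1001 n3765 (.cons 1002 n3767 .nil)))
noncomputable def n3769 : Strat := .move 1043 n3758 (.cons 1087 n3761 (.cons 1004 n3762 (.cons 1042 n3768 .nil)))
noncomputable def n3770 : Strat := .move 1042 n3211 (.cons 1087 n397 .nil)
noncomputable def n3771 : Strat := .move 960 n1376 (.cons 1125 n1386 .nil)
noncomputable def n3772 : Strat := .move 1001 n366 (.cons 1000 n3771 .nil)
noncomputable def n3773 : Strat := .move 1084 n3137 (.cons 1046 n3772 .nil)
noncomputable def n3774 : Strat := .move 1083 n225 (.cons 1082 n3773 .nil)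
noncomputable def n3775 : Strat := .move 1042 n3211 (.cons 1087 n3774 .nil)
noncomputable def n3776 : Strat := .win 1084 4 1042
noncomputable def n3777 : Strat := .move 1047 n356 (.cons 1002 n363 .nil)
noncomputable def n3778 : Strat := .move 1046 n3776 (.cons 1084 n3777 .nil)
noncomputable def n3779 : Strat := .move 1083 n225 (.cons 1082 n3778 .nil)
noncomputable def n3780 : Strat := .move 1042 n3211 (.cons 1087 n3779 .nil)
noncomputable def n3781 : Strat := .win 1001 2 1000
noncomputable def n3782 : Strat := .move 1041 n3038 (.cons 999 n253 .nil)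
noncomputable def n3783 : Strat := .move 1000 n3781 (.cons 1001 n3782 .nil)
noncomputable def n3784 : Strat := .move 1042 n3211 (.cons 1087 n3783 .nil)
noncomputable def n3785 : Strat := .win 1168 3 1004
noncomputable def n3786 : Strat := .win 1087 1 963
noncomputable def n3787 : Strat := .win 923 1 922
noncomputable def n3788 : Strat := .move 964 n3786 (.cons 1087 n3787 .nil)
noncomputable def n3789 : Strat := .move 1127 n3785 (.cons 1168 n3788 .nil)
noncomputable def n3790 : Strat := .move 1005 n230 (.cons 1006 n3789 .nil)
noncomputable def n3791 : Strat := .move 1046 n3763 (.cons 1002 n3790 .nil)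
noncomputable def n3792 : Strat := .win 1002 5 999
noncomputable def n3793 : Strat := .win 1080 4 1039
noncomputable def n3794 : Strat := .win 1082 4 1040
noncomputable def n3795 : Strat := .move 1081 n3793 (.cons 1080 n3794 .nil)
noncomputable def n3796 : Strat := .move 1040 n3792 (.cons 1002 n3795 .nil)
noncomputable def n3797 : Strat := .move 1041 n3038 (.cons 999 n3796 .nil)
noncomputable def n3798 : Strat := .move 1000 n3781 (.cons 1001 n3797 .nil)
noncomputable def n3799 : Strat := .move 1000 n3114 (.cons 1001 n3107 .nil)
noncomputable def n3800 : Strat := .move 1084 n3728 (.cons 1083 n1795 .nil)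
noncomputable def n3801 : Strat := .move 1046 n127 (.cons 1047 n3800 .nil)
noncomputable def n3802 : Strat := .move 1000 n3107 (.cons 999 n3801 .nil)
noncomputable def n3803 : Strat := .move 1002 n221 (.cons 1000 n129 (.cons 1046 n3799 (.cons 1001 n3802 .nil)))
noncomputable def n3804 : Strat := .move 1042 n3760 (.cons 1001 n3779 (.cons 1002 n3774 (.cons 1083 n3798 (.cons 1082 n3803 .nil))))
noncomputable def n3805 : Strat := .move 1043 n3762 (.cons 1124 n3770 (.cons 1002 n3775 (.cons 1001 n3780 (.cons 1046 n3784 (.cons 1042 n3791 (.cons 1087 n3804 .nil))))))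
noncomputable def n3806 : Strat := .move 1086 n3721 (.cons 1127 n3769 (.cons 1004 n3805 .nil))
noncomputable def n3807 : Strat := .move 1086 n3719 (.cons 921 n3805 .nil)
noncomputable def n3808 : Strat := .move 1045 n3722 (.cons 1086 n3757 (.cons 921 n3806 (.cons 1004 n3807 .nil)))
noncomputable def n3809 : Strat := .move 961 n1464 (.cons 920 n1771 .nil)
noncomputable def n3810 : Strat := .win 963 6 963
noncomputable def n3811 : Strat := .move 1004 n3731 (.cons 1169 n3810 .nil)
noncomputable def n3812 : Strat := .move 1128 n1484 (.cons 1129 n3811 .nil)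
noncomputable def n3813 : Strat := .move 1045 n1524 (.cons 1083 n3812 .nil)
noncomputable def n3814 : Strat := .move 1046 n1537 (.cons 1047 n3813 .nil)
noncomputable def n3815 : Strat := .move 1087 n1536 (.cons 1043 n3814 .nil)
noncomputable def n3816 : Strat := .move 1084 n216 (.cons 1125 n3815 .nil)
noncomputable def n3817 : Strat := .move 1086 n211 (.cons 1127 n3816 .nil)
noncomputable def n3818 : Strat := .move 1085 n3809 (.cons 1002 n3817 (.cons 1086 n1477 .nil))
noncomputable def n3819 : Strat := .move 1046 n1525 (.cons 1047 n1524 .nil)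
noncomputable def n3820 : Strat := .move 1045 n3719 (.cons 921 n3819 .nil)
noncomputable def n3821 : Strat := .move 1084 n216 (.cons 1125 n3820 .nil)
noncomputable def n3822 : Strat := .move 1086 n211 (.cons 1127 n3821 .nil)
noncomputable def n3823 : Strat := .win 1002 7 1002
noncomputable def n3824 : Strat := .win 1208 7 1043
noncomputable def n3825 : Strat := .move 1167 n3823 (.cons 1002 n3824 .nil)
noncomputable def n3826 : Strat := .win 963 3 962
noncomputable def n3827 : Strat := .move 1042 n132 (.cons 1041 n1489 .nil)
noncomputable def n3828 : Strat := .move 1004 n3826 (.cons 963 n3827 .nil)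
noncomputable def n3829 : Strat := .win 1045 3 1003
noncomputable def n3830 : Strat := .move 1004 n3826 (.cons 963 n3829 .nil)
noncomputable def n3831 : Strat := .move 1167 n3824 (.cons 1208 n3830 .nil)
noncomputable def n3832 : Strat := .move 1126 n3825 (.cons 1167 n3828 (.cons 1002 n3831 .nil))
noncomputable def n3833 : Strat := .move 1043 n3726 (.cons 921 n3832 .nil)
noncomputable def n3834 : Strat := .move 1084 n216 (.cons 1125 n3833 .nil)
noncomputable def n3835 : Strat := .win 1167 3 1003
noncomputable def n3836 : Strat := .win 963 1 962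
noncomputable def n3837 : Strat := .move 1126 n3835 (.cons 1167 n3836 .nil)
noncomputable def n3838 : Strat := .move 1043 n346 (.cons 1005 n3211 .nil)
noncomputable def n3839 : Strat := .move 1004 n3837 (.cons 963 n3838 .nil)
noncomputable def n3840 : Strat := .move 1042 n1566 (.cons 1041 n3839 .nil)
noncomputable def n3841 : Strat := .move 1083 n1512 (.cons 1082 n3840 .nil)
noncomputable def n3842 : Strat := .win 1042 0 1042
noncomputable def n3843 : Strat := .move 1043 n3842 (.cons 1042 n3117 .nil)
noncomputable def n3844 : Strat := .move 1087 n3843 (.cons 1088 n3812 .nil)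
noncomputable def n3845 : Strat := .move 1046 n1525 (.cons 1047 n3844 .nil)
noncomputable def n3846 : Strat := .move 1084 n3819 (.cons 1046 n3841 (.cons 1083 n3845 .nil))
noncomputable def n3847 : Strat := .move 1045 n3719 (.cons 921 n3846 .nil)
noncomputable def n3848 : Strat := .move 1086 n211 (.cons 1127 n3847 .nil)
noncomputable def n3849 : Strat := .move 1045 n3819 (.cons 1046 n3841 (.cons 1083 n3845 .nil))
noncomputable def n3850 : Strat := .move 1084 n216 (.cons 1125 n3849 .nil)
noncomputable def n3851 : Strat := .move 1086 n211 (.cons 1127 n3850 .nil)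
noncomputable def n3852 : Strat := .win 1125 1 1002
noncomputable def n3853 : Strat := .win 1207 1 1043
noncomputable def n3854 : Strat := .move 1166 n3852 (.cons 1125 n3853 .nil)
noncomputable def n3855 : Strat := .move 1167 n3829 (.cons 1045 n3854 .nil)
noncomputable def n3856 : Strat := .move 1004 n3826 (.cons 963 n3855 .nil)
noncomputable def n3857 : Strat := .move 1126 n1506 (.cons 1168 n3856 .nil)
noncomputable def n3858 : Strat := .move 1127 n1505 (.cons 1086 n3857 .nil)
noncomputable def n3859 : Strat := .move 1126 n1506 (.cons 1168 n1475 .nil)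
noncomputable def n3860 : Strat := .move 1127 n1505 (.cons 1086 n3859 .nil)
noncomputable def n3861 : Strat := .move 1085 n3822 (.cons 1086 n3834 (.cons 1125 n3848 (.cons 921 n3851 (.cons 1084 n3858 (.cons 1045 n3860 .nil)))))
noncomputable def n3862 : Strat := .move 1086 n211 (.cons 1127 n1598 .nil)
noncomputable def n3863 : Strat := .move 1043 n3726 (.cons 921 n3862 .nil)
noncomputable def n3864 : Strat := .move 1084 n216 (.cons 1125 n3863 .nil)
noncomputable def n3865 : Strat := .move 961 n1464 (.cons 920 n3864 .nil)
noncomputable def n3866 : Strat := .move 1085 n1477 (.cons 961 n3860 (.cons 1125 n3809 (.cons 1126 n3865 .nil)))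
noncomputable def n3867 : Strat := .move 920 n122 (.cons 879 n209 .nil)
noncomputable def n3868 : Strat := .move 921 n217 (.cons 1125 n3867 .nil)
noncomputable def n3869 : Strat := .move 1086 n211 (.cons 1127 n3868 .nil)
noncomputable def n3870 : Strat := .move 963 n167 (.cons 960 n1463 .nil)
noncomputable def n3871 : Strat := .move 1005 n1465 (.cons 1006 n3870 .nil)
noncomputable def n3872 : Strat := .move 1167 n3829 (.cons 1045 n3824 .nil)
noncomputable def n3873 : Strat := .move 1126 n3826 (.cons 963 n3872 .nil)
noncomputable def n3874 : Strat := .win 1045 5 1001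
noncomputable def n3875 : Strat := .move 1042 n3874 (.cons 1045 n132 .nil)
noncomputable def n3876 : Strat := .move 1005 n1465 (.cons 1006 n3875 .nil)
noncomputable def n3877 : Strat := .win 1209 6 1044
noncomputable def n3878 : Strat := .win 1127 6 1003
noncomputable def n3879 : Strat := .move 1168 n3877 (.cons 1209 n3878 .nil)
noncomputable def n3880 : Strat := .move 1167 n3824 (.cons 1208 n3879 .nil)
noncomputable def n3881 : Strat := .move 1126 n3872 (.cons 1208 n3876 (.cons 1045 n3880 .nil))
noncomputable def n3882 : Strat := .move 1004 n2779 (.cons 959 n3871 (.cons 1005 n3873 (.cons 963 n3881 .nil)))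
noncomputable def n3883 : Strat := .move 961 n1464 (.cons 920 n3882 .nil)
noncomputable def n3884 : Strat := .move 1043 n3726 (.cons 921 n3883 .nil)
noncomputable def n3885 : Strat := .move 1084 n216 (.cons 1125 n3884 .nil)
noncomputable def n3886 : Strat := .move 1046 n1525 (.cons 1047 n3728 .nil)
noncomputable def n3887 : Strat := .move 1041 n543 (.cons 1004 n1802 .nil)
noncomputable def n3888 : Strat := .move 1042 n3115 (.cons 1086 n3887 .nil)
noncomputable def n3889 : Strat := .move 1087 n3117 (.cons 1088 n3888 .nil)
noncomputable def n3890 : Strat := .move 1046 n1525 (.cons 1047 n3889 .nil)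
noncomputable def n3891 : Strat := .move 1046 n3728 (.cons 1083 n3889 .nil)
noncomputable def n3892 : Strat := .win 1086 0 1041
noncomputable def n3893 : Strat := .move 1041 n3892 (.cons 1086 n1802 .nil)
noncomputable def n3894 : Strat := .move 1086 n3211 (.cons 1087 n1482 .nil)
noncomputable def n3895 : Strat := .move 1126 n3835 (.cons 1167 n3826 .nil)
noncomputable def n3896 : Strat := .move 1004 n346 (.cons 1005 n3895 .nil)
noncomputable def n3897 : Strat := .move 1042 n3893 (.cons 1040 n3894 (.cons 1086 n3887 (.cons 1041 n3896 .nil)))
noncomputable def n3898 : Strat := .move 1083 n1512 (.cons 1082 n3897 .nil)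
noncomputable def n3899 : Strat := .move 1045 n3886 (.cons 1083 n3890 (.cons 1047 n3891 (.cons 1046 n3898 .nil)))
noncomputable def n3900 : Strat := .move 1043 n3726 (.cons 921 n3899 .nil)
noncomputable def n3901 : Strat := .move 1084 n216 (.cons 1125 n3900 .nil)
noncomputable def n3902 : Strat := .move 921 n210 (.cons 1045 n122 .nil)
noncomputable def n3903 : Strat := .move 920 n209 (.cons 961 n3902 .nil)
noncomputable def n3904 : Strat := .move 1086 n211 (.cons 1127 n3903 .nil)
noncomputable def n3905 : Strat := .move 1085 n3822 (.cons 1045 n3869 (.cons 1086 n3885 (.cons 1127 n3901 (.cons 1084 n3904 (.cons 921 n3817 .nil)))))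
noncomputable def n3906 : Strat := .move 1126 n1472 (.cons 1002 n3856 .nil)
noncomputable def n3907 : Strat := .move 961 n1464 (.cons 920 n3906 .nil)
noncomputable def n3908 : Strat := .move 1085 n3809 (.cons 961 n3858 (.cons 1127 n3907 (.cons 1126 n3904 .nil)))
noncomputable def n3909 : Strat := .move 1045 n121 (.cons 1086 n135 .nil)
noncomputable def n3910 : Strat := .move 1043 n120 (.cons 1084 n3909 .nil)
noncomputable def n3911 : Strat := .move 961 n123 (.cons 1085 n3910 .nil)
noncomputable def n3912 : Strat := .move 920 n122 (.cons 879 n3911 .nil)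
noncomputable def n3913 : Strat := .move 1004 n3835 (.cons 1167 n3826 .nil)
noncomputable def n3914 : Strat := .move 1126 n1474 (.cons 1166 n3913 .nil)
noncomputable def n3915 : Strat := .move 1125 n1473 (.cons 1084 n3914 .nil)
noncomputable def n3916 : Strat := .move 1085 n209 (.cons 961 n3915 .nil)
noncomputable def n3917 : Strat := .move 920 n122 (.cons 879 n3916 .nil)
noncomputable def n3918 : Strat := .move 1045 n121 (.cons 1086 n3917 .nil)
noncomputable def n3919 : Strat := .move 1043 n126 (.cons 1000 n129 (.cons 1046 n134 .nil))
noncomputable def n3920 : Strat := .move 1046 n128 (.cons 1001 n127 .nil)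
noncomputable def n3921 : Strat := .move 918 n501 (.cons 917 n81 .nil)
noncomputable def n3922 : Strat := .move 919 n1965 (.cons 878 n3921 .nil)
noncomputable def n3923 : Strat := .move 1043 n3920 (.cons 1047 n126 (.cons 1001 n3922 .nil))
noncomputable def n3924 : Strat := .move 1043 n134 (.cons 1042 n3922 .nil)
noncomputable def n3925 : Strat := .move 1046 n3723 (.cons 1004 n127 .nil)
noncomputable def n3926 : Strat := .move 1001 n125 (.cons 1000 n3925 .nil)
noncomputable def n3927 : Strat := .move 1002 n3919 (.cons 1041 n3923 (.cons 1046 n3924 (.cons 1043 n3926 .nil)))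
noncomputable def n3928 : Strat := .move 1045 n121 (.cons 1086 n3927 .nil)
noncomputable def n3929 : Strat := .move 961 n123 (.cons 1085 n3928 .nil)
noncomputable def n3930 : Strat := .move 920 n122 (.cons 879 n3929 .nil)
noncomputable def n3931 : Strat := .move 1043 n120 (.cons 1084 n2791 .nil)
noncomputable def n3932 : Strat := .move 961 n123 (.cons 1085 n3931 .nil)
noncomputable def n3933 : Strat := .move 920 n122 (.cons 879 n3932 .nil)
noncomputable def n3934 : Strat := .move 1000 n3038 (.cons 999 n3781 .nil)
noncomputable def n3935 : Strat := .move 1041 n543 (.cons 1004 n3934 .nil)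
noncomputable def n3936 : Strat := .move 1041 n3934 (.cons 1001 n253 .nil)
noncomputable def n3937 : Strat := .move 1046 n230 (.cons 1006 n2803 .nil)
noncomputable def n3938 : Strat := .move 1005 n2802 (.cons 1004 n3937 .nil)
noncomputable def n3939 : Strat := .move 1042 n373 (.cons 1005 n3935 (.cons 1004 n3936 (.cons 1041 n3938 .nil)))
noncomputable def n3940 : Strat := .move 1045 n121 (.cons 1086 n3939 .nil)
noncomputable def n3941 : Strat := .move 1043 n120 (.cons 1084 n3940 .nil)
noncomputable def n3942 : Strat := .move 920 n122 (.cons 879 n3941 .nil)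
noncomputable def n3943 : Strat := .move 1085 n216 (.cons 1125 n3867 .nil)
noncomputable def n3944 : Strat := .move 1084 n215 (.cons 1043 n3943 .nil)
noncomputable def n3945 : Strat := .move 1043 n120 (.cons 1084 n261 .nil)
noncomputable def n3946 : Strat := .move 1045 n121 (.cons 1086 n3945 .nil)
noncomputable def n3947 : Strat := .move 921 n3912 (.cons 1043 n3918 (.cons 1084 n3930 (.cons 879 n2776 (.cons 1086 n3933 (.cons 961 n3942 (.cons 1004 n3944 (.cons 920 n3946 .nil)))))))
noncomputable def n3948 : Strat := .move 1004 n3068 (.cons 1005 n1261 .nil)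
noncomputable def n3949 : Strat := .move 960 n1796 (.cons 919 n3948 .nil)
noncomputable def n3950 : Strat := .move 1002 n1921 (.cons 958 n3949 (.cons 960 n3139 .nil))
noncomputable def n3951 : Strat := .move 961 n1464 (.cons 920 n3950 .nil)
noncomputable def n3952 : Strat := .move 1043 n3726 (.cons 921 n3951 .nil)
noncomputable def n3953 : Strat := .move 1084 n216 (.cons 1125 n3952 .nil)
noncomputable def n3954 : Strat := .move 1000 n2864 (.cons 1045 n2819 .nil)
noncomputable def n3955 : Strat := .move 919 n198 (.cons 918 n1264 .nil)
noncomputable def n3956 : Strat := .move 960 n201 (.cons 1004 n3955 .nil)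
noncomputable def n3957 : Strat := .move 963 n1357 (.cons 964 n3956 .nil)
noncomputable def n3958 : Strat := .move 1001 n3071 (.cons 1045 n2820 (.cons 999 n3954 (.cons 1000 n3957 .nil)))
noncomputable def n3959 : Strat := .move 1002 n2766 (.cons 1126 n3958 .nil)
noncomputable def n3960 : Strat := .move 961 n1464 (.cons 920 n3959 .nil)
noncomputable def n3961 : Strat := .move 1085 n1477 (.cons 961 n3834 (.cons 1126 n3953 (.cons 1002 n3885 (.cons 1084 n3907 (.cons 1125 n3960 .nil)))))
noncomputable def n3962 : Strat := .move 1044 n3718 (.cons 1085 n3808 (.cons 921 n3818 (.cons 961 n3861 (.cons 1045 n3866 (.cons 1002 n3905 (.cons 1084 n3908 (.cons 1127 n3947 (.cons 1086 n3961 .nil))))))))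
noncomputable def n3963 : Strat := .move 1085 n211 (.cons 1127 n217 .nil)
noncomputable def n3964 : Strat := .move 1086 n210 (.cons 1045 n3963 .nil)
noncomputable def n3965 : Strat := .win 920 7 879
noncomputable def n3966 : Strat := .move 1004 n392 (.cons 1048 n2799 .nil)
noncomputable def n3967 : Strat := .move 1047 n359 (.cons 1087 n3966 .nil)
noncomputable def n3968 : Strat := .move 1005 n230 (.cons 1006 n3967 .nil)
noncomputable def n3969 : Strat := .move 1005 n230 (.cons 1006 n2802 .nil)
noncomputable def n3970 : Strat := .move 1042 n347 (.cons 1041 n3969 (.cons 1005 n3935 (.cons 1004 n3936 .nil)))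
noncomputable def n3971 : Strat := .win 1004 2 1003
noncomputable def n3972 : Strat := .win 1088 0 1044
noncomputable def n3973 : Strat := .move 1089 n941 (.cons 1090 n3972 .nil)
noncomputable def n3974 : Strat := .move 1048 n3971 (.cons 1004 n3973 .nil)
noncomputable def n3975 : Strat := .win 1006 5 1003
noncomputable def n3976 : Strat := .move 1048 n1074 (.cons 1008 n3971 .nil)
noncomputable def n3977 : Strat := .move 1007 n3975 (.cons 1006 n3976 .nil)
noncomputable def n3978 : Strat := .move 1047 n359 (.cons 1087 n3974 (.cons 1089 n3977 .nil))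
noncomputable def n3979 : Strat := .move 1042 n346 (.cons 1005 n132 .nil)
noncomputable def n3980 : Strat := .move 1004 n392 (.cons 1048 n3979 .nil)
noncomputable def n3981 : Strat := .move 1047 n359 (.cons 1087 n3980 .nil)
noncomputable def n3982 : Strat := .move 1046 n3968 (.cons 1089 n3970 (.cons 1042 n3767 (.cons 1005 n3978 (.cons 1006 n3981 .nil))))
noncomputable def n3983 : Strat := .move 1043 n120 (.cons 1084 n3982 .nil)
noncomputable def n3984 : Strat := .move 879 n3965 (.cons 920 n3983 .nil)
noncomputable def n3985 : Strat := .move 1045 n121 (.cons 1086 n3984 .nil)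
noncomputable def n3986 : Strat := .move 1044 n214 (.cons 1086 n219 (.cons 879 n3964 (.cons 1085 n3985 .nil)))
noncomputable def n3987 : Strat := .move 921 n73 (.cons 880 n3986 .nil)
noncomputable def n3988 : Strat := .move 921 n73 (.cons 880 n219 .nil)
noncomputable def n3989 : Strat := .move 1126 n1475 (.cons 1166 n1507 .nil)
noncomputable def n3990 : Strat := .move 961 n1464 (.cons 920 n3989 .nil)
noncomputable def n3991 : Strat := .move 1045 n1512 (.cons 1082 n1511 .nil)
noncomputable def n3992 : Strat := .move 1042 n3211 (.cons 1087 n1482 .nil)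
noncomputable def n3993 : Strat := .move 1087 n1479 (.cons 1088 n3842 .nil)
noncomputable def n3994 : Strat := .move 1043 n3992 (.cons 1041 n3993 (.cons 1087 n1516 .nil))
noncomputable def n3995 : Strat := .move 1045 n1512 (.cons 1082 n3994 .nil)
noncomputable def n3996 : Strat := .move 1043 n1481 (.cons 1087 n1516 .nil)
noncomputable def n3997 : Strat := .move 1042 n1566 (.cons 1041 n3996 .nil)
noncomputable def n3998 : Strat := .move 1083 n3991 (.cons 1046 n3995 (.cons 1045 n3997 .nil))
noncomputable def n3999 : Strat := .move 1086 n211 (.cons 1127 n3998 .nil)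
noncomputable def n4000 : Strat := .move 1084 n216 (.cons 1125 n3999 .nil)
noncomputable def n4001 : Strat := .move 961 n1476 (.cons 1002 n3989 (.cons 1166 n1771 (.cons 1126 n4000 .nil)))
noncomputable def n4002 : Strat := .move 961 n1464 (.cons 920 n4000 .nil)
noncomputable def n4003 : Strat := .move 1083 n1592 (.cons 1045 n2197 .nil)
noncomputable def n4004 : Strat := .move 1046 n1537 (.cons 1047 n4003 .nil)
noncomputable def n4005 : Strat := .win 1043 0 1043
noncomputable def n4006 : Strat := .move 1088 n1528 (.cons 1089 n4005 .nil)
noncomputable def n4007 : Strat := .move 1045 n1524 (.cons 1083 n4006 .nil)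
noncomputable def n4008 : Strat := .move 1046 n1537 (.cons 1047 n4007 .nil)
noncomputable def n4009 : Strat := .move 1087 n1752 (.cons 1043 n4004 (.cons 1042 n4008 .nil))
noncomputable def n4010 : Strat := .move 1086 n211 (.cons 1127 n4009 .nil)
noncomputable def n4011 : Strat := .move 1084 n216 (.cons 1125 n4010 .nil)
noncomputable def n4012 : Strat := .move 1085 n1477 (.cons 1166 n3809 (.cons 1002 n3990 (.cons 920 n4001 (.cons 1126 n4002 (.cons 961 n4011 .nil)))))
noncomputable def n4013 : Strat := .move 921 n73 (.cons 880 n214 .nil)
noncomputable def n4014 : Strat := .move 1085 n217 (.cons 1043 n212 .nil)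
noncomputable def n4015 : Strat := .move 920 n122 (.cons 879 n4014 .nil)
noncomputable def n4016 : Strat := .move 921 n73 (.cons 880 n4015 .nil)
noncomputable def n4017 : Strat := .move 1002 n250 (.cons 1040 n3920 .nil)
noncomputable def n4018 : Strat := .move 1041 n251 (.cons 1081 n4017 .nil)
noncomputable def n4019 : Strat := .move 1082 n252 (.cons 1083 n4018 .nil)
noncomputable def n4020 : Strat := .move 1046 n365 (.cons 1002 n364 .nil)
noncomputable def n4021 : Strat := .move 1001 n366 (.cons 1000 n4020 .nil)
noncomputable def n4022 : Strat := .win 1000 2 999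
noncomputable def n4023 : Strat := .win 998 2 998
noncomputable def n4024 : Strat := .move 1040 n4023 (.cons 998 n3792 .nil)
noncomputable def n4025 : Strat := .move 999 n4022 (.cons 1000 n4024 .nil)
noncomputable def n4026 : Strat := .move 1041 n251 (.cons 1081 n4025 .nil)
noncomputable def n4027 : Strat := .move 1082 n252 (.cons 1083 n4026 .nil)
noncomputable def n4028 : Strat := .move 1042 n397 (.cons 1000 n4019 (.cons 1002 n3783 (.cons 1082 n4021 (.cons 1001 n4027 .nil))))
noncomputable def n4029 : Strat := .move 1043 n120 (.cons 1084 n4028 .nil)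
noncomputable def n4030 : Strat := .move 1045 n121 (.cons 1086 n4029 .nil)
noncomputable def n4031 : Strat := .move 921 n73 (.cons 880 n4030 .nil)
noncomputable def n4032 : Strat := .move 1044 n3988 (.cons 921 n4012 (.cons 1043 n4013 (.cons 961 n4016 (.cons 920 n4031 .nil))))
noncomputable def n4033 : Strat := .move 1046 n230 (.cons 1006 n127 .nil)
noncomputable def n4034 : Strat := .move 1042 n4033 (.cons 1047 n254 .nil)
noncomputable def n4035 : Strat := .move 1005 n249 (.cons 1006 n255 (.cons 1004 n4034 (.cons 1042 n258 .nil)))
noncomputable def n4036 : Strat := .move 1002 n221 (.cons 1046 n246 (.cons 1000 n247 (.cons 1001 n4035 .nil)))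
noncomputable def n4037 : Strat := .move 1045 n121 (.cons 1086 n4036 .nil)
noncomputable def n4038 : Strat := .move 1043 n120 (.cons 1084 n4037 .nil)
noncomputable def n4039 : Strat := .move 1085 n216 (.cons 1125 n212 .nil)
noncomputable def n4040 : Strat := .move 1084 n215 (.cons 1043 n4039 .nil)
noncomputable def n4041 : Strat := .win 961 7 961
noncomputable def n4042 : Strat := .win 1043 7 1002
noncomputable def n4043 : Strat := .move 1167 n4042 (.cons 1043 n3853 .nil)
noncomputable def n4044 : Strat := .move 1166 n3852 (.cons 1125 n4043 .nil)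
noncomputable def n4045 : Strat := .move 963 n1555 (.cons 1004 n4044 .nil)
noncomputable def n4046 : Strat := .move 1002 n4041 (.cons 961 n4045 .nil)
noncomputable def n4047 : Strat := .move 1126 n1506 (.cons 1168 n4046 .nil)
noncomputable def n4048 : Strat := .move 1127 n1505 (.cons 1086 n4047 .nil)
noncomputable def n4049 : Strat := .win 1167 7 1002
noncomputable def n4050 : Strat := .move 1043 n120 (.cons 1084 n4049 .nil)
noncomputable def n4051 : Strat := .move 1002 n4041 (.cons 961 n4050 .nil)
noncomputable def n4052 : Strat := .move 1126 n1506 (.cons 1168 n4051 .nil)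
noncomputable def n4053 : Strat := .move 1127 n1505 (.cons 1086 n4052 .nil)
noncomputable def n4054 : Strat := .move 1085 n217 (.cons 1084 n4048 (.cons 1125 n4053 (.cons 1043 n3860 .nil)))
noncomputable def n4055 : Strat := .move 1004 n3826 (.cons 963 n3835 .nil)
noncomputable def n4056 : Strat := .move 1002 n4041 (.cons 961 n375 .nil)
noncomputable def n4057 : Strat := .move 1004 n3826 (.cons 963 n4056 .nil)
noncomputable def n4058 : Strat := .move 1046 n2970 (.cons 1043 n127 .nil)
noncomputable def n4059 : Strat := .move 1001 n125 (.cons 1000 n4058 .nil)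
noncomputable def n4060 : Strat := .move 1002 n4041 (.cons 961 n4059 .nil)
noncomputable def n4061 : Strat := .move 1126 n4055 (.cons 1167 n4057 (.cons 1004 n4060 .nil))
noncomputable def n4062 : Strat := .move 1045 n121 (.cons 1086 n4061 .nil)
noncomputable def n4063 : Strat := .move 1166 n3853 (.cons 1207 n3852 .nil)
noncomputable def n4064 : Strat := .move 1167 n3829 (.cons 1045 n4063 .nil)
noncomputable def n4065 : Strat := .move 1004 n3826 (.cons 963 n4064 .nil)
noncomputable def n4066 : Strat := .move 1002 n4041 (.cons 961 n4049 .nil)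
noncomputable def n4067 : Strat := .move 1005 n187 (.cons 1042 n248 .nil)
noncomputable def n4068 : Strat := .move 1004 n3826 (.cons 963 n4067 .nil)
noncomputable def n4069 : Strat := .move 1002 n4049 (.cons 1167 n4068 .nil)
noncomputable def n4070 : Strat := .move 1005 n248 (.cons 1006 n3875 .nil)
noncomputable def n4071 : Strat := .move 1004 n3826 (.cons 963 n4070 .nil)
noncomputable def n4072 : Strat := .move 1043 n4066 (.cons 961 n4069 (.cons 1002 n4071 .nil))
noncomputable def n4073 : Strat := .move 1167 n4042 (.cons 1043 n4063 .nil)
noncomputable def n4074 : Strat := .move 1002 n4041 (.cons 961 n4073 .nil)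
noncomputable def n4075 : Strat := .move 1043 n248 (.cons 1006 n187 .nil)
noncomputable def n4076 : Strat := .move 964 n2855 (.cons 965 n1050 .nil)
noncomputable def n4077 : Strat := .move 1005 n4075 (.cons 1042 n4076 .nil)
noncomputable def n4078 : Strat := .move 1004 n3826 (.cons 963 n4077 .nil)
noncomputable def n4079 : Strat := .move 1002 n4041 (.cons 961 n4078 .nil)
noncomputable def n4080 : Strat := .move 882 n4065 (.cons 1125 n4072 (.cons 1004 n4074 (.cons 1167 n4079 .nil)))
noncomputable def n4081 : Strat := .move 1167 n4042 (.cons 1043 n3854 .nil)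
noncomputable def n4082 : Strat := .move 1002 n4041 (.cons 961 n4081 .nil)
noncomputable def n4083 : Strat := .win 1043 4 1002
noncomputable def n4084 : Strat := .move 1006 n4083 (.cons 1043 n2711 .nil)
noncomputable def n4085 : Strat := .move 1001 n2848 (.cons 1000 n1626 (.cons 1046 n2207 .nil))
noncomputable def n4086 : Strat := .win 966 5 962
noncomputable def n4087 : Strat := .win 964 5 961
noncomputable def n4088 : Strat := .move 965 n4086 (.cons 966 n4087 .nil)
noncomputable def n4089 : Strat := .move 1006 n2711 (.cons 1046 n4088 .nil)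
noncomputable def n4090 : Strat := .move 1005 n4075 (.cons 1042 n4084 (.cons 1006 n4085 (.cons 1043 n4089 .nil)))
noncomputable def n4091 : Strat := .move 1004 n3826 (.cons 963 n4090 .nil)
noncomputable def n4092 : Strat := .move 1002 n4041 (.cons 961 n4091 .nil)
noncomputable def n4093 : Strat := .move 1126 n4080 (.cons 1002 n3856 (.cons 1004 n4082 (.cons 1167 n4092 .nil)))
noncomputable def n4094 : Strat := .move 1085 n212 (.cons 1045 n4048 (.cons 1127 n4062 (.cons 1086 n4093 .nil)))
noncomputable def n4095 : Strat := .move 1004 n3829 (.cons 1045 n3826 .nil)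
noncomputable def n4096 : Strat := .move 1167 n3877 (.cons 1209 n4095 .nil)
noncomputable def n4097 : Strat := .move 1168 n3878 (.cons 1127 n4096 .nil)
noncomputable def n4098 : Strat := .move 1126 n1474 (.cons 1166 n4097 .nil)
noncomputable def n4099 : Strat := .move 1125 n1473 (.cons 1084 n4098 .nil)
noncomputable def n4100 : Strat := .move 1126 n4065 (.cons 1125 n4072 (.cons 1004 n4074 (.cons 1167 n4079 .nil)))
noncomputable def n4101 : Strat := .move 1126 n4066 (.cons 961 n4069 (.cons 1002 n4071 .nil))
noncomputable def n4102 : Strat := .move 1043 n120 (.cons 1084 n4101 .nil)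
noncomputable def n4103 : Strat := .move 882 n217 (.cons 1043 n4099 (.cons 1084 n4100 (.cons 1125 n4102 .nil)))
noncomputable def n4104 : Strat := .move 1042 n132 (.cons 1041 n1488 .nil)
noncomputable def n4105 : Strat := .move 1005 n248 (.cons 1006 n4104 .nil)
noncomputable def n4106 : Strat := .move 1002 n4049 (.cons 1167 n4041 .nil)
noncomputable def n4107 : Strat := .move 1126 n3826 (.cons 963 n4106 .nil)
noncomputable def n4108 : Strat := .move 1126 n3826 (.cons 963 n3875 .nil)
noncomputable def n4109 : Strat := .move 1005 n4104 (.cons 1042 n4107 (.cons 1002 n4108 .nil))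
noncomputable def n4110 : Strat := .move 1167 n3823 (.cons 1002 n3829 .nil)
noncomputable def n4111 : Strat := .move 1126 n3826 (.cons 963 n4110 .nil)
noncomputable def n4112 : Strat := .move 1005 n248 (.cons 1006 n4108 .nil)
noncomputable def n4113 : Strat := .move 1004 n4105 (.cons 1006 n4109 (.cons 1005 n4111 (.cons 1002 n4112 .nil)))
noncomputable def n4114 : Strat := .move 1043 n120 (.cons 1084 n4113 .nil)
noncomputable def n4115 : Strat := .move 1167 n3829 (.cons 1045 n3879 .nil)
noncomputable def n4116 : Strat := .move 961 n1472 (.cons 1002 n4115 .nil)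
noncomputable def n4117 : Strat := .move 1004 n3826 (.cons 963 n4116 .nil)
noncomputable def n4118 : Strat := .move 1126 n1474 (.cons 1166 n4117 .nil)
noncomputable def n4119 : Strat := .move 1125 n1473 (.cons 1084 n4118 .nil)
noncomputable def n4120 : Strat := .move 1085 n4103 (.cons 1084 n4093 (.cons 963 n217 (.cons 1125 n4114 (.cons 1043 n4119 .nil))))
noncomputable def n4121 : Strat := .move 1084 n216 (.cons 1125 n212 .nil)
noncomputable def n4122 : Strat := .move 1126 n1474 (.cons 1166 n4055 .nil)
noncomputable def n4123 : Strat := .move 1125 n1473 (.cons 1084 n4122 .nil)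
noncomputable def n4124 : Strat := .move 1045 n121 (.cons 1086 n4123 .nil)
noncomputable def n4125 : Strat := .move 1085 n4121 (.cons 1086 n4119 (.cons 1045 n3860 (.cons 1084 n212 (.cons 1127 n4124 .nil))))
noncomputable def n4126 : Strat := .move 1044 n4038 (.cons 1005 n558 (.cons 1041 n4040 (.cons 1045 n4054 (.cons 1084 n4094 (.cons 1086 n4120 (.cons 1043 n4125 .nil))))))
noncomputable def n4127 : Strat := .move 921 n73 (.cons 880 n4126 .nil)
noncomputable def n4128 : Strat := .move 921 n73 (.cons 880 n559 .nil)
noncomputable def n4129 : Strat := .win 1044 7 879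
noncomputable def n4130 : Strat := .move 879 n282 (.cons 838 n4129 .nil)
noncomputable def n4131 : Strat := .move 964 n173 (.cons 919 n30 .nil)
noncomputable def n4132 : Strat := .move 959 n824 (.cons 958 n200 .nil)
noncomputable def n4133 : Strat := .move 960 n4132 (.cons 1004 n2834 .nil)
noncomputable def n4134 : Strat := .move 919 n77 (.cons 918 n4133 .nil)
noncomputable def n4135 : Strat := .move 1002 n48 (.cons 1001 n689 .nil)
noncomputable def n4136 : Strat := .move 964 n30 (.cons 965 n4135 .nil)
noncomputable def n4137 : Strat := .move 963 n4131 (.cons 964 n4134 (.cons 919 n4136 .nil))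
noncomputable def n4138 : Strat := .move 879 n4129 (.cons 1044 n4137 .nil)
noncomputable def n4139 : Strat := .move 879 n282 (.cons 838 n4137 .nil)
noncomputable def n4140 : Strat := .move 963 n77 (.cons 918 n1351 .nil)
noncomputable def n4141 : Strat := .move 1002 n1965 (.cons 878 n134 .nil)
noncomputable def n4142 : Strat := .move 919 n3921 (.cons 917 n4140 (.cons 963 n4141 .nil))
noncomputable def n4143 : Strat := .move 1043 n120 (.cons 1084 n4142 .nil)
noncomputable def n4144 : Strat := .move 1044 n123 (.cons 1085 n4143 .nil)
noncomputable def n4145 : Strat := .move 920 n4130 (.cons 838 n4138 (.cons 1044 n4139 (.cons 879 n4144 .nil)))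
noncomputable def n4146 : Strat := .move 921 n73 (.cons 880 n4145 .nil)
noncomputable def n4147 : Strat := .move 959 n200 (.cons 1004 n3663 .nil)
noncomputable def n4148 : Strat := .move 964 n166 (.cons 1006 n449 .nil)
noncomputable def n4149 : Strat := .move 1005 n622 (.cons 1004 n4148 .nil)
noncomputable def n4150 : Strat := .move 1042 n1269 (.cons 1083 n2023 .nil)
noncomputable def n4151 : Strat := .move 920 n3391 (.cons 1083 n3392 (.cons 879 n4150 (.cons 1042 n3395 .nil)))
noncomputable def n4152 : Strat := .move 1004 n1260 (.cons 1005 n4151 .nil)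
noncomputable def n4153 : Strat := .move 919 n198 (.cons 918 n4152 .nil)
noncomputable def n4154 : Strat := .move 1001 n411 (.cons 1000 n4153 .nil)
noncomputable def n4155 : Strat := .move 963 n1255 (.cons 1006 n1259 (.cons 1001 n4149 (.cons 964 n4154 .nil)))
noncomputable def n4156 : Strat := .win 921 7 879
noncomputable def n4157 : Strat := .move 1044 n123 (.cons 1085 n4156 .nil)
noncomputable def n4158 : Strat := .move 879 n282 (.cons 838 n4157 .nil)
noncomputable def n4159 : Strat := .move 879 n2811 (.cons 1002 n4156 .nil)
noncomputable def n4160 : Strat := .move 1044 n123 (.cons 1085 n4159 .nil)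
noncomputable def n4161 : Strat := .move 1044 n2811 (.cons 1002 n4156 .nil)
noncomputable def n4162 : Strat := .move 879 n282 (.cons 838 n4161 .nil)
noncomputable def n4163 : Strat := .move 918 n3503 (.cons 963 n501 .nil)
noncomputable def n4164 : Strat := .move 963 n411 (.cons 1000 n1351 .nil)
noncomputable def n4165 : Strat := .move 1001 n1306 (.cons 1042 n4164 .nil)
noncomputable def n4166 : Strat := .move 837 n99 (.cons 796 n98 .nil)
noncomputable def n4167 : Strat := .win 959 1 836
noncomputable def n4168 : Strat := .win 1041 1 877
noncomputable def n4169 : Strat := .move 1000 n4167 (.cons 959 n4168 .nil)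
noncomputable def n4170 : Strat := .move 837 n99 (.cons 796 n4169 .nil)
noncomputable def n4171 : Strat := .move 1000 n2818 (.cons 999 n4168 .nil)
noncomputable def n4172 : Strat := .move 1002 n1262 (.cons 1043 n4171 .nil)
noncomputable def n4173 : Strat := .move 878 n4166 (.cons 1002 n4170 (.cons 796 n3443 (.cons 837 n4172 .nil)))
noncomputable def n4174 : Strat := .move 1001 n1306 (.cons 1042 n4173 .nil)
noncomputable def n4175 : Strat := .move 919 n4163 (.cons 918 n4165 (.cons 963 n4174 .nil))
noncomputable def n4176 : Strat := .move 879 n282 (.cons 838 n4175 .nil)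
noncomputable def n4177 : Strat := .win 921 5 917
noncomputable def n4178 : Strat := .move 958 n1403 (.cons 1002 n4177 .nil)
noncomputable def n4179 : Strat := .move 958 n4177 (.cons 921 n1406 .nil)
noncomputable def n4180 : Strat := .move 1000 n825 (.cons 999 n3164 .nil)
noncomputable def n4181 : Strat := .move 919 n3503 (.cons 963 n4180 .nil)
noncomputable def n4182 : Strat := .move 918 n718 (.cons 917 n4181 .nil)
noncomputable def n4183 : Strat := .move 959 n4178 (.cons 1002 n4179 (.cons 921 n1407 (.cons 958 n4182 .nil)))
noncomputable def n4184 : Strat := .move 920 n3685 (.cons 1002 n4158 (.cons 838 n4160 (.cons 1085 n4162 (.cons 1044 n4176 (.cons 879 n4183 .nil)))))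
noncomputable def n4185 : Strat := .move 960 n4147 (.cons 877 n3299 (.cons 918 n3304 (.cons 958 n3311 (.cons 959 n4155 (.cons 1004 n4184 .nil)))))
noncomputable def n4186 : Strat := .move 918 n718 (.cons 917 n3595 .nil)
noncomputable def n4187 : Strat := .move 959 n200 (.cons 1004 n4186 .nil)
noncomputable def n4188 : Strat := .move 1044 n122 (.cons 879 n123 .nil)
noncomputable def n4189 : Strat := .move 920 n824 (.cons 958 n4188 .nil)
noncomputable def n4190 : Strat := .move 921 n73 (.cons 880 n4189 .nil)
noncomputable def n4191 : Strat := .move 1001 n2865 (.cons 963 n4190 .nil)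
noncomputable def n4192 : Strat := .move 1000 n825 (.cons 999 n4191 .nil)
noncomputable def n4193 : Strat := .move 920 n86 (.cons 958 n4188 .nil)
noncomputable def n4194 : Strat := .move 921 n73 (.cons 880 n4193 .nil)
noncomputable def n4195 : Strat := .move 919 n3503 (.cons 963 n4194 .nil)
noncomputable def n4196 : Strat := .move 918 n718 (.cons 917 n4195 .nil)
noncomputable def n4197 : Strat := .move 959 n4186 (.cons 917 n4192 (.cons 963 n3305 (.cons 999 n4196 .nil)))
noncomputable def n4198 : Strat := .move 959 n200 (.cons 1004 n4196 .nil)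
noncomputable def n4199 : Strat := .move 959 n200 (.cons 1004 n4192 .nil)
noncomputable def n4200 : Strat := .win 921 3 839
noncomputable def n4201 : Strat := .move 879 n282 (.cons 838 n2814 .nil)
noncomputable def n4202 : Strat := .move 920 n1351 (.cons 964 n4201 .nil)
noncomputable def n4203 : Strat := .move 919 n198 (.cons 918 n4202 .nil)
noncomputable def n4204 : Strat := .move 1001 n411 (.cons 1000 n3392 .nil)
noncomputable def n4205 : Strat := .move 920 n1351 (.cons 964 n4204 .nil)
noncomputable def n4206 : Strat := .move 919 n198 (.cons 918 n4205 .nil)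
noncomputable def n4207 : Strat := .move 920 n2814 (.cons 882 n1352 .nil)
noncomputable def n4208 : Strat := .move 920 n1306 (.cons 1042 n2814 .nil)
noncomputable def n4209 : Strat := .win 878 3 837
noncomputable def n4210 : Strat := .win 920 1 837
noncomputable def n4211 : Strat := .move 838 n4209 (.cons 878 n4210 .nil)
noncomputable def n4212 : Strat := .win 837 2 836
noncomputable def n4213 : Strat := .move 836 n4212 (.cons 837 n1284 .nil)
noncomputable def n4214 : Strat := .move 878 n1290 (.cons 838 n4213 .nil)
noncomputable def n4215 : Strat := .move 879 n4207 (.cons 838 n4208 (.cons 882 n4211 (.cons 920 n4214 .nil)))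
noncomputable def n4216 : Strat := .move 1001 n411 (.cons 1000 n4215 .nil)
noncomputable def n4217 : Strat := .move 919 n198 (.cons 918 n4216 .nil)
noncomputable def n4218 : Strat := .move 963 n4203 (.cons 919 n3579 (.cons 882 n4206 (.cons 964 n4217 .nil)))
noncomputable def n4219 : Strat := .move 880 n4200 (.cons 921 n4218 .nil)
noncomputable def n4220 : Strat := .move 960 n4187 (.cons 1004 n4197 (.cons 963 n3306 (.cons 1000 n4198 (.cons 917 n4199 (.cons 959 n4219 .nil)))))
noncomputable def n4221 : Strat := .move 920 n123 (.cons 1085 n122 .nil)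
noncomputable def n4222 : Strat := .move 1085 n216 (.cons 1125 n1771 .nil)
noncomputable def n4223 : Strat := .move 1084 n215 (.cons 1043 n4222 .nil)
noncomputable def n4224 : Strat := .move 919 n3921 (.cons 917 n4140 (.cons 918 n4141 .nil))
noncomputable def n4225 : Strat := .move 1043 n120 (.cons 1084 n4224 .nil)
noncomputable def n4226 : Strat := .move 920 n122 (.cons 879 n4225 .nil)
noncomputable def n4227 : Strat := .move 1044 n4221 (.cons 920 n4223 (.cons 1085 n4226 .nil))
noncomputable def n4228 : Strat := .move 921 n73 (.cons 880 n4227 .nil)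
noncomputable def n4229 : Strat := .move 920 n122 (.cons 879 n4131 .nil)
noncomputable def n4230 : Strat := .move 919 n77 (.cons 918 n1351 .nil)
noncomputable def n4231 : Strat := .move 920 n122 (.cons 879 n4230 .nil)
noncomputable def n4232 : Strat := .move 964 n30 (.cons 965 n3625 .nil)
noncomputable def n4233 : Strat := .move 920 n122 (.cons 879 n4232 .nil)
noncomputable def n4234 : Strat := .move 919 n1965 (.cons 878 n77 .nil)
noncomputable def n4235 : Strat := .move 920 n174 (.cons 879 n4234 .nil)
noncomputable def n4236 : Strat := .move 920 n130 (.cons 1083 n174 .nil)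
noncomputable def n4237 : Strat := .move 1042 n4236 (.cons 879 n3039 .nil)
noncomputable def n4238 : Strat := .move 1000 n3035 (.cons 1001 n4237 .nil)
noncomputable def n4239 : Strat := .move 878 n3169 (.cons 1001 n1263 .nil)
noncomputable def n4240 : Strat := .move 919 n198 (.cons 918 n4239 .nil)
noncomputable def n4241 : Strat := .move 960 n1812 (.cons 1000 n4240 (.cons 1001 n1450 .nil))
noncomputable def n4242 : Strat := .move 1002 n4235 (.cons 878 n4238 (.cons 920 n4241 .nil))
noncomputable def n4243 : Strat := .move 920 n30 (.cons 965 n3625 .nil)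
noncomputable def n4244 : Strat := .move 920 n173 (.cons 919 n3625 .nil)
noncomputable def n4245 : Strat := .move 964 n1234 (.cons 919 n4243 (.cons 965 n4244 (.cons 920 n2911 .nil)))
noncomputable def n4246 : Strat := .move 1002 n1325 (.cons 965 n3625 .nil)
noncomputable def n4247 : Strat := .move 964 n2911 (.cons 1001 n4246 (.cons 1002 n3625 .nil))
noncomputable def n4248 : Strat := .move 963 n4229 (.cons 965 n4231 (.cons 919 n4233 (.cons 964 n4242 (.cons 879 n4245 (.cons 920 n4247 .nil)))))
noncomputable def n4249 : Strat := .move 1043 n120 (.cons 1084 n4248 .nil)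
noncomputable def n4250 : Strat := .move 1044 n4221 (.cons 920 n4223 (.cons 1085 n4249 .nil))
noncomputable def n4251 : Strat := .move 921 n73 (.cons 880 n4250 .nil)
noncomputable def n4252 : Strat := .move 1001 n3091 (.cons 1042 n3092 .nil)
noncomputable def n4253 : Strat := .move 1041 n3096 (.cons 1082 n3160 .nil)
noncomputable def n4254 : Strat := .win 920 2 876
noncomputable def n4255 : Strat := .win 835 7 835
noncomputable def n4256 : Strat := .move 876 n4254 (.cons 920 n4255 .nil)
noncomputable def n4257 : Strat := .move 919 n3164 (.cons 837 n4253 (.cons 1041 n4256 .nil))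
noncomputable def n4258 : Strat := .move 877 n4252 (.cons 836 n4257 .nil)
noncomputable def n4259 : Strat := .move 921 n73 (.cons 880 n4258 .nil)
noncomputable def n4260 : Strat := .move 1000 n825 (.cons 999 n4259 .nil)
noncomputable def n4261 : Strat := .move 918 n718 (.cons 917 n4260 .nil)
noncomputable def n4262 : Strat := .move 959 n1407 (.cons 1002 n3305 (.cons 916 n3303 (.cons 958 n4261 .nil)))
noncomputable def n4263 : Strat := .move 959 n200 (.cons 1004 n4261 .nil)
noncomputable def n4264 : Strat := .move 918 n2815 (.cons 878 n501 .nil)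
noncomputable def n4265 : Strat := .move 919 n2814 (.cons 882 n4264 .nil)
noncomputable def n4266 : Strat := .move 920 n282 (.cons 838 n4265 .nil)
noncomputable def n4267 : Strat := .move 920 n4265 (.cons 919 n3471 .nil)
noncomputable def n4268 : Strat := .move 920 n282 (.cons 838 n3471 .nil)
noncomputable def n4269 : Strat := .win 836 2 836
noncomputable def n4270 : Strat := .move 837 n4269 (.cons 836 n98 .nil)
noncomputable def n4271 : Strat := .move 919 n2990 (.cons 918 n4270 .nil)
noncomputable def n4272 : Strat := .move 1001 n1290 (.cons 838 n4172 .nil)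
noncomputable def n4273 : Strat := .move 836 n1284 (.cons 877 n4212 .nil)
noncomputable def n4274 : Strat := .move 1001 n1290 (.cons 838 n4273 .nil)
noncomputable def n4275 : Strat := .move 919 n4270 (.cons 837 n4272 (.cons 1002 n4274 .nil))
noncomputable def n4276 : Strat := .win 838 2 837
noncomputable def n4277 : Strat := .move 1004 n2780 (.cons 1002 n1465 .nil)
noncomputable def n4278 : Strat := .win 964 7 840
noncomputable def n4279 : Strat := .win 924 0 879
noncomputable def n4280 : Strat := .move 923 n4278 (.cons 964 n4279 .nil)
noncomputable def n4281 : Strat := .move 1005 n4277 (.cons 1006 n4280 .nil)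
noncomputable def n4282 : Strat := .move 882 n4276 (.cons 838 n4281 .nil)
noncomputable def n4283 : Strat := .move 837 n4269 (.cons 836 n4282 .nil)
noncomputable def n4284 : Strat := .move 919 n2990 (.cons 918 n4272 .nil)
noncomputable def n4285 : Strat := .move 919 n2990 (.cons 918 n4274 .nil)
noncomputable def n4286 : Strat := .move 878 n4271 (.cons 918 n4275 (.cons 919 n4283 (.cons 837 n4284 (.cons 1002 n4285 .nil))))
noncomputable def n4287 : Strat := .move 879 n4266 (.cons 838 n4267 (.cons 919 n4268 (.cons 920 n4286 .nil)))
noncomputable def n4288 : Strat := .move 880 n4200 (.cons 921 n4287 .nil)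
noncomputable def n4289 : Strat := .move 960 n3299 (.cons 1004 n4262 (.cons 1002 n3306 (.cons 958 n4263 (.cons 918 n3304 (.cons 959 n4288 .nil)))))
noncomputable def n4290 : Strat := .move 963 n1351 (.cons 964 n77 .nil)
noncomputable def n4291 : Strat := .move 1041 n250 (.cons 1040 n543 .nil)
noncomputable def n4292 : Strat := .move 1042 n130 (.cons 1083 n4291 .nil)
noncomputable def n4293 : Strat := .move 1002 n1965 (.cons 878 n4292 .nil)
noncomputable def n4294 : Strat := .move 919 n3921 (.cons 917 n4290 (.cons 918 n4293 .nil))
noncomputable def n4295 : Strat := .move 1043 n120 (.cons 1084 n4294 .nil)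
noncomputable def n4296 : Strat := .move 1044 n123 (.cons 1085 n4295 .nil)
noncomputable def n4297 : Strat := .move 921 n73 (.cons 880 n4296 .nil)
noncomputable def n4298 : Strat := .move 921 n73 (.cons 880 n4129 .nil)
noncomputable def n4299 : Strat := .move 879 n282 (.cons 838 n4298 .nil)
noncomputable def n4300 : Strat := .move 880 n4200 (.cons 921 n2817 .nil)
noncomputable def n4301 : Strat := .move 879 n282 (.cons 838 n4300 .nil)
noncomputable def n4302 : Strat := .move 920 n3685 (.cons 879 n4297 (.cons 1002 n4299 (.cons 1044 n4301 .nil)))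
noncomputable def n4303 : Strat := .move 963 n716 (.cons 919 n826 .nil)
noncomputable def n4304 : Strat := .move 918 n718 (.cons 917 n4303 .nil)
noncomputable def n4305 : Strat := .move 1000 n825 (.cons 999 n4304 .nil)
noncomputable def n4306 : Strat := .move 959 n200 (.cons 1004 n4305 .nil)
noncomputable def n4307 : Strat := .move 959 n1407 (.cons 958 n4305 (.cons 918 n3303 .nil))
noncomputable def n4308 : Strat := .move 964 n166 (.cons 1006 n2911 .nil)
noncomputable def n4309 : Strat := .move 1005 n622 (.cons 1004 n4308 .nil)
noncomputable def n4310 : Strat := .move 964 n166 (.cons 1006 n450 .nil)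
noncomputable def n4311 : Strat := .move 1005 n622 (.cons 1004 n4310 .nil)
noncomputable def n4312 : Strat := .move 1001 n411 (.cons 1000 n3441 .nil)
noncomputable def n4313 : Strat := .move 1004 n1260 (.cons 1005 n4312 .nil)
noncomputable def n4314 : Strat := .move 963 n4309 (.cons 965 n4311 (.cons 1005 n1259 (.cons 1001 n4149 (.cons 964 n4313 .nil))))
noncomputable def n4315 : Strat := .move 960 n3299 (.cons 916 n3304 (.cons 1002 n3306 (.cons 958 n4306 (.cons 1004 n4307 (.cons 959 n4314 .nil)))))
noncomputable def n4316 : Strat := .move 1044 n123 (.cons 1085 n122 .nil)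
noncomputable def n4317 : Strat := .move 959 n200 (.cons 1004 n824 .nil)
noncomputable def n4318 : Strat := .win 919 0 918
noncomputable def n4319 : Strat := .move 918 n718 (.cons 917 n4318 .nil)
noncomputable def n4320 : Strat := .move 963 n4319 (.cons 919 n1298 .nil)
noncomputable def n4321 : Strat := .move 959 n200 (.cons 1004 n4320 .nil)
noncomputable def n4322 : Strat := .move 1005 n2777 (.cons 963 n1465 .nil)
noncomputable def n4323 : Strat := .move 1005 n2780 (.cons 1002 n2777 .nil)
noncomputable def n4324 : Strat := .move 1005 n2780 (.cons 1002 n1465 .nil)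
noncomputable def n4325 : Strat := .move 1004 n4322 (.cons 1006 n4323 (.cons 963 n4324 (.cons 1005 n2787 .nil)))
noncomputable def n4326 : Strat := .move 959 n824 (.cons 958 n4320 .nil)
noncomputable def n4327 : Strat := .move 960 n4317 (.cons 958 n4321 (.cons 959 n4325 (.cons 1004 n4326 .nil)))
noncomputable def n4328 : Strat := .move 1043 n120 (.cons 1084 n4327 .nil)
noncomputable def n4329 : Strat := .move 1044 n122 (.cons 879 n4328 .nil)
noncomputable def n4330 : Strat := .move 1044 n123 (.cons 1085 n4328 .nil)
noncomputable def n4331 : Strat := .move 1000 n2818 (.cons 999 n2865 .nil)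
noncomputable def n4332 : Strat := .move 1001 n1311 (.cons 1042 n4331 .nil)
noncomputable def n4333 : Strat := .move 878 n3154 (.cons 919 n286 .nil)
noncomputable def n4334 : Strat := .move 1043 n50 (.cons 1084 n4333 .nil)
noncomputable def n4335 : Strat := .move 1002 n4332 (.cons 1001 n4334 .nil)
noncomputable def n4336 : Strat := .move 960 n4317 (.cons 959 n4335 .nil)
noncomputable def n4337 : Strat := .move 879 n282 (.cons 838 n4336 .nil)
noncomputable def n4338 : Strat := .move 920 n4316 (.cons 1085 n4329 (.cons 879 n4330 (.cons 1044 n4337 .nil)))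
noncomputable def n4339 : Strat := .move 921 n73 (.cons 880 n4338 .nil)
noncomputable def n4340 : Strat := .move 1004 n2779 (.cons 963 n2784 (.cons 1005 n2788 (.cons 960 n2790 .nil)))
noncomputable def n4341 : Strat := .move 1043 n120 (.cons 1084 n4340 .nil)
noncomputable def n4342 : Strat := .move 920 n122 (.cons 879 n4341 .nil)
noncomputable def n4343 : Strat := .move 1044 n4221 (.cons 920 n4223 (.cons 1085 n4342 .nil))
noncomputable def n4344 : Strat := .move 921 n73 (.cons 880 n4343 .nil)
noncomputable def n4345 : Strat := .move 918 n3503 (.cons 963 n3589 .nil)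
noncomputable def n4346 : Strat := .move 920 n2814 (.cons 882 n282 .nil)
noncomputable def n4347 : Strat := .move 879 n2815 (.cons 878 n4346 .nil)
noncomputable def n4348 : Strat := .move 918 n3503 (.cons 963 n4347 .nil)
noncomputable def n4349 : Strat := .win 879 4 877
noncomputable def n4350 : Strat := .move 1002 n1263 (.cons 837 n3170 .nil)
noncomputable def n4351 : Strat := .move 878 n4349 (.cons 879 n4350 .nil)
noncomputable def n4352 : Strat := .move 918 n3589 (.cons 917 n4347 (.cons 920 n4351 .nil))
noncomputable def n4353 : Strat := .move 918 n3503 (.cons 963 n4351 .nil)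
noncomputable def n4354 : Strat := .move 920 n282 (.cons 838 n2814 .nil)
noncomputable def n4355 : Strat := .move 920 n282 (.cons 838 n3394 .nil)
noncomputable def n4356 : Strat := .move 1001 n1284 (.cons 877 n1290 .nil)
noncomputable def n4357 : Strat := .move 836 n4212 (.cons 837 n4356 .nil)
noncomputable def n4358 : Strat := .win 882 2 837
noncomputable def n4359 : Strat := .move 837 n4358 (.cons 882 n98 .nil)
noncomputable def n4360 : Strat := .move 838 n298 (.cons 1001 n4359 .nil)
noncomputable def n4361 : Strat := .move 1000 n4168 (.cons 1041 n2865 .nil)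
noncomputable def n4362 : Strat := .move 1001 n1290 (.cons 838 n4361 .nil)
noncomputable def n4363 : Strat := .move 878 n4270 (.cons 1002 n4357 (.cons 836 n4360 (.cons 837 n4362 .nil)))
noncomputable def n4364 : Strat := .win 1001 7 836
noncomputable def n4365 : Strat := .win 835 2 835
noncomputable def n4366 : Strat := .move 877 n4364 (.cons 1001 n4365 .nil)
noncomputable def n4367 : Strat := .move 836 n4212 (.cons 837 n4366 .nil)
noncomputable def n4368 : Strat := .move 1002 n1310 (.cons 1044 n1263 .nil)
noncomputable def n4369 : Strat := .move 920 n2814 (.cons 882 n4368 .nil)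
noncomputable def n4370 : Strat := .move 920 n2814 (.cons 882 n3394 .nil)
noncomputable def n4371 : Strat := .move 878 n4270 (.cons 1002 n4367 (.cons 836 n4369 (.cons 837 n4370 .nil)))
noncomputable def n4372 : Strat := .move 879 n4354 (.cons 882 n4355 (.cons 920 n4363 (.cons 838 n4371 .nil)))
noncomputable def n4373 : Strat := .move 919 n4345 (.cons 917 n4348 (.cons 963 n4352 (.cons 920 n4353 (.cons 918 n4372 .nil))))
noncomputable def n4374 : Strat := .move 960 n1261 (.cons 959 n4373 .nil)
noncomputable def n4375 : Strat := .move 963 n48 (.cons 1001 n168 .nil)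
noncomputable def n4376 : Strat := .move 1002 n2855 (.cons 965 n4375 .nil)
noncomputable def n4377 : Strat := .move 963 n48 (.cons 1001 n1445 .nil)
noncomputable def n4378 : Strat := .move 1002 n2855 (.cons 965 n4377 .nil)
noncomputable def n4379 : Strat := .move 1002 n2855 (.cons 965 n2904 .nil)
noncomputable def n4380 : Strat := .win 1046 3 882
noncomputable def n4381 : Strat := .win 965 1 841
noncomputable def n4382 : Strat := .move 842 n4381 (.cons 965 n990 .nil)
noncomputable def n4383 : Strat := .move 883 n4380 (.cons 1046 n4382 .nil)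
noncomputable def n4384 : Strat := .move 924 n2901 (.cons 963 n4383 .nil)
noncomputable def n4385 : Strat := .move 923 n92 (.cons 882 n4384 .nil)
noncomputable def n4386 : Strat := .move 1047 n870 (.cons 1088 n2229 .nil)
noncomputable def n4387 : Strat := .move 1046 n660 (.cons 883 n4386 .nil)
noncomputable def n4388 : Strat := .move 924 n2901 (.cons 963 n4387 .nil)
noncomputable def n4389 : Strat := .move 923 n92 (.cons 882 n4388 .nil)
noncomputable def n4390 : Strat := .move 1002 n2855 (.cons 965 n1624 .nil)
noncomputable def n4391 : Strat := .win 1002 5 961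
noncomputable def n4392 : Strat := .move 924 n159 (.cons 1087 n660 .nil)
noncomputable def n4393 : Strat := .move 965 n4391 (.cons 1002 n4392 .nil)
noncomputable def n4394 : Strat := .move 1046 n4390 (.cons 1047 n4393 (.cons 965 n4386 (.cons 1002 n2969 .nil)))
noncomputable def n4395 : Strat := .move 923 n92 (.cons 882 n4394 .nil)
noncomputable def n4396 : Strat := .move 964 n4376 (.cons 882 n4378 (.cons 1001 n4379 (.cons 1002 n4385 (.cons 965 n4389 (.cons 963 n4395 .nil)))))
noncomputable def n4397 : Strat := .move 1005 n1465 (.cons 1006 n4396 .nil)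
noncomputable def n4398 : Strat := .move 1004 n2847 (.cons 1005 n4374 (.cons 959 n3434 (.cons 963 n3435 (.cons 960 n4397 .nil))))
noncomputable def n4399 : Strat := .move 880 n4200 (.cons 921 n4398 .nil)
noncomputable def n4400 : Strat := .move 1000 n825 (.cons 999 n4303 .nil)
noncomputable def n4401 : Strat := .move 918 n718 (.cons 917 n4400 .nil)
noncomputable def n4402 : Strat := .move 959 n200 (.cons 1004 n4401 .nil)
noncomputable def n4403 : Strat := .move 959 n1407 (.cons 958 n4401 (.cons 918 n3303 .nil))
noncomputable def n4404 : Strat := .move 878 n1290 (.cons 838 n3443 .nil)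
noncomputable def n4405 : Strat := .move 920 n1306 (.cons 1042 n1352 .nil)
noncomputable def n4406 : Strat := .move 920 n2814 (.cons 882 n1306 .nil)
noncomputable def n4407 : Strat := .move 879 n4211 (.cons 920 n4404 (.cons 878 n4405 (.cons 838 n4406 .nil)))
noncomputable def n4408 : Strat := .move 919 n198 (.cons 918 n4407 .nil)
noncomputable def n4409 : Strat := .move 1001 n411 (.cons 1000 n4408 .nil)
noncomputable def n4410 : Strat := .move 963 n4309 (.cons 1001 n4149 (.cons 1005 n1259 (.cons 964 n4409 .nil)))
noncomputable def n4411 : Strat := .move 880 n4200 (.cons 921 n4410 .nil)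
noncomputable def n4412 : Strat := .move 960 n3299 (.cons 916 n3304 (.cons 1002 n3306 (.cons 958 n4402 (.cons 1004 n4403 (.cons 959 n4411 .nil)))))
noncomputable def n4413 : Strat := .move 917 n1405 (.cons 916 n1404 .nil)
noncomputable def n4414 : Strat := .move 958 n1403 (.cons 1002 n4413 .nil)
noncomputable def n4415 : Strat := .move 1001 n2865 (.cons 963 n4414 .nil)
noncomputable def n4416 : Strat := .move 1000 n825 (.cons 999 n4415 .nil)
noncomputable def n4417 : Strat := .move 959 n200 (.cons 1004 n4416 .nil)
noncomputable def n4418 : Strat := .move 959 n199 (.cons 958 n3662 .nil)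
noncomputable def n4419 : Strat := .move 878 n4349 (.cons 879 n1263 .nil)
noncomputable def n4420 : Strat := .move 919 n3503 (.cons 963 n4419 .nil)
noncomputable def n4421 : Strat := .move 918 n718 (.cons 917 n4420 .nil)
noncomputable def n4422 : Strat := .move 959 n199 (.cons 958 n4421 .nil)
noncomputable def n4423 : Strat := .move 919 n3160 (.cons 878 n3096 .nil)
noncomputable def n4424 : Strat := .move 1041 n3167 (.cons 1001 n4423 .nil)
noncomputable def n4425 : Strat := .move 918 n718 (.cons 917 n4424 .nil)
noncomputable def n4426 : Strat := .move 1000 n825 (.cons 999 n4425 .nil)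
noncomputable def n4427 : Strat := .move 959 n199 (.cons 958 n4426 .nil)
noncomputable def n4428 : Strat := .move 1001 n2865 (.cons 963 n3098 .nil)
noncomputable def n4429 : Strat := .move 1000 n825 (.cons 999 n4428 .nil)
noncomputable def n4430 : Strat := .move 959 n3662 (.cons 1001 n4421 (.cons 963 n4426 (.cons 917 n4429 .nil)))
noncomputable def n4431 : Strat := .move 959 n199 (.cons 958 n4429 .nil)
noncomputable def n4432 : Strat := .move 1000 n2865 (.cons 963 n2818 .nil)
noncomputable def n4433 : Strat := .move 963 n1357 (.cons 964 n3955 .nil)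
noncomputable def n4434 : Strat := .win 1042 1 918
noncomputable def n4435 : Strat := .move 1082 n4434 (.cons 1042 n3651 .nil)
noncomputable def n4436 : Strat := .move 919 n2262 (.cons 878 n4435 .nil)
noncomputable def n4437 : Strat := .move 1041 n2980 (.cons 1040 n4436 .nil)
noncomputable def n4438 : Strat := .move 1000 n2818 (.cons 999 n4437 .nil)
noncomputable def n4439 : Strat := .move 1001 n4432 (.cons 1000 n4433 (.cons 963 n4438 .nil))
noncomputable def n4440 : Strat := .move 1002 n4418 (.cons 1001 n4422 (.cons 963 n4427 (.cons 958 n4430 (.cons 917 n4431 (.cons 959 n4439 .nil)))))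
noncomputable def n4441 : Strat := .move 1004 n1260 (.cons 1005 n3955 .nil)
noncomputable def n4442 : Strat := .move 1002 n1357 (.cons 964 n4441 .nil)
noncomputable def n4443 : Strat := .move 963 n411 (.cons 1000 n4442 .nil)
noncomputable def n4444 : Strat := .move 878 n4349 (.cons 879 n3443 .nil)
noncomputable def n4445 : Strat := .move 918 n3503 (.cons 963 n4444 .nil)
noncomputable def n4446 : Strat := .move 1043 n1288 (.cons 1084 n1266 .nil)
noncomputable def n4447 : Strat := .move 1004 n222 (.cons 1041 n3068 .nil)
noncomputable def n4448 : Strat := .move 1002 n1264 (.cons 837 n4446 (.cons 1043 n4447 .nil))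
noncomputable def n4449 : Strat := .move 1042 n1943 (.cons 877 n4448 .nil)
noncomputable def n4450 : Strat := .move 918 n3503 (.cons 963 n4449 .nil)
noncomputable def n4451 : Strat := .win 1042 7 877
noncomputable def n4452 : Strat := .move 877 n4451 (.cons 1042 n2080 .nil)
noncomputable def n4453 : Strat := .move 878 n4349 (.cons 879 n4452 .nil)
noncomputable def n4454 : Strat := .move 918 n3503 (.cons 963 n4453 .nil)
noncomputable def n4455 : Strat := .move 1084 n1376 (.cons 1125 n1377 .nil)
noncomputable def n4456 : Strat := .move 1083 n1380 (.cons 1041 n4455 .nil)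
noncomputable def n4457 : Strat := .move 1042 n1943 (.cons 877 n4456 .nil)
noncomputable def n4458 : Strat := .move 918 n3503 (.cons 963 n4457 .nil)
noncomputable def n4459 : Strat := .move 878 n1263 (.cons 837 n4349 .nil)
noncomputable def n4460 : Strat := .move 1002 n4459 (.cons 879 n4447 .nil)
noncomputable def n4461 : Strat := .move 1042 n1943 (.cons 877 n4460 .nil)
noncomputable def n4462 : Strat := .move 918 n4444 (.cons 878 n4457 (.cons 1043 n4461 .nil))
noncomputable def n4463 : Strat := .move 1002 n1266 (.cons 878 n1265 .nil)
noncomputable def n4464 : Strat := .move 1084 n1743 (.cons 1042 n1497 .nil)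
noncomputable def n4465 : Strat := .move 879 n4212 (.cons 837 n1290 .nil)
noncomputable def n4466 : Strat := .move 836 n1284 (.cons 877 n4465 .nil)
noncomputable def n4467 : Strat := .move 878 n1287 (.cons 1002 n4466 .nil)
noncomputable def n4468 : Strat := .move 1041 n2948 (.cons 1044 n1388 .nil)
noncomputable def n4469 : Strat := .move 1004 n4322 (.cons 1006 n4468 .nil)
noncomputable def n4470 : Strat := .move 1042 n1288 (.cons 1084 n4469 .nil)
noncomputable def n4471 : Strat := .move 1043 n4463 (.cons 878 n4464 (.cons 1084 n4467 (.cons 1002 n4470 .nil)))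
noncomputable def n4472 : Strat := .move 919 n4445 (.cons 879 n4450 (.cons 1002 n4454 (.cons 878 n4458 (.cons 963 n4462 (.cons 918 n4471 .nil)))))
noncomputable def n4473 : Strat := .move 1005 n622 (.cons 1004 n1346 .nil)
noncomputable def n4474 : Strat := .move 963 n411 (.cons 1000 n4473 .nil)
noncomputable def n4475 : Strat := .move 1002 n4432 (.cons 1000 n4433 (.cons 963 n4438 .nil))
noncomputable def n4476 : Strat := .move 878 n1263 (.cons 837 n1262 .nil)
noncomputable def n4477 : Strat := .move 1000 n4168 (.cons 1041 n2818 .nil)
noncomputable def n4478 : Strat := .move 878 n1262 (.cons 1043 n4477 .nil)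
noncomputable def n4479 : Strat := .move 1000 n2980 (.cons 1040 n2818 .nil)
noncomputable def n4480 : Strat := .move 1004 n3083 (.cons 1042 n3068 .nil)
noncomputable def n4481 : Strat := .move 1041 n4479 (.cons 999 n4480 .nil)
noncomputable def n4482 : Strat := .move 1043 n1265 (.cons 1084 n4481 .nil)
noncomputable def n4483 : Strat := .move 878 n1263 (.cons 837 n4477 .nil)
noncomputable def n4484 : Strat := .move 1002 n4476 (.cons 837 n4478 (.cons 878 n4482 (.cons 1043 n4483 .nil)))
noncomputable def n4485 : Strat := .move 879 n1290 (.cons 838 n2990 .nil)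
noncomputable def n4486 : Strat := .move 879 n1290 (.cons 838 n4273 .nil)
noncomputable def n4487 : Strat := .move 879 n2990 (.cons 918 n4273 .nil)
noncomputable def n4488 : Strat := .move 1041 n1388 (.cons 1082 n1929 .nil)
noncomputable def n4489 : Strat := .move 1042 n2081 (.cons 918 n4488 .nil)
noncomputable def n4490 : Strat := .move 877 n2080 (.cons 836 n4489 .nil)
noncomputable def n4491 : Strat := .move 878 n4485 (.cons 918 n4486 (.cons 838 n4487 (.cons 879 n4490 .nil)))
noncomputable def n4492 : Strat := .move 879 n2990 (.cons 918 n1290 .nil)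
noncomputable def n4493 : Strat := .move 1002 n1263 (.cons 837 n4492 .nil)
noncomputable def n4494 : Strat := .move 878 n1278 (.cons 1043 n4493 (.cons 1002 n4485 .nil))
noncomputable def n4495 : Strat := .move 1002 n1262 (.cons 1043 n4477 .nil)
noncomputable def n4496 : Strat := .move 878 n4349 (.cons 879 n4495 .nil)
noncomputable def n4497 : Strat := .move 918 n4453 (.cons 836 n4496 (.cons 878 n4457 .nil))
noncomputable def n4498 : Strat := .move 1084 n1377 (.cons 1043 n2092 .nil)
noncomputable def n4499 : Strat := .move 1002 n4447 (.cons 1005 n3368 (.cons 1041 n3086 .nil))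
noncomputable def n4500 : Strat := .move 1084 n1377 (.cons 1043 n4499 .nil)
noncomputable def n4501 : Strat := .move 1124 n2280 (.cons 1002 n1936 .nil)
noncomputable def n4502 : Strat := .move 1083 n4455 (.cons 1043 n4501 .nil)
noncomputable def n4503 : Strat := .move 1002 n1375 (.cons 1124 n4447 .nil)
noncomputable def n4504 : Strat := .move 1083 n1380 (.cons 1041 n4501 (.cons 1123 n4503 .nil))
noncomputable def n4505 : Strat := .move 1083 n4455 (.cons 1043 n4503 .nil)
noncomputable def n4506 : Strat := .move 1002 n250 (.cons 1040 n539 .nil)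
noncomputable def n4507 : Strat := .move 1041 n1388 (.cons 1082 n4506 .nil)
noncomputable def n4508 : Strat := .move 1043 n1288 (.cons 1084 n4507 .nil)
noncomputable def n4509 : Strat := .move 1042 n4498 (.cons 1123 n4500 (.cons 1041 n4502 (.cons 1084 n4504 (.cons 1082 n4505 (.cons 1083 n4508 .nil)))))
noncomputable def n4510 : Strat := .move 919 n4484 (.cons 1002 n4491 (.cons 1000 n4462 (.cons 1041 n4494 (.cons 837 n4497 (.cons 878 n4509 .nil)))))
noncomputable def n4511 : Strat := .move 1001 n4443 (.cons 1000 n4472 (.cons 1002 n4474 (.cons 1004 n4475 (.cons 963 n4510 .nil))))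
noncomputable def n4512 : Strat := .move 960 n4417 (.cons 1004 n4440 (.cons 1001 n3299 (.cons 918 n3304 (.cons 958 n4306 (.cons 959 n4511 .nil)))))
noncomputable def n4513 : Strat := .move 880 n4200 (.cons 921 n4512 .nil)
noncomputable def n4514 : Strat := .move 961 n4146 (.cons 880 n4185 (.cons 1002 n4220 (.cons 960 n4228 (.cons 1004 n4251 (.cons 963 n4289 (.cons 1005 n4302 (.cons 879 n4315 (.cons 964 n4339 (.cons 919 n4344 (.cons 1042 n4399 (.cons 1041 n4412 (.cons 920 n4513 .nil))))))))))))
noncomputable def n4515 : Strat := .move 1001 n2882 (.cons 963 n2963 .nil)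
noncomputable def n4516 : Strat := .move 964 n2855 (.cons 965 n4515 .nil)
noncomputable def n4517 : Strat := .move 1002 n2769 (.cons 960 n4516 .nil)
noncomputable def n4518 : Strat := .move 1005 n1465 (.cons 1006 n4517 .nil)
noncomputable def n4519 : Strat := .move 1002 n2855 (.cons 965 n4515 .nil)
noncomputable def n4520 : Strat := .move 1002 n2855 (.cons 965 n2888 .nil)
noncomputable def n4521 : Strat := .move 1002 n2855 (.cons 965 n2891 .nil)
noncomputable def n4522 : Strat := .move 1002 n4515 (.cons 963 n2888 (.cons 1046 n2891 (.cons 1001 n2904 .nil)))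
noncomputable def n4523 : Strat := .move 964 n4519 (.cons 963 n4520 (.cons 1002 n4385 (.cons 1046 n4521 (.cons 965 n4522 .nil))))
noncomputable def n4524 : Strat := .move 1005 n1465 (.cons 1006 n4523 .nil)
noncomputable def n4525 : Strat := .move 1002 n1357 (.cons 964 n3955 .nil)
noncomputable def n4526 : Strat := .move 1001 n411 (.cons 1000 n4525 .nil)
noncomputable def n4527 : Strat := .move 964 n410 (.cons 1002 n626 .nil)
noncomputable def n4528 : Strat := .move 1001 n411 (.cons 1000 n4527 .nil)
noncomputable def n4529 : Strat := .move 965 n3316 (.cons 966 n143 .nil)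
noncomputable def n4530 : Strat := .move 964 n197 (.cons 920 n4529 .nil)
noncomputable def n4531 : Strat := .move 919 n198 (.cons 918 n4530 .nil)
noncomputable def n4532 : Strat := .move 1002 n1357 (.cons 964 n1271 .nil)
noncomputable def n4533 : Strat := .move 1001 n411 (.cons 1000 n4532 .nil)
noncomputable def n4534 : Strat := .move 920 n1351 (.cons 964 n3391 .nil)
noncomputable def n4535 : Strat := .move 919 n198 (.cons 918 n4534 .nil)
noncomputable def n4536 : Strat := .move 1001 n411 (.cons 1000 n4535 .nil)
noncomputable def n4537 : Strat := .move 963 n4526 (.cons 1043 n4528 (.cons 1001 n4531 (.cons 919 n4533 (.cons 964 n1767 (.cons 1002 n4536 .nil)))))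
noncomputable def n4538 : Strat := .move 960 n1261 (.cons 959 n4537 .nil)
noncomputable def n4539 : Strat := .move 1004 n2847 (.cons 963 n3435 (.cons 959 n4518 (.cons 1006 n2854 (.cons 960 n4524 (.cons 1005 n4538 .nil)))))
noncomputable def n4540 : Strat := .move 880 n4200 (.cons 921 n4539 .nil)
noncomputable def n4541 : Strat := .move 1044 n122 (.cons 879 n3910 .nil)
noncomputable def n4542 : Strat := .move 921 n73 (.cons 880 n4541 .nil)
noncomputable def n4543 : Strat := .move 1002 n1310 (.cons 1044 n3020 .nil)
noncomputable def n4544 : Strat := .move 879 n282 (.cons 838 n4543 .nil)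
noncomputable def n4545 : Strat := .move 921 n73 (.cons 880 n4130 .nil)
noncomputable def n4546 : Strat := .move 1001 n1417 (.cons 1000 n1311 .nil)
noncomputable def n4547 : Strat := .move 1043 n1965 (.cons 878 n50 .nil)
noncomputable def n4548 : Strat := .move 1002 n4546 (.cons 1042 n4547 .nil)
noncomputable def n4549 : Strat := .move 919 n77 (.cons 918 n4548 .nil)
noncomputable def n4550 : Strat := .move 963 n4131 (.cons 964 n4549 (.cons 919 n4136 .nil))
noncomputable def n4551 : Strat := .move 879 n282 (.cons 838 n4550 .nil)
noncomputable def n4552 : Strat := .move 921 n73 (.cons 880 n4551 .nil)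
noncomputable def n4553 : Strat := .move 919 n1965 (.cons 878 n4290 .nil)
noncomputable def n4554 : Strat := .move 1043 n50 (.cons 1084 n4553 .nil)
noncomputable def n4555 : Strat := .move 963 n173 (.cons 919 n30 .nil)
noncomputable def n4556 : Strat := .move 1005 n1465 (.cons 1006 n2855 .nil)
noncomputable def n4557 : Strat := .move 1046 n1624 (.cons 1047 n376 .nil)
noncomputable def n4558 : Strat := .win 1127 3 963
noncomputable def n4559 : Strat := .win 1044 6 921
noncomputable def n4560 : Strat := .move 1086 n4558 (.cons 1127 n4559 .nil)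
noncomputable def n4561 : Strat := .move 1045 n4557 (.cons 1001 n4560 .nil)
noncomputable def n4562 : Strat := .move 1005 n2855 (.cons 965 n4561 .nil)
noncomputable def n4563 : Strat := .move 1086 n1781 (.cons 1127 n4559 .nil)
noncomputable def n4564 : Strat := .move 1045 n374 (.cons 1046 n4563 .nil)
noncomputable def n4565 : Strat := .move 1001 n3077 (.cons 1000 n4564 (.cons 1046 n3085 .nil))
noncomputable def n4566 : Strat := .move 1004 n4556 (.cons 1006 n4562 (.cons 1005 n4565 .nil))
noncomputable def n4567 : Strat := .move 963 n173 (.cons 919 n48 .nil)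
noncomputable def n4568 : Strat := .move 964 n4555 (.cons 963 n4566 (.cons 965 n4567 .nil))
noncomputable def n4569 : Strat := .move 963 n30 (.cons 965 n48 .nil)
noncomputable def n4570 : Strat := .move 1043 n50 (.cons 1084 n3064 .nil)
noncomputable def n4571 : Strat := .move 1043 n50 (.cons 1084 n689 .nil)
noncomputable def n4572 : Strat := .move 963 n30 (.cons 965 n4571 .nil)
noncomputable def n4573 : Strat := .move 964 n4569 (.cons 963 n4570 (.cons 1001 n4572 .nil))
noncomputable def n4574 : Strat := .move 1002 n4554 (.cons 1043 n4568 (.cons 919 n4573 (.cons 964 n4570 .nil)))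
noncomputable def n4575 : Strat := .move 921 n73 (.cons 880 n4574 .nil)
noncomputable def n4576 : Strat := .move 920 n4542 (.cons 921 n4544 (.cons 1002 n4545 (.cons 1044 n4552 (.cons 879 n4575 .nil))))
noncomputable def n4577 : Strat := .move 959 n1407 (.cons 958 n4261 (.cons 918 n3303 .nil))
noncomputable def n4578 : Strat := .win 920 6 838
noncomputable def n4579 : Strat := .win 878 2 836
noncomputable def n4580 : Strat := .win 835 0 835
noncomputable def n4581 : Strat := .move 836 n4579 (.cons 878 n4580 .nil)
noncomputable def n4582 : Strat := .move 837 n4358 (.cons 882 n4581 .nil)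
noncomputable def n4583 : Strat := .move 838 n4578 (.cons 920 n4582 .nil)
noncomputable def n4584 : Strat := .move 919 n1362 (.cons 1043 n2990 .nil)
noncomputable def n4585 : Strat := .move 878 n286 (.cons 837 n4584 .nil)
noncomputable def n4586 : Strat := .move 1002 n1310 (.cons 1044 n4585 .nil)
noncomputable def n4587 : Strat := .move 920 n282 (.cons 838 n4586 .nil)
noncomputable def n4588 : Strat := .move 1043 n1265 (.cons 1084 n130 .nil)
noncomputable def n4589 : Strat := .move 1042 n291 (.cons 1001 n4588 .nil)
noncomputable def n4590 : Strat := .move 919 n2814 (.cons 882 n4589 .nil)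
noncomputable def n4591 : Strat := .move 1002 n1310 (.cons 1044 n4590 .nil)
noncomputable def n4592 : Strat := .move 920 n282 (.cons 838 n4591 .nil)
noncomputable def n4593 : Strat := .move 920 n2814 (.cons 882 n4264 .nil)
noncomputable def n4594 : Strat := .move 878 n1263 (.cons 837 n2990 .nil)
noncomputable def n4595 : Strat := .move 1002 n1310 (.cons 1044 n4594 .nil)
noncomputable def n4596 : Strat := .move 920 n2814 (.cons 882 n4595 .nil)
noncomputable def n4597 : Strat := .move 878 n2990 (.cons 918 n4270 .nil)
noncomputable def n4598 : Strat := .move 920 n2814 (.cons 882 n3347 .nil)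
noncomputable def n4599 : Strat := .win 920 4 878
noncomputable def n4600 : Strat := .move 1005 n4278 (.cons 964 n4277 .nil)
noncomputable def n4601 : Strat := .move 923 n4279 (.cons 924 n4600 .nil)
noncomputable def n4602 : Strat := .move 882 n4599 (.cons 920 n4601 .nil)
noncomputable def n4603 : Strat := .move 919 n4593 (.cons 917 n4596 (.cons 920 n4597 (.cons 918 n4598 (.cons 878 n4602 .nil))))
noncomputable def n4604 : Strat := .move 879 n4266 (.cons 920 n4286 (.cons 919 n4583 (.cons 882 n4587 (.cons 878 n4592 (.cons 838 n4603 .nil)))))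
noncomputable def n4605 : Strat := .move 880 n4200 (.cons 921 n4604 .nil)
noncomputable def n4606 : Strat := .move 960 n3299 (.cons 1004 n4577 (.cons 1002 n3306 (.cons 958 n4263 (.cons 918 n3304 (.cons 959 n4605 .nil)))))
noncomputable def n4607 : Strat := .move 960 n1261 (.cons 959 n3531 .nil)
noncomputable def n4608 : Strat := .move 1086 n4559 (.cons 1044 n1781 .nil)
noncomputable def n4609 : Strat := .move 1045 n376 (.cons 1001 n4608 .nil)
noncomputable def n4610 : Strat := .move 1046 n1624 (.cons 1047 n4609 .nil)
noncomputable def n4611 : Strat := .move 1043 n50 (.cons 1084 n4610 .nil)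
noncomputable def n4612 : Strat := .move 1002 n188 (.cons 1042 n4611 (.cons 1043 n2898 .nil))
noncomputable def n4613 : Strat := .move 921 n73 (.cons 880 n4612 .nil)
noncomputable def n4614 : Strat := .move 1005 n1465 (.cons 1006 n4613 .nil)
noncomputable def n4615 : Strat := .move 1005 n1465 (.cons 1006 n2780 .nil)
noncomputable def n4616 : Strat := .move 960 n1261 (.cons 959 n4615 .nil)
noncomputable def n4617 : Strat := .move 918 n3589 (.cons 920 n4351 .nil)
noncomputable def n4618 : Strat := .move 1002 n4331 (.cons 963 n1264 .nil)
noncomputable def n4619 : Strat := .move 1082 n3651 (.cons 1123 n4434 .nil)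
noncomputable def n4620 : Strat := .move 1041 n2262 (.cons 878 n4619 .nil)
noncomputable def n4621 : Strat := .move 1000 n2865 (.cons 963 n4620 .nil)
noncomputable def n4622 : Strat := .move 879 n4207 (.cons 838 n4208 (.cons 882 n4211 (.cons 920 n4404 .nil)))
noncomputable def n4623 : Strat := .win 1002 5 958
noncomputable def n4624 : Strat := .move 999 n4623 (.cons 1002 n3693 .nil)
noncomputable def n4625 : Strat := .move 1000 n2865 (.cons 963 n4624 .nil)
noncomputable def n4626 : Strat := .move 879 n4207 (.cons 838 n4208 (.cons 882 n4405 (.cons 920 n4625 .nil)))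
noncomputable def n4627 : Strat := .move 1001 n4618 (.cons 1002 n4621 (.cons 1000 n4622 (.cons 878 n4626 .nil)))
noncomputable def n4628 : Strat := .move 919 n4345 (.cons 920 n4353 (.cons 963 n4617 (.cons 918 n4627 .nil)))
noncomputable def n4629 : Strat := .move 880 n4200 (.cons 921 n4628 .nil)
noncomputable def n4630 : Strat := .move 960 n1261 (.cons 959 n4629 .nil)
noncomputable def n4631 : Strat := .move 1004 n4607 (.cons 960 n4614 (.cons 1006 n2854 (.cons 963 n4616 (.cons 1005 n4630 .nil))))
noncomputable def n4632 : Strat := .win 920 5 917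
noncomputable def n4633 : Strat := .move 921 n73 (.cons 880 n4632 .nil)
noncomputable def n4634 : Strat := .move 958 n1403 (.cons 1002 n4633 .nil)
noncomputable def n4635 : Strat := .move 959 n200 (.cons 1004 n4634 .nil)
noncomputable def n4636 : Strat := .move 959 n1407 (.cons 958 n3507 (.cons 918 n4634 .nil))
noncomputable def n4637 : Strat := .move 963 n198 (.cons 918 n1335 .nil)
noncomputable def n4638 : Strat := .move 920 n282 (.cons 838 n4264 .nil)
noncomputable def n4639 : Strat := .move 879 n4354 (.cons 838 n4593 (.cons 882 n4638 (.cons 920 n4597 .nil)))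
noncomputable def n4640 : Strat := .move 920 n282 (.cons 838 n3347 .nil)
noncomputable def n4641 : Strat := .move 878 n4269 (.cons 836 n98 .nil)
noncomputable def n4642 : Strat := .move 838 n4580 (.cons 835 n4358 .nil)
noncomputable def n4643 : Strat := .move 836 n4579 (.cons 878 n4642 .nil)
noncomputable def n4644 : Strat := .move 923 n4279 (.cons 924 n4278 .nil)
noncomputable def n4645 : Strat := .move 882 n4276 (.cons 838 n4644 .nil)
noncomputable def n4646 : Strat := .move 837 n4641 (.cons 1002 n4643 (.cons 836 n4645 .nil))
noncomputable def n4647 : Strat := .move 879 n4354 (.cons 838 n4598 (.cons 882 n4640 (.cons 920 n4646 .nil)))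
noncomputable def n4648 : Strat := .move 919 n4345 (.cons 917 n4348 (.cons 920 n4637 (.cons 963 n4639 (.cons 918 n4647 .nil))))
noncomputable def n4649 : Strat := .move 1005 n3510 (.cons 963 n3511 (.cons 1004 n4648 (.cons 1006 n3528 .nil)))
noncomputable def n4650 : Strat := .move 880 n4200 (.cons 921 n4649 .nil)
noncomputable def n4651 : Strat := .move 960 n3299 (.cons 1002 n3306 (.cons 958 n3509 (.cons 918 n4635 (.cons 1004 n4636 (.cons 959 n4650 .nil)))))
noncomputable def n4652 : Strat := .move 1043 n50 (.cons 1084 n187 .nil)
noncomputable def n4653 : Strat := .move 964 n2855 (.cons 965 n4375 .nil)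
noncomputable def n4654 : Strat := .move 1043 n50 (.cons 1084 n4653 .nil)
noncomputable def n4655 : Strat := .move 1002 n4652 (.cons 1042 n4654 (.cons 1043 n4653 .nil))
noncomputable def n4656 : Strat := .move 1005 n1465 (.cons 1006 n4655 .nil)
noncomputable def n4657 : Strat := .move 1002 n2769 (.cons 960 n4652 .nil)
noncomputable def n4658 : Strat := .move 1005 n1465 (.cons 1006 n4657 .nil)
noncomputable def n4659 : Strat := .move 1042 n130 (.cons 1083 n291 .nil)
noncomputable def n4660 : Strat := .move 1043 n50 (.cons 1084 n4659 .nil)
noncomputable def n4661 : Strat := .win 963 7 921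
noncomputable def n4662 : Strat := .move 1086 n1781 (.cons 1127 n4661 .nil)
noncomputable def n4663 : Strat := .move 1001 n374 (.cons 1046 n1311 .nil)
noncomputable def n4664 : Strat := .move 1045 n4662 (.cons 963 n4663 .nil)
noncomputable def n4665 : Strat := .move 1002 n4660 (.cons 1043 n4664 (.cons 1001 n4334 .nil))
noncomputable def n4666 : Strat := .move 879 n282 (.cons 838 n4665 .nil)
noncomputable def n4667 : Strat := .move 879 n4129 (.cons 1044 n4665 .nil)
noncomputable def n4668 : Strat := .move 1086 n4559 (.cons 1044 n4661 .nil)
noncomputable def n4669 : Strat := .move 1086 n4661 (.cons 963 n1781 .nil)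
noncomputable def n4670 : Strat := .move 1047 n2965 (.cons 1044 n392 .nil)
noncomputable def n4671 : Strat := .move 1046 n376 (.cons 1001 n4670 .nil)
noncomputable def n4672 : Strat := .move 918 n81 (.cons 963 n501 .nil)
noncomputable def n4673 : Strat := .move 918 n86 (.cons 958 n501 .nil)
noncomputable def n4674 : Strat := .move 919 n4672 (.cons 917 n4290 (.cons 963 n4673 (.cons 918 n4547 .nil)))
noncomputable def n4675 : Strat := .move 1002 n4671 (.cons 1046 n4674 .nil)
noncomputable def n4676 : Strat := .move 919 n4673 (.cons 917 n4547 .nil)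
noncomputable def n4677 : Strat := .move 1002 n4563 (.cons 1044 n4676 .nil)
noncomputable def n4678 : Strat := .move 1045 n4668 (.cons 1044 n4669 (.cons 1086 n4675 (.cons 963 n4677 .nil)))
noncomputable def n4679 : Strat := .move 920 n4130 (.cons 1044 n4666 (.cons 838 n4667 (.cons 879 n4678 .nil)))
noncomputable def n4680 : Strat := .move 959 n3219 (.cons 960 n4679 .nil)
noncomputable def n4681 : Strat := .move 1004 n2847 (.cons 960 n4656 (.cons 1006 n2854 (.cons 963 n4658 (.cons 1005 n4680 .nil))))
noncomputable def n4682 : Strat := .move 921 n73 (.cons 880 n4681 .nil)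
noncomputable def n4683 : Strat := .move 1002 n4652 (.cons 1042 n4654 (.cons 1043 n4516 .nil))
noncomputable def n4684 : Strat := .move 1005 n1465 (.cons 1006 n4683 .nil)
noncomputable def n4685 : Strat := .move 1000 n2819 (.cons 963 n2979 .nil)
noncomputable def n4686 : Strat := .win 1086 7 921
noncomputable def n4687 : Strat := .move 1045 n374 (.cons 1046 n4686 .nil)
noncomputable def n4688 : Strat := .move 963 n1357 (.cons 964 n4687 .nil)
noncomputable def n4689 : Strat := .move 1001 n3220 (.cons 958 n2896 (.cons 999 n4685 (.cons 1000 n4688 .nil)))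
noncomputable def n4690 : Strat := .move 1043 n50 (.cons 1084 n4689 .nil)
noncomputable def n4691 : Strat := .move 963 n1417 (.cons 1000 n1357 .nil)
noncomputable def n4692 : Strat := .move 920 n1268 (.cons 879 n130 .nil)
noncomputable def n4693 : Strat := .move 1042 n222 (.cons 1041 n4692 .nil)
noncomputable def n4694 : Strat := .move 1001 n2896 (.cons 999 n4691 (.cons 963 n4693 .nil))
noncomputable def n4695 : Strat := .move 1043 n50 (.cons 1084 n4694 .nil)
noncomputable def n4696 : Strat := .move 1042 n132 (.cons 1041 n130 .nil)
noncomputable def n4697 : Strat := .move 1044 n174 (.cons 879 n4696 .nil)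
noncomputable def n4698 : Strat := .move 878 n286 (.cons 837 n3154 .nil)
noncomputable def n4699 : Strat := .move 879 n282 (.cons 838 n4698 .nil)
noncomputable def n4700 : Strat := .move 1041 n2948 (.cons 1044 n250 .nil)
noncomputable def n4701 : Strat := .move 1042 n130 (.cons 1083 n4700 .nil)
noncomputable def n4702 : Strat := .move 920 n1368 (.cons 838 n4697 (.cons 1044 n4699 (.cons 879 n4701 .nil)))
noncomputable def n4703 : Strat := .move 1043 n50 (.cons 1084 n4702 .nil)
noncomputable def n4704 : Strat := .move 1043 n3220 (.cons 958 n2896 (.cons 999 n4685 (.cons 1000 n4688 .nil)))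
noncomputable def n4705 : Strat := .move 1043 n2896 (.cons 999 n4691 (.cons 963 n4693 .nil))
noncomputable def n4706 : Strat := .move 1042 n222 (.cons 1041 n1956 .nil)
noncomputable def n4707 : Strat := .move 1043 n4688 (.cons 963 n4706 .nil)
noncomputable def n4708 : Strat := .move 1043 n3220 (.cons 958 n4693 .nil)
noncomputable def n4709 : Strat := .move 1001 n4704 (.cons 958 n4705 (.cons 1000 n4707 (.cons 963 n4708 (.cons 1043 n2989 .nil))))
noncomputable def n4710 : Strat := .move 963 n1417 (.cons 1000 n4687 .nil)
noncomputable def n4711 : Strat := .move 1000 n2979 (.cons 958 n2818 .nil)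
noncomputable def n4712 : Strat := .move 1001 n2989 (.cons 964 n4710 (.cons 963 n4711 (.cons 1000 n4688 .nil)))
noncomputable def n4713 : Strat := .move 1002 n4690 (.cons 958 n4695 (.cons 1001 n4703 (.cons 1084 n4709 (.cons 1043 n4712 .nil))))
noncomputable def n4714 : Strat := .move 959 n3219 (.cons 960 n4713 .nil)
noncomputable def n4715 : Strat := .move 1004 n2847 (.cons 963 n3435 (.cons 1006 n2854 (.cons 959 n3434 (.cons 960 n4684 (.cons 1005 n4714 .nil)))))
noncomputable def n4716 : Strat := .move 921 n73 (.cons 880 n4715 .nil)
noncomputable def n4717 : Strat := .move 1002 n2769 (.cons 960 n3226 .nil)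
noncomputable def n4718 : Strat := .move 1005 n1465 (.cons 1006 n4717 .nil)
noncomputable def n4719 : Strat := .move 964 n2882 (.cons 963 n2855 .nil)
noncomputable def n4720 : Strat := .move 1001 n222 (.cons 1041 n4719 .nil)
noncomputable def n4721 : Strat := .move 1042 n2099 (.cons 1043 n4720 .nil)
noncomputable def n4722 : Strat := .move 920 n1368 (.cons 838 n2859 .nil)
noncomputable def n4723 : Strat := .move 1043 n187 (.cons 1042 n4722 .nil)
noncomputable def n4724 : Strat := .move 964 n2855 (.cons 965 n4723 .nil)
noncomputable def n4725 : Strat := .move 1002 n4516 (.cons 963 n3226 (.cons 1047 n4721 (.cons 1001 n4724 .nil)))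
noncomputable def n4726 : Strat := .move 1005 n1465 (.cons 1006 n4725 .nil)
noncomputable def n4727 : Strat := .move 1004 n2847 (.cons 1006 n2854 (.cons 959 n3434 (.cons 963 n4718 (.cons 960 n4726 (.cons 1005 n4538 .nil)))))
noncomputable def n4728 : Strat := .move 880 n4200 (.cons 921 n4727 .nil)
noncomputable def n4729 : Strat := .move 959 n1407 (.cons 958 n3662 (.cons 918 n3303 .nil))
noncomputable def n4730 : Strat := .move 959 n200 (.cons 1004 n3662 .nil)
noncomputable def n4731 : Strat := .move 964 n410 (.cons 1002 n3318 .nil)
noncomputable def n4732 : Strat := .move 1001 n4527 (.cons 964 n1766 (.cons 1002 n4535 (.cons 919 n4532 (.cons 920 n4731 .nil))))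
noncomputable def n4733 : Strat := .move 1001 n411 (.cons 1000 n4731 .nil)
noncomputable def n4734 : Strat := .move 963 n4528 (.cons 1000 n4732 (.cons 1001 n4531 (.cons 964 n1767 (.cons 919 n4533 (.cons 1002 n4536 (.cons 920 n4733 .nil))))))
noncomputable def n4735 : Strat := .move 1004 n3531 (.cons 963 n4615 (.cons 1006 n2853 (.cons 1005 n4734 .nil)))
noncomputable def n4736 : Strat := .move 960 n3299 (.cons 1004 n4729 (.cons 1002 n3306 (.cons 958 n4730 (.cons 918 n3304 (.cons 959 n4735 .nil)))))
noncomputable def n4737 : Strat := .move 880 n4200 (.cons 921 n4736 .nil)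
noncomputable def n4738 : Strat := .move 1002 n1357 (.cons 964 n4687 .nil)
noncomputable def n4739 : Strat := .move 1001 n411 (.cons 1000 n4738 .nil)
noncomputable def n4740 : Strat := .move 963 n1260 (.cons 1005 n4739 .nil)
noncomputable def n4741 : Strat := .move 960 n1261 (.cons 959 n4740 .nil)
noncomputable def n4742 : Strat := .move 1000 n3075 (.cons 1044 n2818 .nil)
noncomputable def n4743 : Strat := .move 1001 n374 (.cons 1046 n4742 .nil)
noncomputable def n4744 : Strat := .move 1005 n2855 (.cons 965 n188 .nil)
noncomputable def n4745 : Strat := .move 964 n2882 (.cons 963 n4744 .nil)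
noncomputable def n4746 : Strat := .move 1001 n374 (.cons 1046 n4745 .nil)
noncomputable def n4747 : Strat := .move 1042 n131 (.cons 1005 n4700 .nil)
noncomputable def n4748 : Strat := .move 1043 n50 (.cons 1084 n4747 .nil)
noncomputable def n4749 : Strat := .move 1002 n4743 (.cons 1000 n4746 (.cons 1001 n4748 .nil))
noncomputable def n4750 : Strat := .move 1045 n4668 (.cons 1044 n4669 (.cons 963 n4608 (.cons 1086 n4749 .nil)))
noncomputable def n4751 : Strat := .move 879 n4129 (.cons 1044 n282 .nil)
noncomputable def n4752 : Strat := .move 920 n1351 (.cons 964 n4751 .nil)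
noncomputable def n4753 : Strat := .move 919 n198 (.cons 918 n4752 .nil)
noncomputable def n4754 : Strat := .move 963 n1260 (.cons 1005 n4753 .nil)
noncomputable def n4755 : Strat := .move 960 n1261 (.cons 959 n4754 .nil)
noncomputable def n4756 : Strat := .move 1042 n291 (.cons 1001 n130 .nil)
noncomputable def n4757 : Strat := .move 879 n1310 (.cons 1044 n4756 .nil)
noncomputable def n4758 : Strat := .move 879 n282 (.cons 838 n4756 .nil)
noncomputable def n4759 : Strat := .move 920 n1368 (.cons 838 n4757 (.cons 1044 n4758 (.cons 879 n3151 .nil)))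
noncomputable def n4760 : Strat := .move 1043 n50 (.cons 1084 n4759 .nil)
noncomputable def n4761 : Strat := .move 1002 n3068 (.cons 1005 n4760 .nil)
noncomputable def n4762 : Strat := .move 960 n1261 (.cons 959 n4761 .nil)
noncomputable def n4763 : Strat := .move 1000 n3075 (.cons 1044 n2865 .nil)
noncomputable def n4764 : Strat := .move 1002 n374 (.cons 1046 n4763 .nil)
noncomputable def n4765 : Strat := .move 1002 n374 (.cons 1046 n2867 .nil)
noncomputable def n4766 : Strat := .move 879 n4129 (.cons 1044 n1352 .nil)
noncomputable def n4767 : Strat := .move 919 n1351 (.cons 964 n77 .nil)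
noncomputable def n4768 : Strat := .move 920 n4766 (.cons 838 n4767 .nil)
noncomputable def n4769 : Strat := .move 963 n411 (.cons 1000 n4768 .nil)
noncomputable def n4770 : Strat := .move 1002 n374 (.cons 1046 n3178 .nil)
noncomputable def n4771 : Strat := .move 1002 n374 (.cons 1046 n1271 .nil)
noncomputable def n4772 : Strat := .move 1001 n4764 (.cons 1044 n4765 (.cons 1002 n4769 (.cons 963 n4770 (.cons 1000 n4771 .nil))))
noncomputable def n4773 : Strat := .move 960 n1261 (.cons 959 n4772 .nil)
noncomputable def n4774 : Strat := .move 1045 n4668 (.cons 1044 n4669 (.cons 963 n4608 (.cons 1086 n4773 .nil)))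
noncomputable def n4775 : Strat := .move 1004 n4741 (.cons 960 n4750 (.cons 1002 n4755 (.cons 963 n4762 (.cons 1005 n4774 .nil))))
noncomputable def n4776 : Strat := .move 921 n73 (.cons 880 n4775 .nil)
noncomputable def n4777 : Strat := .move 963 n1260 (.cons 1005 n4528 .nil)
noncomputable def n4778 : Strat := .move 960 n1261 (.cons 959 n4777 .nil)
noncomputable def n4779 : Strat := .move 1043 n187 (.cons 1042 n4653 .nil)
noncomputable def n4780 : Strat := .move 1002 n4652 (.cons 1084 n4779 (.cons 1043 n4516 .nil))
noncomputable def n4781 : Strat := .move 1005 n1465 (.cons 1006 n4780 .nil)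
noncomputable def n4782 : Strat := .move 920 n30 (.cons 965 n173 .nil)
noncomputable def n4783 : Strat := .move 964 n410 (.cons 1002 n4782 .nil)
noncomputable def n4784 : Strat := .move 1001 n411 (.cons 1000 n4783 .nil)
noncomputable def n4785 : Strat := .move 1002 n4687 (.cons 1086 n1264 .nil)
noncomputable def n4786 : Strat := .move 919 n198 (.cons 918 n4785 .nil)
noncomputable def n4787 : Strat := .move 1001 n411 (.cons 1000 n4786 .nil)
noncomputable def n4788 : Strat := .move 965 n3316 (.cons 966 n32 .nil)
noncomputable def n4789 : Strat := .move 964 n410 (.cons 1002 n4788 .nil)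
noncomputable def n4790 : Strat := .move 1001 n411 (.cons 1000 n4789 .nil)
noncomputable def n4791 : Strat := .move 963 n4528 (.cons 918 n4784 (.cons 964 n4787 (.cons 919 n4790 (.cons 1001 n4531 (.cons 1002 n3320 .nil)))))
noncomputable def n4792 : Strat := .move 960 n1261 (.cons 959 n4791 .nil)
noncomputable def n4793 : Strat := .move 1004 n2847 (.cons 963 n4658 (.cons 1006 n4778 (.cons 960 n4781 (.cons 1005 n4792 .nil))))
noncomputable def n4794 : Strat := .move 921 n73 (.cons 880 n4793 .nil)
noncomputable def n4795 : Strat := .win 921 3 920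
noncomputable def n4796 : Strat := .move 1084 n4795 (.cons 921 n1795 .nil)
noncomputable def n4797 : Strat := .move 1043 n187 (.cons 1042 n4796 .nil)
noncomputable def n4798 : Strat := .move 919 n2858 (.cons 963 n1965 .nil)
noncomputable def n4799 : Strat := .move 920 n1368 (.cons 838 n4798 .nil)
noncomputable def n4800 : Strat := .move 964 n2855 (.cons 965 n4799 .nil)
noncomputable def n4801 : Strat := .move 1043 n50 (.cons 1084 n4800 .nil)
noncomputable def n4802 : Strat := .move 921 n4653 (.cons 964 n4611 (.cons 1001 n4801 .nil))
noncomputable def n4803 : Strat := .move 1002 n2895 (.cons 963 n4797 (.cons 1042 n4802 (.cons 1043 n2884 .nil)))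
noncomputable def n4804 : Strat := .move 1005 n1465 (.cons 1006 n4803 .nil)
noncomputable def n4805 : Strat := .move 921 n4741 (.cons 960 n4750 (.cons 1002 n4755 (.cons 963 n4762 (.cons 1005 n4774 .nil))))
noncomputable def n4806 : Strat := .move 1002 n2769 (.cons 960 n4797 .nil)
noncomputable def n4807 : Strat := .move 1005 n1465 (.cons 1006 n4806 .nil)
noncomputable def n4808 : Strat := .move 963 n411 (.cons 1000 n4525 .nil)
noncomputable def n4809 : Strat := .move 963 n411 (.cons 1000 n4532 .nil)
noncomputable def n4810 : Strat := .move 963 n411 (.cons 1000 n4535 .nil)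
noncomputable def n4811 : Strat := .move 1042 n222 (.cons 1041 n1374 .nil)
noncomputable def n4812 : Strat := .move 1000 n2818 (.cons 999 n3476 .nil)
noncomputable def n4813 : Strat := .move 1002 n4811 (.cons 1042 n4812 .nil)
noncomputable def n4814 : Strat := .move 963 n4525 (.cons 1002 n4535 (.cons 919 n4532 (.cons 964 n3313 .nil)))
noncomputable def n4815 : Strat := .move 1001 n4808 (.cons 837 n4809 (.cons 1002 n4810 (.cons 963 n4813 (.cons 1000 n4814 .nil))))
noncomputable def n4816 : Strat := .move 960 n1261 (.cons 959 n4815 .nil)
noncomputable def n4817 : Strat := .move 1004 n2847 (.cons 960 n4804 (.cons 1006 n4805 (.cons 963 n4807 (.cons 1005 n4816 .nil))))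
noncomputable def n4818 : Strat := .move 964 n410 (.cons 1002 n197 .nil)
noncomputable def n4819 : Strat := .move 919 n198 (.cons 918 n4818 .nil)
noncomputable def n4820 : Strat := .move 963 n411 (.cons 1000 n4819 .nil)
noncomputable def n4821 : Strat := .move 1002 n1357 (.cons 964 n1264 .nil)
noncomputable def n4822 : Strat := .move 919 n198 (.cons 918 n4821 .nil)
noncomputable def n4823 : Strat := .move 963 n4532 (.cons 1002 n4535 (.cons 964 n3313 (.cons 1083 n4819 (.cons 920 n4822 .nil))))
noncomputable def n4824 : Strat := .move 963 n411 (.cons 1000 n4822 .nil)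
noncomputable def n4825 : Strat := .move 1002 n222 (.cons 1041 n1374 .nil)
noncomputable def n4826 : Strat := .move 1002 n1374 (.cons 920 n3077 .nil)
noncomputable def n4827 : Strat := .move 879 n1352 (.cons 838 n3400 .nil)
noncomputable def n4828 : Strat := .move 920 n1269 (.cons 1083 n4827 .nil)
noncomputable def n4829 : Strat := .move 1002 n222 (.cons 1041 n3077 .nil)
noncomputable def n4830 : Strat := .move 1042 n4825 (.cons 1041 n4826 (.cons 1002 n4828 (.cons 920 n4829 .nil)))
noncomputable def n4831 : Strat := .move 1001 n4809 (.cons 964 n3436 (.cons 1083 n4820 (.cons 1002 n4810 (.cons 1000 n4823 (.cons 920 n4824 (.cons 963 n4830 .nil))))))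
noncomputable def n4832 : Strat := .move 960 n1261 (.cons 959 n4831 .nil)
noncomputable def n4833 : Strat := .move 1002 n2855 (.cons 965 n2894 .nil)
noncomputable def n4834 : Strat := .move 1001 n2207 (.cons 1042 n1626 .nil)
noncomputable def n4835 : Strat := .move 1002 n2894 (.cons 1001 n2904 (.cons 963 n4834 .nil))
noncomputable def n4836 : Strat := .move 1002 n2855 (.cons 965 n4834 .nil)
noncomputable def n4837 : Strat := .move 1047 n392 (.cons 1048 n870 .nil)
noncomputable def n4838 : Strat := .move 1045 n934 (.cons 1086 n4837 .nil)
noncomputable def n4839 : Strat := .move 1046 n660 (.cons 883 n4838 .nil)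
noncomputable def n4840 : Strat := .move 924 n2901 (.cons 963 n4839 .nil)
noncomputable def n4841 : Strat := .move 923 n92 (.cons 882 n4840 .nil)
noncomputable def n4842 : Strat := .move 964 n4833 (.cons 965 n4835 (.cons 963 n4836 (.cons 1001 n4379 (.cons 1002 n4841 .nil))))
noncomputable def n4843 : Strat := .move 1005 n1465 (.cons 1006 n4842 .nil)
noncomputable def n4844 : Strat := .move 964 n2855 (.cons 965 n4834 .nil)
noncomputable def n4845 : Strat := .move 1002 n2769 (.cons 960 n4844 .nil)
noncomputable def n4846 : Strat := .move 1005 n1465 (.cons 1006 n4845 .nil)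
noncomputable def n4847 : Strat := .move 1004 n2847 (.cons 1005 n4832 (.cons 960 n4843 (.cons 963 n4846 .nil)))
noncomputable def n4848 : Strat := .move 1002 n126 (.cons 1000 n129 (.cons 1046 n4292 .nil))
noncomputable def n4849 : Strat := .move 1045 n121 (.cons 1086 n4848 .nil)
noncomputable def n4850 : Strat := .move 1043 n120 (.cons 1084 n4849 .nil)
noncomputable def n4851 : Strat := .move 1044 n122 (.cons 879 n4850 .nil)
noncomputable def n4852 : Strat := .move 1043 n50 (.cons 1084 n4698 .nil)
noncomputable def n4853 : Strat := .move 1002 n3020 (.cons 964 n2821 (.cons 1001 n4852 .nil))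
noncomputable def n4854 : Strat := .move 879 n282 (.cons 838 n4853 .nil)
noncomputable def n4855 : Strat := .move 919 n1965 (.cons 878 n4672 .nil)
noncomputable def n4856 : Strat := .move 1002 n129 (.cons 1001 n4855 .nil)
noncomputable def n4857 : Strat := .move 1045 n121 (.cons 1086 n4856 .nil)
noncomputable def n4858 : Strat := .move 1043 n120 (.cons 1084 n4857 .nil)
noncomputable def n4859 : Strat := .move 1044 n122 (.cons 879 n4858 .nil)
noncomputable def n4860 : Strat := .win 960 3 919
noncomputable def n4861 : Strat := .move 1083 n4860 (.cons 960 n225 .nil)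
noncomputable def n4862 : Strat := .move 1001 n366 (.cons 1000 n4861 .nil)
noncomputable def n4863 : Strat := .move 1042 n3935 (.cons 1041 n4862 (.cons 1001 n544 .nil))
noncomputable def n4864 : Strat := .move 1043 n120 (.cons 1084 n4863 .nil)
noncomputable def n4865 : Strat := .move 1045 n121 (.cons 1086 n4864 .nil)
noncomputable def n4866 : Strat := .move 1044 n122 (.cons 879 n4865 .nil)
noncomputable def n4867 : Strat := .move 1043 n126 (.cons 1000 n129 (.cons 1046 n4292 .nil))
noncomputable def n4868 : Strat := .move 1043 n129 (.cons 1001 n4855 .nil)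
noncomputable def n4869 : Strat := .win 960 6 837
noncomputable def n4870 : Strat := .move 837 n4869 (.cons 960 n99 .nil)
noncomputable def n4871 : Strat := .move 878 n1362 (.cons 1043 n4870 .nil)
noncomputable def n4872 : Strat := .move 919 n4672 (.cons 917 n4290 (.cons 963 n4871 .nil))
noncomputable def n4873 : Strat := .move 1002 n4867 (.cons 1000 n4868 (.cons 1043 n3926 (.cons 1001 n4872 .nil)))
noncomputable def n4874 : Strat := .move 1045 n121 (.cons 1086 n4873 .nil)
noncomputable def n4875 : Strat := .move 1044 n122 (.cons 879 n4874 .nil)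
noncomputable def n4876 : Strat := .move 919 n3921 (.cons 917 n4140 (.cons 918 n4293 .nil))
noncomputable def n4877 : Strat := .move 1043 n120 (.cons 1084 n4876 .nil)
noncomputable def n4878 : Strat := .move 1044 n122 (.cons 879 n4877 .nil)
noncomputable def n4879 : Strat := .win 795 6 795
noncomputable def n4880 : Strat := .move 836 n4879 (.cons 795 n3597 .nil)
noncomputable def n4881 : Strat := .move 877 n306 (.cons 876 n4880 .nil)
noncomputable def n4882 : Strat := .move 919 n81 (.cons 963 n4881 .nil)
noncomputable def n4883 : Strat := .move 918 n718 (.cons 917 n4882 .nil)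
noncomputable def n4884 : Strat := .move 959 n200 (.cons 1004 n4883 .nil)
noncomputable def n4885 : Strat := .move 959 n824 (.cons 958 n4883 .nil)
noncomputable def n4886 : Strat := .move 963 n411 (.cons 1000 n4230 .nil)
noncomputable def n4887 : Strat := .move 963 n411 (.cons 1000 n4131 .nil)
noncomputable def n4888 : Strat := .move 964 n30 (.cons 965 n410 .nil)
noncomputable def n4889 : Strat := .move 963 n411 (.cons 1000 n4888 .nil)
noncomputable def n4890 : Strat := .move 1002 n3368 (.cons 1082 n1264 .nil)
noncomputable def n4891 : Strat := .move 919 n3467 (.cons 917 n4890 .nil)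
noncomputable def n4892 : Strat := .move 1042 n1269 (.cons 1083 n4891 .nil)
noncomputable def n4893 : Strat := .move 1001 n4886 (.cons 918 n4887 (.cons 919 n4889 (.cons 963 n4892 .nil)))
noncomputable def n4894 : Strat := .move 960 n4317 (.cons 958 n4884 (.cons 1004 n4885 (.cons 959 n4893 .nil)))
noncomputable def n4895 : Strat := .move 920 n4851 (.cons 1044 n4854 (.cons 1000 n4859 (.cons 1002 n4866 (.cons 1084 n4875 (.cons 1001 n4878 (.cons 1043 n4130 (.cons 879 n4894 .nil)))))))
noncomputable def n4896 : Strat := .move 921 n73 (.cons 880 n4895 .nil)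
noncomputable def n4897 : Strat := .move 920 n2814 (.cons 882 n2828 .nil)
noncomputable def n4898 : Strat := .move 963 n2830 (.cons 960 n1351 .nil)
noncomputable def n4899 : Strat := .move 920 n501 (.cons 917 n4898 .nil)
noncomputable def n4900 : Strat := .move 918 n2815 (.cons 878 n4899 .nil)
noncomputable def n4901 : Strat := .move 959 n200 (.cons 1004 n718 .nil)
noncomputable def n4902 : Strat := .move 960 n3503 (.cons 963 n4901 .nil)
noncomputable def n4903 : Strat := .move 918 n2815 (.cons 878 n4902 .nil)
noncomputable def n4904 : Strat := .move 919 n4593 (.cons 918 n4897 (.cons 882 n4900 (.cons 920 n4903 .nil)))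
noncomputable def n4905 : Strat := .move 920 n282 (.cons 838 n2828 .nil)
noncomputable def n4906 : Strat := .move 919 n4638 (.cons 918 n4905 (.cons 838 n4900 (.cons 920 n4903 .nil)))
noncomputable def n4907 : Strat := .move 918 n501 (.cons 917 n4898 .nil)
noncomputable def n4908 : Strat := .move 919 n2814 (.cons 882 n4907 .nil)
noncomputable def n4909 : Strat := .move 920 n282 (.cons 838 n4908 .nil)
noncomputable def n4910 : Strat := .move 960 n1279 (.cons 797 n298 .nil)
noncomputable def n4911 : Strat := .move 838 n4358 (.cons 882 n4910 .nil)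
noncomputable def n4912 : Strat := .move 837 n4269 (.cons 836 n4911 .nil)
noncomputable def n4913 : Strat := .move 919 n2990 (.cons 918 n4912 .nil)
noncomputable def n4914 : Strat := .win 1000 1 836
noncomputable def n4915 : Strat := .move 959 n4914 (.cons 1000 n200 .nil)
noncomputable def n4916 : Strat := .move 960 n298 (.cons 1001 n4915 .nil)
noncomputable def n4917 : Strat := .move 838 n4358 (.cons 882 n4916 .nil)
noncomputable def n4918 : Strat := .move 837 n4269 (.cons 836 n4917 .nil)
noncomputable def n4919 : Strat := .move 919 n2990 (.cons 918 n4918 .nil)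
noncomputable def n4920 : Strat := .move 919 n298 (.cons 1001 n1279 .nil)
noncomputable def n4921 : Strat := .move 919 n4914 (.cons 1000 n298 .nil)
noncomputable def n4922 : Strat := .move 959 n200 (.cons 1004 n4921 .nil)
noncomputable def n4923 : Strat := .move 919 n1279 (.cons 797 n4915 .nil)
noncomputable def n4924 : Strat := .move 1004 n1261 (.cons 959 n4322 .nil)
noncomputable def n4925 : Strat := .move 960 n4920 (.cons 797 n4922 (.cons 1001 n4923 (.cons 919 n4924 .nil)))
noncomputable def n4926 : Strat := .move 838 n4358 (.cons 882 n4925 .nil)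
noncomputable def n4927 : Strat := .move 837 n4269 (.cons 836 n4926 .nil)
noncomputable def n4928 : Strat := .win 919 4 877
noncomputable def n4929 : Strat := .win 917 4 876
noncomputable def n4930 : Strat := .move 836 n4212 (.cons 837 n4365 .nil)
noncomputable def n4931 : Strat := .move 877 n4929 (.cons 917 n4930 .nil)
noncomputable def n4932 : Strat := .move 918 n4928 (.cons 919 n4931 .nil)
noncomputable def n4933 : Strat := .move 1000 n2865 (.cons 963 n4168 .nil)
noncomputable def n4934 : Strat := .move 1001 n1290 (.cons 838 n4933 .nil)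
noncomputable def n4935 : Strat := .move 959 n825 (.cons 999 n200 .nil)
noncomputable def n4936 : Strat := .move 1000 n2865 (.cons 963 n4935 .nil)
noncomputable def n4937 : Strat := .move 1001 n1290 (.cons 838 n4936 .nil)
noncomputable def n4938 : Strat := .move 1000 n4168 (.cons 1041 n4935 .nil)
noncomputable def n4939 : Strat := .move 1001 n1290 (.cons 838 n4938 .nil)
noncomputable def n4940 : Strat := .move 960 n4934 (.cons 1041 n4937 (.cons 1001 n4924 (.cons 963 n4939 .nil)))
noncomputable def n4941 : Strat := .move 919 n2990 (.cons 918 n4940 .nil)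
noncomputable def n4942 : Strat := .move 837 n4269 (.cons 836 n4276 .nil)
noncomputable def n4943 : Strat := .move 1004 n1465 (.cons 1006 n2778 .nil)
noncomputable def n4944 : Strat := .move 1005 n4278 (.cons 964 n4943 .nil)
noncomputable def n4945 : Strat := .move 923 n4279 (.cons 924 n4944 .nil)
noncomputable def n4946 : Strat := .move 882 n4942 (.cons 837 n4945 .nil)
noncomputable def n4947 : Strat := .move 878 n4913 (.cons 797 n4919 (.cons 918 n4927 (.cons 838 n4932 (.cons 837 n4941 (.cons 919 n4946 .nil)))))
noncomputable def n4948 : Strat := .move 879 n4266 (.cons 838 n4904 (.cons 882 n4906 (.cons 919 n4583 (.cons 878 n4909 (.cons 920 n4947 .nil)))))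
noncomputable def n4949 : Strat := .move 880 n4200 (.cons 921 n4948 .nil)
noncomputable def n4950 : Strat := .move 1002 n199 (.cons 958 n3098 .nil)
noncomputable def n4951 : Strat := .move 1001 n2865 (.cons 963 n4950 .nil)
noncomputable def n4952 : Strat := .move 1000 n825 (.cons 999 n4951 .nil)
noncomputable def n4953 : Strat := .move 959 n3327 (.cons 1000 n1407 (.cons 917 n4952 (.cons 1002 n4305 .nil)))
noncomputable def n4954 : Strat := .move 1004 n1261 (.cons 959 n4615 .nil)
noncomputable def n4955 : Strat := .move 1004 n1260 (.cons 1005 n4739 .nil)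
noncomputable def n4956 : Strat := .move 1004 n1260 (.cons 1005 n4787 .nil)
noncomputable def n4957 : Strat := .move 919 n1266 (.cons 878 n198 .nil)
noncomputable def n4958 : Strat := .move 1043 n50 (.cons 1084 n4957 .nil)
noncomputable def n4959 : Strat := .move 1002 n1357 (.cons 964 n4958 .nil)
noncomputable def n4960 : Strat := .move 1001 n411 (.cons 1000 n4959 .nil)
noncomputable def n4961 : Strat := .move 1004 n1260 (.cons 1005 n4960 .nil)
noncomputable def n4962 : Strat := .move 919 n198 (.cons 918 n3625 .nil)
noncomputable def n4963 : Strat := .move 964 n410 (.cons 1002 n4962 .nil)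
noncomputable def n4964 : Strat := .move 1001 n411 (.cons 1000 n4963 .nil)
noncomputable def n4965 : Strat := .move 1001 n411 (.cons 1000 n4473 .nil)
noncomputable def n4966 : Strat := .move 963 n4955 (.cons 964 n4956 (.cons 1045 n4961 (.cons 1004 n4964 (.cons 1005 n4960 (.cons 1002 n4965 (.cons 1001 n3579 .nil))))))
noncomputable def n4967 : Strat := .move 960 n3532 (.cons 1004 n4953 (.cons 963 n4954 (.cons 959 n4966 .nil)))
noncomputable def n4968 : Strat := .move 921 n73 (.cons 880 n4967 .nil)
noncomputable def n4969 : Strat := .move 958 n3302 (.cons 999 n1406 .nil)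
noncomputable def n4970 : Strat := .move 959 n3303 (.cons 999 n1407 (.cons 1002 n4969 (.cons 958 n3662 .nil)))
noncomputable def n4971 : Strat := .move 880 n4200 (.cons 921 n4970 .nil)
noncomputable def n4972 : Strat := .move 920 n30 (.cons 965 n4766 .nil)
noncomputable def n4973 : Strat := .move 964 n410 (.cons 1002 n4972 .nil)
noncomputable def n4974 : Strat := .move 1001 n411 (.cons 1000 n4973 .nil)
noncomputable def n4975 : Strat := .move 879 n4129 (.cons 1044 n3454 .nil)
noncomputable def n4976 : Strat := .move 1002 n4687 (.cons 1086 n2868 .nil)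
noncomputable def n4977 : Strat := .move 920 n4766 (.cons 838 n4975 (.cons 1044 n3455 (.cons 879 n4976 .nil)))
noncomputable def n4978 : Strat := .move 1004 n1260 (.cons 1005 n4977 .nil)
noncomputable def n4979 : Strat := .move 1001 n411 (.cons 1000 n4978 .nil)
noncomputable def n4980 : Strat := .move 964 n166 (.cons 1006 n181 .nil)
noncomputable def n4981 : Strat := .move 1005 n622 (.cons 1004 n4980 .nil)
noncomputable def n4982 : Strat := .move 963 n4955 (.cons 1004 n4974 (.cons 964 n4979 (.cons 1001 n4981 (.cons 1002 n4965 .nil))))
noncomputable def n4983 : Strat := .move 921 n73 (.cons 880 n4982 .nil)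
noncomputable def n4984 : Strat := .move 960 n3532 (.cons 1004 n4971 (.cons 963 n4954 (.cons 959 n4983 .nil)))
noncomputable def n4985 : Strat := .move 958 n1403 (.cons 1002 n4632 .nil)
noncomputable def n4986 : Strat := .move 919 n3503 (.cons 963 n3161 .nil)
noncomputable def n4987 : Strat := .move 918 n718 (.cons 917 n4986 .nil)
noncomputable def n4988 : Strat := .move 1000 n825 (.cons 999 n4987 .nil)
noncomputable def n4989 : Strat := .move 959 n4985 (.cons 920 n3327 (.cons 1002 n4988 .nil))
noncomputable def n4990 : Strat := .move 921 n73 (.cons 880 n4989 .nil)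
noncomputable def n4991 : Strat := .move 1000 n3162 (.cons 1041 n825 .nil)
noncomputable def n4992 : Strat := .move 878 n1263 (.cons 837 n4991 .nil)
noncomputable def n4993 : Strat := .move 919 n3503 (.cons 963 n4992 .nil)
noncomputable def n4994 : Strat := .move 918 n718 (.cons 917 n4993 .nil)
noncomputable def n4995 : Strat := .move 959 n199 (.cons 958 n4994 .nil)
noncomputable def n4996 : Strat := .move 1043 n1265 (.cons 1084 n4239 .nil)
noncomputable def n4997 : Strat := .move 919 n3503 (.cons 963 n4996 .nil)
noncomputable def n4998 : Strat := .move 918 n718 (.cons 917 n4997 .nil)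
noncomputable def n4999 : Strat := .move 959 n199 (.cons 958 n4998 .nil)
noncomputable def n5000 : Strat := .move 1000 n2865 (.cons 963 n4437 .nil)
noncomputable def n5001 : Strat := .move 1043 n1266 (.cons 878 n3567 .nil)
noncomputable def n5002 : Strat := .move 963 n198 (.cons 918 n1351 .nil)
noncomputable def n5003 : Strat := .move 919 n1267 (.cons 1084 n5001 (.cons 1043 n5002 .nil))
noncomputable def n5004 : Strat := .move 920 n3182 (.cons 838 n2930 (.cons 1044 n3183 (.cons 879 n5003 .nil)))
noncomputable def n5005 : Strat := .move 1001 n4432 (.cons 963 n4438 (.cons 999 n5000 (.cons 1000 n5004 .nil)))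
noncomputable def n5006 : Strat := .move 1002 n4418 (.cons 1001 n4995 (.cons 963 n3102 (.cons 1000 n4999 (.cons 918 n4431 (.cons 958 n5005 .nil)))))
noncomputable def n5007 : Strat := .move 963 n826 (.cons 1001 n4767 .nil)
noncomputable def n5008 : Strat := .move 1000 n825 (.cons 999 n5007 .nil)
noncomputable def n5009 : Strat := .move 959 n824 (.cons 958 n5008 .nil)
noncomputable def n5010 : Strat := .move 879 n4129 (.cons 1044 n5009 .nil)
noncomputable def n5011 : Strat := .move 920 n4130 (.cons 838 n5010 (.cons 879 n5009 .nil))
noncomputable def n5012 : Strat := .move 921 n73 (.cons 880 n5011 .nil)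
noncomputable def n5013 : Strat := .move 1001 n2865 (.cons 963 n3454 .nil)
noncomputable def n5014 : Strat := .move 1000 n825 (.cons 999 n5013 .nil)
noncomputable def n5015 : Strat := .move 959 n824 (.cons 958 n5014 .nil)
noncomputable def n5016 : Strat := .move 879 n282 (.cons 838 n5015 .nil)
noncomputable def n5017 : Strat := .move 879 n4129 (.cons 1044 n5015 .nil)
noncomputable def n5018 : Strat := .move 964 n30 (.cons 965 n173 .nil)
noncomputable def n5019 : Strat := .move 963 n826 (.cons 1001 n5018 .nil)
noncomputable def n5020 : Strat := .move 1000 n825 (.cons 999 n5019 .nil)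
noncomputable def n5021 : Strat := .move 959 n824 (.cons 958 n5020 .nil)
noncomputable def n5022 : Strat := .move 920 n4130 (.cons 1044 n5016 (.cons 838 n5017 (.cons 879 n5021 .nil)))
noncomputable def n5023 : Strat := .move 921 n73 (.cons 880 n5022 .nil)
noncomputable def n5024 : Strat := .move 1002 n199 (.cons 958 n4421 .nil)
noncomputable def n5025 : Strat := .move 837 n98 (.cons 1002 n3559 .nil)
noncomputable def n5026 : Strat := .move 878 n4349 (.cons 879 n5025 .nil)
noncomputable def n5027 : Strat := .move 919 n3503 (.cons 963 n5026 .nil)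
noncomputable def n5028 : Strat := .move 918 n718 (.cons 917 n5027 .nil)
noncomputable def n5029 : Strat := .move 919 n3503 (.cons 963 n4347 .nil)
noncomputable def n5030 : Strat := .move 918 n718 (.cons 917 n5029 .nil)
noncomputable def n5031 : Strat := .win 920 5 916
noncomputable def n5032 : Strat := .win 956 5 915
noncomputable def n5033 : Strat := .move 918 n5032 (.cons 956 n3503 .nil)
noncomputable def n5034 : Strat := .move 919 n5031 (.cons 920 n5033 .nil)
noncomputable def n5035 : Strat := .move 957 n3548 (.cons 997 n5034 .nil)
noncomputable def n5036 : Strat := .move 998 n3547 (.cons 999 n5035 .nil)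
noncomputable def n5037 : Strat := .move 958 n1403 (.cons 1002 n5036 .nil)
noncomputable def n5038 : Strat := .move 998 n3548 (.cons 997 n3547 .nil)
noncomputable def n5039 : Strat := .move 957 n3546 (.cons 915 n5038 .nil)
noncomputable def n5040 : Strat := .move 916 n3545 (.cons 917 n5039 .nil)
noncomputable def n5041 : Strat := .move 958 n1403 (.cons 1002 n5040 .nil)
noncomputable def n5042 : Strat := .move 959 n5024 (.cons 958 n5028 (.cons 1002 n5030 (.cons 919 n1407 (.cons 917 n5037 (.cons 918 n5041 .nil)))))
noncomputable def n5043 : Strat := .move 880 n4200 (.cons 921 n5042 .nil)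
noncomputable def n5044 : Strat := .move 964 n410 (.cons 1002 n3625 .nil)
noncomputable def n5045 : Strat := .move 1001 n411 (.cons 1000 n5044 .nil)
noncomputable def n5046 : Strat := .move 964 n449 (.cons 919 n3625 .nil)
noncomputable def n5047 : Strat := .move 1001 n1258 (.cons 964 n4408 (.cons 919 n5044 (.cons 1002 n5046 .nil)))
noncomputable def n5048 : Strat := .move 1001 n411 (.cons 1000 n5046 .nil)
noncomputable def n5049 : Strat := .move 964 n197 (.cons 920 n172 .nil)
noncomputable def n5050 : Strat := .move 919 n198 (.cons 918 n5049 .nil)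
noncomputable def n5051 : Strat := .move 963 n1259 (.cons 919 n5045 (.cons 964 n4409 (.cons 1000 n5047 (.cons 1002 n5048 (.cons 1001 n5050 .nil)))))
noncomputable def n5052 : Strat := .move 880 n4200 (.cons 921 n5051 .nil)
noncomputable def n5053 : Strat := .move 960 n4990 (.cons 963 n4577 (.cons 1001 n4636 (.cons 919 n4971 (.cons 880 n5006 (.cons 917 n5012 (.cons 918 n5023 (.cons 1000 n5043 (.cons 959 n5052 .nil))))))))
noncomputable def n5054 : Strat := .move 961 n4540 (.cons 960 n4576 (.cons 963 n4606 (.cons 964 n4631 (.cons 1001 n4651 (.cons 1000 n4682 (.cons 918 n4716 (.cons 882 n4728 (.cons 878 n4737 (.cons 1006 n4776 (.cons 879 n4794 (.cons 880 n4817 (.cons 921 n4847 (.cons 1005 n4896 (.cons 1002 n4949 (.cons 920 n4968 (.cons 919 n4984 (.cons 1004 n5053 .nil)))))))))))))))))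
noncomputable def n5055 : Strat := .move 1045 n121 (.cons 1086 n4035 .nil)
noncomputable def n5056 : Strat := .move 1043 n120 (.cons 1084 n5055 .nil)
noncomputable def n5057 : Strat := .move 1126 n4041 (.cons 961 n1507 .nil)
noncomputable def n5058 : Strat := .move 1085 n216 (.cons 1125 n5057 .nil)
noncomputable def n5059 : Strat := .move 1084 n215 (.cons 1043 n5058 .nil)
noncomputable def n5060 : Strat := .move 1004 n3826 (.cons 963 n4115 .nil)
noncomputable def n5061 : Strat := .move 1126 n4041 (.cons 961 n5060 .nil)
noncomputable def n5062 : Strat := .move 1085 n216 (.cons 1125 n5061 .nil)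
noncomputable def n5063 : Strat := .move 1084 n215 (.cons 1043 n5062 .nil)
noncomputable def n5064 : Strat := .move 1042 n131 (.cons 1005 n1482 .nil)
noncomputable def n5065 : Strat := .move 1004 n3826 (.cons 963 n5064 .nil)
noncomputable def n5066 : Strat := .move 1043 n4049 (.cons 1167 n5065 .nil)
noncomputable def n5067 : Strat := .move 1126 n4041 (.cons 961 n5066 .nil)
noncomputable def n5068 : Strat := .move 1085 n211 (.cons 1127 n5067 .nil)
noncomputable def n5069 : Strat := .move 1086 n210 (.cons 1045 n5068 .nil)
noncomputable def n5070 : Strat := .move 1126 n4041 (.cons 961 n1475 .nil)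
noncomputable def n5071 : Strat := .move 1085 n211 (.cons 1127 n5070 .nil)
noncomputable def n5072 : Strat := .move 1086 n210 (.cons 1045 n5071 .nil)
noncomputable def n5073 : Strat := .move 1002 n5056 (.cons 1045 n5059 (.cons 1086 n5063 (.cons 1084 n5069 (.cons 1043 n5072 .nil))))
noncomputable def n5074 : Strat := .move 1004 n248 (.cons 1006 n2799 .nil)
noncomputable def n5075 : Strat := .move 1046 n230 (.cons 1006 n360 .nil)
noncomputable def n5076 : Strat := .move 1047 n392 (.cons 1048 n2229 .nil)
noncomputable def n5077 : Strat := .move 1047 n2229 (.cons 1002 n359 .nil)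
noncomputable def n5078 : Strat := .move 1046 n5076 (.cons 1002 n393 (.cons 1048 n5077 (.cons 1047 n3734 .nil)))
noncomputable def n5079 : Strat := .move 1004 n2799 (.cons 1042 n5078 .nil)
noncomputable def n5080 : Strat := .move 1005 n5074 (.cons 1004 n5075 (.cons 1006 n5079 .nil))
noncomputable def n5081 : Strat := .move 1043 n120 (.cons 1084 n5080 .nil)
noncomputable def n5082 : Strat := .move 1045 n121 (.cons 1086 n5081 .nil)
noncomputable def n5083 : Strat := .move 1044 n214 (.cons 920 n5073 (.cons 961 n240 (.cons 1127 n219 (.cons 1085 n5082 .nil))))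
noncomputable def n5084 : Strat := .move 921 n73 (.cons 880 n5083 .nil)
noncomputable def n5085 : Strat := .move 879 n2814 (.cons 882 n282 .nil)
noncomputable def n5086 : Strat := .move 920 n1351 (.cons 964 n5085 .nil)
noncomputable def n5087 : Strat := .move 919 n198 (.cons 918 n5086 .nil)
noncomputable def n5088 : Strat := .move 963 n4528 (.cons 918 n4733 (.cons 1001 n5087 (.cons 964 n1767 .nil)))
noncomputable def n5089 : Strat := .move 960 n1261 (.cons 959 n5088 .nil)
noncomputable def n5090 : Strat := .move 964 n2855 (.cons 965 n2891 .nil)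
noncomputable def n5091 : Strat := .move 1002 n4516 (.cons 1047 n5090 (.cons 964 n3226 (.cons 1001 n2905 .nil)))
noncomputable def n5092 : Strat := .move 1005 n1465 (.cons 1006 n5091 .nil)
noncomputable def n5093 : Strat := .move 1004 n2847 (.cons 959 n4518 (.cons 963 n3435 (.cons 1006 n2854 (.cons 1005 n5089 (.cons 960 n5092 .nil)))))
noncomputable def n5094 : Strat := .move 880 n4200 (.cons 921 n5093 .nil)
noncomputable def n5095 : Strat := .move 1085 n1464 (.cons 920 n1771 .nil)
noncomputable def n5096 : Strat := .move 1002 n2864 (.cons 1045 n2818 .nil)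
noncomputable def n5097 : Strat := .move 1000 n2865 (.cons 963 n5096 .nil)
noncomputable def n5098 : Strat := .move 999 n3693 (.cons 998 n4623 .nil)
noncomputable def n5099 : Strat := .move 1000 n2865 (.cons 963 n5098 .nil)
noncomputable def n5100 : Strat := .move 1002 n2864 (.cons 1045 n3084 .nil)
noncomputable def n5101 : Strat := .move 1000 n2865 (.cons 963 n5100 .nil)
noncomputable def n5102 : Strat := .move 1002 n3071 (.cons 1000 n4811 .nil)
noncomputable def n5103 : Strat := .move 920 n174 (.cons 879 n2868 .nil)
noncomputable def n5104 : Strat := .move 963 n1357 (.cons 964 n5103 .nil)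
noncomputable def n5105 : Strat := .move 963 n1357 (.cons 964 n198 .nil)
noncomputable def n5106 : Strat := .move 919 n5105 (.cons 918 n1264 .nil)
noncomputable def n5107 : Strat := .move 1042 n222 (.cons 1041 n5106 .nil)
noncomputable def n5108 : Strat := .move 1002 n5104 (.cons 963 n4811 (.cons 1083 n5107 (.cons 1042 n4433 .nil)))
noncomputable def n5109 : Strat := .move 1001 n5097 (.cons 1045 n5099 (.cons 999 n5101 (.cons 1002 n4810 (.cons 963 n5102 (.cons 1000 n5108 .nil)))))
noncomputable def n5110 : Strat := .move 960 n1261 (.cons 959 n5109 .nil)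
noncomputable def n5111 : Strat := .move 1001 n2882 (.cons 963 n2848 .nil)
noncomputable def n5112 : Strat := .move 964 n2855 (.cons 965 n5111 .nil)
noncomputable def n5113 : Strat := .move 920 n173 (.cons 919 n174 .nil)
noncomputable def n5114 : Strat := .move 963 n5113 (.cons 879 n168 .nil)
noncomputable def n5115 : Strat := .move 964 n2855 (.cons 965 n5114 .nil)
noncomputable def n5116 : Strat := .move 1042 n2099 (.cons 1043 n5115 .nil)
noncomputable def n5117 : Strat := .move 1002 n5112 (.cons 963 n2850 (.cons 1001 n5116 .nil))
noncomputable def n5118 : Strat := .move 1005 n1465 (.cons 1006 n5117 .nil)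
noncomputable def n5119 : Strat := .move 1004 n2847 (.cons 1005 n5110 (.cons 959 n3434 (.cons 963 n2852 (.cons 960 n5118 .nil))))
noncomputable def n5120 : Strat := .move 1167 n3829 (.cons 1045 n3853 .nil)
noncomputable def n5121 : Strat := .move 1166 n3852 (.cons 1125 n5120 .nil)
noncomputable def n5122 : Strat := .move 1005 n1465 (.cons 1006 n5121 .nil)
noncomputable def n5123 : Strat := .move 1004 n3826 (.cons 963 n5122 .nil)
noncomputable def n5124 : Strat := .move 1126 n1506 (.cons 1168 n5123 .nil)
noncomputable def n5125 : Strat := .move 1127 n1505 (.cons 1086 n5124 .nil)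
noncomputable def n5126 : Strat := .move 1085 n1464 (.cons 920 n5125 .nil)
noncomputable def n5127 : Strat := .move 1002 n199 (.cons 958 n2864 .nil)
noncomputable def n5128 : Strat := .move 1001 n2865 (.cons 963 n5127 .nil)
noncomputable def n5129 : Strat := .move 1000 n825 (.cons 999 n5128 .nil)
noncomputable def n5130 : Strat := .move 959 n5129 (.cons 1000 n1407 (.cons 958 n3662 .nil))
noncomputable def n5131 : Strat := .win 1085 6 962
noncomputable def n5132 : Strat := .move 1127 n3786 (.cons 1087 n5131 .nil)
noncomputable def n5133 : Strat := .move 1086 n667 (.cons 1045 n5132 .nil)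
noncomputable def n5134 : Strat := .move 1046 n3523 (.cons 1045 n2969 (.cons 1088 n5133 .nil))
noncomputable def n5135 : Strat := .move 923 n92 (.cons 882 n5134 .nil)
noncomputable def n5136 : Strat := .move 964 n2912 (.cons 963 n5135 (.cons 1002 n2914 .nil))
noncomputable def n5137 : Strat := .move 1005 n3510 (.cons 963 n3511 (.cons 1006 n3528 (.cons 1004 n5136 .nil)))
noncomputable def n5138 : Strat := .move 960 n3532 (.cons 1004 n5130 (.cons 963 n4954 (.cons 959 n5137 .nil)))
noncomputable def n5139 : Strat := .move 1044 n5095 (.cons 1085 n5119 (.cons 1002 n5126 (.cons 920 n5138 .nil)))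
noncomputable def n5140 : Strat := .move 920 n4264 (.cons 918 n2828 .nil)
noncomputable def n5141 : Strat := .move 919 n4593 (.cons 918 n4897 (.cons 882 n5140 (.cons 920 n4903 .nil)))
noncomputable def n5142 : Strat := .move 919 n4264 (.cons 918 n2828 .nil)
noncomputable def n5143 : Strat := .move 920 n282 (.cons 838 n5142 .nil)
noncomputable def n5144 : Strat := .move 1044 n123 (.cons 1085 n4908 .nil)
noncomputable def n5145 : Strat := .move 920 n282 (.cons 838 n5144 .nil)
noncomputable def n5146 : Strat := .move 882 n8 (.cons 919 n4945 .nil)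
noncomputable def n5147 : Strat := .move 920 n282 (.cons 838 n5146 .nil)
noncomputable def n5148 : Strat := .win 960 3 796
noncomputable def n5149 : Strat := .win 756 1 755
noncomputable def n5150 : Strat := .move 797 n5148 (.cons 960 n5149 .nil)
noncomputable def n5151 : Strat := .move 838 n4358 (.cons 882 n5150 .nil)
noncomputable def n5152 : Strat := .move 919 n2990 (.cons 918 n5151 .nil)
noncomputable def n5153 : Strat := .move 837 n4269 (.cons 836 n5152 .nil)
noncomputable def n5154 : Strat := .move 960 n4934 (.cons 1041 n4937 (.cons 963 n4939 (.cons 1001 n4924 .nil)))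
noncomputable def n5155 : Strat := .move 919 n2990 (.cons 918 n5154 .nil)
noncomputable def n5156 : Strat := .move 878 n5153 (.cons 918 n4927 (.cons 797 n4932 (.cons 837 n5155 (.cons 919 n4946 .nil))))
noncomputable def n5157 : Strat := .move 879 n4266 (.cons 838 n5141 (.cons 882 n5143 (.cons 878 n5145 (.cons 918 n5147 (.cons 919 n4583 (.cons 920 n5156 .nil))))))
noncomputable def n5158 : Strat := .move 880 n4200 (.cons 921 n5157 .nil)
noncomputable def n5159 : Strat := .move 964 n1234 (.cons 920 n2911 (.cons 965 n177 .nil))
noncomputable def n5160 : Strat := .move 1042 n4692 (.cons 1083 n1801 .nil)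
noncomputable def n5161 : Strat := .move 1001 n1417 (.cons 1000 n5160 .nil)
noncomputable def n5162 : Strat := .move 1042 n231 (.cons 1004 n130 .nil)
noncomputable def n5163 : Strat := .move 1005 n166 (.cons 1006 n5162 .nil)
noncomputable def n5164 : Strat := .move 920 n173 (.cons 919 n5163 .nil)
noncomputable def n5165 : Strat := .move 964 n1325 (.cons 965 n5164 .nil)
noncomputable def n5166 : Strat := .move 1043 n3034 (.cons 964 n5161 (.cons 1001 n5165 .nil))
noncomputable def n5167 : Strat := .move 1045 n4686 (.cons 1086 n374 .nil)
noncomputable def n5168 : Strat := .move 1005 n2099 (.cons 1043 n1465 .nil)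
noncomputable def n5169 : Strat := .move 1042 n222 (.cons 1041 n5168 .nil)
noncomputable def n5170 : Strat := .move 1045 n374 (.cons 1046 n5169 .nil)
noncomputable def n5171 : Strat := .move 1004 n5167 (.cons 1086 n5170 (.cons 1045 n2996 .nil))
noncomputable def n5172 : Strat := .move 1001 n1417 (.cons 1000 n5171 .nil)
noncomputable def n5173 : Strat := .move 1001 n1357 (.cons 964 n5171 .nil)
noncomputable def n5174 : Strat := .move 1001 n1357 (.cons 964 n1417 .nil)
noncomputable def n5175 : Strat := .move 964 n1325 (.cons 965 n172 .nil)
noncomputable def n5176 : Strat := .move 1002 n5166 (.cons 964 n5172 (.cons 1000 n5173 (.cons 1004 n5174 (.cons 1001 n5175 .nil))))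
noncomputable def n5177 : Strat := .move 920 n4131 (.cons 964 n4316 .nil)
noncomputable def n5178 : Strat := .move 1002 n48 (.cons 1001 n172 .nil)
noncomputable def n5179 : Strat := .move 1002 n1325 (.cons 965 n172 .nil)
noncomputable def n5180 : Strat := .move 964 n2911 (.cons 965 n5178 (.cons 1001 n5179 (.cons 1002 n172 .nil)))
noncomputable def n5181 : Strat := .move 964 n48 (.cons 1001 n176 .nil)
noncomputable def n5182 : Strat := .move 964 n176 (.cons 920 n172 .nil)
noncomputable def n5183 : Strat := .move 964 n48 (.cons 1001 n172 .nil)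
noncomputable def n5184 : Strat := .move 1046 n2970 (.cons 1043 n3723 .nil)
noncomputable def n5185 : Strat := .move 1045 n121 (.cons 1086 n5184 .nil)
noncomputable def n5186 : Strat := .move 1044 n123 (.cons 1085 n5185 .nil)
noncomputable def n5187 : Strat := .move 920 n2929 (.cons 838 n2930 (.cons 879 n5186 (.cons 1044 n1964 .nil)))
noncomputable def n5188 : Strat := .move 1001 n1417 (.cons 1000 n5187 .nil)
noncomputable def n5189 : Strat := .move 1002 n5181 (.cons 1001 n5182 (.cons 920 n5183 (.cons 964 n5188 .nil)))
noncomputable def n5190 : Strat := .move 920 n123 (.cons 1085 n5185 .nil)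
noncomputable def n5191 : Strat := .move 1044 n3007 (.cons 879 n5190 (.cons 920 n5185 .nil))
noncomputable def n5192 : Strat := .move 1001 n1417 (.cons 1000 n5191 .nil)
noncomputable def n5193 : Strat := .move 879 n282 (.cons 838 n4546 .nil)
noncomputable def n5194 : Strat := .move 1045 n121 (.cons 1086 n4058 .nil)
noncomputable def n5195 : Strat := .move 1001 n1417 (.cons 1000 n5194 .nil)
noncomputable def n5196 : Strat := .move 1044 n123 (.cons 1085 n5195 .nil)
noncomputable def n5197 : Strat := .move 920 n175 (.cons 1044 n5193 (.cons 879 n5196 .nil))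
noncomputable def n5198 : Strat := .move 1001 n2970 (.cons 1043 n3723 .nil)
noncomputable def n5199 : Strat := .move 1046 n127 (.cons 1047 n5198 .nil)
noncomputable def n5200 : Strat := .move 1045 n121 (.cons 1086 n5199 .nil)
noncomputable def n5201 : Strat := .move 1044 n123 (.cons 1085 n5200 .nil)
noncomputable def n5202 : Strat := .move 1044 n174 (.cons 879 n5200 .nil)
noncomputable def n5203 : Strat := .move 878 n1362 (.cons 1043 n286 .nil)
noncomputable def n5204 : Strat := .move 919 n77 (.cons 918 n5203 .nil)
noncomputable def n5205 : Strat := .move 879 n282 (.cons 838 n5204 .nil)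
noncomputable def n5206 : Strat := .move 920 n175 (.cons 879 n5201 (.cons 1085 n5202 (.cons 1044 n5205 .nil)))
noncomputable def n5207 : Strat := .move 879 n1310 (.cons 1044 n4546 .nil)
noncomputable def n5208 : Strat := .move 1045 n121 (.cons 1086 n3926 .nil)
noncomputable def n5209 : Strat := .move 1044 n123 (.cons 1085 n5208 .nil)
noncomputable def n5210 : Strat := .move 920 n2929 (.cons 838 n5207 (.cons 879 n5209 (.cons 1044 n5193 .nil)))
noncomputable def n5211 : Strat := .move 878 n1362 (.cons 1043 n3155 .nil)
noncomputable def n5212 : Strat := .move 919 n77 (.cons 918 n5211 .nil)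
noncomputable def n5213 : Strat := .move 1044 n1364 (.cons 1085 n4234 .nil)
noncomputable def n5214 : Strat := .move 1041 n543 (.cons 1004 n250 .nil)
noncomputable def n5215 : Strat := .move 1042 n130 (.cons 1083 n5214 .nil)
noncomputable def n5216 : Strat := .move 1044 n1364 (.cons 1085 n5215 .nil)
noncomputable def n5217 : Strat := .move 919 n77 (.cons 918 n1965 .nil)
noncomputable def n5218 : Strat := .move 1043 n5213 (.cons 878 n5216 (.cons 1044 n5217 .nil))
noncomputable def n5219 : Strat := .move 920 n175 (.cons 1044 n5212 (.cons 879 n5218 .nil))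
noncomputable def n5220 : Strat := .move 1002 n5192 (.cons 1044 n5172 (.cons 1004 n5197 (.cons 1000 n5206 (.cons 1043 n5210 (.cons 1001 n5219 .nil)))))
noncomputable def n5221 : Strat := .move 963 n5159 (.cons 1044 n5176 (.cons 1002 n5177 (.cons 920 n5180 (.cons 965 n5189 (.cons 964 n5220 .nil)))))
noncomputable def n5222 : Strat := .move 921 n73 (.cons 880 n5221 .nil)
noncomputable def n5223 : Strat := .move 919 n3096 (.cons 1082 n3160 .nil)
noncomputable def n5224 : Strat := .win 1122 1 958
noncomputable def n5225 : Strat := .win 1040 1 917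
noncomputable def n5226 : Strat := .move 1081 n5224 (.cons 1122 n5225 .nil)
noncomputable def n5227 : Strat := .move 1082 n3652 (.cons 919 n5226 .nil)
noncomputable def n5228 : Strat := .move 1042 n2982 (.cons 877 n2981 .nil)
noncomputable def n5229 : Strat := .move 1001 n3093 (.cons 836 n5228 (.cons 1042 n3647 .nil))
noncomputable def n5230 : Strat := .move 1041 n5223 (.cons 878 n5227 (.cons 1082 n5229 .nil))
noncomputable def n5231 : Strat := .move 880 n4200 (.cons 921 n5230 .nil)
noncomputable def n5232 : Strat := .move 1000 n825 (.cons 999 n5231 .nil)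
noncomputable def n5233 : Strat := .move 918 n718 (.cons 917 n5232 .nil)
noncomputable def n5234 : Strat := .move 959 n1407 (.cons 1002 n3305 (.cons 916 n3303 (.cons 958 n5233 .nil)))
noncomputable def n5235 : Strat := .move 959 n200 (.cons 1004 n5233 .nil)
noncomputable def n5236 : Strat := .move 1000 n4168 (.cons 1041 n4624 .nil)
noncomputable def n5237 : Strat := .move 1001 n1290 (.cons 838 n5236 .nil)
noncomputable def n5238 : Strat := .move 919 n4270 (.cons 837 n5237 (.cons 1002 n4274 .nil))
noncomputable def n5239 : Strat := .move 919 n2990 (.cons 918 n5237 .nil)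
noncomputable def n5240 : Strat := .move 878 n4271 (.cons 918 n5238 (.cons 919 n4283 (.cons 837 n5239 (.cons 1002 n4285 .nil))))
noncomputable def n5241 : Strat := .move 879 n4266 (.cons 838 n4267 (.cons 919 n4268 (.cons 920 n5240 .nil)))
noncomputable def n5242 : Strat := .move 880 n4200 (.cons 921 n5241 .nil)
noncomputable def n5243 : Strat := .move 960 n3299 (.cons 1004 n5234 (.cons 1002 n3306 (.cons 958 n5235 (.cons 918 n3304 (.cons 959 n5242 .nil)))))
noncomputable def n5244 : Strat := .move 959 n200 (.cons 1004 n4985 .nil)
noncomputable def n5245 : Strat := .move 958 n4632 (.cons 920 n1406 .nil)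
noncomputable def n5246 : Strat := .move 959 n200 (.cons 1004 n5245 .nil)
noncomputable def n5247 : Strat := .move 959 n4985 (.cons 920 n1407 (.cons 1002 n5245 (.cons 958 n4305 .nil)))
noncomputable def n5248 : Strat := .move 1004 n1260 (.cons 1005 n4528 .nil)
noncomputable def n5249 : Strat := .move 964 n197 (.cons 920 n2911 .nil)
noncomputable def n5250 : Strat := .move 919 n198 (.cons 918 n5249 .nil)
noncomputable def n5251 : Strat := .move 1001 n411 (.cons 1000 n4785 .nil)
noncomputable def n5252 : Strat := .move 1004 n1260 (.cons 1005 n5251 .nil)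
noncomputable def n5253 : Strat := .move 919 n198 (.cons 918 n5252 .nil)
noncomputable def n5254 : Strat := .move 963 n5248 (.cons 1004 n5250 (.cons 920 n4955 (.cons 1002 n1257 (.cons 964 n5253 .nil))))
noncomputable def n5255 : Strat := .move 960 n5244 (.cons 1002 n5246 (.cons 920 n3299 (.cons 1004 n5247 (.cons 958 n4306 (.cons 959 n5254 .nil)))))
noncomputable def n5256 : Strat := .move 921 n73 (.cons 880 n5255 .nil)
noncomputable def n5257 : Strat := .move 1001 n125 (.cons 1000 n5184 .nil)
noncomputable def n5258 : Strat := .move 919 n4672 (.cons 917 n1363 .nil)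
noncomputable def n5259 : Strat := .move 960 n201 (.cons 1004 n5258 .nil)
noncomputable def n5260 : Strat := .move 1000 n825 (.cons 999 n3114 .nil)
noncomputable def n5261 : Strat := .move 959 n199 (.cons 958 n5260 .nil)
noncomputable def n5262 : Strat := .move 960 n5261 (.cons 959 n4059 (.cons 1001 n5258 .nil))
noncomputable def n5263 : Strat := .move 1002 n3926 (.cons 1047 n5257 (.cons 1001 n5259 (.cons 1004 n5262 .nil)))
noncomputable def n5264 : Strat := .move 1045 n121 (.cons 1086 n5263 .nil)
noncomputable def n5265 : Strat := .move 920 n122 (.cons 879 n5264 .nil)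
noncomputable def n5266 : Strat := .move 1085 n1464 (.cons 920 n212 .nil)
noncomputable def n5267 : Strat := .move 1126 n1472 (.cons 1002 n4065 .nil)
noncomputable def n5268 : Strat := .move 1085 n212 (.cons 1086 n5267 (.cons 1045 n1771 .nil))
noncomputable def n5269 : Strat := .move 1044 n4221 (.cons 1085 n5265 (.cons 879 n5266 (.cons 920 n5268 .nil)))
noncomputable def n5270 : Strat := .move 921 n73 (.cons 880 n5269 .nil)
noncomputable def n5271 : Strat := .move 959 n4985 (.cons 920 n1407 (.cons 1002 n5245 (.cons 958 n4182 .nil)))
noncomputable def n5272 : Strat := .move 921 n73 (.cons 880 n5271 .nil)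
noncomputable def n5273 : Strat := .move 918 n2815 (.cons 878 n3503 .nil)
noncomputable def n5274 : Strat := .move 919 n2814 (.cons 882 n5273 .nil)
noncomputable def n5275 : Strat := .move 920 n282 (.cons 838 n5274 .nil)
noncomputable def n5276 : Strat := .move 919 n2814 (.cons 882 n3394 .nil)
noncomputable def n5277 : Strat := .move 920 n5274 (.cons 878 n5276 (.cons 919 n3471 .nil))
noncomputable def n5278 : Strat := .move 919 n98 (.cons 1002 n2990 .nil)
noncomputable def n5279 : Strat := .move 878 n4269 (.cons 836 n5278 .nil)
noncomputable def n5280 : Strat := .move 837 n4276 (.cons 838 n5279 .nil)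
noncomputable def n5281 : Strat := .move 882 n4280 (.cons 924 n5280 .nil)
noncomputable def n5282 : Strat := .move 879 n5275 (.cons 838 n5277 (.cons 918 n4268 (.cons 920 n5281 .nil)))
noncomputable def n5283 : Strat := .move 1005 n3510 (.cons 963 n3511 (.cons 1006 n3528 (.cons 1004 n5282 .nil)))
noncomputable def n5284 : Strat := .move 880 n4200 (.cons 921 n5283 .nil)
noncomputable def n5285 : Strat := .move 960 n3532 (.cons 1004 n5272 (.cons 963 n4954 (.cons 959 n5284 .nil)))
noncomputable def n5286 : Strat := .move 1005 n2769 (.cons 960 n1465 .nil)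
noncomputable def n5287 : Strat := .move 1004 n3210 (.cons 1047 n5286 .nil)
noncomputable def n5288 : Strat := .move 1002 n4871 (.cons 878 n5199 (.cons 1043 n5287 .nil))
noncomputable def n5289 : Strat := .move 919 n3921 (.cons 963 n5288 .nil)
noncomputable def n5290 : Strat := .move 1045 n121 (.cons 1086 n5289 .nil)
noncomputable def n5291 : Strat := .move 920 n122 (.cons 879 n5290 .nil)
noncomputable def n5292 : Strat := .move 1044 n4221 (.cons 1085 n5291 (.cons 879 n5266 (.cons 920 n5268 .nil)))
noncomputable def n5293 : Strat := .move 921 n73 (.cons 880 n5292 .nil)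
noncomputable def n5294 : Strat := .move 920 n824 (.cons 958 n4130 .nil)
noncomputable def n5295 : Strat := .move 921 n73 (.cons 880 n5294 .nil)
noncomputable def n5296 : Strat := .move 1000 n825 (.cons 999 n5295 .nil)
noncomputable def n5297 : Strat := .move 959 n200 (.cons 1004 n5296 .nil)
noncomputable def n5298 : Strat := .win 1002 0 1000
noncomputable def n5299 : Strat := .move 1045 n121 (.cons 1086 n5298 .nil)
noncomputable def n5300 : Strat := .move 1044 n123 (.cons 1085 n5299 .nil)
noncomputable def n5301 : Strat := .move 920 n4188 (.cons 1085 n4766 (.cons 879 n5300 (.cons 1044 n3455 .nil)))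
noncomputable def n5302 : Strat := .move 921 n73 (.cons 880 n5301 .nil)
noncomputable def n5303 : Strat := .move 1001 n2865 (.cons 963 n5302 .nil)
noncomputable def n5304 : Strat := .move 1000 n825 (.cons 999 n5303 .nil)
noncomputable def n5305 : Strat := .move 959 n3303 (.cons 1000 n4634 (.cons 1002 n5296 (.cons 958 n5304 .nil)))
noncomputable def n5306 : Strat := .move 959 n200 (.cons 1004 n5304 .nil)
noncomputable def n5307 : Strat := .move 964 n173 (.cons 919 n450 .nil)
noncomputable def n5308 : Strat := .move 964 n30 (.cons 965 n450 .nil)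
noncomputable def n5309 : Strat := .move 1001 n411 (.cons 1000 n4976 .nil)
noncomputable def n5310 : Strat := .move 1004 n1260 (.cons 1005 n5309 .nil)
noncomputable def n5311 : Strat := .move 963 n4131 (.cons 965 n5307 (.cons 919 n5308 (.cons 964 n5310 .nil)))
noncomputable def n5312 : Strat := .move 920 n4130 (.cons 838 n4316 (.cons 879 n5311 .nil))
noncomputable def n5313 : Strat := .move 921 n73 (.cons 880 n5312 .nil)
noncomputable def n5314 : Strat := .move 960 n3304 (.cons 1002 n5297 (.cons 1000 n4635 (.cons 1004 n5305 (.cons 958 n5306 (.cons 959 n5313 .nil)))))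
noncomputable def n5315 : Strat := .move 921 n73 (.cons 880 n5247 .nil)
noncomputable def n5316 : Strat := .move 918 n716 (.cons 919 n3625 .nil)
noncomputable def n5317 : Strat := .move 964 n410 (.cons 1002 n5316 .nil)
noncomputable def n5318 : Strat := .move 1001 n411 (.cons 1000 n5317 .nil)
noncomputable def n5319 : Strat := .move 999 n3301 (.cons 998 n3300 .nil)
noncomputable def n5320 : Strat := .move 958 n1403 (.cons 1002 n5319 .nil)
noncomputable def n5321 : Strat := .move 959 n718 (.cons 917 n5320 .nil)
noncomputable def n5322 : Strat := .move 918 n716 (.cons 919 n5321 .nil)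
noncomputable def n5323 : Strat := .move 964 n1325 (.cons 965 n48 .nil)
noncomputable def n5324 : Strat := .move 1002 n199 (.cons 958 n5323 .nil)
noncomputable def n5325 : Strat := .move 959 n718 (.cons 917 n5324 .nil)
noncomputable def n5326 : Strat := .move 918 n716 (.cons 919 n5325 .nil)
noncomputable def n5327 : Strat := .move 959 n718 (.cons 917 n827 .nil)
noncomputable def n5328 : Strat := .move 918 n716 (.cons 919 n5327 .nil)
noncomputable def n5329 : Strat := .move 963 n5318 (.cons 1001 n5322 (.cons 1000 n5326 (.cons 918 n5045 (.cons 1002 n5328 .nil))))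
noncomputable def n5330 : Strat := .move 880 n4200 (.cons 921 n5329 .nil)
noncomputable def n5331 : Strat := .move 920 n4130 (.cons 879 n4885 .nil)
noncomputable def n5332 : Strat := .move 921 n73 (.cons 880 n5331 .nil)
noncomputable def n5333 : Strat := .move 959 n3303 (.cons 958 n3340 (.cons 1000 n1407 .nil))
noncomputable def n5334 : Strat := .move 880 n4200 (.cons 921 n5026 .nil)
noncomputable def n5335 : Strat := .move 919 n3503 (.cons 963 n5334 .nil)
noncomputable def n5336 : Strat := .move 918 n718 (.cons 917 n5335 .nil)
noncomputable def n5337 : Strat := .move 959 n3310 (.cons 1000 n5336 (.cons 918 n5304 (.cons 963 n5233 .nil)))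
noncomputable def n5338 : Strat := .move 964 n449 (.cons 920 n4962 (.cons 919 n3625 .nil))
noncomputable def n5339 : Strat := .move 1001 n411 (.cons 1000 n5338 .nil)
noncomputable def n5340 : Strat := .move 964 n410 (.cons 1002 n4244 .nil)
noncomputable def n5341 : Strat := .move 1001 n411 (.cons 1000 n5340 .nil)
noncomputable def n5342 : Strat := .move 963 n1259 (.cons 1002 n5339 (.cons 1001 n4203 (.cons 918 n5341 (.cons 920 n4964 (.cons 964 n4409 (.cons 919 n5045 .nil))))))
noncomputable def n5343 : Strat := .move 880 n4200 (.cons 921 n5342 .nil)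
noncomputable def n5344 : Strat := .move 960 n5315 (.cons 920 n5330 (.cons 1002 n5332 (.cons 963 n5234 (.cons 1001 n5272 (.cons 919 n5333 (.cons 918 n5305 (.cons 958 n5337 (.cons 959 n5343 .nil))))))))
noncomputable def n5345 : Strat := .move 1005 n166 (.cons 1006 n622 .nil)
noncomputable def n5346 : Strat := .move 964 n30 (.cons 965 n5345 .nil)
noncomputable def n5347 : Strat := .move 964 n30 (.cons 965 n623 .nil)
noncomputable def n5348 : Strat := .move 1001 n411 (.cons 1000 n3675 .nil)
noncomputable def n5349 : Strat := .move 963 n5346 (.cons 1006 n5347 (.cons 964 n5348 .nil))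
noncomputable def n5350 : Strat := .move 1001 n2865 (.cons 963 n3675 .nil)
noncomputable def n5351 : Strat := .move 1000 n825 (.cons 999 n5350 .nil)
noncomputable def n5352 : Strat := .move 959 n824 (.cons 958 n5351 .nil)
noncomputable def n5353 : Strat := .move 960 n4317 (.cons 959 n5349 (.cons 1004 n5352 .nil))
noncomputable def n5354 : Strat := .move 921 n73 (.cons 880 n5353 .nil)
noncomputable def n5355 : Strat := .move 879 n282 (.cons 838 n5354 .nil)
noncomputable def n5356 : Strat := .move 879 n3471 (.cons 1044 n5354 (.cons 1002 n4298 .nil))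
noncomputable def n5357 : Strat := .move 959 n824 (.cons 958 n3662 .nil)
noncomputable def n5358 : Strat := .move 964 n30 (.cons 965 n1253 .nil)
noncomputable def n5359 : Strat := .move 963 n5308 (.cons 1002 n5358 (.cons 964 n5310 .nil))
noncomputable def n5360 : Strat := .move 960 n4317 (.cons 1004 n5357 (.cons 958 n4730 (.cons 959 n5359 .nil)))
noncomputable def n5361 : Strat := .move 921 n73 (.cons 880 n5360 .nil)
noncomputable def n5362 : Strat := .move 920 n3685 (.cons 1044 n5355 (.cons 838 n5356 (.cons 1002 n4299 (.cons 879 n5361 .nil))))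
noncomputable def n5363 : Strat := .move 880 n4200 (.cons 921 n4954 .nil)
noncomputable def n5364 : Strat := .move 880 n4200 (.cons 921 n4417 .nil)
noncomputable def n5365 : Strat := .move 921 n4686 (.cons 1086 n73 .nil)
noncomputable def n5366 : Strat := .move 1045 n374 (.cons 1046 n5365 .nil)
noncomputable def n5367 : Strat := .move 1002 n1357 (.cons 964 n5366 .nil)
noncomputable def n5368 : Strat := .move 1001 n411 (.cons 1000 n5367 .nil)
noncomputable def n5369 : Strat := .move 1004 n1260 (.cons 1005 n5368 .nil)
noncomputable def n5370 : Strat := .move 964 n410 (.cons 1002 n3424 .nil)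
noncomputable def n5371 : Strat := .move 1001 n411 (.cons 1000 n5370 .nil)
noncomputable def n5372 : Strat := .move 1002 n5167 (.cons 1046 n1264 .nil)
noncomputable def n5373 : Strat := .move 919 n198 (.cons 918 n5372 .nil)
noncomputable def n5374 : Strat := .move 921 n73 (.cons 880 n5373 .nil)
noncomputable def n5375 : Strat := .move 1004 n1260 (.cons 1005 n5374 .nil)
noncomputable def n5376 : Strat := .move 1001 n411 (.cons 1000 n5375 .nil)
noncomputable def n5377 : Strat := .move 963 n5369 (.cons 1004 n3633 (.cons 1005 n5371 (.cons 1001 n3579 (.cons 964 n5376 .nil))))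
noncomputable def n5378 : Strat := .move 960 n3532 (.cons 1004 n5330 (.cons 963 n5363 (.cons 1005 n5364 (.cons 959 n5377 .nil))))
noncomputable def n5379 : Strat := .move 961 n5094 (.cons 921 n5139 (.cons 1002 n5158 (.cons 960 n5222 (.cons 963 n5243 (.cons 879 n5256 (.cons 964 n5270 (.cons 1001 n5285 (.cons 1000 n5293 (.cons 918 n5314 (.cons 1004 n5344 (.cons 919 n5362 (.cons 920 n5378 .nil))))))))))))
noncomputable def n5380 : Strat := .win 1047 0 1003
noncomputable def n5381 : Strat := .move 1048 n5380 (.cons 1047 n1162 .nil)
noncomputable def n5382 : Strat := .move 1007 n1161 (.cons 963 n5381 .nil)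
noncomputable def n5383 : Strat := .move 1006 n1627 (.cons 961 n5382 .nil)
noncomputable def n5384 : Strat := .win 965 5 962
noncomputable def n5385 : Strat := .win 967 5 963
noncomputable def n5386 : Strat := .move 966 n5384 (.cons 965 n5385 .nil)
noncomputable def n5387 : Strat := .move 1007 n1161 (.cons 963 n5386 .nil)
noncomputable def n5388 : Strat := .move 1006 n1627 (.cons 961 n5387 .nil)
noncomputable def n5389 : Strat := .move 1007 n5381 (.cons 1049 n5386 .nil)
noncomputable def n5390 : Strat := .move 1006 n1627 (.cons 961 n5389 .nil)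
noncomputable def n5391 : Strat := .move 1047 n2710 (.cons 1046 n2230 .nil)
noncomputable def n5392 : Strat := .move 1002 n4087 (.cons 964 n5391 .nil)
noncomputable def n5393 : Strat := .move 965 n4086 (.cons 966 n5392 .nil)
noncomputable def n5394 : Strat := .move 1006 n1627 (.cons 961 n5393 .nil)
noncomputable def n5395 : Strat := .move 1006 n5382 (.cons 1007 n5393 (.cons 1047 n5387 .nil))
noncomputable def n5396 : Strat := .move 1001 n2963 (.cons 1047 n2890 .nil)
noncomputable def n5397 : Strat := .move 882 n1050 (.cons 923 n5396 .nil)
noncomputable def n5398 : Strat := .move 1002 n2855 (.cons 965 n5397 .nil)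
noncomputable def n5399 : Strat := .move 1002 n4515 (.cons 963 n5397 (.cons 1045 n2891 (.cons 1001 n2904 .nil)))
noncomputable def n5400 : Strat := .move 964 n4519 (.cons 963 n5398 (.cons 1045 n4521 (.cons 1002 n4385 (.cons 965 n5399 .nil))))
noncomputable def n5401 : Strat := .move 961 n4517 (.cons 1001 n2846 (.cons 963 n2908 (.cons 960 n5400 .nil)))
noncomputable def n5402 : Strat := .move 1005 n5383 (.cons 1049 n5388 (.cons 963 n5390 (.cons 1007 n5394 (.cons 961 n5395 (.cons 1006 n5401 .nil)))))
noncomputable def n5403 : Strat := .move 880 n4200 (.cons 921 n5402 .nil)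
noncomputable def n5404 : Strat := .move 1043 n120 (.cons 1084 n4104 .nil)
noncomputable def n5405 : Strat := .move 920 n122 (.cons 879 n5404 .nil)
noncomputable def n5406 : Strat := .move 1043 n120 (.cons 1084 n2789 .nil)
noncomputable def n5407 : Strat := .move 1044 n4221 (.cons 1085 n5405 (.cons 920 n5406 .nil))
noncomputable def n5408 : Strat := .move 1005 n1465 (.cons 1006 n5407 .nil)
noncomputable def n5409 : Strat := .move 921 n73 (.cons 880 n5408 .nil)
noncomputable def n5410 : Strat := .move 1083 n348 (.cons 1002 n2785 .nil)
noncomputable def n5411 : Strat := .move 1042 n132 (.cons 1041 n5410 .nil)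
noncomputable def n5412 : Strat := .move 1043 n120 (.cons 1084 n5411 .nil)
noncomputable def n5413 : Strat := .move 1044 n123 (.cons 1085 n5412 .nil)
noncomputable def n5414 : Strat := .move 1001 n3454 (.cons 1083 n3456 (.cons 1002 n3461 (.cons 1042 n4625 .nil)))
noncomputable def n5415 : Strat := .move 879 n282 (.cons 838 n5414 .nil)
noncomputable def n5416 : Strat := .move 920 n4130 (.cons 879 n5413 (.cons 1044 n5415 .nil))
noncomputable def n5417 : Strat := .move 960 n1261 (.cons 959 n5416 .nil)
noncomputable def n5418 : Strat := .move 921 n73 (.cons 880 n5417 .nil)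
noncomputable def n5419 : Strat := .move 961 n4607 (.cons 959 n3434 (.cons 1006 n2854 (.cons 963 n4616 (.cons 960 n5409 (.cons 1005 n5418 .nil)))))
noncomputable def n5420 : Strat := .move 1043 n120 (.cons 1084 n4105 .nil)
noncomputable def n5421 : Strat := .move 961 n123 (.cons 1085 n2783 .nil)
noncomputable def n5422 : Strat := .move 920 n122 (.cons 879 n5421 .nil)
noncomputable def n5423 : Strat := .move 1005 n248 (.cons 1006 n5422 .nil)
noncomputable def n5424 : Strat := .move 1042 n132 (.cons 1041 n3874 .nil)
noncomputable def n5425 : Strat := .move 1005 n248 (.cons 1006 n5424 .nil)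
noncomputable def n5426 : Strat := .move 960 n1261 (.cons 959 n2786 .nil)
noncomputable def n5427 : Strat := .move 1042 n132 (.cons 1041 n5426 .nil)
noncomputable def n5428 : Strat := .move 961 n123 (.cons 1085 n5427 .nil)
noncomputable def n5429 : Strat := .move 920 n122 (.cons 879 n5428 .nil)
noncomputable def n5430 : Strat := .move 1043 n4105 (.cons 1042 n5423 (.cons 1002 n5425 (.cons 1005 n5429 .nil)))
noncomputable def n5431 : Strat := .move 1043 n120 (.cons 1084 n5429 .nil)
noncomputable def n5432 : Strat := .move 1043 n120 (.cons 1084 n5425 .nil)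
noncomputable def n5433 : Strat := .move 1043 n120 (.cons 1084 n5423 .nil)
noncomputable def n5434 : Strat := .move 961 n123 (.cons 1085 n4616 .nil)
noncomputable def n5435 : Strat := .move 920 n122 (.cons 879 n5434 .nil)
noncomputable def n5436 : Strat := .move 1044 n5420 (.cons 1084 n5430 (.cons 1005 n5431 (.cons 1002 n5432 (.cons 1042 n5433 (.cons 1043 n5435 .nil)))))
noncomputable def n5437 : Strat := .move 921 n73 (.cons 880 n5436 .nil)
noncomputable def n5438 : Strat := .move 1001 n1625 (.cons 1045 n2890 .nil)
noncomputable def n5439 : Strat := .move 1046 n1624 (.cons 1047 n5438 .nil)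
noncomputable def n5440 : Strat := .move 964 n2855 (.cons 965 n5439 .nil)
noncomputable def n5441 : Strat := .move 1002 n2769 (.cons 960 n5440 .nil)
noncomputable def n5442 : Strat := .move 1005 n1465 (.cons 1006 n5441 .nil)
noncomputable def n5443 : Strat := .move 1001 n1625 (.cons 1045 n2882 .nil)
noncomputable def n5444 : Strat := .move 1046 n1624 (.cons 1047 n5443 .nil)
noncomputable def n5445 : Strat := .move 964 n2855 (.cons 965 n5444 .nil)
noncomputable def n5446 : Strat := .move 923 n92 (.cons 882 n2902 .nil)
noncomputable def n5447 : Strat := .move 1046 n1624 (.cons 1047 n5446 .nil)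
noncomputable def n5448 : Strat := .move 964 n2894 (.cons 963 n5439 (.cons 1041 n5444 (.cons 1001 n5447 .nil)))
noncomputable def n5449 : Strat := .move 964 n2855 (.cons 965 n5447 .nil)
noncomputable def n5450 : Strat := .move 1002 n2895 (.cons 963 n5440 (.cons 1041 n5445 (.cons 965 n5448 (.cons 964 n3484 (.cons 1001 n5449 .nil)))))
noncomputable def n5451 : Strat := .move 1005 n1465 (.cons 1006 n5450 .nil)
noncomputable def n5452 : Strat := .move 1001 n4532 (.cons 1083 n4525 (.cons 1002 n4535 (.cons 964 n3313 .nil)))
noncomputable def n5453 : Strat := .move 965 n143 (.cons 1002 n3316 .nil)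
noncomputable def n5454 : Strat := .move 964 n197 (.cons 920 n5453 .nil)
noncomputable def n5455 : Strat := .move 919 n198 (.cons 918 n5454 .nil)
noncomputable def n5456 : Strat := .move 963 n4533 (.cons 1083 n4526 (.cons 1000 n5452 (.cons 1001 n5455 (.cons 1002 n4536 (.cons 964 n3314 .nil)))))
noncomputable def n5457 : Strat := .move 960 n1261 (.cons 959 n5456 .nil)
noncomputable def n5458 : Strat := .move 961 n2847 (.cons 1006 n2854 (.cons 963 n5442 (.cons 960 n5451 (.cons 1005 n5457 .nil))))
noncomputable def n5459 : Strat := .move 1005 n1488 (.cons 1002 n3874 .nil)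
noncomputable def n5460 : Strat := .move 1042 n132 (.cons 1041 n5459 .nil)
noncomputable def n5461 : Strat := .move 1043 n120 (.cons 1084 n5460 .nil)
noncomputable def n5462 : Strat := .move 1126 n3826 (.cons 963 n1475 .nil)
noncomputable def n5463 : Strat := .move 1085 n209 (.cons 961 n5462 .nil)
noncomputable def n5464 : Strat := .move 920 n122 (.cons 879 n5463 .nil)
noncomputable def n5465 : Strat := .move 963 n1260 (.cons 1005 n4131 .nil)
noncomputable def n5466 : Strat := .move 960 n1261 (.cons 959 n5465 .nil)
noncomputable def n5467 : Strat := .move 961 n123 (.cons 1085 n5466 .nil)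
noncomputable def n5468 : Strat := .move 920 n122 (.cons 879 n5467 .nil)
noncomputable def n5469 : Strat := .move 1044 n5461 (.cons 1043 n5464 (.cons 1084 n5468 .nil))
noncomputable def n5470 : Strat := .move 921 n73 (.cons 880 n5469 .nil)
noncomputable def n5471 : Strat := .move 1002 n2769 (.cons 960 n2857 .nil)
noncomputable def n5472 : Strat := .move 1005 n1465 (.cons 1006 n5471 .nil)
noncomputable def n5473 : Strat := .move 961 n123 (.cons 1085 n5472 .nil)
noncomputable def n5474 : Strat := .move 920 n122 (.cons 879 n5473 .nil)
noncomputable def n5475 : Strat := .move 1044 n5420 (.cons 1043 n5464 (.cons 1084 n5474 .nil))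
noncomputable def n5476 : Strat := .move 921 n73 (.cons 880 n5475 .nil)
noncomputable def n5477 : Strat := .win 1045 4 1003
noncomputable def n5478 : Strat := .move 1044 n4083 (.cons 1043 n5477 .nil)
noncomputable def n5479 : Strat := .move 1007 n1161 (.cons 963 n5478 .nil)
noncomputable def n5480 : Strat := .move 1006 n1627 (.cons 961 n5479 .nil)
noncomputable def n5481 : Strat := .win 882 6 882
noncomputable def n5482 : Strat := .move 923 n37 (.cons 1088 n5481 .nil)
noncomputable def n5483 : Strat := .move 1047 n2230 (.cons 1048 n5482 .nil)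
noncomputable def n5484 : Strat := .move 964 n4391 (.cons 1002 n5483 .nil)
noncomputable def n5485 : Strat := .move 965 n4086 (.cons 966 n5484 .nil)
noncomputable def n5486 : Strat := .move 1006 n5479 (.cons 1007 n5485 .nil)
noncomputable def n5487 : Strat := .move 1006 n1627 (.cons 961 n5485 .nil)
noncomputable def n5488 : Strat := .move 1002 n188 (.cons 1084 n4779 (.cons 1043 n4516 .nil))
noncomputable def n5489 : Strat := .move 961 n2846 (.cons 963 n2908 (.cons 959 n3433 (.cons 960 n5488 .nil)))
noncomputable def n5490 : Strat := .move 1005 n5480 (.cons 961 n5486 (.cons 1007 n5487 (.cons 1006 n5489 .nil)))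
noncomputable def n5491 : Strat := .move 921 n73 (.cons 880 n5490 .nil)
noncomputable def n5492 : Strat := .move 920 n122 (.cons 879 n123 .nil)
noncomputable def n5493 : Strat := .move 920 n123 (.cons 1085 n3875 .nil)
noncomputable def n5494 : Strat := .move 961 n5492 (.cons 879 n5493 (.cons 920 n5424 .nil))
noncomputable def n5495 : Strat := .move 1005 n248 (.cons 1006 n5494 .nil)
noncomputable def n5496 : Strat := .move 1042 n1488 (.cons 1002 n3874 .nil)
noncomputable def n5497 : Strat := .move 1005 n248 (.cons 1006 n5496 .nil)
noncomputable def n5498 : Strat := .move 1085 n209 (.cons 961 n4111 .nil)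
noncomputable def n5499 : Strat := .move 920 n122 (.cons 879 n5498 .nil)
noncomputable def n5500 : Strat := .move 1043 n4105 (.cons 1006 n5460 (.cons 1002 n5495 (.cons 1041 n5497 (.cons 1005 n5499 .nil))))
noncomputable def n5501 : Strat := .move 1044 n5420 (.cons 1043 n5464 (.cons 1084 n5500 .nil))
noncomputable def n5502 : Strat := .move 921 n73 (.cons 880 n5501 .nil)
noncomputable def n5503 : Strat := .move 1005 n248 (.cons 1006 n2799 .nil)
noncomputable def n5504 : Strat := .move 1043 n120 (.cons 1084 n5503 .nil)
noncomputable def n5505 : Strat := .move 1042 n132 (.cons 1041 n346 .nil)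
noncomputable def n5506 : Strat := .move 1043 n120 (.cons 1084 n5505 .nil)
noncomputable def n5507 : Strat := .move 961 n123 (.cons 1085 n2778 .nil)
noncomputable def n5508 : Strat := .move 920 n122 (.cons 879 n5507 .nil)
noncomputable def n5509 : Strat := .move 1005 n248 (.cons 1006 n5508 .nil)
noncomputable def n5510 : Strat := .move 1043 n120 (.cons 1084 n5509 .nil)
noncomputable def n5511 : Strat := .move 1126 n3826 (.cons 963 n3835 .nil)
noncomputable def n5512 : Strat := .move 1085 n209 (.cons 961 n5511 .nil)
noncomputable def n5513 : Strat := .move 920 n122 (.cons 879 n5512 .nil)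
noncomputable def n5514 : Strat := .move 1045 n5504 (.cons 1006 n5506 (.cons 1042 n5510 (.cons 1043 n5513 .nil)))
noncomputable def n5515 : Strat := .move 1044 n5514 (.cons 963 n5432 (.cons 1043 n5468 (.cons 1005 n219 .nil)))
noncomputable def n5516 : Strat := .move 921 n73 (.cons 880 n5515 .nil)
noncomputable def n5517 : Strat := .move 963 n4528 (.cons 1000 n4732 (.cons 1001 n5087 (.cons 919 n4533 (.cons 964 n1767 (.cons 920 n4733 .nil)))))
noncomputable def n5518 : Strat := .move 960 n1261 (.cons 959 n5517 .nil)
noncomputable def n5519 : Strat := .move 1001 n2882 (.cons 963 n3085 .nil)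
noncomputable def n5520 : Strat := .move 964 n2855 (.cons 965 n5519 .nil)
noncomputable def n5521 : Strat := .move 1001 n1625 (.cons 1045 n3085 .nil)
noncomputable def n5522 : Strat := .move 1046 n1624 (.cons 1047 n5521 .nil)
noncomputable def n5523 : Strat := .move 1002 n4516 (.cons 964 n2898 (.cons 1001 n2905 (.cons 1046 n5520 (.cons 963 n5522 .nil))))
noncomputable def n5524 : Strat := .move 1005 n1465 (.cons 1006 n5523 .nil)
noncomputable def n5525 : Strat := .move 961 n2847 (.cons 1005 n5518 (.cons 959 n3434 (.cons 963 n3435 (.cons 960 n5524 .nil))))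
noncomputable def n5526 : Strat := .move 880 n4200 (.cons 921 n5525 .nil)
noncomputable def n5527 : Strat := .move 1126 n3826 (.cons 963 n4064 .nil)
noncomputable def n5528 : Strat := .move 1085 n209 (.cons 961 n5527 .nil)
noncomputable def n5529 : Strat := .move 920 n122 (.cons 879 n5528 .nil)
noncomputable def n5530 : Strat := .move 1000 n2819 (.cons 963 n3186 .nil)
noncomputable def n5531 : Strat := .win 964 5 960
noncomputable def n5532 : Strat := .move 963 n5531 (.cons 964 n77 .nil)
noncomputable def n5533 : Strat := .win 960 6 878
noncomputable def n5534 : Strat := .win 961 7 878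
noncomputable def n5535 : Strat := .move 878 n5533 (.cons 960 n5534 .nil)
noncomputable def n5536 : Strat := .move 919 n5532 (.cons 918 n5535 .nil)
noncomputable def n5537 : Strat := .move 1001 n3187 (.cons 999 n2848 (.cons 1045 n5530 (.cons 1000 n5536 .nil)))
noncomputable def n5538 : Strat := .move 961 n3229 (.cons 1041 n3922 .nil)
noncomputable def n5539 : Strat := .move 1045 n375 (.cons 1000 n377 (.cons 1046 n226 .nil))
noncomputable def n5540 : Strat := .move 1042 n132 (.cons 1041 n5539 .nil)
noncomputable def n5541 : Strat := .move 960 n1266 (.cons 878 n1620 .nil)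
noncomputable def n5542 : Strat := .move 919 n5532 (.cons 918 n5541 .nil)
noncomputable def n5543 : Strat := .move 1001 n3187 (.cons 999 n2848 (.cons 1045 n5530 (.cons 1000 n5542 .nil)))
noncomputable def n5544 : Strat := .move 1002 n5537 (.cons 1001 n5538 (.cons 963 n5540 (.cons 961 n5543 .nil)))
noncomputable def n5545 : Strat := .move 1043 n120 (.cons 1084 n5544 .nil)
noncomputable def n5546 : Strat := .move 1126 n3826 (.cons 963 n4115 .nil)
noncomputable def n5547 : Strat := .move 1085 n216 (.cons 1125 n5546 .nil)
noncomputable def n5548 : Strat := .move 1084 n215 (.cons 1043 n5547 .nil)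
noncomputable def n5549 : Strat := .move 920 n218 (.cons 1085 n5545 (.cons 961 n5548 (.cons 1043 n5463 (.cons 1084 n5528 .nil))))
noncomputable def n5550 : Strat := .move 920 n122 (.cons 879 n5545 .nil)
noncomputable def n5551 : Strat := .move 920 n122 (.cons 879 n5548 .nil)
noncomputable def n5552 : Strat := .move 1045 n3835 (.cons 1167 n4056 .nil)
noncomputable def n5553 : Strat := .move 1126 n3826 (.cons 963 n5552 .nil)
noncomputable def n5554 : Strat := .move 1085 n216 (.cons 1125 n5553 .nil)
noncomputable def n5555 : Strat := .move 1084 n215 (.cons 1043 n5554 .nil)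
noncomputable def n5556 : Strat := .move 1044 n219 (.cons 1043 n5464 (.cons 1084 n5529 (.cons 879 n5549 (.cons 1085 n5550 (.cons 961 n5551 (.cons 920 n5555 .nil))))))
noncomputable def n5557 : Strat := .move 921 n73 (.cons 880 n5556 .nil)
noncomputable def n5558 : Strat := .move 961 n2769 (.cons 960 n4653 .nil)
noncomputable def n5559 : Strat := .move 1001 n3745 (.cons 963 n1626 .nil)
noncomputable def n5560 : Strat := .move 964 n2855 (.cons 965 n5559 .nil)
noncomputable def n5561 : Strat := .move 1044 n1364 (.cons 1085 n174 .nil)
noncomputable def n5562 : Strat := .move 920 n2929 (.cons 1044 n4699 (.cons 838 n5561 (.cons 879 n4855 .nil)))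
noncomputable def n5563 : Strat := .move 1043 n50 (.cons 1084 n5562 .nil)
noncomputable def n5564 : Strat := .move 961 n2769 (.cons 960 n5563 .nil)
noncomputable def n5565 : Strat := .move 1001 n1620 (.cons 959 n1626 .nil)
noncomputable def n5566 : Strat := .move 960 n3741 (.cons 961 n5565 .nil)
noncomputable def n5567 : Strat := .move 1002 n5558 (.cons 961 n5560 (.cons 964 n5564 (.cons 963 n5566 .nil)))
noncomputable def n5568 : Strat := .move 1005 n5480 (.cons 961 n5486 (.cons 1007 n5487 (.cons 1006 n5567 .nil)))
noncomputable def n5569 : Strat := .move 921 n73 (.cons 880 n5568 .nil)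
noncomputable def n5570 : Strat := .move 963 n1417 (.cons 1000 n5531 .nil)
noncomputable def n5571 : Strat := .win 1044 1 920
noncomputable def n5572 : Strat := .move 1084 n1795 (.cons 1125 n5571 .nil)
noncomputable def n5573 : Strat := .move 1043 n131 (.cons 1005 n5572 .nil)
noncomputable def n5574 : Strat := .move 1042 n222 (.cons 1041 n5573 .nil)
noncomputable def n5575 : Strat := .move 1045 n374 (.cons 1046 n5574 .nil)
noncomputable def n5576 : Strat := .move 963 n1417 (.cons 1000 n5575 .nil)
noncomputable def n5577 : Strat := .move 963 n5531 (.cons 964 n5575 .nil)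
noncomputable def n5578 : Strat := .move 1084 n5571 (.cons 1044 n1795 .nil)
noncomputable def n5579 : Strat := .move 1043 n131 (.cons 1005 n5578 .nil)
noncomputable def n5580 : Strat := .move 1042 n222 (.cons 1041 n5579 .nil)
noncomputable def n5581 : Strat := .move 1001 n5570 (.cons 964 n5576 (.cons 1000 n5577 (.cons 963 n5580 .nil)))
noncomputable def n5582 : Strat := .move 1043 n187 (.cons 1042 n5572 .nil)
noncomputable def n5583 : Strat := .move 1005 n1624 (.cons 1047 n5582 .nil)
noncomputable def n5584 : Strat := .move 1046 n1625 (.cons 1045 n5583 .nil)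
noncomputable def n5585 : Strat := .move 963 n1417 (.cons 1000 n5584 .nil)
noncomputable def n5586 : Strat := .move 1005 n248 (.cons 1006 n187 .nil)
noncomputable def n5587 : Strat := .move 1043 n120 (.cons 1084 n5586 .nil)
noncomputable def n5588 : Strat := .move 1044 n125 (.cons 1000 n5587 .nil)
noncomputable def n5589 : Strat := .move 1045 n374 (.cons 1046 n5588 .nil)
noncomputable def n5590 : Strat := .move 963 n5531 (.cons 964 n5584 .nil)
noncomputable def n5591 : Strat := .move 1001 n5570 (.cons 964 n5585 (.cons 963 n5589 (.cons 1000 n5590 .nil)))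
noncomputable def n5592 : Strat := .move 1042 n131 (.cons 1005 n132 .nil)
noncomputable def n5593 : Strat := .move 1044 n120 (.cons 1084 n5592 .nil)
noncomputable def n5594 : Strat := .move 1044 n120 (.cons 1084 n4067 .nil)
noncomputable def n5595 : Strat := .move 1042 n131 (.cons 1005 n3062 .nil)
noncomputable def n5596 : Strat := .move 1043 n5593 (.cons 1041 n5594 (.cons 1084 n5595 (.cons 1042 n5578 .nil)))
noncomputable def n5597 : Strat := .win 960 2 959
noncomputable def n5598 : Strat := .move 959 n5597 (.cons 960 n2979 .nil)
noncomputable def n5599 : Strat := .move 1000 n2980 (.cons 1040 n5598 .nil)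
noncomputable def n5600 : Strat := .move 1041 n3083 (.cons 1042 n5599 .nil)
noncomputable def n5601 : Strat := .move 920 n1763 (.cons 879 n77 .nil)
noncomputable def n5602 : Strat := .move 919 n5601 (.cons 918 n4446 .nil)
noncomputable def n5603 : Strat := .move 960 n1620 (.cons 959 n5602 .nil)
noncomputable def n5604 : Strat := .move 1042 n222 (.cons 1041 n5603 .nil)
noncomputable def n5605 : Strat := .move 963 n5531 (.cons 964 n5604 .nil)
noncomputable def n5606 : Strat := .move 1001 n5570 (.cons 963 n5600 (.cons 1000 n5605 .nil))
noncomputable def n5607 : Strat := .move 1000 n3075 (.cons 1044 n5598 .nil)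
noncomputable def n5608 : Strat := .move 1045 n374 (.cons 1046 n5607 .nil)
noncomputable def n5609 : Strat := .move 1005 n2855 (.cons 965 n2963 .nil)
noncomputable def n5610 : Strat := .move 964 n3745 (.cons 963 n5609 .nil)
noncomputable def n5611 : Strat := .move 1001 n5570 (.cons 963 n5608 (.cons 1000 n5610 .nil))
noncomputable def n5612 : Strat := .move 1044 n120 (.cons 1084 n248 .nil)
noncomputable def n5613 : Strat := .move 1005 n187 (.cons 1042 n5612 .nil)
noncomputable def n5614 : Strat := .win 1044 4 1002
noncomputable def n5615 : Strat := .move 965 n4087 (.cons 964 n4086 .nil)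
noncomputable def n5616 : Strat := .move 1006 n5614 (.cons 1044 n5615 .nil)
noncomputable def n5617 : Strat := .move 1005 n187 (.cons 1042 n5616 .nil)
noncomputable def n5618 : Strat := .move 1006 n4086 (.cons 966 n2711 .nil)
noncomputable def n5619 : Strat := .move 965 n4087 (.cons 964 n5618 .nil)
noncomputable def n5620 : Strat := .move 1005 n187 (.cons 1042 n5619 .nil)
noncomputable def n5621 : Strat := .move 1043 n5613 (.cons 1005 n5578 (.cons 1084 n5617 (.cons 1044 n5620 .nil)))
noncomputable def n5622 : Strat := .move 1002 n5581 (.cons 1041 n5591 (.cons 964 n5596 (.cons 1005 n5606 (.cons 1043 n5611 (.cons 1001 n5621 .nil)))))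
noncomputable def n5623 : Strat := .move 921 n73 (.cons 880 n5622 .nil)
noncomputable def n5624 : Strat := .move 1004 n5403 (.cons 964 n5419 (.cons 963 n5437 (.cons 921 n5458 (.cons 1006 n5470 (.cons 959 n5476 (.cons 1041 n5491 (.cons 960 n5502 (.cons 1002 n5516 (.cons 1043 n5526 (.cons 1005 n5557 (.cons 1042 n5569 (.cons 961 n5623 .nil))))))))))))
noncomputable def n5625 : Strat := .move 1044 n3912 (.cons 1043 n3918 (.cons 1084 n3930 (.cons 879 n2776 (.cons 1086 n3933 (.cons 961 n3942 (.cons 1004 n3944 (.cons 920 n3946 .nil)))))))
noncomputable def n5626 : Strat := .move 921 n73 (.cons 880 n5625 .nil)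
noncomputable def n5627 : Strat := .move 1042 n232 (.cons 1004 n226 .nil)
noncomputable def n5628 : Strat := .move 1002 n127 (.cons 1047 n5627 .nil)
noncomputable def n5629 : Strat := .move 1042 n2802 (.cons 1004 n366 .nil)
noncomputable def n5630 : Strat := .move 1001 n365 (.cons 1002 n5629 .nil)
noncomputable def n5631 : Strat := .move 1005 n230 (.cons 1006 n5630 .nil)
noncomputable def n5632 : Strat := .move 1046 n3763 (.cons 1001 n5628 (.cons 1002 n3968 (.cons 1047 n5631 .nil)))
noncomputable def n5633 : Strat := .move 920 n122 (.cons 879 n5632 .nil)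
noncomputable def n5634 : Strat := .move 1043 n120 (.cons 1084 n5633 .nil)
noncomputable def n5635 : Strat := .move 1045 n121 (.cons 1086 n5634 .nil)
noncomputable def n5636 : Strat := .move 1044 n214 (.cons 920 n4040 (.cons 1127 n3944 (.cons 1085 n5635 .nil)))
noncomputable def n5637 : Strat := .move 921 n73 (.cons 880 n5636 .nil)
noncomputable def n5638 : Strat := .move 1002 n126 (.cons 1000 n129 (.cons 1046 n4855 .nil))
noncomputable def n5639 : Strat := .move 1045 n121 (.cons 1086 n5638 .nil)
noncomputable def n5640 : Strat := .move 1043 n120 (.cons 1084 n5639 .nil)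
noncomputable def n5641 : Strat := .move 920 n122 (.cons 879 n5640 .nil)
noncomputable def n5642 : Strat := .move 1044 n4221 (.cons 920 n4040 (.cons 1085 n5641 .nil))
noncomputable def n5643 : Strat := .move 921 n73 (.cons 880 n5642 .nil)
noncomputable def n5644 : Strat := .move 1128 n3810 (.cons 963 n1484 .nil)
noncomputable def n5645 : Strat := .move 1087 n1530 (.cons 1043 n5644 .nil)
noncomputable def n5646 : Strat := .move 1045 n1523 (.cons 1082 n1526 (.cons 1046 n5645 .nil))
noncomputable def n5647 : Strat := .move 1084 n216 (.cons 1125 n5646 .nil)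
noncomputable def n5648 : Strat := .move 1004 n2847 (.cons 959 n3434 (.cons 1005 n5647 (.cons 963 n3435 .nil)))
noncomputable def n5649 : Strat := .move 1086 n211 (.cons 1127 n5648 .nil)
noncomputable def n5650 : Strat := .move 1126 n1507 (.cons 1168 n1475 .nil)
noncomputable def n5651 : Strat := .move 1085 n1771 (.cons 1126 n5649 (.cons 1002 n5650 (.cons 1127 n1476 .nil)))
noncomputable def n5652 : Strat := .move 1085 n1464 (.cons 920 n5650 .nil)
noncomputable def n5653 : Strat := .move 1085 n1464 (.cons 920 n5649 .nil)
noncomputable def n5654 : Strat := .move 1085 n1464 (.cons 920 n1476 .nil)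
noncomputable def n5655 : Strat := .move 1001 n2865 (.cons 963 n2864 .nil)
noncomputable def n5656 : Strat := .move 1000 n825 (.cons 999 n5655 .nil)
noncomputable def n5657 : Strat := .move 1002 n199 (.cons 958 n5656 .nil)
noncomputable def n5658 : Strat := .move 959 n200 (.cons 1004 n5657 .nil)
noncomputable def n5659 : Strat := .win 920 6 879
noncomputable def n5660 : Strat := .move 879 n1290 (.cons 838 n5659 .nil)
noncomputable def n5661 : Strat := .move 1002 n1262 (.cons 1043 n5660 .nil)
noncomputable def n5662 : Strat := .move 878 n3443 (.cons 837 n5661 (.cons 1043 n1282 (.cons 1002 n1286 .nil)))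
noncomputable def n5663 : Strat := .move 919 n198 (.cons 918 n5662 .nil)
noncomputable def n5664 : Strat := .move 1001 n411 (.cons 1000 n5663 .nil)
noncomputable def n5665 : Strat := .move 964 n166 (.cons 1006 n626 .nil)
noncomputable def n5666 : Strat := .move 1005 n622 (.cons 1004 n5665 .nil)
noncomputable def n5667 : Strat := .move 1001 n411 (.cons 1000 n5666 .nil)
noncomputable def n5668 : Strat := .move 963 n4309 (.cons 964 n5664 (.cons 1002 n5667 (.cons 1001 n3579 .nil)))
noncomputable def n5669 : Strat := .move 1002 n2864 (.cons 1045 n3098 .nil)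
noncomputable def n5670 : Strat := .move 1001 n2865 (.cons 963 n5669 .nil)
noncomputable def n5671 : Strat := .move 1000 n825 (.cons 999 n5670 .nil)
noncomputable def n5672 : Strat := .move 919 n3503 (.cons 963 n3164 .nil)
noncomputable def n5673 : Strat := .move 1000 n825 (.cons 999 n5672 .nil)
noncomputable def n5674 : Strat := .move 918 n718 (.cons 917 n5673 .nil)
noncomputable def n5675 : Strat := .move 959 n5657 (.cons 958 n5671 (.cons 1045 n1407 (.cons 1002 n5674 .nil)))
noncomputable def n5676 : Strat := .move 959 n200 (.cons 1004 n5674 .nil)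
noncomputable def n5677 : Strat := .move 960 n5658 (.cons 1045 n3299 (.cons 959 n5668 (.cons 1004 n5675 (.cons 1002 n5676 .nil))))
noncomputable def n5678 : Strat := .move 1044 n5095 (.cons 920 n5651 (.cons 1002 n5652 (.cons 1126 n5653 (.cons 1127 n5654 (.cons 1085 n5677 .nil)))))
noncomputable def n5679 : Strat := .move 919 n198 (.cons 918 n5251 .nil)
noncomputable def n5680 : Strat := .move 1002 n1325 (.cons 965 n48 .nil)
noncomputable def n5681 : Strat := .move 964 n197 (.cons 920 n5680 .nil)
noncomputable def n5682 : Strat := .move 919 n198 (.cons 918 n5681 .nil)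
noncomputable def n5683 : Strat := .move 963 n4528 (.cons 964 n5679 (.cons 1000 n5682 (.cons 1001 n4531 (.cons 919 n4790 (.cons 1002 n3320 .nil)))))
noncomputable def n5684 : Strat := .move 960 n1261 (.cons 959 n5683 .nil)
noncomputable def n5685 : Strat := .move 1002 n2769 (.cons 960 n4653 .nil)
noncomputable def n5686 : Strat := .move 1005 n1465 (.cons 1006 n5685 .nil)
noncomputable def n5687 : Strat := .move 1043 n50 (.cons 1084 n2898 .nil)
noncomputable def n5688 : Strat := .move 1002 n4654 (.cons 1084 n4653 (.cons 964 n5687 (.cons 1001 n2905 (.cons 963 n2889 .nil))))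
noncomputable def n5689 : Strat := .move 1005 n1465 (.cons 1006 n5688 .nil)
noncomputable def n5690 : Strat := .move 1004 n4607 (.cons 1005 n5684 (.cons 963 n4616 (.cons 959 n5686 (.cons 960 n5689 .nil))))
noncomputable def n5691 : Strat := .move 921 n73 (.cons 880 n5690 .nil)
noncomputable def n5692 : Strat := .move 877 n4256 (.cons 835 n4880 .nil)
noncomputable def n5693 : Strat := .move 919 n3161 (.cons 1082 n3164 (.cons 878 n5692 .nil))
noncomputable def n5694 : Strat := .move 921 n73 (.cons 880 n5693 .nil)
noncomputable def n5695 : Strat := .move 918 n718 (.cons 917 n5694 .nil)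
noncomputable def n5696 : Strat := .move 1000 n825 (.cons 999 n5695 .nil)
noncomputable def n5697 : Strat := .move 959 n1407 (.cons 1002 n3305 (.cons 916 n3303 (.cons 958 n5696 .nil)))
noncomputable def n5698 : Strat := .move 959 n200 (.cons 1004 n5696 .nil)
noncomputable def n5699 : Strat := .move 920 n3471 (.cons 1044 n4265 .nil)
noncomputable def n5700 : Strat := .move 1044 n123 (.cons 1085 n2817 .nil)
noncomputable def n5701 : Strat := .move 920 n282 (.cons 838 n5700 .nil)
noncomputable def n5702 : Strat := .move 879 n4268 (.cons 838 n5699 (.cons 1002 n5701 (.cons 1044 n4266 (.cons 920 n4286 .nil))))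
noncomputable def n5703 : Strat := .move 880 n4200 (.cons 921 n5702 .nil)
noncomputable def n5704 : Strat := .move 960 n3299 (.cons 1004 n5697 (.cons 1002 n3306 (.cons 958 n5698 (.cons 917 n3304 (.cons 959 n5703 .nil)))))
noncomputable def n5705 : Strat := .move 920 n123 (.cons 1085 n2812 .nil)
noncomputable def n5706 : Strat := .move 1085 n211 (.cons 1127 n1476 .nil)
noncomputable def n5707 : Strat := .move 1086 n210 (.cons 1045 n5706 .nil)
noncomputable def n5708 : Strat := .move 921 n73 (.cons 880 n5707 .nil)
noncomputable def n5709 : Strat := .move 921 n73 (.cons 880 n4221 .nil)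
noncomputable def n5710 : Strat := .move 920 n282 (.cons 838 n2811 .nil)
noncomputable def n5711 : Strat := .move 920 n2811 (.cons 1002 n4265 .nil)
noncomputable def n5712 : Strat := .move 919 n3503 (.cons 963 n2815 .nil)
noncomputable def n5713 : Strat := .move 918 n718 (.cons 917 n5712 .nil)
noncomputable def n5714 : Strat := .move 959 n200 (.cons 1004 n5713 .nil)
noncomputable def n5715 : Strat := .move 959 n200 (.cons 1004 n4414 .nil)
noncomputable def n5716 : Strat := .move 959 n5713 (.cons 919 n4414 (.cons 918 n5320 .nil))
noncomputable def n5717 : Strat := .move 959 n200 (.cons 1004 n5320 .nil)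
noncomputable def n5718 : Strat := .move 964 n166 (.cons 1006 n623 .nil)
noncomputable def n5719 : Strat := .move 1005 n622 (.cons 1004 n5718 .nil)
noncomputable def n5720 : Strat := .move 1001 n1290 (.cons 838 n411 .nil)
noncomputable def n5721 : Strat := .move 837 n98 (.cons 1002 n4269 .nil)
noncomputable def n5722 : Strat := .move 878 n5720 (.cons 1000 n5721 .nil)
noncomputable def n5723 : Strat := .move 919 n198 (.cons 918 n5722 .nil)
noncomputable def n5724 : Strat := .move 963 n5719 (.cons 1005 n5723 (.cons 1001 n4473 .nil))
noncomputable def n5725 : Strat := .move 960 n5714 (.cons 919 n5715 (.cons 1004 n5716 (.cons 918 n5717 (.cons 959 n5724 .nil))))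
noncomputable def n5726 : Strat := .move 879 n5710 (.cons 1002 n4266 (.cons 838 n5711 (.cons 920 n5725 .nil)))
noncomputable def n5727 : Strat := .move 880 n4200 (.cons 921 n5726 .nil)
noncomputable def n5728 : Strat := .move 1044 n5705 (.cons 920 n5708 (.cons 1002 n5709 (.cons 1085 n5727 .nil)))
noncomputable def n5729 : Strat := .move 1045 n5298 (.cons 1002 n121 .nil)
noncomputable def n5730 : Strat := .move 1001 n2865 (.cons 963 n5729 .nil)
noncomputable def n5731 : Strat := .move 1000 n825 (.cons 999 n5730 .nil)
noncomputable def n5732 : Strat := .move 959 n824 (.cons 958 n5731 .nil)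
noncomputable def n5733 : Strat := .move 920 n123 (.cons 1085 n5732 .nil)
noncomputable def n5734 : Strat := .move 920 n122 (.cons 879 n5732 .nil)
noncomputable def n5735 : Strat := .move 1044 n4221 (.cons 879 n5733 (.cons 920 n4040 (.cons 1085 n5734 .nil)))
noncomputable def n5736 : Strat := .move 921 n73 (.cons 880 n5735 .nil)
noncomputable def n5737 : Strat := .move 1004 n2777 (.cons 963 n1465 .nil)
noncomputable def n5738 : Strat := .move 1004 n2780 (.cons 1002 n2777 .nil)
noncomputable def n5739 : Strat := .move 1046 n230 (.cons 1006 n3763 .nil)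
noncomputable def n5740 : Strat := .move 1005 n5737 (.cons 1006 n5738 (.cons 963 n4277 (.cons 1004 n5739 .nil)))
noncomputable def n5741 : Strat := .move 1045 n121 (.cons 1086 n5740 .nil)
noncomputable def n5742 : Strat := .move 1043 n120 (.cons 1084 n5741 .nil)
noncomputable def n5743 : Strat := .move 1044 n4221 (.cons 920 n4040 (.cons 1085 n5742 .nil))
noncomputable def n5744 : Strat := .move 921 n73 (.cons 880 n5743 .nil)
noncomputable def n5745 : Strat := .move 960 n3532 (.cons 1004 n5736 (.cons 963 n4954 (.cons 959 n5744 .nil)))
noncomputable def n5746 : Strat := .move 1002 n1965 (.cons 878 n129 .nil)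
noncomputable def n5747 : Strat := .move 919 n4672 (.cons 917 n4290 (.cons 963 n5746 .nil))
noncomputable def n5748 : Strat := .move 1045 n121 (.cons 1086 n5747 .nil)
noncomputable def n5749 : Strat := .move 1043 n120 (.cons 1084 n5748 .nil)
noncomputable def n5750 : Strat := .move 920 n122 (.cons 879 n5749 .nil)
noncomputable def n5751 : Strat := .move 920 n123 (.cons 1085 n5749 .nil)
noncomputable def n5752 : Strat := .move 1044 n4221 (.cons 1085 n5750 (.cons 879 n5751 (.cons 920 n4040 .nil)))
noncomputable def n5753 : Strat := .move 921 n73 (.cons 880 n5752 .nil)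
noncomputable def n5754 : Strat := .move 1126 n1472 (.cons 1002 n3826 .nil)
noncomputable def n5755 : Strat := .move 1002 n2769 (.cons 960 n2766 .nil)
noncomputable def n5756 : Strat := .move 1005 n1465 (.cons 1006 n5755 .nil)
noncomputable def n5757 : Strat := .move 1004 n5754 (.cons 1002 n2779 (.cons 963 n5756 .nil))
noncomputable def n5758 : Strat := .move 1085 n211 (.cons 1127 n5757 .nil)
noncomputable def n5759 : Strat := .move 1086 n210 (.cons 1045 n5758 .nil)
noncomputable def n5760 : Strat := .move 1126 n1472 (.cons 1002 n5060 .nil)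
noncomputable def n5761 : Strat := .move 1085 n216 (.cons 1125 n5760 .nil)
noncomputable def n5762 : Strat := .move 1084 n215 (.cons 1043 n5761 .nil)
noncomputable def n5763 : Strat := .move 1001 n3723 (.cons 1004 n125 .nil)
noncomputable def n5764 : Strat := .move 1046 n127 (.cons 1047 n5763 .nil)
noncomputable def n5765 : Strat := .move 1002 n2766 (.cons 1126 n5764 .nil)
noncomputable def n5766 : Strat := .move 1045 n121 (.cons 1086 n5765 .nil)
noncomputable def n5767 : Strat := .move 1085 n216 (.cons 1125 n5766 .nil)
noncomputable def n5768 : Strat := .move 1084 n215 (.cons 1043 n5767 .nil)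
noncomputable def n5769 : Strat := .move 1045 n121 (.cons 1086 n5739 .nil)
noncomputable def n5770 : Strat := .move 1004 n1261 (.cons 959 n2777 .nil)
noncomputable def n5771 : Strat := .move 1004 n1261 (.cons 959 n2780 .nil)
noncomputable def n5772 : Strat := .move 963 n1319 (.cons 917 n1298 .nil)
noncomputable def n5773 : Strat := .move 959 n4414 (.cons 958 n5772 (.cons 918 n5320 .nil))
noncomputable def n5774 : Strat := .move 960 n5770 (.cons 963 n5771 (.cons 1004 n5773 (.cons 959 n3528 .nil)))
noncomputable def n5775 : Strat := .move 1005 n2881 (.cons 1004 n5769 (.cons 1006 n5774 .nil))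
noncomputable def n5776 : Strat := .move 1043 n120 (.cons 1084 n5775 .nil)
noncomputable def n5777 : Strat := .move 1044 n4040 (.cons 1084 n5759 (.cons 1045 n4223 (.cons 1086 n5762 (.cons 1127 n5768 (.cons 1085 n5776 .nil)))))
noncomputable def n5778 : Strat := .move 921 n73 (.cons 880 n5777 .nil)
noncomputable def n5779 : Strat := .move 1044 n123 (.cons 1085 n4265 .nil)
noncomputable def n5780 : Strat := .move 920 n282 (.cons 838 n5779 .nil)
noncomputable def n5781 : Strat := .move 919 n2814 (.cons 882 n2832 .nil)
noncomputable def n5782 : Strat := .move 920 n282 (.cons 838 n5781 .nil)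
noncomputable def n5783 : Strat := .move 837 n4269 (.cons 836 n99 .nil)
noncomputable def n5784 : Strat := .move 878 n2990 (.cons 918 n5783 .nil)
noncomputable def n5785 : Strat := .move 919 n2814 (.cons 882 n5784 .nil)
noncomputable def n5786 : Strat := .move 920 n282 (.cons 838 n5785 .nil)
noncomputable def n5787 : Strat := .move 920 n2814 (.cons 882 n501 .nil)
noncomputable def n5788 : Strat := .move 918 n2815 (.cons 878 n5787 .nil)
noncomputable def n5789 : Strat := .move 920 n2814 (.cons 882 n2832 .nil)
noncomputable def n5790 : Strat := .move 920 n2814 (.cons 882 n5784 .nil)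
noncomputable def n5791 : Strat := .move 882 n4599 (.cons 920 n4945 .nil)
noncomputable def n5792 : Strat := .move 919 n5788 (.cons 878 n5789 (.cons 917 n5790 (.cons 920 n4903 (.cons 918 n5791 .nil))))
noncomputable def n5793 : Strat := .move 838 n1279 (.cons 797 n298 .nil)
noncomputable def n5794 : Strat := .move 960 n4915 (.cons 1004 n5793 .nil)
noncomputable def n5795 : Strat := .move 837 n4269 (.cons 836 n5794 .nil)
noncomputable def n5796 : Strat := .move 878 n2990 (.cons 918 n5795 .nil)
noncomputable def n5797 : Strat := .move 920 n282 (.cons 838 n2832 .nil)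
noncomputable def n5798 : Strat := .move 920 n501 (.cons 917 n2831 .nil)
noncomputable def n5799 : Strat := .move 918 n2815 (.cons 878 n5798 .nil)
noncomputable def n5800 : Strat := .move 837 n1279 (.cons 797 n4269 .nil)
noncomputable def n5801 : Strat := .move 878 n298 (.cons 1001 n5800 .nil)
noncomputable def n5802 : Strat := .move 837 n4269 (.cons 836 n4915 .nil)
noncomputable def n5803 : Strat := .move 878 n298 (.cons 1001 n5802 .nil)
noncomputable def n5804 : Strat := .move 960 n5801 (.cons 797 n5803 (.cons 878 n4924 .nil))
noncomputable def n5805 : Strat := .move 838 n4578 (.cons 920 n5804 .nil)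
noncomputable def n5806 : Strat := .move 919 n4638 (.cons 920 n5796 (.cons 878 n5797 (.cons 838 n5799 (.cons 918 n5805 .nil))))
noncomputable def n5807 : Strat := .move 919 n2990 (.cons 918 n5795 .nil)
noncomputable def n5808 : Strat := .move 878 n5153 (.cons 918 n4927 (.cons 882 n5807 (.cons 797 n4932 (.cons 837 n5155 (.cons 919 n4946 .nil)))))
noncomputable def n5809 : Strat := .move 879 n5780 (.cons 878 n5782 (.cons 917 n5786 (.cons 918 n5147 (.cons 919 n4583 (.cons 838 n5792 (.cons 882 n5806 (.cons 920 n5808 .nil)))))))
noncomputable def n5810 : Strat := .move 880 n4200 (.cons 921 n5809 .nil)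
noncomputable def n5811 : Strat := .move 921 n73 (.cons 880 n4040 .nil)
noncomputable def n5812 : Strat := .move 1004 n1261 (.cons 959 n2853 .nil)
noncomputable def n5813 : Strat := .move 919 n2815 (.cons 878 n3503 .nil)
noncomputable def n5814 : Strat := .move 917 n3583 (.cons 916 n3582 .nil)
noncomputable def n5815 : Strat := .move 919 n2815 (.cons 878 n5814 .nil)
noncomputable def n5816 : Strat := .move 918 n5813 (.cons 963 n5815 (.cons 919 n5321 .nil))
noncomputable def n5817 : Strat := .move 882 n4276 (.cons 838 n4280 .nil)
noncomputable def n5818 : Strat := .move 837 n5279 (.cons 878 n5817 .nil)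
noncomputable def n5819 : Strat := .move 1005 n3510 (.cons 1006 n3528 (.cons 1004 n5818 .nil))
noncomputable def n5820 : Strat := .move 960 n3532 (.cons 1006 n5812 (.cons 963 n4954 (.cons 1004 n5816 (.cons 959 n5819 .nil))))
noncomputable def n5821 : Strat := .move 879 n5710 (.cons 838 n5711 (.cons 1002 n4266 (.cons 920 n5820 .nil)))
noncomputable def n5822 : Strat := .move 880 n4200 (.cons 921 n5821 .nil)
noncomputable def n5823 : Strat := .move 1044 n5709 (.cons 921 n5705 (.cons 920 n5811 (.cons 1085 n5822 .nil)))
noncomputable def n5824 : Strat := .move 961 n5643 (.cons 921 n5678 (.cons 1044 n5691 (.cons 963 n5704 (.cons 1043 n5728 (.cons 919 n5745 (.cons 1000 n5753 (.cons 920 n5778 (.cons 1002 n5810 (.cons 1001 n5823 .nil)))))))))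
noncomputable def n5825 : Strat := .move 799 n212 (.cons 1127 n217 .nil)
noncomputable def n5826 : Strat := .move 1085 n209 (.cons 961 n5825 .nil)
noncomputable def n5827 : Strat := .move 920 n122 (.cons 879 n5826 .nil)
noncomputable def n5828 : Strat := .move 1086 n211 (.cons 1127 n217 .nil)
noncomputable def n5829 : Strat := .move 1085 n209 (.cons 961 n5828 .nil)
noncomputable def n5830 : Strat := .move 920 n122 (.cons 879 n5829 .nil)
noncomputable def n5831 : Strat := .move 961 n4860 (.cons 960 n348 .nil)
noncomputable def n5832 : Strat := .move 1083 n225 (.cons 1082 n5831 .nil)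
noncomputable def n5833 : Strat := .move 1001 n366 (.cons 1000 n5832 .nil)
noncomputable def n5834 : Strat := .move 1042 n373 (.cons 1041 n5833 .nil)
noncomputable def n5835 : Strat := .move 920 n122 (.cons 879 n5834 .nil)
noncomputable def n5836 : Strat := .move 1043 n120 (.cons 1084 n5835 .nil)
noncomputable def n5837 : Strat := .move 1045 n121 (.cons 1086 n5836 .nil)
noncomputable def n5838 : Strat := .move 1044 n5827 (.cons 920 n3964 (.cons 1043 n214 (.cons 1045 n5830 (.cons 1127 n219 (.cons 1085 n5837 .nil)))))
noncomputable def n5839 : Strat := .move 921 n73 (.cons 880 n5838 .nil)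
noncomputable def n5840 : Strat := .move 1005 n230 (.cons 1006 n5629 .nil)
noncomputable def n5841 : Strat := .move 1001 n365 (.cons 1002 n5840 .nil)
noncomputable def n5842 : Strat := .move 1046 n355 (.cons 1001 n360 (.cons 1002 n364 (.cons 1047 n5841 .nil)))
noncomputable def n5843 : Strat := .move 1045 n121 (.cons 1086 n5842 .nil)
noncomputable def n5844 : Strat := .move 1043 n120 (.cons 1084 n5843 .nil)
noncomputable def n5845 : Strat := .move 920 n5826 (.cons 1085 n5844 (.cons 1043 n213 (.cons 1045 n218 .nil)))
noncomputable def n5846 : Strat := .move 920 n122 (.cons 879 n5844 .nil)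
noncomputable def n5847 : Strat := .move 1001 n366 (.cons 1000 n546 .nil)
noncomputable def n5848 : Strat := .move 1042 n373 (.cons 1004 n4021 (.cons 1005 n5847 .nil))
noncomputable def n5849 : Strat := .move 1045 n121 (.cons 1086 n5848 .nil)
noncomputable def n5850 : Strat := .move 1043 n120 (.cons 1084 n5849 .nil)
noncomputable def n5851 : Strat := .move 1044 n5827 (.cons 1043 n214 (.cons 1045 n219 (.cons 879 n5845 (.cons 1085 n5846 (.cons 920 n5850 .nil)))))
noncomputable def n5852 : Strat := .move 921 n73 (.cons 880 n5851 .nil)
noncomputable def n5853 : Strat := .move 961 n173 (.cons 919 n4751 .nil)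
noncomputable def n5854 : Strat := .move 1126 n1474 (.cons 1166 n1555 .nil)
noncomputable def n5855 : Strat := .move 1125 n1473 (.cons 1084 n5854 .nil)
noncomputable def n5856 : Strat := .move 1085 n211 (.cons 1127 n5855 .nil)
noncomputable def n5857 : Strat := .move 1086 n210 (.cons 1045 n5856 .nil)
noncomputable def n5858 : Strat := .move 1044 n122 (.cons 879 n5857 .nil)
noncomputable def n5859 : Strat := .move 961 n173 (.cons 919 n689 .nil)
noncomputable def n5860 : Strat := .move 920 n5853 (.cons 961 n5858 (.cons 1044 n5859 .nil))
noncomputable def n5861 : Strat := .move 920 n30 (.cons 965 n5858 .nil)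
noncomputable def n5862 : Strat := .move 963 n1419 (.cons 965 n5860 (.cons 961 n5861 .nil))
noncomputable def n5863 : Strat := .move 921 n73 (.cons 880 n5862 .nil)
noncomputable def n5864 : Strat := .move 966 n147 (.cons 924 n152 .nil)
noncomputable def n5865 : Strat := .move 965 n143 (.cons 1002 n5864 .nil)
noncomputable def n5866 : Strat := .move 961 n573 (.cons 1005 n787 .nil)
noncomputable def n5867 : Strat := .move 1006 n36 (.cons 1007 n5866 .nil)
noncomputable def n5868 : Strat := .move 965 n148 (.cons 924 n155 (.cons 1004 n5864 (.cons 966 n5867 .nil)))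
noncomputable def n5869 : Strat := .move 965 n143 (.cons 1002 n5867 .nil)
noncomputable def n5870 : Strat := .move 1005 n183 (.cons 924 n624 .nil)
noncomputable def n5871 : Strat := .move 960 n411 (.cons 1000 n626 .nil)
noncomputable def n5872 : Strat := .move 1001 n410 (.cons 1002 n5871 .nil)
noncomputable def n5873 : Strat := .move 961 n689 (.cons 924 n625 (.cons 1006 n5870 (.cons 1005 n5872 .nil)))
noncomputable def n5874 : Strat := .move 963 n149 (.cons 1004 n5865 (.cons 924 n156 (.cons 1002 n5868 (.cons 966 n5869 (.cons 965 n5873 .nil)))))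
noncomputable def n5875 : Strat := .move 963 n30 (.cons 965 n5853 .nil)
noncomputable def n5876 : Strat := .move 1044 n122 (.cons 879 n213 .nil)
noncomputable def n5877 : Strat := .move 919 n77 (.cons 918 n804 .nil)
noncomputable def n5878 : Strat := .move 963 n30 (.cons 965 n5877 .nil)
noncomputable def n5879 : Strat := .move 963 n30 (.cons 965 n5858 .nil)
noncomputable def n5880 : Strat := .move 920 n5875 (.cons 963 n5876 (.cons 1044 n5878 (.cons 961 n5879 .nil)))
noncomputable def n5881 : Strat := .move 921 n73 (.cons 880 n5880 .nil)
noncomputable def n5882 : Strat := .move 963 n173 (.cons 919 n4751 .nil)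
noncomputable def n5883 : Strat := .move 963 n173 (.cons 919 n689 .nil)
noncomputable def n5884 : Strat := .move 920 n5882 (.cons 963 n4130 (.cons 879 n5883 .nil))
noncomputable def n5885 : Strat := .move 921 n73 (.cons 880 n5884 .nil)
noncomputable def n5886 : Strat := .move 963 n689 (.cons 924 n625 (.cons 1006 n5870 (.cons 1005 n5872 .nil)))
noncomputable def n5887 : Strat := .move 1005 n183 (.cons 923 n624 .nil)
noncomputable def n5888 : Strat := .move 959 n718 (.cons 917 n200 .nil)
noncomputable def n5889 : Strat := .move 918 n716 (.cons 919 n5888 .nil)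
noncomputable def n5890 : Strat := .move 960 n411 (.cons 1000 n5889 .nil)
noncomputable def n5891 : Strat := .move 1001 n410 (.cons 1002 n5890 .nil)
noncomputable def n5892 : Strat := .move 963 n689 (.cons 1006 n5887 (.cons 1005 n5891 .nil))
noncomputable def n5893 : Strat := .move 880 n4200 (.cons 921 n5892 .nil)
noncomputable def n5894 : Strat := .move 960 n411 (.cons 1000 n4132 .nil)
noncomputable def n5895 : Strat := .move 1001 n410 (.cons 1002 n5894 .nil)
noncomputable def n5896 : Strat := .move 963 n173 (.cons 919 n5895 .nil)
noncomputable def n5897 : Strat := .move 920 n5882 (.cons 1044 n5896 (.cons 963 n4130 .nil))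
noncomputable def n5898 : Strat := .move 921 n73 (.cons 880 n5897 .nil)
noncomputable def n5899 : Strat := .win 963 0 961
noncomputable def n5900 : Strat := .win 1004 2 961
noncomputable def n5901 : Strat := .move 1006 n5899 (.cons 963 n5900 .nil)
noncomputable def n5902 : Strat := .move 1087 n868 (.cons 1045 n671 .nil)
noncomputable def n5903 : Strat := .move 1046 n660 (.cons 883 n5902 .nil)
noncomputable def n5904 : Strat := .move 924 n2901 (.cons 963 n5903 .nil)
noncomputable def n5905 : Strat := .move 923 n92 (.cons 882 n5904 .nil)
noncomputable def n5906 : Strat := .move 1005 n5901 (.cons 1006 n5905 (.cons 963 n2909 .nil))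
noncomputable def n5907 : Strat := .move 880 n4200 (.cons 921 n5906 .nil)
noncomputable def n5908 : Strat := .move 920 n174 (.cons 879 n5208 .nil)
noncomputable def n5909 : Strat := .move 920 n123 (.cons 1085 n5208 .nil)
noncomputable def n5910 : Strat := .move 1044 n3007 (.cons 1085 n5908 (.cons 879 n5909 (.cons 920 n5208 .nil)))
noncomputable def n5911 : Strat := .move 921 n73 (.cons 880 n5910 .nil)
noncomputable def n5912 : Strat := .move 960 n3068 (.cons 1005 n1261 .nil)
noncomputable def n5913 : Strat := .move 1004 n5286 (.cons 1006 n5912 (.cons 960 n375 .nil))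
noncomputable def n5914 : Strat := .move 1045 n121 (.cons 1086 n5913 .nil)
noncomputable def n5915 : Strat := .move 920 n174 (.cons 879 n5914 .nil)
noncomputable def n5916 : Strat := .move 1085 n2766 (.cons 1126 n212 .nil)
noncomputable def n5917 : Strat := .move 1044 n3007 (.cons 1085 n5915 (.cons 920 n5916 .nil))
noncomputable def n5918 : Strat := .move 921 n73 (.cons 880 n5917 .nil)
noncomputable def n5919 : Strat := .move 1004 n5286 (.cons 1006 n5912 (.cons 960 n3210 .nil))
noncomputable def n5920 : Strat := .move 1045 n121 (.cons 1086 n5919 .nil)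
noncomputable def n5921 : Strat := .move 920 n174 (.cons 879 n5920 .nil)
noncomputable def n5922 : Strat := .move 920 n123 (.cons 1085 n5920 .nil)
noncomputable def n5923 : Strat := .move 1044 n3007 (.cons 1085 n5921 (.cons 879 n5922 (.cons 920 n5916 .nil)))
noncomputable def n5924 : Strat := .move 921 n73 (.cons 880 n5923 .nil)
noncomputable def n5925 : Strat := .move 1001 n3077 (.cons 1000 n4811 .nil)
noncomputable def n5926 : Strat := .move 960 n1261 (.cons 959 n5925 .nil)
noncomputable def n5927 : Strat := .move 1005 n1465 (.cons 1006 n2888 .nil)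
noncomputable def n5928 : Strat := .move 1004 n3048 (.cons 1005 n5926 (.cons 960 n5927 .nil))
noncomputable def n5929 : Strat := .move 880 n4200 (.cons 921 n5928 .nil)
noncomputable def n5930 : Strat := .move 1045 n376 (.cons 1001 n4560 .nil)
noncomputable def n5931 : Strat := .move 1046 n1624 (.cons 1047 n5930 .nil)
noncomputable def n5932 : Strat := .move 1005 n1465 (.cons 1006 n5931 .nil)
noncomputable def n5933 : Strat := .move 1005 n2769 (.cons 960 n5931 .nil)
noncomputable def n5934 : Strat := .move 960 n1261 (.cons 959 n4565 .nil)
noncomputable def n5935 : Strat := .move 1004 n3048 (.cons 960 n5932 (.cons 1006 n5933 (.cons 1005 n5934 .nil)))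
noncomputable def n5936 : Strat := .move 921 n73 (.cons 880 n5935 .nil)
noncomputable def n5937 : Strat := .move 1005 n2769 (.cons 960 n2888 .nil)
noncomputable def n5938 : Strat := .move 959 n3219 (.cons 960 n4711 .nil)
noncomputable def n5939 : Strat := .move 959 n3219 (.cons 960 n3085 .nil)
noncomputable def n5940 : Strat := .move 1042 n222 (.cons 1041 n1972 .nil)
noncomputable def n5941 : Strat := .move 960 n1261 (.cons 959 n5940 .nil)
noncomputable def n5942 : Strat := .move 1001 n5938 (.cons 958 n5939 (.cons 960 n3085 (.cons 1000 n5941 .nil)))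
noncomputable def n5943 : Strat := .move 1004 n3048 (.cons 960 n5927 (.cons 1006 n5937 (.cons 1005 n5942 .nil)))
noncomputable def n5944 : Strat := .move 880 n4200 (.cons 921 n5943 .nil)
noncomputable def n5945 : Strat := .move 1042 n222 (.cons 1041 n3077 .nil)
noncomputable def n5946 : Strat := .move 1001 n4811 (.cons 1083 n5945 (.cons 1042 n3077 .nil))
noncomputable def n5947 : Strat := .move 960 n1261 (.cons 959 n5946 .nil)
noncomputable def n5948 : Strat := .move 1004 n3048 (.cons 960 n5927 (.cons 1006 n5937 (.cons 1005 n5947 .nil)))
noncomputable def n5949 : Strat := .move 920 n282 (.cons 838 n1310 .nil)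
noncomputable def n5950 : Strat := .move 878 n286 (.cons 837 n2990 .nil)
noncomputable def n5951 : Strat := .move 919 n2814 (.cons 882 n5950 .nil)
noncomputable def n5952 : Strat := .move 920 n282 (.cons 838 n5951 .nil)
noncomputable def n5953 : Strat := .move 920 n1310 (.cons 1044 n5951 .nil)
noncomputable def n5954 : Strat := .move 923 n12 (.cons 1005 n4279 .nil)
noncomputable def n5955 : Strat := .move 919 n4869 (.cons 960 n2990 .nil)
noncomputable def n5956 : Strat := .move 878 n4269 (.cons 836 n5955 .nil)
noncomputable def n5957 : Strat := .move 837 n4276 (.cons 838 n5956 .nil)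
noncomputable def n5958 : Strat := .move 882 n5954 (.cons 1005 n5957 .nil)
noncomputable def n5959 : Strat := .move 879 n5949 (.cons 1044 n5952 (.cons 838 n5953 (.cons 920 n5958 .nil)))
noncomputable def n5960 : Strat := .move 880 n4200 (.cons 921 n5959 .nil)
noncomputable def n5961 : Strat := .move 1002 n5911 (.cons 1047 n5918 (.cons 1000 n5924 (.cons 1085 n5929 (.cons 920 n5936 (.cons 1044 n5944 (.cons 921 n5948 (.cons 1004 n5960 .nil)))))))
noncomputable def n5962 : Strat := .move 961 n5885 (.cons 921 n5886 (.cons 920 n5893 (.cons 1005 n5898 (.cons 919 n5907 (.cons 963 n5961 .nil)))))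
noncomputable def n5963 : Strat := .move 921 n73 (.cons 880 n32 .nil)
noncomputable def n5964 : Strat := .move 965 n143 (.cons 1002 n5963 .nil)
noncomputable def n5965 : Strat := .move 965 n5963 (.cons 921 n5864 .nil)
noncomputable def n5966 : Strat := .move 920 n173 (.cons 919 n3685 .nil)
noncomputable def n5967 : Strat := .move 920 n173 (.cons 919 n4545 .nil)
noncomputable def n5968 : Strat := .move 921 n73 (.cons 880 n3631 .nil)
noncomputable def n5969 : Strat := .move 960 n411 (.cons 1000 n5968 .nil)
noncomputable def n5970 : Strat := .move 1001 n410 (.cons 1002 n5969 .nil)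
noncomputable def n5971 : Strat := .move 920 n173 (.cons 919 n5970 .nil)
noncomputable def n5972 : Strat := .move 959 n718 (.cons 917 n3631 .nil)
noncomputable def n5973 : Strat := .move 918 n716 (.cons 919 n5972 .nil)
noncomputable def n5974 : Strat := .move 960 n411 (.cons 1000 n5973 .nil)
noncomputable def n5975 : Strat := .move 1001 n410 (.cons 1002 n5974 .nil)
noncomputable def n5976 : Strat := .move 920 n3685 (.cons 879 n5970 (.cons 1002 n4545 .nil))
noncomputable def n5977 : Strat := .move 961 n5966 (.cons 1002 n5967 (.cons 879 n5971 (.cons 920 n5975 (.cons 919 n5976 .nil))))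
noncomputable def n5978 : Strat := .move 963 n5964 (.cons 1002 n5965 (.cons 921 n5865 (.cons 965 n5977 .nil)))
noncomputable def n5979 : Strat := .move 965 n148 (.cons 924 n155 (.cons 1004 n1425 (.cons 966 n163 .nil)))
noncomputable def n5980 : Strat := .move 965 n143 (.cons 1002 n1425 .nil)
noncomputable def n5981 : Strat := .move 961 n689 (.cons 1006 n5887 (.cons 1005 n5891 .nil))
noncomputable def n5982 : Strat := .move 880 n4200 (.cons 921 n5981 .nil)
noncomputable def n5983 : Strat := .move 963 n149 (.cons 1002 n5979 (.cons 1004 n5980 (.cons 924 n156 (.cons 966 n165 (.cons 965 n5982 .nil)))))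
noncomputable def n5984 : Strat := .move 965 n143 (.cons 1002 n32 .nil)
noncomputable def n5985 : Strat := .move 1047 n37 (.cons 1088 n2230 .nil)
noncomputable def n5986 : Strat := .move 923 n92 (.cons 882 n5985 .nil)
noncomputable def n5987 : Strat := .move 1005 n157 (.cons 961 n5986 .nil)
noncomputable def n5988 : Strat := .move 1006 n36 (.cons 1007 n5987 .nil)
noncomputable def n5989 : Strat := .move 1004 n3316 (.cons 966 n5988 .nil)
noncomputable def n5990 : Strat := .move 965 n32 (.cons 920 n5989 .nil)
noncomputable def n5991 : Strat := .move 965 n143 (.cons 1002 n5989 .nil)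
noncomputable def n5992 : Strat := .move 960 n411 (.cons 1000 n1495 .nil)
noncomputable def n5993 : Strat := .move 1001 n410 (.cons 1002 n5992 .nil)
noncomputable def n5994 : Strat := .move 961 n123 (.cons 1085 n5993 .nil)
noncomputable def n5995 : Strat := .move 920 n122 (.cons 879 n5994 .nil)
noncomputable def n5996 : Strat := .move 920 n122 (.cons 879 n5857 .nil)
noncomputable def n5997 : Strat := .move 960 n450 (.cons 1002 n4132 .nil)
noncomputable def n5998 : Strat := .move 961 n172 (.cons 1005 n5997 .nil)
noncomputable def n5999 : Strat := .move 1086 n210 (.cons 1045 n5998 .nil)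
noncomputable def n6000 : Strat := .move 920 n122 (.cons 879 n5999 .nil)
noncomputable def n6001 : Strat := .move 1126 n1555 (.cons 1004 n3514 .nil)
noncomputable def n6002 : Strat := .move 1085 n211 (.cons 1127 n6001 .nil)
noncomputable def n6003 : Strat := .move 1086 n210 (.cons 1045 n6002 .nil)
noncomputable def n6004 : Strat := .move 1085 n211 (.cons 1127 n209 .nil)
noncomputable def n6005 : Strat := .move 1086 n210 (.cons 1045 n6004 .nil)
noncomputable def n6006 : Strat := .move 920 n122 (.cons 879 n6005 .nil)
noncomputable def n6007 : Strat := .move 1044 n5995 (.cons 961 n5996 (.cons 1085 n6000 (.cons 920 n6003 (.cons 1004 n6006 .nil))))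
noncomputable def n6008 : Strat := .move 963 n5984 (.cons 1002 n5990 (.cons 920 n5991 (.cons 965 n6007 .nil)))
noncomputable def n6009 : Strat := .move 921 n73 (.cons 880 n6008 .nil)
noncomputable def n6010 : Strat := .move 965 n4391 (.cons 1002 n4086 .nil)
noncomputable def n6011 : Strat := .move 1006 n1627 (.cons 961 n6010 .nil)
noncomputable def n6012 : Strat := .move 965 n4391 (.cons 1002 n5985 .nil)
noncomputable def n6013 : Strat := .move 1046 n2229 (.cons 1002 n870 .nil)
noncomputable def n6014 : Strat := .move 1047 n2230 (.cons 1048 n6013 .nil)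
noncomputable def n6015 : Strat := .win 965 7 923
noncomputable def n6016 : Strat := .win 1046 6 923
noncomputable def n6017 : Strat := .move 1088 n6015 (.cons 965 n6016 .nil)
noncomputable def n6018 : Strat := .move 1047 n2230 (.cons 1048 n6017 .nil)
noncomputable def n6019 : Strat := .move 1006 n6010 (.cons 966 n6012 (.cons 965 n6014 (.cons 1002 n6018 .nil)))
noncomputable def n6020 : Strat := .move 1006 n1627 (.cons 961 n6014 .nil)
noncomputable def n6021 : Strat := .move 1006 n1627 (.cons 961 n6018 .nil)
noncomputable def n6022 : Strat := .move 1045 n376 (.cons 1001 n934 .nil)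
noncomputable def n6023 : Strat := .move 1046 n1624 (.cons 1047 n6022 .nil)
noncomputable def n6024 : Strat := .move 1002 n2855 (.cons 965 n6023 .nil)
noncomputable def n6025 : Strat := .move 1004 n6011 (.cons 961 n6019 (.cons 965 n6020 (.cons 1002 n6021 (.cons 1006 n6024 .nil))))
noncomputable def n6026 : Strat := .move 880 n4200 (.cons 921 n6025 .nil)
noncomputable def n6027 : Strat := .move 923 n92 (.cons 882 n6026 .nil)
noncomputable def n6028 : Strat := .win 1046 4 1004
noncomputable def n6029 : Strat := .move 1045 n6028 (.cons 1046 n1185 .nil)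
noncomputable def n6030 : Strat := .move 1008 n6029 (.cons 1044 n1134 .nil)
noncomputable def n6031 : Strat := .move 1007 n1162 (.cons 1049 n6030 .nil)
noncomputable def n6032 : Strat := .move 1048 n5380 (.cons 1047 n6031 .nil)
noncomputable def n6033 : Strat := .move 1006 n1627 (.cons 961 n6032 .nil)
noncomputable def n6034 : Strat := .win 1009 2 964
noncomputable def n6035 : Strat := .move 965 n6034 (.cons 1009 n4391 .nil)
noncomputable def n6036 : Strat := .move 1008 n6035 (.cons 1002 n6029 .nil)
noncomputable def n6037 : Strat := .move 1007 n1162 (.cons 1049 n6036 .nil)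
noncomputable def n6038 : Strat := .move 1048 n5380 (.cons 1047 n6037 .nil)
noncomputable def n6039 : Strat := .move 1006 n6010 (.cons 965 n6032 (.cons 966 n6038 .nil))
noncomputable def n6040 : Strat := .move 1006 n1627 (.cons 961 n6038 .nil)
noncomputable def n6041 : Strat := .move 961 n2769 (.cons 960 n5931 .nil)
noncomputable def n6042 : Strat := .move 1002 n2855 (.cons 965 n6041 .nil)
noncomputable def n6043 : Strat := .move 1004 n6011 (.cons 965 n6033 (.cons 961 n6039 (.cons 966 n6040 (.cons 1006 n6042 .nil))))
noncomputable def n6044 : Strat := .move 921 n73 (.cons 880 n6043 .nil)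
noncomputable def n6045 : Strat := .move 1048 n2235 (.cons 1006 n2234 .nil)
noncomputable def n6046 : Strat := .move 1004 n2229 (.cons 1002 n6045 .nil)
noncomputable def n6047 : Strat := .move 1047 n870 (.cons 1088 n6046 .nil)
noncomputable def n6048 : Strat := .move 1087 n668 (.cons 1127 n2968 .nil)
noncomputable def n6049 : Strat := .move 1086 n667 (.cons 1045 n6048 .nil)
noncomputable def n6050 : Strat := .move 1004 n2229 (.cons 1002 n6049 .nil)
noncomputable def n6051 : Strat := .move 1047 n870 (.cons 1088 n6050 .nil)
noncomputable def n6052 : Strat := .move 924 n660 (.cons 883 n676 .nil)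
noncomputable def n6053 : Strat := .move 1087 n668 (.cons 1127 n6052 .nil)
noncomputable def n6054 : Strat := .move 1086 n667 (.cons 1045 n6053 .nil)
noncomputable def n6055 : Strat := .move 1006 n1627 (.cons 961 n2230 .nil)
noncomputable def n6056 : Strat := .move 1004 n2229 (.cons 1002 n6055 .nil)
noncomputable def n6057 : Strat := .move 1047 n870 (.cons 1088 n6056 .nil)
noncomputable def n6058 : Strat := .move 1046 n6047 (.cons 1048 n6051 (.cons 1047 n6054 (.cons 1045 n6057 .nil)))
noncomputable def n6059 : Strat := .move 923 n92 (.cons 882 n6058 .nil)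
noncomputable def n6060 : Strat := .move 921 n122 (.cons 879 n73 .nil)
noncomputable def n6061 : Strat := .win 1084 4 1043
noncomputable def n6062 : Strat := .move 1085 n209 (.cons 961 n6061 .nil)
noncomputable def n6063 : Strat := .move 920 n6060 (.cons 880 n6062 .nil)
noncomputable def n6064 : Strat := .move 1044 n356 (.cons 1002 n6063 .nil)
noncomputable def n6065 : Strat := .move 1045 n934 (.cons 1086 n6064 .nil)
noncomputable def n6066 : Strat := .move 1047 n870 (.cons 1088 n6065 .nil)
noncomputable def n6067 : Strat := .move 1046 n680 (.cons 965 n6066 (.cons 1045 n933 .nil))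
noncomputable def n6068 : Strat := .move 923 n92 (.cons 882 n6067 .nil)
noncomputable def n6069 : Strat := .win 1046 1 922
noncomputable def n6070 : Strat := .move 1045 n6069 (.cons 1046 n4559 .nil)
noncomputable def n6071 : Strat := .win 1049 2 1004
noncomputable def n6072 : Strat := .move 1048 n6071 (.cons 1049 n2235 .nil)
noncomputable def n6073 : Strat := .move 1004 n2229 (.cons 1002 n6072 .nil)
noncomputable def n6074 : Strat := .move 1047 n870 (.cons 1088 n6073 .nil)
noncomputable def n6075 : Strat := .move 1046 n6048 (.cons 883 n672 (.cons 1087 n6074 .nil))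
noncomputable def n6076 : Strat := .win 1006 5 962
noncomputable def n6077 : Strat := .win 967 4 963
noncomputable def n6078 : Strat := .move 966 n6076 (.cons 1006 n6077 .nil)
noncomputable def n6079 : Strat := .move 965 n4391 (.cons 1002 n6078 .nil)
noncomputable def n6080 : Strat := .move 1004 n4558 (.cons 1127 n6079 .nil)
noncomputable def n6081 : Strat := .move 1045 n4559 (.cons 1044 n6080 .nil)
noncomputable def n6082 : Strat := .move 1086 n6070 (.cons 1045 n6075 (.cons 1046 n6081 .nil))
noncomputable def n6083 : Strat := .move 921 n73 (.cons 880 n6082 .nil)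
noncomputable def n6084 : Strat := .move 923 n92 (.cons 882 n6083 .nil)
noncomputable def n6085 : Strat := .move 1086 n4558 (.cons 1127 n6069 .nil)
noncomputable def n6086 : Strat := .move 1007 n5385 (.cons 967 n1185 .nil)
noncomputable def n6087 : Strat := .move 1045 n6085 (.cons 1046 n6086 .nil)
noncomputable def n6088 : Strat := .move 966 n5384 (.cons 965 n6087 .nil)
noncomputable def n6089 : Strat := .move 1006 n1627 (.cons 961 n6088 .nil)
noncomputable def n6090 : Strat := .move 1048 n1162 (.cons 1049 n5380 .nil)
noncomputable def n6091 : Strat := .move 1007 n5385 (.cons 967 n6090 .nil)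
noncomputable def n6092 : Strat := .win 1129 7 964
noncomputable def n6093 : Strat := .move 1088 n6092 (.cons 1129 n6016 .nil)
noncomputable def n6094 : Strat := .move 1047 n2230 (.cons 1048 n6093 .nil)
noncomputable def n6095 : Strat := .move 966 n6091 (.cons 1007 n6094 (.cons 1047 n6087 .nil))
noncomputable def n6096 : Strat := .move 966 n5384 (.cons 965 n6091 .nil)
noncomputable def n6097 : Strat := .move 1006 n6018 (.cons 1048 n6088 (.cons 965 n6095 (.cons 1046 n6096 .nil)))
noncomputable def n6098 : Strat := .move 1006 n1627 (.cons 961 n6096 .nil)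
noncomputable def n6099 : Strat := .move 1006 n1627 (.cons 961 n6095 .nil)
noncomputable def n6100 : Strat := .move 1045 n934 (.cons 1086 n2969 .nil)
noncomputable def n6101 : Strat := .move 1087 n676 (.cons 965 n668 .nil)
noncomputable def n6102 : Strat := .move 1086 n667 (.cons 1045 n6101 .nil)
noncomputable def n6103 : Strat := .move 924 n660 (.cons 883 n6102 .nil)
noncomputable def n6104 : Strat := .move 1046 n4838 (.cons 1048 n6100 (.cons 1045 n2920 (.cons 1047 n6103 .nil)))
noncomputable def n6105 : Strat := .move 1004 n6021 (.cons 1048 n6089 (.cons 961 n6097 (.cons 1046 n6098 (.cons 965 n6099 (.cons 1006 n6104 .nil)))))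
noncomputable def n6106 : Strat := .move 880 n4200 (.cons 921 n6105 .nil)
noncomputable def n6107 : Strat := .move 923 n92 (.cons 882 n6106 .nil)
noncomputable def n6108 : Strat := .move 1006 n2230 (.cons 1048 n1627 .nil)
noncomputable def n6109 : Strat := .move 1004 n2229 (.cons 1002 n6108 .nil)
noncomputable def n6110 : Strat := .move 1047 n870 (.cons 1088 n6109 .nil)
noncomputable def n6111 : Strat := .move 1128 n1195 (.cons 1086 n1172 .nil)
noncomputable def n6112 : Strat := .move 1087 n676 (.cons 965 n6111 .nil)
noncomputable def n6113 : Strat := .move 924 n660 (.cons 883 n6112 .nil)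
noncomputable def n6114 : Strat := .move 1006 n4086 (.cons 966 n1627 .nil)
noncomputable def n6115 : Strat := .move 1004 n4391 (.cons 1002 n6114 .nil)
noncomputable def n6116 : Strat := .move 965 n159 (.cons 1087 n6115 .nil)
noncomputable def n6117 : Strat := .move 924 n660 (.cons 883 n6116 .nil)
noncomputable def n6118 : Strat := .move 1046 n6110 (.cons 961 n6074 (.cons 1047 n6113 (.cons 1088 n6117 .nil)))
noncomputable def n6119 : Strat := .move 923 n92 (.cons 882 n6118 .nil)
noncomputable def n6120 : Strat := .move 880 n4200 (.cons 921 n6119 .nil)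
noncomputable def n6121 : Strat := .move 1002 n2855 (.cons 965 n2769 .nil)
noncomputable def n6122 : Strat := .move 961 n1465 (.cons 1006 n6121 .nil)
noncomputable def n6123 : Strat := .move 966 n6077 (.cons 967 n6076 .nil)
noncomputable def n6124 : Strat := .move 965 n4391 (.cons 1002 n6123 .nil)
noncomputable def n6125 : Strat := .move 961 n1465 (.cons 1006 n2908 .nil)
noncomputable def n6126 : Strat := .move 1086 n4559 (.cons 1044 n6069 .nil)
noncomputable def n6127 : Strat := .move 1045 n6126 (.cons 1046 n4560 (.cons 1044 n6085 (.cons 1086 n6086 .nil)))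
noncomputable def n6128 : Strat := .move 966 n5384 (.cons 965 n6127 .nil)
noncomputable def n6129 : Strat := .move 1006 n1627 (.cons 961 n6128 .nil)
noncomputable def n6130 : Strat := .move 1001 n1620 (.cons 959 n374 .nil)
noncomputable def n6131 : Strat := .move 1045 n6126 (.cons 1046 n4560 (.cons 1044 n6085 (.cons 1086 n6130 .nil)))
noncomputable def n6132 : Strat := .move 960 n3741 (.cons 961 n6131 .nil)
noncomputable def n6133 : Strat := .move 1002 n2855 (.cons 965 n6132 .nil)
noncomputable def n6134 : Strat := .move 1004 n6122 (.cons 961 n6124 (.cons 965 n6125 (.cons 1002 n6129 (.cons 1006 n6133 .nil))))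
noncomputable def n6135 : Strat := .move 921 n73 (.cons 880 n6134 .nil)
noncomputable def n6136 : Strat := .move 923 n92 (.cons 882 n6135 .nil)
noncomputable def n6137 : Strat := .move 1006 n6010 (.cons 965 n6014 (.cons 1002 n6018 .nil))
noncomputable def n6138 : Strat := .move 1001 n1620 (.cons 959 n1625 .nil)
noncomputable def n6139 : Strat := .move 960 n3741 (.cons 961 n6138 .nil)
noncomputable def n6140 : Strat := .move 1046 n1624 (.cons 1047 n6139 .nil)
noncomputable def n6141 : Strat := .move 1002 n2855 (.cons 965 n6140 .nil)
noncomputable def n6142 : Strat := .move 1004 n6011 (.cons 961 n6137 (.cons 1006 n6141 (.cons 965 n6020 (.cons 1002 n6021 .nil))))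
noncomputable def n6143 : Strat := .move 880 n4200 (.cons 921 n6142 .nil)
noncomputable def n6144 : Strat := .move 923 n92 (.cons 882 n6143 .nil)
noncomputable def n6145 : Strat := .move 923 n92 (.cons 882 n6110 .nil)
noncomputable def n6146 : Strat := .move 1002 n376 (.cons 1001 n1624 .nil)
noncomputable def n6147 : Strat := .move 1002 n2769 (.cons 960 n376 .nil)
noncomputable def n6148 : Strat := .move 961 n1465 (.cons 1006 n6147 .nil)
noncomputable def n6149 : Strat := .move 1007 n1185 (.cons 1044 n938 .nil)
noncomputable def n6150 : Strat := .move 1006 n1627 (.cons 961 n6149 .nil)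
noncomputable def n6151 : Strat := .move 1004 n6146 (.cons 1047 n6148 (.cons 1001 n5076 (.cons 1002 n6150 .nil)))
noncomputable def n6152 : Strat := .move 1045 n934 (.cons 1086 n6151 .nil)
noncomputable def n6153 : Strat := .move 923 n92 (.cons 882 n6152 .nil)
noncomputable def n6154 : Strat := .move 1004 n2230 (.cons 1048 n1627 .nil)
noncomputable def n6155 : Strat := .move 1006 n6154 (.cons 961 n939 .nil)
noncomputable def n6156 : Strat := .move 1045 n934 (.cons 1086 n6155 .nil)
noncomputable def n6157 : Strat := .move 1047 n870 (.cons 1088 n6156 .nil)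
noncomputable def n6158 : Strat := .move 923 n92 (.cons 882 n6157 .nil)
noncomputable def n6159 : Strat := .move 923 n92 (.cons 882 n673 .nil)
noncomputable def n6160 : Strat := .move 1047 n2229 (.cons 1002 n6045 .nil)
noncomputable def n6161 : Strat := .move 960 n1620 (.cons 959 n3741 .nil)
noncomputable def n6162 : Strat := .move 1001 n1625 (.cons 1045 n6161 .nil)
noncomputable def n6163 : Strat := .move 1002 n1624 (.cons 1047 n6162 .nil)
noncomputable def n6164 : Strat := .move 1047 n2229 (.cons 1002 n6055 .nil)
noncomputable def n6165 : Strat := .move 1045 n938 (.cons 1008 n1185 .nil)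
noncomputable def n6166 : Strat := .move 1007 n1162 (.cons 1049 n6165 .nil)
noncomputable def n6167 : Strat := .move 1048 n5380 (.cons 1047 n6166 .nil)
noncomputable def n6168 : Strat := .move 1006 n1627 (.cons 961 n6167 .nil)
noncomputable def n6169 : Strat := .move 1004 n6160 (.cons 1006 n6163 (.cons 1045 n6164 (.cons 1002 n6168 (.cons 1047 n6125 .nil))))
noncomputable def n6170 : Strat := .move 923 n92 (.cons 882 n677 .nil)
noncomputable def n6171 : Strat := .move 1128 n1084 (.cons 1168 n1172 .nil)
noncomputable def n6172 : Strat := .move 1127 n1083 (.cons 1086 n6171 .nil)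
noncomputable def n6173 : Strat := .win 1044 2 1044
noncomputable def n6174 : Strat := .win 1090 2 1045
noncomputable def n6175 : Strat := .move 1089 n6173 (.cons 1044 n6174 .nil)
noncomputable def n6176 : Strat := .move 1088 n669 (.cons 1129 n6175 .nil)
noncomputable def n6177 : Strat := .move 1086 n668 (.cons 1127 n6176 .nil)
noncomputable def n6178 : Strat := .move 1128 n3731 (.cons 1169 n1172 .nil)
noncomputable def n6179 : Strat := .move 1004 n6148 (.cons 961 n6178 .nil)
noncomputable def n6180 : Strat := .move 1128 n3731 (.cons 1169 n1084 .nil)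
noncomputable def n6181 : Strat := .move 1127 n1083 (.cons 1086 n6180 .nil)
noncomputable def n6182 : Strat := .move 1004 n6181 (.cons 1127 n6148 .nil)
noncomputable def n6183 : Strat := .move 1045 n6172 (.cons 1170 n6177 (.cons 1086 n6179 (.cons 1088 n6182 .nil)))
noncomputable def n6184 : Strat := .move 882 n1050 (.cons 923 n6172 .nil)
noncomputable def n6185 : Strat := .move 961 n1465 (.cons 1006 n2783 .nil)
noncomputable def n6186 : Strat := .move 1128 n3731 (.cons 1169 n1113 .nil)
noncomputable def n6187 : Strat := .move 1045 n2886 (.cons 882 n6186 .nil)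
noncomputable def n6188 : Strat := .move 1004 n6185 (.cons 961 n6187 .nil)
noncomputable def n6189 : Strat := .move 1129 n1112 (.cons 1088 n6188 .nil)
noncomputable def n6190 : Strat := .move 1129 n1112 (.cons 1088 n1113 .nil)
noncomputable def n6191 : Strat := .move 882 n1050 (.cons 923 n1209 .nil)
noncomputable def n6192 : Strat := .win 1045 7 1004
noncomputable def n6193 : Strat := .move 1169 n6192 (.cons 1045 n1208 .nil)
noncomputable def n6194 : Strat := .move 1004 n6185 (.cons 961 n6193 .nil)
noncomputable def n6195 : Strat := .move 1128 n6190 (.cons 1088 n6191 (.cons 1129 n6194 .nil))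
noncomputable def n6196 : Strat := .move 1087 n6170 (.cons 923 n6183 (.cons 1045 n6184 (.cons 1127 n6189 (.cons 1086 n6195 .nil))))
noncomputable def n6197 : Strat := .move 1046 n6145 (.cons 1088 n6153 (.cons 1002 n6158 (.cons 1048 n6159 (.cons 923 n6169 (.cons 1047 n6196 .nil)))))
noncomputable def n6198 : Strat := .move 880 n4200 (.cons 921 n6197 .nil)
noncomputable def n6199 : Strat := .move 880 n4200 (.cons 921 n6124 .nil)
noncomputable def n6200 : Strat := .move 880 n4200 (.cons 921 n6125 .nil)
noncomputable def n6201 : Strat := .move 880 n4200 (.cons 921 n6098 .nil)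
noncomputable def n6202 : Strat := .move 961 n2818 (.cons 999 n2769 .nil)
noncomputable def n6203 : Strat := .move 1000 n3084 (.cons 1042 n6202 .nil)
noncomputable def n6204 : Strat := .move 880 n4200 (.cons 921 n6203 .nil)
noncomputable def n6205 : Strat := .win 961 5 958
noncomputable def n6206 : Strat := .win 957 2 957
noncomputable def n6207 : Strat := .win 959 2 958
noncomputable def n6208 : Strat := .move 958 n6206 (.cons 957 n6207 .nil)
noncomputable def n6209 : Strat := .move 999 n6205 (.cons 961 n6208 .nil)
noncomputable def n6210 : Strat := .move 1000 n3084 (.cons 1042 n6209 .nil)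
noncomputable def n6211 : Strat := .move 959 n2979 (.cons 958 n5597 .nil)
noncomputable def n6212 : Strat := .move 1000 n6211 (.cons 960 n3084 .nil)
noncomputable def n6213 : Strat := .move 1001 n3742 (.cons 959 n6204 (.cons 960 n6210 (.cons 961 n6212 .nil)))
noncomputable def n6214 : Strat := .move 1002 n2855 (.cons 965 n6213 .nil)
noncomputable def n6215 : Strat := .move 1004 n6011 (.cons 961 n6199 (.cons 965 n6200 (.cons 1002 n6201 (.cons 1006 n6214 .nil))))
noncomputable def n6216 : Strat := .move 882 n1050 (.cons 923 n6215 .nil)
noncomputable def n6217 : Strat := .move 1005 n6027 (.cons 923 n6044 (.cons 921 n6059 (.cons 1004 n6068 (.cons 961 n6084 (.cons 1002 n6107 (.cons 1045 n6120 (.cons 1047 n6136 (.cons 1086 n6144 (.cons 965 n6198 (.cons 1046 n6216 .nil))))))))))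
noncomputable def n6218 : Strat := .move 1004 n4661 (.cons 963 n1781 .nil)
noncomputable def n6219 : Strat := .move 1086 n4559 (.cons 1044 n6218 .nil)
noncomputable def n6220 : Strat := .move 923 n2885 (.cons 882 n6069 .nil)
noncomputable def n6221 : Strat := .move 923 n6069 (.cons 1046 n6079 .nil)
noncomputable def n6222 : Strat := .move 1005 n6220 (.cons 882 n6221 (.cons 923 n6079 .nil))
noncomputable def n6223 : Strat := .move 1004 n1781 (.cons 1127 n6222 .nil)
noncomputable def n6224 : Strat := .move 1086 n4559 (.cons 1044 n6223 .nil)
noncomputable def n6225 : Strat := .win 1004 7 921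
noncomputable def n6226 : Strat := .move 963 n6225 (.cons 1004 n5984 .nil)
noncomputable def n6227 : Strat := .move 1086 n4559 (.cons 1044 n6226 .nil)
noncomputable def n6228 : Strat := .move 1086 n1781 (.cons 1127 n6222 .nil)
noncomputable def n6229 : Strat := .move 1086 n4661 (.cons 963 n6222 .nil)
noncomputable def n6230 : Strat := .move 963 n143 (.cons 1002 n32 .nil)
noncomputable def n6231 : Strat := .move 963 n32 (.cons 920 n3316 .nil)
noncomputable def n6232 : Strat := .move 963 n143 (.cons 1002 n3316 .nil)
noncomputable def n6233 : Strat := .move 923 n2885 (.cons 882 n6078 .nil)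
noncomputable def n6234 : Strat := .move 1005 n4391 (.cons 1002 n6233 .nil)
noncomputable def n6235 : Strat := .move 965 n6230 (.cons 1002 n6231 (.cons 920 n6232 (.cons 963 n6234 .nil)))
noncomputable def n6236 : Strat := .move 1004 n4669 (.cons 963 n6228 (.cons 1127 n6229 (.cons 1086 n6235 .nil)))
noncomputable def n6237 : Strat := .move 966 n151 (.cons 1008 n413 .nil)
noncomputable def n6238 : Strat := .move 1007 n150 (.cons 1006 n6237 .nil)
noncomputable def n6239 : Strat := .move 963 n143 (.cons 1002 n6238 .nil)
noncomputable def n6240 : Strat := .move 963 n32 (.cons 920 n6238 .nil)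
noncomputable def n6241 : Strat := .move 1044 n121 (.cons 1086 n127 .nil)
noncomputable def n6242 : Strat := .move 1087 n668 (.cons 1127 n865 .nil)
noncomputable def n6243 : Strat := .move 1005 n3787 (.cons 923 n6242 .nil)
noncomputable def n6244 : Strat := .move 1086 n4559 (.cons 1044 n6243 .nil)
noncomputable def n6245 : Strat := .move 923 n934 (.cons 1086 n92 .nil)
noncomputable def n6246 : Strat := .move 883 n910 (.cons 1006 n909 .nil)
noncomputable def n6247 : Strat := .move 924 n159 (.cons 1087 n6246 .nil)
noncomputable def n6248 : Strat := .move 1005 n6245 (.cons 882 n6247 .nil)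
noncomputable def n6249 : Strat := .move 1047 n870 (.cons 1088 n2965 .nil)
noncomputable def n6250 : Strat := .move 923 n92 (.cons 882 n6249 .nil)
noncomputable def n6251 : Strat := .move 1005 n6247 (.cons 924 n6250 .nil)
noncomputable def n6252 : Strat := .move 1002 n6241 (.cons 1047 n6244 (.cons 1044 n6248 (.cons 1086 n6251 .nil)))
noncomputable def n6253 : Strat := .move 1127 n3785 (.cons 1168 n3786 .nil)
noncomputable def n6254 : Strat := .move 1005 n3787 (.cons 923 n6253 .nil)
noncomputable def n6255 : Strat := .move 1086 n4559 (.cons 1044 n6254 .nil)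
noncomputable def n6256 : Strat := .move 1005 n3787 (.cons 923 n6247 .nil)
noncomputable def n6257 : Strat := .move 1086 n4559 (.cons 1044 n6256 .nil)
noncomputable def n6258 : Strat := .move 923 n92 (.cons 882 n934 .nil)
noncomputable def n6259 : Strat := .move 924 n660 (.cons 883 n159 .nil)
noncomputable def n6260 : Strat := .move 923 n934 (.cons 1086 n6259 .nil)
noncomputable def n6261 : Strat := .win 1006 3 964
noncomputable def n6262 : Strat := .move 1128 n1084 (.cons 1168 n6261 .nil)
noncomputable def n6263 : Strat := .move 1127 n1083 (.cons 1086 n6262 .nil)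
noncomputable def n6264 : Strat := .move 1087 n865 (.cons 924 n6263 .nil)
noncomputable def n6265 : Strat := .move 923 n670 (.cons 1047 n92 .nil)
noncomputable def n6266 : Strat := .move 1088 n669 (.cons 1129 n6265 .nil)
noncomputable def n6267 : Strat := .move 1087 n865 (.cons 924 n6266 .nil)
noncomputable def n6268 : Strat := .move 1005 n6258 (.cons 882 n6260 (.cons 923 n6264 (.cons 1086 n6267 .nil)))
noncomputable def n6269 : Strat := .move 1007 n1074 (.cons 1008 n3975 .nil)
noncomputable def n6270 : Strat := .move 1048 n3973 (.cons 1088 n6269 .nil)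
noncomputable def n6271 : Strat := .move 1047 n356 (.cons 1002 n6270 .nil)
noncomputable def n6272 : Strat := .move 1044 n121 (.cons 1086 n6271 .nil)
noncomputable def n6273 : Strat := .win 923 7 923
noncomputable def n6274 : Strat := .move 1088 n6273 (.cons 923 n357 .nil)
noncomputable def n6275 : Strat := .move 1006 n361 (.cons 1007 n6274 .nil)
noncomputable def n6276 : Strat := .move 1044 n356 (.cons 1002 n6275 .nil)
noncomputable def n6277 : Strat := .win 1006 7 923
noncomputable def n6278 : Strat := .win 1005 6 923
noncomputable def n6279 : Strat := .move 923 n6277 (.cons 1006 n6278 .nil)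
noncomputable def n6280 : Strat := .move 1088 n357 (.cons 1089 n6279 .nil)
noncomputable def n6281 : Strat := .move 1044 n356 (.cons 1002 n6280 .nil)
noncomputable def n6282 : Strat := .move 923 n870 (.cons 1088 n92 .nil)
noncomputable def n6283 : Strat := .win 923 6 923
noncomputable def n6284 : Strat := .move 1088 n6283 (.cons 923 n357 .nil)
noncomputable def n6285 : Strat := .move 1044 n356 (.cons 1002 n6284 .nil)
noncomputable def n6286 : Strat := .move 923 n660 (.cons 883 n92 .nil)
noncomputable def n6287 : Strat := .move 924 n159 (.cons 1087 n6286 .nil)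
noncomputable def n6288 : Strat := .move 1044 n357 (.cons 1089 n356 .nil)
noncomputable def n6289 : Strat := .move 1087 n669 (.cons 1129 n865 .nil)
noncomputable def n6290 : Strat := .move 1088 n6288 (.cons 1002 n6289 .nil)
noncomputable def n6291 : Strat := .move 1005 n6282 (.cons 882 n6285 (.cons 1088 n6287 (.cons 923 n6290 .nil)))
noncomputable def n6292 : Strat := .move 1044 n361 (.cons 1007 n356 .nil)
noncomputable def n6293 : Strat := .win 1048 5 1004
noncomputable def n6294 : Strat := .move 1008 n6034 (.cons 1009 n6293 .nil)
noncomputable def n6295 : Strat := .move 1007 n937 (.cons 1044 n6294 .nil)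
noncomputable def n6296 : Strat := .win 924 1 923
noncomputable def n6297 : Strat := .win 1169 3 1005
noncomputable def n6298 : Strat := .win 1005 3 964
noncomputable def n6299 : Strat := .move 1128 n6297 (.cons 1169 n6298 .nil)
noncomputable def n6300 : Strat := .move 1087 n6296 (.cons 924 n6299 .nil)
noncomputable def n6301 : Strat := .move 1006 n6292 (.cons 1002 n6295 (.cons 1007 n6300 .nil))
noncomputable def n6302 : Strat := .move 1005 n6282 (.cons 882 n6247 .nil)
noncomputable def n6303 : Strat := .move 1047 n6276 (.cons 1007 n6281 (.cons 1006 n6291 (.cons 1088 n6301 (.cons 1044 n6302 .nil))))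
noncomputable def n6304 : Strat := .move 1046 n6252 (.cons 1002 n6244 (.cons 924 n6255 (.cons 1127 n6257 (.cons 1044 n6268 (.cons 923 n6272 (.cons 1086 n6303 .nil))))))
noncomputable def n6305 : Strat := .move 965 n6230 (.cons 920 n6239 (.cons 1002 n6240 (.cons 963 n6304 .nil)))
noncomputable def n6306 : Strat := .move 963 n32 (.cons 920 n148 .nil)
noncomputable def n6307 : Strat := .move 963 n143 (.cons 1002 n148 .nil)
noncomputable def n6308 : Strat := .move 1004 n4391 (.cons 1002 n6078 .nil)
noncomputable def n6309 : Strat := .move 923 n2885 (.cons 882 n6259 .nil)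
noncomputable def n6310 : Strat := .move 1004 n4391 (.cons 1002 n6309 .nil)
noncomputable def n6311 : Strat := .move 1004 n6078 (.cons 967 n6309 .nil)
noncomputable def n6312 : Strat := .move 1002 n6247 (.cons 924 n6250 .nil)
noncomputable def n6313 : Strat := .move 1005 n6308 (.cons 967 n6310 (.cons 1002 n6311 (.cons 1004 n6312 .nil)))
noncomputable def n6314 : Strat := .move 1002 n376 (.cons 1001 n2112 .nil)
noncomputable def n6315 : Strat := .move 1004 n392 (.cons 1048 n6314 .nil)
noncomputable def n6316 : Strat := .move 1002 n2965 (.cons 1044 n2112 .nil)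
noncomputable def n6317 : Strat := .move 1004 n392 (.cons 1048 n6316 .nil)
noncomputable def n6318 : Strat := .move 1044 n6275 (.cons 1006 n3974 (.cons 1089 n3977 .nil))
noncomputable def n6319 : Strat := .move 1047 n6315 (.cons 1001 n6317 (.cons 1004 n6276 (.cons 1002 n6318 .nil)))
noncomputable def n6320 : Strat := .move 1007 n1074 (.cons 1008 n937 .nil)
noncomputable def n6321 : Strat := .move 924 n584 (.cons 1089 n583 .nil)
noncomputable def n6322 : Strat := .move 1006 n6320 (.cons 1044 n6321 .nil)
noncomputable def n6323 : Strat := .move 1048 n3971 (.cons 1004 n6322 .nil)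
noncomputable def n6324 : Strat := .win 1044 0 1044
noncomputable def n6325 : Strat := .move 1089 n941 (.cons 1090 n6324 .nil)
noncomputable def n6326 : Strat := .move 1088 n6325 (.cons 1044 n6279 .nil)
noncomputable def n6327 : Strat := .move 1048 n3971 (.cons 1004 n6326 .nil)
noncomputable def n6328 : Strat := .move 1044 n361 (.cons 1007 n357 .nil)
noncomputable def n6329 : Strat := .move 1088 n6273 (.cons 923 n6328 .nil)
noncomputable def n6330 : Strat := .move 924 n158 (.cons 883 n583 .nil)
noncomputable def n6331 : Strat := .move 1007 n938 (.cons 1008 n937 .nil)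
noncomputable def n6332 : Strat := .move 1005 n6330 (.cons 1087 n6331 .nil)
noncomputable def n6333 : Strat := .win 1128 1 964
noncomputable def n6334 : Strat := .move 1087 n6333 (.cons 1128 n6296 .nil)
noncomputable def n6335 : Strat := .move 1088 n6273 (.cons 923 n6334 .nil)
noncomputable def n6336 : Strat := .move 1006 n6329 (.cons 1088 n6332 (.cons 1007 n6335 .nil))
noncomputable def n6337 : Strat := .win 1009 5 1005
noncomputable def n6338 : Strat := .win 1007 5 1004
noncomputable def n6339 : Strat := .move 1008 n6337 (.cons 1009 n6338 .nil)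
noncomputable def n6340 : Strat := .move 1049 n1077 (.cons 1089 n6339 .nil)
noncomputable def n6341 : Strat := .move 1048 n3971 (.cons 1004 n6340 .nil)
noncomputable def n6342 : Strat := .move 1006 n6330 (.cons 1087 n6331 .nil)
noncomputable def n6343 : Strat := .move 1005 n6282 (.cons 882 n6342 .nil)
noncomputable def n6344 : Strat := .move 1047 n6323 (.cons 1008 n6327 (.cons 1048 n6336 (.cons 1006 n6341 (.cons 1089 n6343 .nil))))
noncomputable def n6345 : Strat := .move 1047 n6315 (.cons 1004 n6291 (.cons 1002 n6341 .nil))
noncomputable def n6346 : Strat := .move 1044 n356 (.cons 1002 n3974 .nil)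
noncomputable def n6347 : Strat := .move 1044 n356 (.cons 1002 n3977 .nil)
noncomputable def n6348 : Strat := .move 1044 n356 (.cons 1002 n6270 .nil)
noncomputable def n6349 : Strat := .move 1044 n3973 (.cons 1088 n6269 .nil)
noncomputable def n6350 : Strat := .move 1048 n3971 (.cons 1004 n6349 .nil)
noncomputable def n6351 : Strat := .move 1004 n376 (.cons 1001 n2112 .nil)
noncomputable def n6352 : Strat := .move 1002 n2965 (.cons 1044 n6351 .nil)
noncomputable def n6353 : Strat := .move 1047 n6346 (.cons 1090 n6347 (.cons 1044 n6315 (.cons 1004 n6348 (.cons 1002 n6350 (.cons 1048 n6352 .nil)))))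
noncomputable def n6354 : Strat := .move 1044 n356 (.cons 1002 n6269 .nil)
noncomputable def n6355 : Strat := .move 1048 n3971 (.cons 1004 n6354 .nil)
noncomputable def n6356 : Strat := .move 1047 n6276 (.cons 923 n6346 (.cons 1044 n6341 (.cons 1089 n6355 .nil)))
noncomputable def n6357 : Strat := .move 1005 n6308 (.cons 1004 n6267 .nil)
noncomputable def n6358 : Strat := .move 1005 n6308 (.cons 967 n6310 (.cons 1004 n6247 .nil))
noncomputable def n6359 : Strat := .move 1046 n6313 (.cons 1004 n6303 (.cons 883 n6319 (.cons 1002 n6344 (.cons 1006 n6345 (.cons 923 n6353 (.cons 1005 n6356 (.cons 1044 n6357 (.cons 1088 n6358 .nil))))))))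
noncomputable def n6360 : Strat := .move 965 n6230 (.cons 1002 n6306 (.cons 920 n6307 (.cons 963 n6359 .nil)))
noncomputable def n6361 : Strat := .move 1045 n6219 (.cons 963 n6224 (.cons 1127 n6227 (.cons 1044 n6236 (.cons 1004 n6305 (.cons 1086 n6360 .nil)))))
noncomputable def n6362 : Strat := .move 921 n73 (.cons 880 n6361 .nil)
noncomputable def n6363 : Strat := .move 964 n5863 (.cons 921 n5874 (.cons 1005 n5881 (.cons 965 n5962 (.cons 1004 n5978 (.cons 920 n5983 (.cons 919 n6009 (.cons 963 n6217 (.cons 961 n6362 .nil))))))))
noncomputable def n6364 : Strat := .move 1001 n1417 (.cons 1000 n5531 .nil)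
noncomputable def n6365 : Strat := .move 1043 n131 (.cons 1005 n1384 .nil)
noncomputable def n6366 : Strat := .move 1042 n222 (.cons 1041 n6365 .nil)
noncomputable def n6367 : Strat := .move 960 n1620 (.cons 959 n6366 .nil)
noncomputable def n6368 : Strat := .move 1001 n1417 (.cons 1000 n6367 .nil)
noncomputable def n6369 : Strat := .move 1001 n5531 (.cons 964 n6367 .nil)
noncomputable def n6370 : Strat := .move 1006 n1105 (.cons 1007 n2711 .nil)
noncomputable def n6371 : Strat := .move 1045 n3787 (.cons 923 n4558 .nil)
noncomputable def n6372 : Strat := .move 923 n92 (.cons 882 n667 .nil)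
noncomputable def n6373 : Strat := .move 1087 n668 (.cons 1127 n1106 .nil)
noncomputable def n6374 : Strat := .move 1086 n6371 (.cons 1127 n6372 (.cons 923 n6373 .nil))
noncomputable def n6375 : Strat := .move 1046 n1624 (.cons 1047 n6374 .nil)
noncomputable def n6376 : Strat := .move 1043 n5614 (.cons 1044 n187 .nil)
noncomputable def n6377 : Strat := .move 1006 n1105 (.cons 1007 n6376 .nil)
noncomputable def n6378 : Strat := .move 1005 n6370 (.cons 1006 n6375 (.cons 1046 n6377 .nil))
noncomputable def n6379 : Strat := .move 964 n1325 (.cons 965 n6378 .nil)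
noncomputable def n6380 : Strat := .move 1002 n6364 (.cons 964 n6368 (.cons 1000 n6369 (.cons 1001 n6379 .nil)))
noncomputable def n6381 : Strat := .move 880 n4200 (.cons 921 n6380 .nil)
noncomputable def n6382 : Strat := .move 1006 n1105 (.cons 1007 n5391 .nil)
noncomputable def n6383 : Strat := .move 1043 n187 (.cons 1042 n5614 .nil)
noncomputable def n6384 : Strat := .move 1006 n1105 (.cons 1007 n6383 .nil)
noncomputable def n6385 : Strat := .move 1086 n667 (.cons 1045 n6373 .nil)
noncomputable def n6386 : Strat := .move 1046 n1624 (.cons 1047 n6385 .nil)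
noncomputable def n6387 : Strat := .move 923 n92 (.cons 882 n6386 .nil)
noncomputable def n6388 : Strat := .move 1005 n6382 (.cons 1047 n6384 (.cons 1006 n6387 .nil))
noncomputable def n6389 : Strat := .move 964 n1325 (.cons 965 n6388 .nil)
noncomputable def n6390 : Strat := .move 1002 n6364 (.cons 1001 n6389 (.cons 964 n6368 .nil))
noncomputable def n6391 : Strat := .move 1085 n211 (.cons 1127 n1463 .nil)
noncomputable def n6392 : Strat := .move 1086 n210 (.cons 1045 n6391 .nil)
noncomputable def n6393 : Strat := .move 1044 n4083 (.cons 1043 n6392 .nil)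
noncomputable def n6394 : Strat := .move 921 n73 (.cons 880 n6393 .nil)
noncomputable def n6395 : Strat := .move 1006 n1105 (.cons 1007 n6394 .nil)
noncomputable def n6396 : Strat := .move 1088 n6092 (.cons 1129 n6273 .nil)
noncomputable def n6397 : Strat := .move 1046 n583 (.cons 1087 n158 .nil)
noncomputable def n6398 : Strat := .move 924 n35 (.cons 925 n6397 .nil)
noncomputable def n6399 : Strat := .move 964 n5482 (.cons 882 n6396 (.cons 1088 n6398 .nil))
noncomputable def n6400 : Strat := .move 1047 n2230 (.cons 1048 n6399 .nil)
noncomputable def n6401 : Strat := .move 965 n4086 (.cons 966 n6400 .nil)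
noncomputable def n6402 : Strat := .move 1006 n1105 (.cons 1007 n6401 .nil)
noncomputable def n6403 : Strat := .move 1006 n6394 (.cons 921 n6401 .nil)
noncomputable def n6404 : Strat := .move 1043 n120 (.cons 1084 n2799 .nil)
noncomputable def n6405 : Strat := .move 1045 n121 (.cons 1086 n6404 .nil)
noncomputable def n6406 : Strat := .move 1084 n216 (.cons 1125 n215 .nil)
noncomputable def n6407 : Strat := .move 1085 n1463 (.cons 1126 n6406 .nil)
noncomputable def n6408 : Strat := .move 1045 n121 (.cons 1086 n6407 .nil)
noncomputable def n6409 : Strat := .move 1085 n1463 (.cons 1126 n217 .nil)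
noncomputable def n6410 : Strat := .move 1085 n1463 (.cons 1126 n212 .nil)
noncomputable def n6411 : Strat := .move 1044 n6405 (.cons 1042 n6408 (.cons 1045 n6409 (.cons 1043 n6410 .nil)))
noncomputable def n6412 : Strat := .move 921 n73 (.cons 880 n6411 .nil)
noncomputable def n6413 : Strat := .move 1005 n6395 (.cons 921 n6402 (.cons 1007 n6403 (.cons 1006 n6412 .nil)))
noncomputable def n6414 : Strat := .win 1001 5 960
noncomputable def n6415 : Strat := .move 964 n1325 (.cons 965 n6414 .nil)
noncomputable def n6416 : Strat := .move 1001 n1417 (.cons 1000 n5574 .nil)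
noncomputable def n6417 : Strat := .win 964 4 961
noncomputable def n6418 : Strat := .move 1006 n1105 (.cons 1007 n4086 .nil)
noncomputable def n6419 : Strat := .move 1005 n6418 (.cons 1007 n5618 (.cons 1006 n5582 .nil))
noncomputable def n6420 : Strat := .move 965 n6417 (.cons 964 n6419 .nil)
noncomputable def n6421 : Strat := .move 1002 n6415 (.cons 964 n6416 (.cons 1001 n6420 .nil))
noncomputable def n6422 : Strat := .move 921 n73 (.cons 880 n6421 .nil)
noncomputable def n6423 : Strat := .move 1001 n1417 (.cons 1000 n374 .nil)
noncomputable def n6424 : Strat := .move 1001 n374 (.cons 1046 n5574 .nil)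
noncomputable def n6425 : Strat := .move 1044 n120 (.cons 1084 n5586 .nil)
noncomputable def n6426 : Strat := .move 1042 n132 (.cons 1041 n131 .nil)
noncomputable def n6427 : Strat := .move 1044 n120 (.cons 1084 n6426 .nil)
noncomputable def n6428 : Strat := .move 1005 n187 (.cons 1042 n6370 .nil)
noncomputable def n6429 : Strat := .move 1043 n6425 (.cons 1006 n6427 (.cons 1042 n5578 (.cons 1044 n6428 .nil)))
noncomputable def n6430 : Strat := .move 1002 n6423 (.cons 1046 n6416 (.cons 1000 n6424 (.cons 1001 n6429 .nil)))
noncomputable def n6431 : Strat := .move 1045 n4686 (.cons 1086 n6430 .nil)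
noncomputable def n6432 : Strat := .move 921 n73 (.cons 880 n6431 .nil)
noncomputable def n6433 : Strat := .win 1002 5 960
noncomputable def n6434 : Strat := .move 1085 n216 (.cons 1125 n1463 .nil)
noncomputable def n6435 : Strat := .move 1084 n215 (.cons 1043 n6434 .nil)
noncomputable def n6436 : Strat := .move 1086 n210 (.cons 1045 n6435 .nil)
noncomputable def n6437 : Strat := .move 1042 n366 (.cons 1000 n132 .nil)
noncomputable def n6438 : Strat := .move 1043 n120 (.cons 1084 n6437 .nil)
noncomputable def n6439 : Strat := .move 1045 n121 (.cons 1086 n6438 .nil)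
noncomputable def n6440 : Strat := .move 1044 n6392 (.cons 1127 n6436 (.cons 1045 n6407 (.cons 1085 n6439 .nil)))
noncomputable def n6441 : Strat := .move 921 n73 (.cons 880 n6440 .nil)
noncomputable def n6442 : Strat := .move 1001 n6433 (.cons 1002 n6441 .nil)
noncomputable def n6443 : Strat := .move 921 n73 (.cons 880 n4788 .nil)
noncomputable def n6444 : Strat := .move 964 n5453 (.cons 965 n6442 (.cons 1002 n6443 .nil))
noncomputable def n6445 : Strat := .win 1045 7 921
noncomputable def n6446 : Strat := .move 1087 n1106 (.cons 1128 n668 .nil)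
noncomputable def n6447 : Strat := .move 1046 n1624 (.cons 1047 n6446 .nil)
noncomputable def n6448 : Strat := .move 1006 n4083 (.cons 1043 n1105 .nil)
noncomputable def n6449 : Strat := .move 1044 n6391 (.cons 1126 n6448 .nil)
noncomputable def n6450 : Strat := .move 1005 n6370 (.cons 1006 n6447 (.cons 1046 n6449 .nil))
noncomputable def n6451 : Strat := .move 1002 n6414 (.cons 1001 n6450 .nil)
noncomputable def n6452 : Strat := .move 964 n5453 (.cons 966 n5984 (.cons 1002 n4788 (.cons 965 n6451 .nil)))
noncomputable def n6453 : Strat := .move 1086 n6445 (.cons 1045 n6452 .nil)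
noncomputable def n6454 : Strat := .move 921 n73 (.cons 880 n6453 .nil)
noncomputable def n6455 : Strat := .move 923 n92 (.cons 882 n6370 .nil)
noncomputable def n6456 : Strat := .move 964 n1325 (.cons 965 n6455 .nil)
noncomputable def n6457 : Strat := .move 964 n1325 (.cons 965 n6370 .nil)
noncomputable def n6458 : Strat := .move 923 n667 (.cons 1045 n92 .nil)
noncomputable def n6459 : Strat := .move 1086 n6371 (.cons 1127 n6458 (.cons 923 n6373 .nil))
noncomputable def n6460 : Strat := .move 1046 n1624 (.cons 1047 n6459 .nil)
noncomputable def n6461 : Strat := .move 964 n1325 (.cons 965 n6460 .nil)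
noncomputable def n6462 : Strat := .move 965 n6417 (.cons 964 n6418 .nil)
noncomputable def n6463 : Strat := .move 1005 n6456 (.cons 923 n6457 (.cons 1006 n6461 (.cons 1046 n6462 (.cons 964 n6382 .nil))))
noncomputable def n6464 : Strat := .move 1002 n6364 (.cons 964 n6368 (.cons 1000 n6369 (.cons 1001 n6463 .nil)))
noncomputable def n6465 : Strat := .move 880 n4200 (.cons 921 n6464 .nil)
noncomputable def n6466 : Strat := .move 1045 n4686 (.cons 1086 n6423 .nil)
noncomputable def n6467 : Strat := .move 1046 n1624 (.cons 1047 n6373 .nil)
noncomputable def n6468 : Strat := .move 964 n1325 (.cons 965 n6467 .nil)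
noncomputable def n6469 : Strat := .move 1006 n4086 (.cons 966 n1105 .nil)
noncomputable def n6470 : Strat := .move 965 n6417 (.cons 964 n6469 .nil)
noncomputable def n6471 : Strat := .move 1005 n6457 (.cons 964 n6370 (.cons 1006 n6468 (.cons 1046 n6470 .nil)))
noncomputable def n6472 : Strat := .move 1086 n6445 (.cons 1045 n6471 .nil)
noncomputable def n6473 : Strat := .move 1002 n6415 (.cons 964 n6466 (.cons 1001 n6472 .nil))
noncomputable def n6474 : Strat := .move 921 n73 (.cons 880 n6473 .nil)
noncomputable def n6475 : Strat := .move 963 n6381 (.cons 921 n6390 (.cons 1002 n6413 (.cons 1045 n6422 (.cons 964 n6432 (.cons 1005 n6444 (.cons 1042 n6454 (.cons 1044 n6465 (.cons 1043 n6474 .nil))))))))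
noncomputable def n6476 : Strat := .move 964 n143 (.cons 1002 n5986 .nil)
noncomputable def n6477 : Strat := .move 965 n4086 (.cons 966 n6476 .nil)
noncomputable def n6478 : Strat := .move 1001 n5531 (.cons 964 n1417 .nil)
noncomputable def n6479 : Strat := .move 1002 n2710 (.cons 1046 n6478 .nil)
noncomputable def n6480 : Strat := .move 1047 n2230 (.cons 1048 n6479 .nil)
noncomputable def n6481 : Strat := .move 1085 n1463 (.cons 1126 n6480 .nil)
noncomputable def n6482 : Strat := .move 1044 n4083 (.cons 1043 n6481 .nil)
noncomputable def n6483 : Strat := .move 1047 n5482 (.cons 882 n6396 (.cons 1088 n6398 .nil))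
noncomputable def n6484 : Strat := .move 964 n143 (.cons 1002 n6483 .nil)
noncomputable def n6485 : Strat := .move 965 n4086 (.cons 966 n6484 .nil)
noncomputable def n6486 : Strat := .move 924 n583 (.cons 1087 n158 .nil)
noncomputable def n6487 : Strat := .move 1046 n2229 (.cons 1002 n6486 .nil)
noncomputable def n6488 : Strat := .move 1047 n2230 (.cons 1048 n6487 .nil)
noncomputable def n6489 : Strat := .move 965 n4086 (.cons 966 n6488 .nil)
noncomputable def n6490 : Strat := .win 1046 1 882
noncomputable def n6491 : Strat := .move 883 n909 (.cons 842 n6490 .nil)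
noncomputable def n6492 : Strat := .move 924 n35 (.cons 925 n6491 .nil)
noncomputable def n6493 : Strat := .move 964 n143 (.cons 1002 n6492 .nil)
noncomputable def n6494 : Strat := .move 965 n4086 (.cons 966 n6493 .nil)
noncomputable def n6495 : Strat := .move 963 n6477 (.cons 965 n6482 (.cons 1048 n6485 (.cons 964 n6489 (.cons 1002 n6401 (.cons 1047 n6494 .nil)))))
noncomputable def n6496 : Strat := .move 963 n1105 (.cons 1007 n6485 .nil)
noncomputable def n6497 : Strat := .move 1002 n2710 (.cons 1046 n4087 .nil)
noncomputable def n6498 : Strat := .move 965 n4086 (.cons 966 n6497 .nil)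
noncomputable def n6499 : Strat := .move 1047 n2230 (.cons 1048 n6498 .nil)
noncomputable def n6500 : Strat := .move 1006 n5382 (.cons 1007 n6495 (.cons 1048 n6496 (.cons 963 n6499 (.cons 1047 n5387 .nil))))
noncomputable def n6501 : Strat := .move 1086 n4558 (.cons 1127 n3787 .nil)
noncomputable def n6502 : Strat := .move 1045 n376 (.cons 1001 n6501 .nil)
noncomputable def n6503 : Strat := .move 1046 n1624 (.cons 1047 n6502 .nil)
noncomputable def n6504 : Strat := .move 964 n2855 (.cons 965 n6503 .nil)
noncomputable def n6505 : Strat := .move 1001 n3745 (.cons 963 n2207 .nil)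
noncomputable def n6506 : Strat := .move 964 n2855 (.cons 965 n6505 .nil)
noncomputable def n6507 : Strat := .move 1001 n1625 (.cons 1045 n2207 .nil)
noncomputable def n6508 : Strat := .move 1046 n1624 (.cons 1047 n6507 .nil)
noncomputable def n6509 : Strat := .move 1086 n3787 (.cons 923 n4558 .nil)
noncomputable def n6510 : Strat := .win 1044 0 1043
noncomputable def n6511 : Strat := .move 1088 n6510 (.cons 1044 n669 .nil)
noncomputable def n6512 : Strat := .move 1087 n6511 (.cons 1129 n3733 .nil)
noncomputable def n6513 : Strat := .move 1045 n2886 (.cons 882 n6509 (.cons 1086 n6512 .nil))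
noncomputable def n6514 : Strat := .move 964 n2855 (.cons 965 n6513 .nil)
noncomputable def n6515 : Strat := .move 1043 n187 (.cons 1042 n6514 .nil)
noncomputable def n6516 : Strat := .move 1046 n1624 (.cons 1047 n6515 .nil)
noncomputable def n6517 : Strat := .move 1002 n5560 (.cons 963 n6504 (.cons 1047 n6506 (.cons 965 n6508 (.cons 1001 n6516 .nil))))
noncomputable def n6518 : Strat := .move 1007 n1161 (.cons 963 n5477 .nil)
noncomputable def n6519 : Strat := .move 1044 n4083 (.cons 1043 n6518 .nil)
noncomputable def n6520 : Strat := .move 1088 n6273 (.cons 923 n6092 .nil)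
noncomputable def n6521 : Strat := .move 923 n37 (.cons 1088 n2885 .nil)
noncomputable def n6522 : Strat := .win 963 5 921
noncomputable def n6523 : Strat := .win 884 3 883
noncomputable def n6524 : Strat := .move 925 n6522 (.cons 963 n6523 .nil)
noncomputable def n6525 : Strat := .move 924 n6397 (.cons 883 n6524 .nil)
noncomputable def n6526 : Strat := .move 964 n6520 (.cons 1129 n6521 (.cons 923 n6525 .nil))
noncomputable def n6527 : Strat := .move 965 n4086 (.cons 966 n6526 .nil)
noncomputable def n6528 : Strat := .move 1047 n2230 (.cons 1048 n6527 .nil)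
noncomputable def n6529 : Strat := .move 1045 n5382 (.cons 963 n5389 (.cons 1049 n5387 (.cons 1007 n6528 .nil)))
noncomputable def n6530 : Strat := .move 1007 n5477 (.cons 1045 n5386 .nil)
noncomputable def n6531 : Strat := .move 1044 n4083 (.cons 1043 n6530 .nil)
noncomputable def n6532 : Strat := .move 964 n6520 (.cons 1129 n5482 (.cons 923 n6525 .nil))
noncomputable def n6533 : Strat := .move 1044 n4083 (.cons 1043 n6532 .nil)
noncomputable def n6534 : Strat := .move 965 n4086 (.cons 966 n6533 .nil)
noncomputable def n6535 : Strat := .move 1047 n2230 (.cons 1048 n6534 .nil)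
noncomputable def n6536 : Strat := .move 1006 n6519 (.cons 1044 n6529 (.cons 1045 n5387 (.cons 963 n6531 (.cons 1007 n6535 .nil))))
noncomputable def n6537 : Strat := .move 963 n1105 (.cons 1007 n6482 .nil)
noncomputable def n6538 : Strat := .move 1002 n2710 (.cons 1046 n6383 .nil)
noncomputable def n6539 : Strat := .move 1047 n2230 (.cons 1048 n6538 .nil)
noncomputable def n6540 : Strat := .move 1002 n2710 (.cons 1046 n6364 .nil)
noncomputable def n6541 : Strat := .move 1047 n2230 (.cons 1048 n6540 .nil)
noncomputable def n6542 : Strat := .move 963 n1105 (.cons 1007 n6541 .nil)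
noncomputable def n6543 : Strat := .move 1006 n6537 (.cons 1007 n6539 (.cons 1043 n6542 (.cons 1048 n5479 .nil)))
noncomputable def n6544 : Strat := .move 1045 n6520 (.cons 1129 n6521 (.cons 923 n6525 .nil))
noncomputable def n6545 : Strat := .move 1047 n2230 (.cons 1048 n6544 .nil)
noncomputable def n6546 : Strat := .move 964 n4391 (.cons 1002 n6545 .nil)
noncomputable def n6547 : Strat := .move 965 n4086 (.cons 966 n6546 .nil)
noncomputable def n6548 : Strat := .move 1006 n5382 (.cons 1007 n6547 (.cons 1047 n5387 (.cons 963 n5389 .nil)))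
noncomputable def n6549 : Strat := .move 924 n159 (.cons 1087 n158 .nil)
noncomputable def n6550 : Strat := .move 1087 n669 (.cons 1129 n866 .nil)
noncomputable def n6551 : Strat := .move 1088 n670 (.cons 1047 n6550 .nil)
noncomputable def n6552 : Strat := .win 1007 4 1003
noncomputable def n6553 : Strat := .move 1044 n6552 (.cons 1007 n4083 .nil)
noncomputable def n6554 : Strat := .move 1045 n934 (.cons 1086 n6553 .nil)
noncomputable def n6555 : Strat := .move 1046 n867 (.cons 1128 n6549 (.cons 924 n6551 (.cons 1087 n6554 .nil)))
noncomputable def n6556 : Strat := .move 923 n92 (.cons 882 n6555 .nil)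
noncomputable def n6557 : Strat := .move 964 n4391 (.cons 1002 n6556 .nil)
noncomputable def n6558 : Strat := .move 965 n4086 (.cons 966 n6557 .nil)
noncomputable def n6559 : Strat := .move 1088 n357 (.cons 1089 n6092 .nil)
noncomputable def n6560 : Strat := .move 964 n6559 (.cons 1129 n2886 .nil)
noncomputable def n6561 : Strat := .move 1046 n2229 (.cons 1002 n6560 .nil)
noncomputable def n6562 : Strat := .move 1045 n6552 (.cons 1007 n6561 .nil)
noncomputable def n6563 : Strat := .move 1044 n4083 (.cons 1043 n6562 .nil)
noncomputable def n6564 : Strat := .move 1047 n2230 (.cons 1048 n6563 .nil)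
noncomputable def n6565 : Strat := .move 1006 n6499 (.cons 1048 n6558 (.cons 1046 n6531 (.cons 965 n6564 .nil)))
noncomputable def n6566 : Strat := .move 1007 n5386 (.cons 967 n5478 .nil)
noncomputable def n6567 : Strat := .move 1002 n4087 (.cons 964 n6383 .nil)
noncomputable def n6568 : Strat := .move 965 n4086 (.cons 966 n6567 .nil)
noncomputable def n6569 : Strat := .move 1006 n5387 (.cons 967 n5479 (.cons 963 n6566 (.cons 1007 n6568 .nil)))
noncomputable def n6570 : Strat := .move 963 n1105 (.cons 1007 n6489 .nil)
noncomputable def n6571 : Strat := .move 965 n4086 (.cons 966 n6486 .nil)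
noncomputable def n6572 : Strat := .move 1046 n2229 (.cons 1002 n6571 .nil)
noncomputable def n6573 : Strat := .move 1045 n6552 (.cons 1007 n6572 .nil)
noncomputable def n6574 : Strat := .move 1044 n4083 (.cons 1043 n6573 .nil)
noncomputable def n6575 : Strat := .move 1047 n2230 (.cons 1048 n6574 .nil)
noncomputable def n6576 : Strat := .move 1006 n6570 (.cons 1047 n5479 (.cons 963 n6575 (.cons 1007 n6539 .nil)))
noncomputable def n6577 : Strat := .move 1005 n6500 (.cons 1006 n6517 (.cons 1002 n6536 (.cons 965 n6543 (.cons 1044 n6548 (.cons 963 n6565 (.cons 1047 n6569 (.cons 964 n6576 .nil)))))))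
noncomputable def n6578 : Strat := .move 1045 n121 (.cons 1086 n5504 .nil)
noncomputable def n6579 : Strat := .move 1126 n3826 (.cons 963 n1507 .nil)
noncomputable def n6580 : Strat := .move 1085 n216 (.cons 1125 n6579 .nil)
noncomputable def n6581 : Strat := .move 1084 n215 (.cons 1043 n6580 .nil)
noncomputable def n6582 : Strat := .move 1085 n211 (.cons 1127 n5462 .nil)
noncomputable def n6583 : Strat := .move 1086 n210 (.cons 1045 n6582 .nil)
noncomputable def n6584 : Strat := .move 1085 n212 (.cons 1045 n6579 (.cons 1086 n5527 .nil))
noncomputable def n6585 : Strat := .move 920 n122 (.cons 879 n6584 .nil)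
noncomputable def n6586 : Strat := .move 1044 n6578 (.cons 1045 n6581 (.cons 1086 n5432 (.cons 1043 n6583 (.cons 1084 n6585 .nil))))
noncomputable def n6587 : Strat := .move 921 n73 (.cons 880 n6586 .nil)
noncomputable def n6588 : Strat := .move 1002 n376 (.cons 1001 n127 .nil)
noncomputable def n6589 : Strat := .move 1001 n389 (.cons 1002 n6437 .nil)
noncomputable def n6590 : Strat := .move 1001 n6437 (.cons 1041 n393 .nil)
noncomputable def n6591 : Strat := .move 1047 n356 (.cons 1002 n392 .nil)
noncomputable def n6592 : Strat := .move 1046 n6588 (.cons 1047 n6589 (.cons 1002 n6590 (.cons 1001 n6591 .nil)))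
noncomputable def n6593 : Strat := .move 1043 n120 (.cons 1084 n6592 .nil)
noncomputable def n6594 : Strat := .move 1045 n121 (.cons 1086 n6593 .nil)
noncomputable def n6595 : Strat := .move 1126 n1474 (.cons 1166 n3826 .nil)
noncomputable def n6596 : Strat := .move 1125 n1473 (.cons 1084 n6595 .nil)
noncomputable def n6597 : Strat := .move 1085 n211 (.cons 1127 n6596 .nil)
noncomputable def n6598 : Strat := .move 1086 n210 (.cons 1045 n6597 .nil)
noncomputable def n6599 : Strat := .move 920 n122 (.cons 879 n6598 .nil)
noncomputable def n6600 : Strat := .move 1085 n212 (.cons 1086 n5527 (.cons 1045 n6579 .nil))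
noncomputable def n6601 : Strat := .move 920 n122 (.cons 879 n6600 .nil)
noncomputable def n6602 : Strat := .move 1044 n6594 (.cons 1045 n6581 (.cons 1086 n5551 (.cons 1043 n6599 (.cons 1084 n6601 .nil))))
noncomputable def n6603 : Strat := .move 921 n73 (.cons 880 n6602 .nil)
noncomputable def n6604 : Strat := .move 1043 n187 (.cons 1042 n5612 .nil)
noncomputable def n6605 : Strat := .move 1045 n376 (.cons 1001 n4563 .nil)
noncomputable def n6606 : Strat := .move 1046 n1624 (.cons 1047 n6605 .nil)
noncomputable def n6607 : Strat := .move 882 n1050 (.cons 923 n5439 .nil)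
noncomputable def n6608 : Strat := .move 964 n2855 (.cons 965 n6607 .nil)
noncomputable def n6609 : Strat := .move 1002 n6604 (.cons 1043 n6606 (.cons 1044 n6608 .nil))
noncomputable def n6610 : Strat := .move 1006 n2230 (.cons 1048 n6498 .nil)
noncomputable def n6611 : Strat := .move 964 n4391 (.cons 1002 n6520 .nil)
noncomputable def n6612 : Strat := .move 965 n4086 (.cons 966 n6611 .nil)
noncomputable def n6613 : Strat := .move 1006 n2230 (.cons 1048 n6612 .nil)
noncomputable def n6614 : Strat := .move 964 n6273 (.cons 923 n6092 .nil)
noncomputable def n6615 : Strat := .win 1046 1 923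
noncomputable def n6616 : Strat := .move 1087 n6333 (.cons 1128 n6615 .nil)
noncomputable def n6617 : Strat := .win 964 7 923
noncomputable def n6618 : Strat := .move 923 n6617 (.cons 964 n38 .nil)
noncomputable def n6619 : Strat := .move 924 n6397 (.cons 883 n6616 (.cons 1087 n6618 .nil))
noncomputable def n6620 : Strat := .win 964 7 964
noncomputable def n6621 : Strat := .win 1169 1 1005
noncomputable def n6622 : Strat := .win 1087 1 964
noncomputable def n6623 : Strat := .move 1128 n6621 (.cons 1169 n6622 .nil)
noncomputable def n6624 : Strat := .move 1129 n6620 (.cons 964 n6623 .nil)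
noncomputable def n6625 : Strat := .win 1171 6 1006
noncomputable def n6626 : Strat := .win 1089 6 965
noncomputable def n6627 : Strat := .move 1130 n6625 (.cons 1171 n6626 .nil)
noncomputable def n6628 : Strat := .move 1129 n6623 (.cons 1087 n6627 .nil)
noncomputable def n6629 : Strat := .move 1088 n6614 (.cons 1129 n6619 (.cons 923 n6624 (.cons 964 n6628 .nil)))
noncomputable def n6630 : Strat := .move 965 n4086 (.cons 966 n6629 .nil)
noncomputable def n6631 : Strat := .move 1006 n2230 (.cons 1048 n6630 .nil)
noncomputable def n6632 : Strat := .move 965 n4086 (.cons 966 n6487 .nil)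
noncomputable def n6633 : Strat := .move 1006 n2230 (.cons 1048 n6632 .nil)
noncomputable def n6634 : Strat := .move 1048 n2234 (.cons 1045 n6071 .nil)
noncomputable def n6635 : Strat := .move 1046 n2229 (.cons 1002 n6634 .nil)
noncomputable def n6636 : Strat := .move 923 n92 (.cons 882 n870 .nil)
noncomputable def n6637 : Strat := .move 965 n4392 (.cons 883 n6123 .nil)
noncomputable def n6638 : Strat := .move 923 n870 (.cons 1088 n6637 .nil)
noncomputable def n6639 : Strat := .move 965 n865 (.cons 924 n6123 .nil)
noncomputable def n6640 : Strat := .move 1087 n6639 (.cons 965 n6111 .nil)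
noncomputable def n6641 : Strat := .move 923 n92 (.cons 882 n868 .nil)
noncomputable def n6642 : Strat := .move 1087 n6641 (.cons 923 n6639 .nil)
noncomputable def n6643 : Strat := .move 964 n6636 (.cons 882 n6638 (.cons 923 n6640 (.cons 1088 n6642 .nil)))
noncomputable def n6644 : Strat := .move 1046 n2229 (.cons 1002 n6643 .nil)
noncomputable def n6645 : Strat := .move 1047 n6610 (.cons 1046 n6613 (.cons 1002 n6631 (.cons 964 n6633 (.cons 1006 n6635 (.cons 1048 n6644 .nil)))))
noncomputable def n6646 : Strat := .move 1045 n121 (.cons 1086 n6552 .nil)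
noncomputable def n6647 : Strat := .move 1044 n4083 (.cons 1043 n6646 .nil)
noncomputable def n6648 : Strat := .move 1006 n2230 (.cons 1048 n6647 .nil)
noncomputable def n6649 : Strat := .move 1006 n6647 (.cons 1044 n6632 .nil)
noncomputable def n6650 : Strat := .move 1047 n6648 (.cons 1044 n6633 (.cons 1048 n6649 (.cons 1006 n6635 .nil)))
noncomputable def n6651 : Strat := .move 1043 n120 (.cons 1084 n248 .nil)
noncomputable def n6652 : Strat := .move 1007 n5477 (.cons 1045 n6090 .nil)
noncomputable def n6653 : Strat := .move 1002 n2710 (.cons 1046 n4088 .nil)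
noncomputable def n6654 : Strat := .move 1047 n2230 (.cons 1048 n6653 .nil)
noncomputable def n6655 : Strat := .move 966 n5385 (.cons 967 n5384 .nil)
noncomputable def n6656 : Strat := .move 1007 n5477 (.cons 1045 n6655 .nil)
noncomputable def n6657 : Strat := .move 1006 n6652 (.cons 1007 n6654 (.cons 1047 n6656 .nil))
noncomputable def n6658 : Strat := .move 920 n122 (.cons 879 n6657 .nil)
noncomputable def n6659 : Strat := .move 1044 n6651 (.cons 1043 n6658 (.cons 1006 n5406 .nil))
noncomputable def n6660 : Strat := .move 1043 n187 (.cons 1042 n5578 .nil)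
noncomputable def n6661 : Strat := .move 1002 n6660 (.cons 1044 n2889 .nil)
noncomputable def n6662 : Strat := .move 1047 n2230 (.cons 1048 n6647 .nil)
noncomputable def n6663 : Strat := .move 1047 n2230 (.cons 1048 n6630 .nil)
noncomputable def n6664 : Strat := .move 1047 n6647 (.cons 1044 n6630 .nil)
noncomputable def n6665 : Strat := .move 1006 n6662 (.cons 1044 n6663 (.cons 1048 n6664 (.cons 1047 n6647 .nil)))
noncomputable def n6666 : Strat := .move 1046 n2229 (.cons 1002 n6045 .nil)
noncomputable def n6667 : Strat := .move 1046 n2234 (.cons 1045 n6071 .nil)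
noncomputable def n6668 : Strat := .move 1048 n2235 (.cons 1006 n6667 .nil)
noncomputable def n6669 : Strat := .move 1002 n2710 (.cons 1046 n187 .nil)
noncomputable def n6670 : Strat := .move 1043 n5614 (.cons 1044 n6669 .nil)
noncomputable def n6671 : Strat := .move 1006 n2230 (.cons 1048 n6670 .nil)
noncomputable def n6672 : Strat := .move 1002 n2710 (.cons 1046 n6604 .nil)
noncomputable def n6673 : Strat := .move 1047 n6666 (.cons 1006 n6635 (.cons 1002 n6668 (.cons 1046 n6648 (.cons 1045 n6671 (.cons 1048 n6672 .nil)))))
noncomputable def n6674 : Strat := .move 1043 n248 (.cons 1006 n2789 .nil)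
noncomputable def n6675 : Strat := .move 1002 n4087 (.cons 964 n375 .nil)
noncomputable def n6676 : Strat := .move 965 n4086 (.cons 966 n6675 .nil)
noncomputable def n6677 : Strat := .move 1006 n6552 (.cons 1007 n6676 .nil)
noncomputable def n6678 : Strat := .move 1045 n121 (.cons 1086 n6677 .nil)
noncomputable def n6679 : Strat := .move 1044 n6651 (.cons 1006 n5406 (.cons 1084 n6674 (.cons 1043 n6678 .nil)))
noncomputable def n6680 : Strat := .move 1047 n2230 (.cons 1048 n6612 .nil)
noncomputable def n6681 : Strat := .move 1006 n6647 (.cons 1044 n6680 .nil)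
noncomputable def n6682 : Strat := .move 1047 n2710 (.cons 1046 n6660 .nil)
noncomputable def n6683 : Strat := .move 1006 n2230 (.cons 1048 n5615 .nil)
noncomputable def n6684 : Strat := .move 1047 n2710 (.cons 1046 n6683 .nil)
noncomputable def n6685 : Strat := .move 1002 n6604 (.cons 1006 n6682 (.cons 1084 n6684 .nil))
noncomputable def n6686 : Strat := .move 1005 n6609 (.cons 1044 n6645 (.cons 964 n6650 (.cons 1086 n6659 (.cons 1006 n6661 (.cons 1002 n6665 (.cons 965 n6673 (.cons 1047 n6679 (.cons 1046 n6681 (.cons 1045 n6685 .nil)))))))))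
noncomputable def n6687 : Strat := .move 921 n73 (.cons 880 n6686 .nil)
noncomputable def n6688 : Strat := .move 1002 n1624 (.cons 1047 n376 .nil)
noncomputable def n6689 : Strat := .move 1046 n6688 (.cons 1001 n5076 (.cons 1047 n3734 .nil))
noncomputable def n6690 : Strat := .move 1005 n248 (.cons 1006 n6689 .nil)
noncomputable def n6691 : Strat := .move 1043 n120 (.cons 1084 n6690 .nil)
noncomputable def n6692 : Strat := .move 1045 n121 (.cons 1086 n6691 .nil)
noncomputable def n6693 : Strat := .win 1005 4 1002
noncomputable def n6694 : Strat := .move 1043 n6693 (.cons 1005 n359 .nil)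
noncomputable def n6695 : Strat := .move 1006 n361 (.cons 1007 n6694 .nil)
noncomputable def n6696 : Strat := .move 1047 n392 (.cons 1048 n6695 .nil)
noncomputable def n6697 : Strat := .move 1006 n4083 (.cons 1043 n6552 .nil)
noncomputable def n6698 : Strat := .move 1002 n4087 (.cons 964 n376 .nil)
noncomputable def n6699 : Strat := .move 965 n4086 (.cons 966 n6698 .nil)
noncomputable def n6700 : Strat := .move 1006 n4083 (.cons 1043 n6699 .nil)
noncomputable def n6701 : Strat := .move 1002 n2855 (.cons 965 n376 .nil)
noncomputable def n6702 : Strat := .win 963 2 920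
noncomputable def n6703 : Strat := .move 920 n6702 (.cons 963 n122 .nil)
noncomputable def n6704 : Strat := .move 965 n4391 (.cons 1002 n6703 .nil)
noncomputable def n6705 : Strat := .move 1128 n3732 (.cons 963 n3731 .nil)
noncomputable def n6706 : Strat := .move 1088 n669 (.cons 1129 n4005 .nil)
noncomputable def n6707 : Strat := .move 1087 n6705 (.cons 1169 n6706 .nil)
noncomputable def n6708 : Strat := .move 964 n6701 (.cons 1001 n6704 (.cons 965 n6707 .nil))
noncomputable def n6709 : Strat := .move 1006 n6552 (.cons 1007 n6699 .nil)
noncomputable def n6710 : Strat := .move 1005 n6697 (.cons 1007 n6700 (.cons 1006 n6708 (.cons 1043 n6709 .nil)))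
noncomputable def n6711 : Strat := .move 1046 n6588 (.cons 1002 n6696 (.cons 1047 n6710 .nil))
noncomputable def n6712 : Strat := .move 1045 n121 (.cons 1086 n6711 .nil)
noncomputable def n6713 : Strat := .move 1044 n6692 (.cons 1045 n6581 (.cons 1086 n5548 (.cons 1043 n6583 (.cons 963 n3964 (.cons 1084 n6712 .nil)))))
noncomputable def n6714 : Strat := .move 921 n73 (.cons 880 n6713 .nil)
noncomputable def n6715 : Strat := .move 963 n6414 (.cons 1001 n6455 .nil)
noncomputable def n6716 : Strat := .move 964 n2855 (.cons 965 n6715 .nil)
noncomputable def n6717 : Strat := .move 1000 n2819 (.cons 963 n6211 .nil)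
noncomputable def n6718 : Strat := .move 1001 n1625 (.cons 1045 n6717 .nil)
noncomputable def n6719 : Strat := .move 1046 n1624 (.cons 1047 n6718 .nil)
noncomputable def n6720 : Strat := .move 1043 n187 (.cons 1042 n6719 .nil)
noncomputable def n6721 : Strat := .move 965 n4086 (.cons 966 n2711 .nil)
noncomputable def n6722 : Strat := .move 1006 n5615 (.cons 964 n6721 (.cons 965 n5391 .nil))
noncomputable def n6723 : Strat := .move 1043 n187 (.cons 1042 n6722 .nil)
noncomputable def n6724 : Strat := .move 1007 n1161 (.cons 963 n6090 .nil)
noncomputable def n6725 : Strat := .move 1006 n4086 (.cons 966 n6724 .nil)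
noncomputable def n6726 : Strat := .move 965 n4087 (.cons 964 n6725 .nil)
noncomputable def n6727 : Strat := .move 1043 n187 (.cons 1042 n6726 .nil)
noncomputable def n6728 : Strat := .move 1002 n6716 (.cons 964 n6720 (.cons 963 n6608 (.cons 1001 n6723 (.cons 1046 n6727 (.cons 1047 n6506 .nil)))))
noncomputable def n6729 : Strat := .move 880 n4200 (.cons 921 n6728 .nil)
noncomputable def n6730 : Strat := .move 923 n5481 (.cons 882 n37 .nil)
noncomputable def n6731 : Strat := .move 1047 n2230 (.cons 1048 n6730 .nil)
noncomputable def n6732 : Strat := .move 964 n4391 (.cons 1002 n6731 .nil)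
noncomputable def n6733 : Strat := .move 965 n4086 (.cons 966 n6732 .nil)
noncomputable def n6734 : Strat := .move 1006 n5382 (.cons 963 n5389 (.cons 1049 n5387 (.cons 1007 n6733 .nil)))
noncomputable def n6735 : Strat := .move 1007 n5381 (.cons 1047 n5386 .nil)
noncomputable def n6736 : Strat := .move 963 n35 (.cons 925 n32 .nil)
noncomputable def n6737 : Strat := .move 924 n6397 (.cons 883 n6736 .nil)
noncomputable def n6738 : Strat := .move 964 n5482 (.cons 882 n6396 (.cons 1088 n6737 .nil))
noncomputable def n6739 : Strat := .move 921 n73 (.cons 880 n6738 .nil)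
noncomputable def n6740 : Strat := .move 1047 n2230 (.cons 1048 n6739 .nil)
noncomputable def n6741 : Strat := .move 965 n4086 (.cons 966 n6740 .nil)
noncomputable def n6742 : Strat := .move 1006 n5382 (.cons 1047 n5387 (.cons 963 n6735 (.cons 1007 n6741 .nil)))
noncomputable def n6743 : Strat := .move 1000 n2979 (.cons 958 n2819 .nil)
noncomputable def n6744 : Strat := .move 959 n5597 (.cons 960 n6743 .nil)
noncomputable def n6745 : Strat := .move 1001 n222 (.cons 1041 n6744 .nil)
noncomputable def n6746 : Strat := .move 1042 n2099 (.cons 1043 n6745 .nil)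
noncomputable def n6747 : Strat := .move 1007 n5385 (.cons 967 n1161 .nil)
noncomputable def n6748 : Strat := .move 966 n5384 (.cons 965 n6747 .nil)
noncomputable def n6749 : Strat := .move 1006 n2230 (.cons 1048 n6748 .nil)
noncomputable def n6750 : Strat := .move 1047 n2710 (.cons 1046 n6749 .nil)
noncomputable def n6751 : Strat := .move 1002 n6720 (.cons 1046 n6746 (.cons 1043 n6719 (.cons 963 n6508 (.cons 1001 n6750 .nil))))
noncomputable def n6752 : Strat := .move 880 n4200 (.cons 921 n6751 .nil)
noncomputable def n6753 : Strat := .move 1008 n1132 (.cons 968 n1131 .nil)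
noncomputable def n6754 : Strat := .move 967 n1133 (.cons 966 n6753 .nil)
noncomputable def n6755 : Strat := .move 880 n4200 (.cons 921 n6754 .nil)
noncomputable def n6756 : Strat := .move 1007 n1161 (.cons 963 n6755 .nil)
noncomputable def n6757 : Strat := .move 1047 n1127 (.cons 1009 n2229 .nil)
noncomputable def n6758 : Strat := .move 1046 n1126 (.cons 1045 n6757 .nil)
noncomputable def n6759 : Strat := .move 1008 n1132 (.cons 968 n6758 .nil)
noncomputable def n6760 : Strat := .move 967 n1133 (.cons 966 n6759 .nil)
noncomputable def n6761 : Strat := .move 880 n4200 (.cons 921 n6760 .nil)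
noncomputable def n6762 : Strat := .move 1007 n1161 (.cons 963 n6761 .nil)
noncomputable def n6763 : Strat := .move 1007 n5381 (.cons 1048 n6761 (.cons 1047 n6755 .nil))
noncomputable def n6764 : Strat := .move 963 n5531 (.cons 964 n1417 .nil)
noncomputable def n6765 : Strat := .move 1001 n222 (.cons 1041 n6764 .nil)
noncomputable def n6766 : Strat := .move 1042 n2099 (.cons 1043 n6765 .nil)
noncomputable def n6767 : Strat := .move 880 n4200 (.cons 921 n6766 .nil)
noncomputable def n6768 : Strat := .move 1002 n2710 (.cons 1046 n6767 .nil)
noncomputable def n6769 : Strat := .move 1047 n2230 (.cons 1048 n6768 .nil)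
noncomputable def n6770 : Strat := .move 1006 n5382 (.cons 1047 n6756 (.cons 1048 n6762 (.cons 963 n6763 (.cons 1007 n6769 .nil))))
noncomputable def n6771 : Strat := .move 921 n73 (.cons 880 n6645 .nil)
noncomputable def n6772 : Strat := .move 963 n36 (.cons 1007 n5963 .nil)
noncomputable def n6773 : Strat := .move 964 n4391 (.cons 1002 n6772 .nil)
noncomputable def n6774 : Strat := .move 965 n4086 (.cons 966 n6773 .nil)
noncomputable def n6775 : Strat := .move 880 n4200 (.cons 921 n5438 .nil)
noncomputable def n6776 : Strat := .move 1046 n1624 (.cons 1047 n6775 .nil)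
noncomputable def n6777 : Strat := .move 1002 n4087 (.cons 964 n6776 .nil)
noncomputable def n6778 : Strat := .move 965 n4086 (.cons 966 n6777 .nil)
noncomputable def n6779 : Strat := .move 963 n36 (.cons 1007 n32 .nil)
noncomputable def n6780 : Strat := .move 965 n4391 (.cons 1002 n6779 .nil)
noncomputable def n6781 : Strat := .move 883 n6490 (.cons 1046 n909 .nil)
noncomputable def n6782 : Strat := .move 924 n35 (.cons 925 n6781 .nil)
noncomputable def n6783 : Strat := .move 965 n32 (.cons 920 n6782 .nil)
noncomputable def n6784 : Strat := .move 963 n1105 (.cons 1007 n6783 .nil)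
noncomputable def n6785 : Strat := .move 963 n36 (.cons 1007 n6782 .nil)
noncomputable def n6786 : Strat := .move 965 n4391 (.cons 1002 n6785 .nil)
noncomputable def n6787 : Strat := .move 1045 n938 (.cons 1008 n934 .nil)
noncomputable def n6788 : Strat := .move 1046 n4386 (.cons 1002 n6787 .nil)
noncomputable def n6789 : Strat := .move 1007 n1161 (.cons 963 n6788 .nil)
noncomputable def n6790 : Strat := .move 923 n92 (.cons 882 n6789 .nil)
noncomputable def n6791 : Strat := .move 963 n32 (.cons 920 n6782 .nil)
noncomputable def n6792 : Strat := .move 965 n4391 (.cons 1002 n6791 .nil)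
noncomputable def n6793 : Strat := .move 923 n92 (.cons 882 n6024 .nil)
noncomputable def n6794 : Strat := .move 964 n6780 (.cons 1002 n6784 (.cons 920 n6786 (.cons 965 n6790 (.cons 1007 n6792 (.cons 963 n6793 .nil)))))
noncomputable def n6795 : Strat := .move 921 n73 (.cons 880 n6794 .nil)
noncomputable def n6796 : Strat := .move 1006 n6774 (.cons 965 n6762 (.cons 963 n6778 (.cons 1002 n5387 (.cons 966 n6795 .nil))))
noncomputable def n6797 : Strat := .move 1002 n2855 (.cons 965 n5559 .nil)
noncomputable def n6798 : Strat := .win 963 4 962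
noncomputable def n6799 : Strat := .move 966 n6798 (.cons 963 n6077 .nil)
noncomputable def n6800 : Strat := .move 1046 n6259 (.cons 1087 n4838 .nil)
noncomputable def n6801 : Strat := .move 880 n4200 (.cons 921 n6800 .nil)
noncomputable def n6802 : Strat := .move 923 n92 (.cons 882 n6801 .nil)
noncomputable def n6803 : Strat := .move 965 n6799 (.cons 963 n6802 .nil)
noncomputable def n6804 : Strat := .move 965 n4391 (.cons 1002 n6802 .nil)
noncomputable def n6805 : Strat := .move 921 n73 (.cons 880 n6799 .nil)
noncomputable def n6806 : Strat := .move 965 n4391 (.cons 1002 n6805 .nil)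
noncomputable def n6807 : Strat := .move 1047 n2229 (.cons 1002 n870 .nil)
noncomputable def n6808 : Strat := .move 1045 n934 (.cons 1086 n6807 .nil)
noncomputable def n6809 : Strat := .move 1047 n870 (.cons 1088 n392 .nil)
noncomputable def n6810 : Strat := .move 1045 n934 (.cons 1086 n6809 .nil)
noncomputable def n6811 : Strat := .move 1045 n934 (.cons 1086 n392 .nil)
noncomputable def n6812 : Strat := .move 1047 n2229 (.cons 1002 n6811 .nil)
noncomputable def n6813 : Strat := .move 1128 n3732 (.cons 963 n1172 .nil)
noncomputable def n6814 : Strat := .move 1087 n668 (.cons 1127 n6813 .nil)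
noncomputable def n6815 : Strat := .move 1086 n667 (.cons 1045 n6814 .nil)
noncomputable def n6816 : Strat := .move 1046 n6808 (.cons 1002 n6810 (.cons 1086 n6807 (.cons 1088 n6812 (.cons 1047 n6815 .nil))))
noncomputable def n6817 : Strat := .move 923 n92 (.cons 882 n6816 .nil)
noncomputable def n6818 : Strat := .move 964 n6797 (.cons 1002 n6803 (.cons 963 n6804 (.cons 1047 n6806 (.cons 965 n6817 .nil))))
noncomputable def n6819 : Strat := .move 1002 n6415 (.cons 965 n2478 (.cons 1001 n6470 .nil))
noncomputable def n6820 : Strat := .move 963 n4686 (.cons 1086 n6819 .nil)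
noncomputable def n6821 : Strat := .move 966 n6076 (.cons 1006 n6798 .nil)
noncomputable def n6822 : Strat := .move 964 n4391 (.cons 1002 n6821 .nil)
noncomputable def n6823 : Strat := .move 964 n4391 (.cons 1002 n6231 .nil)
noncomputable def n6824 : Strat := .move 1008 n6028 (.cons 1046 n1131 .nil)
noncomputable def n6825 : Strat := .move 1007 n1161 (.cons 963 n6824 .nil)
noncomputable def n6826 : Strat := .move 1006 n4086 (.cons 966 n6825 .nil)
noncomputable def n6827 : Strat := .move 924 n6736 (.cons 920 n862 .nil)
noncomputable def n6828 : Strat := .move 923 n2885 (.cons 882 n6827 .nil)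
noncomputable def n6829 : Strat := .move 964 n4391 (.cons 1002 n6828 .nil)
noncomputable def n6830 : Strat := .move 964 n4391 (.cons 1002 n6078 .nil)
noncomputable def n6831 : Strat := .move 965 n6822 (.cons 1006 n6823 (.cons 964 n6826 (.cons 966 n6829 (.cons 963 n6830 .nil))))
noncomputable def n6832 : Strat := .move 923 n2885 (.cons 882 n6124 .nil)
noncomputable def n6833 : Strat := .move 1001 n374 (.cons 1046 n2890 .nil)
noncomputable def n6834 : Strat := .move 1002 n2855 (.cons 965 n6833 .nil)
noncomputable def n6835 : Strat := .move 964 n6220 (.cons 1046 n6832 (.cons 923 n6834 .nil))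
noncomputable def n6836 : Strat := .move 1086 n1781 (.cons 1127 n6835 .nil)
noncomputable def n6837 : Strat := .move 1045 n6820 (.cons 1086 n6831 (.cons 963 n6836 (.cons 1002 n4662 .nil)))
noncomputable def n6838 : Strat := .move 921 n73 (.cons 880 n6837 .nil)
noncomputable def n6839 : Strat := .move 1006 n36 (.cons 1007 n6782 .nil)
noncomputable def n6840 : Strat := .move 963 n32 (.cons 920 n6839 .nil)
noncomputable def n6841 : Strat := .move 921 n73 (.cons 880 n6840 .nil)
noncomputable def n6842 : Strat := .move 965 n4391 (.cons 1002 n6841 .nil)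
noncomputable def n6843 : Strat := .move 924 n159 (.cons 1087 n4838 .nil)
noncomputable def n6844 : Strat := .move 1046 n4392 (.cons 883 n6843 (.cons 924 n4838 .nil))
noncomputable def n6845 : Strat := .move 923 n92 (.cons 882 n6844 .nil)
noncomputable def n6846 : Strat := .move 965 n4391 (.cons 1002 n6845 .nil)
noncomputable def n6847 : Strat := .move 1006 n36 (.cons 1007 n5986 .nil)
noncomputable def n6848 : Strat := .move 963 n32 (.cons 920 n6847 .nil)
noncomputable def n6849 : Strat := .move 921 n73 (.cons 880 n6848 .nil)
noncomputable def n6850 : Strat := .move 965 n4391 (.cons 1002 n6849 .nil)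
noncomputable def n6851 : Strat := .win 963 3 922
noncomputable def n6852 : Strat := .move 1086 n6069 (.cons 1046 n6851 .nil)
noncomputable def n6853 : Strat := .move 1087 n2968 (.cons 883 n3733 .nil)
noncomputable def n6854 : Strat := .move 1046 n4837 (.cons 1088 n6853 .nil)
noncomputable def n6855 : Strat := .move 1086 n4558 (.cons 1127 n6851 .nil)
noncomputable def n6856 : Strat := .move 1045 n6085 (.cons 1127 n6852 (.cons 1086 n6854 (.cons 1046 n6855 .nil)))
noncomputable def n6857 : Strat := .move 921 n73 (.cons 880 n6856 .nil)
noncomputable def n6858 : Strat := .move 923 n92 (.cons 882 n6857 .nil)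
noncomputable def n6859 : Strat := .move 1047 n870 (.cons 1088 n6045 .nil)
noncomputable def n6860 : Strat := .move 1046 n6807 (.cons 1002 n6859 (.cons 1088 n6160 (.cons 1047 n6815 .nil)))
noncomputable def n6861 : Strat := .move 923 n92 (.cons 882 n6860 .nil)
noncomputable def n6862 : Strat := .move 964 n6797 (.cons 1047 n6842 (.cons 963 n6846 (.cons 1046 n6850 (.cons 1002 n6858 (.cons 965 n6861 .nil)))))
noncomputable def n6863 : Strat := .move 1005 n6729 (.cons 880 n6734 (.cons 1002 n6742 (.cons 964 n6752 (.cons 965 n6770 (.cons 963 n6771 (.cons 1048 n6796 (.cons 1006 n6818 (.cons 1047 n6838 (.cons 966 n6862 .nil)))))))))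
noncomputable def n6864 : Strat := .move 1007 n1161 (.cons 963 n1185 .nil)
noncomputable def n6865 : Strat := .move 1002 n4087 (.cons 964 n2710 .nil)
noncomputable def n6866 : Strat := .move 965 n4086 (.cons 966 n6865 .nil)
noncomputable def n6867 : Strat := .move 1047 n2230 (.cons 1048 n6866 .nil)
noncomputable def n6868 : Strat := .move 1006 n6864 (.cons 1007 n6867 .nil)
noncomputable def n6869 : Strat := .move 1047 n2230 (.cons 1048 n6572 .nil)
noncomputable def n6870 : Strat := .move 1006 n4662 (.cons 1086 n5382 (.cons 963 n6869 .nil))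
noncomputable def n6871 : Strat := .move 1045 n4563 (.cons 1086 n6868 (.cons 1044 n6870 .nil))
noncomputable def n6872 : Strat := .move 921 n73 (.cons 880 n6871 .nil)
noncomputable def n6873 : Strat := .move 965 n4391 (.cons 1002 n6821 .nil)
noncomputable def n6874 : Strat := .move 882 n1050 (.cons 923 n6873 .nil)
noncomputable def n6875 : Strat := .move 1086 n4558 (.cons 1127 n6220 .nil)
noncomputable def n6876 : Strat := .win 1046 2 1003
noncomputable def n6877 : Strat := .move 1048 n6876 (.cons 1046 n2235 .nil)
noncomputable def n6878 : Strat := .move 1046 n392 (.cons 1048 n2229 .nil)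
noncomputable def n6879 : Strat := .move 1007 n1185 (.cons 1044 n1161 .nil)
noncomputable def n6880 : Strat := .move 1006 n2230 (.cons 1048 n6879 .nil)
noncomputable def n6881 : Strat := .move 1046 n870 (.cons 1088 n2229 .nil)
noncomputable def n6882 : Strat := .move 1047 n6877 (.cons 1006 n6878 (.cons 1046 n6880 (.cons 1048 n6881 .nil)))
noncomputable def n6883 : Strat := .move 923 n2885 (.cons 882 n6882 .nil)
noncomputable def n6884 : Strat := .move 923 n2885 (.cons 882 n6851 .nil)
noncomputable def n6885 : Strat := .move 1086 n4558 (.cons 1127 n6884 .nil)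
noncomputable def n6886 : Strat := .move 1001 n3745 (.cons 963 n374 .nil)
noncomputable def n6887 : Strat := .move 1000 n3075 (.cons 1044 n6211 .nil)
noncomputable def n6888 : Strat := .move 1001 n374 (.cons 1046 n6887 .nil)
noncomputable def n6889 : Strat := .move 1006 n2711 (.cons 1046 n6879 .nil)
noncomputable def n6890 : Strat := .move 1086 n4558 (.cons 1127 n6889 .nil)
noncomputable def n6891 : Strat := .move 1001 n3745 (.cons 963 n6887 .nil)
noncomputable def n6892 : Strat := .move 1002 n6886 (.cons 963 n6888 (.cons 1001 n6890 (.cons 1046 n6891 .nil)))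
noncomputable def n6893 : Strat := .move 1045 n6875 (.cons 1086 n6883 (.cons 1046 n6885 (.cons 923 n6892 .nil)))
noncomputable def n6894 : Strat := .move 963 n35 (.cons 925 n36 .nil)
noncomputable def n6895 : Strat := .move 924 n6894 (.cons 1007 n160 .nil)
noncomputable def n6896 : Strat := .move 1006 n5985 (.cons 1048 n6895 .nil)
noncomputable def n6897 : Strat := .move 923 n92 (.cons 882 n6896 .nil)
noncomputable def n6898 : Strat := .move 965 n6821 (.cons 963 n6078 (.cons 966 n6897 (.cons 1006 n6799 .nil)))
noncomputable def n6899 : Strat := .win 1045 3 922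
noncomputable def n6900 : Strat := .move 1002 n6414 (.cons 1001 n1624 .nil)
noncomputable def n6901 : Strat := .move 1046 n6900 (.cons 1047 n6373 .nil)
noncomputable def n6902 : Strat := .move 1086 n6899 (.cons 1045 n6901 .nil)
noncomputable def n6903 : Strat := .move 923 n92 (.cons 882 n6902 .nil)
noncomputable def n6904 : Strat := .move 923 n92 (.cons 882 n863 .nil)
noncomputable def n6905 : Strat := .move 965 n3316 (.cons 966 n6904 .nil)
noncomputable def n6906 : Strat := .move 963 n5453 (.cons 965 n6903 (.cons 1002 n6905 .nil))
noncomputable def n6907 : Strat := .move 880 n6874 (.cons 965 n6893 (.cons 963 n6079 (.cons 1002 n6898 (.cons 1006 n6906 .nil))))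
noncomputable def n6908 : Strat := .move 1002 n2855 (.cons 965 n6503 .nil)
noncomputable def n6909 : Strat := .move 1000 n2979 (.cons 958 n3084 .nil)
noncomputable def n6910 : Strat := .move 959 n5597 (.cons 960 n6909 .nil)
noncomputable def n6911 : Strat := .move 882 n1050 (.cons 923 n6910 .nil)
noncomputable def n6912 : Strat := .move 1001 n3745 (.cons 963 n6911 .nil)
noncomputable def n6913 : Strat := .move 1002 n2855 (.cons 965 n6912 .nil)
noncomputable def n6914 : Strat := .move 1046 n6259 (.cons 924 n4838 .nil)
noncomputable def n6915 : Strat := .move 965 n6821 (.cons 963 n6078 (.cons 966 n6914 .nil))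
noncomputable def n6916 : Strat := .move 923 n92 (.cons 882 n6915 .nil)
noncomputable def n6917 : Strat := .move 964 n6907 (.cons 963 n6908 (.cons 923 n6797 (.cons 1046 n6913 (.cons 1002 n6916 (.cons 965 n6861 .nil)))))
noncomputable def n6918 : Strat := .move 963 n3316 (.cons 966 n32 .nil)
noncomputable def n6919 : Strat := .move 921 n6821 (.cons 966 n6848 (.cons 963 n6078 (.cons 1006 n6918 .nil)))
noncomputable def n6920 : Strat := .move 965 n4391 (.cons 1002 n6919 .nil)
noncomputable def n6921 : Strat := .move 923 n92 (.cons 882 n6800 .nil)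
noncomputable def n6922 : Strat := .move 921 n6078 (.cons 966 n6921 .nil)
noncomputable def n6923 : Strat := .move 965 n4391 (.cons 1002 n6922 .nil)
noncomputable def n6924 : Strat := .move 1045 n4558 (.cons 1127 n6069 .nil)
noncomputable def n6925 : Strat := .move 1045 n6069 (.cons 1046 n6851 .nil)
noncomputable def n6926 : Strat := .move 1045 n4558 (.cons 1127 n6851 .nil)
noncomputable def n6927 : Strat := .move 965 n4086 (.cons 966 n5985 .nil)
noncomputable def n6928 : Strat := .move 1007 n1161 (.cons 963 n6655 .nil)
noncomputable def n6929 : Strat := .move 1006 n6927 (.cons 965 n6724 (.cons 1047 n6928 .nil))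
noncomputable def n6930 : Strat := .move 1086 n6924 (.cons 1127 n6925 (.cons 1046 n6926 (.cons 1045 n6929 .nil)))
noncomputable def n6931 : Strat := .move 923 n92 (.cons 882 n6930 .nil)
noncomputable def n6932 : Strat := .move 965 n4391 (.cons 1002 n6799 .nil)
noncomputable def n6933 : Strat := .move 964 n6920 (.cons 965 n6861 (.cons 963 n6923 (.cons 1088 n6873 (.cons 1002 n6931 (.cons 1006 n6932 .nil)))))
noncomputable def n6934 : Strat := .move 1006 n6864 (.cons 1007 n6869 .nil)
noncomputable def n6935 : Strat := .move 1045 n4563 (.cons 1044 n4662 (.cons 1086 n6934 .nil))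
noncomputable def n6936 : Strat := .move 921 n73 (.cons 880 n6935 .nil)
noncomputable def n6937 : Strat := .move 1047 n2230 (.cons 1048 n6881 .nil)
noncomputable def n6938 : Strat := .move 1007 n938 (.cons 1008 n1185 .nil)
noncomputable def n6939 : Strat := .move 1046 n2229 (.cons 1002 n6938 .nil)
noncomputable def n6940 : Strat := .move 1047 n2230 (.cons 1048 n6939 .nil)
noncomputable def n6941 : Strat := .move 1007 n1185 (.cons 1044 n6824 .nil)
noncomputable def n6942 : Strat := .move 1046 n938 (.cons 1008 n4386 .nil)
noncomputable def n6943 : Strat := .move 1007 n1185 (.cons 1044 n6942 .nil)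
noncomputable def n6944 : Strat := .move 1007 n1185 (.cons 1044 n6090 .nil)
noncomputable def n6945 : Strat := .move 1006 n6937 (.cons 1088 n6940 (.cons 1047 n6941 (.cons 1048 n6943 (.cons 1046 n6944 .nil))))
noncomputable def n6946 : Strat := .move 921 n73 (.cons 880 n4559 .nil)
noncomputable def n6947 : Strat := .move 1086 n4558 (.cons 1127 n6946 .nil)
noncomputable def n6948 : Strat := .move 1045 n6085 (.cons 1086 n6945 (.cons 1046 n6947 .nil))
noncomputable def n6949 : Strat := .move 923 n92 (.cons 882 n6948 .nil)
noncomputable def n6950 : Strat := .move 1047 n2230 (.cons 1048 n37 .nil)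
noncomputable def n6951 : Strat := .move 1045 n934 (.cons 1086 n6938 .nil)
noncomputable def n6952 : Strat := .move 1046 n864 (.cons 1087 n6951 .nil)
noncomputable def n6953 : Strat := .move 1006 n6950 (.cons 1047 n6952 .nil)
noncomputable def n6954 : Strat := .move 923 n92 (.cons 882 n6953 .nil)
noncomputable def n6955 : Strat := .move 921 n73 (.cons 880 n6800 .nil)
noncomputable def n6956 : Strat := .move 923 n92 (.cons 882 n6955 .nil)
noncomputable def n6957 : Strat := .move 965 n6078 (.cons 966 n6954 (.cons 1006 n6956 .nil))
noncomputable def n6958 : Strat := .move 965 n4391 (.cons 1002 n6956 .nil)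
noncomputable def n6959 : Strat := .move 964 n6079 (.cons 965 n6949 (.cons 1002 n6957 (.cons 1006 n6958 .nil)))
noncomputable def n6960 : Strat := .move 1006 n6864 (.cons 1007 n6654 .nil)
noncomputable def n6961 : Strat := .move 1007 n938 (.cons 1008 n6655 .nil)
noncomputable def n6962 : Strat := .move 1046 n2229 (.cons 1002 n6961 .nil)
noncomputable def n6963 : Strat := .move 1047 n2230 (.cons 1048 n6962 .nil)
noncomputable def n6964 : Strat := .move 1006 n4662 (.cons 963 n6963 .nil)
noncomputable def n6965 : Strat := .move 1045 n4563 (.cons 1086 n6960 (.cons 1044 n6964 .nil))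
noncomputable def n6966 : Strat := .move 921 n73 (.cons 880 n6965 .nil)
noncomputable def n6967 : Strat := .move 1007 n5381 (.cons 1048 n5386 .nil)
noncomputable def n6968 : Strat := .move 964 n6520 (.cons 1129 n5482 (.cons 923 n6524 .nil))
noncomputable def n6969 : Strat := .move 924 n6397 (.cons 883 n6968 .nil)
noncomputable def n6970 : Strat := .move 965 n4086 (.cons 966 n6969 .nil)
noncomputable def n6971 : Strat := .move 1047 n2230 (.cons 1048 n6970 .nil)
noncomputable def n6972 : Strat := .move 1006 n5382 (.cons 963 n6967 (.cons 1047 n5387 (.cons 1007 n6971 .nil)))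
noncomputable def n6973 : Strat := .move 880 n4200 (.cons 921 n6972 .nil)
noncomputable def n6974 : Strat := .move 1006 n2230 (.cons 1048 n6970 .nil)
noncomputable def n6975 : Strat := .move 1001 n3745 (.cons 963 n6212 .nil)
noncomputable def n6976 : Strat := .move 964 n2855 (.cons 965 n6975 .nil)
noncomputable def n6977 : Strat := .move 1002 n2710 (.cons 1046 n6976 .nil)
noncomputable def n6978 : Strat := .move 1047 n6666 (.cons 1002 n6974 (.cons 1006 n6635 (.cons 1046 n6613 (.cons 1048 n6977 .nil))))
noncomputable def n6979 : Strat := .move 880 n4200 (.cons 921 n6978 .nil)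
noncomputable def n6980 : Strat := .move 963 n1105 (.cons 1007 n6480 .nil)
noncomputable def n6981 : Strat := .move 1045 n1185 (.cons 1044 n6824 .nil)
noncomputable def n6982 : Strat := .move 1007 n1161 (.cons 963 n6981 .nil)
noncomputable def n6983 : Strat := .move 1046 n938 (.cons 1008 n6146 .nil)
noncomputable def n6984 : Strat := .move 1045 n1185 (.cons 1044 n6983 .nil)
noncomputable def n6985 : Strat := .move 1007 n1161 (.cons 963 n6984 .nil)
noncomputable def n6986 : Strat := .move 1007 n5381 (.cons 1048 n6984 (.cons 1047 n6981 .nil))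
noncomputable def n6987 : Strat := .move 964 n3745 (.cons 963 n2855 .nil)
noncomputable def n6988 : Strat := .move 1001 n6764 (.cons 1000 n6987 (.cons 964 n6717 (.cons 963 n6212 .nil)))
noncomputable def n6989 : Strat := .move 1002 n2710 (.cons 1046 n6988 .nil)
noncomputable def n6990 : Strat := .move 1047 n2230 (.cons 1048 n6989 .nil)
noncomputable def n6991 : Strat := .move 1006 n6980 (.cons 1047 n6982 (.cons 1048 n6985 (.cons 963 n6986 (.cons 1046 n5382 (.cons 1007 n6990 .nil)))))
noncomputable def n6992 : Strat := .move 880 n4200 (.cons 921 n6991 .nil)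
noncomputable def n6993 : Strat := .move 966 n5385 (.cons 967 n6984 .nil)
noncomputable def n6994 : Strat := .move 1007 n1161 (.cons 963 n6993 .nil)
noncomputable def n6995 : Strat := .move 1007 n5386 (.cons 966 n6984 .nil)
noncomputable def n6996 : Strat := .win 925 0 880
noncomputable def n6997 : Strat := .move 883 n6996 (.cons 925 n909 .nil)
noncomputable def n6998 : Strat := .move 882 n1050 (.cons 923 n6997 .nil)
noncomputable def n6999 : Strat := .move 1047 n6520 (.cons 1129 n5482 (.cons 923 n6524 .nil))
noncomputable def n7000 : Strat := .move 924 n6491 (.cons 1046 n6998 (.cons 842 n905 (.cons 883 n6999 .nil)))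
noncomputable def n7001 : Strat := .move 964 n4391 (.cons 1002 n7000 .nil)
noncomputable def n7002 : Strat := .move 965 n4086 (.cons 966 n7001 .nil)
noncomputable def n7003 : Strat := .move 1006 n5387 (.cons 965 n6994 (.cons 963 n6995 (.cons 966 n6985 (.cons 1007 n7002 .nil))))
noncomputable def n7004 : Strat := .move 880 n4200 (.cons 921 n7003 .nil)
noncomputable def n7005 : Strat := .move 882 n1050 (.cons 923 n6212 .nil)
noncomputable def n7006 : Strat := .move 1001 n3745 (.cons 963 n7005 .nil)
noncomputable def n7007 : Strat := .move 964 n2855 (.cons 965 n7006 .nil)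
noncomputable def n7008 : Strat := .move 1001 n1626 (.cons 1046 n7005 .nil)
noncomputable def n7009 : Strat := .move 964 n2855 (.cons 965 n7008 .nil)
noncomputable def n7010 : Strat := .move 964 n2855 (.cons 965 n6170 .nil)
noncomputable def n7011 : Strat := .move 1128 n1084 (.cons 1168 n3732 .nil)
noncomputable def n7012 : Strat := .move 1127 n1083 (.cons 1086 n7011 .nil)
noncomputable def n7013 : Strat := .move 964 n2855 (.cons 965 n7012 .nil)
noncomputable def n7014 : Strat := .move 1128 n3732 (.cons 963 n6193 .nil)
noncomputable def n7015 : Strat := .move 964 n2855 (.cons 965 n1172 .nil)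
noncomputable def n7016 : Strat := .move 1128 n3732 (.cons 963 n7015 .nil)
noncomputable def n7017 : Strat := .move 1087 n7010 (.cons 923 n7013 (.cons 964 n7014 (.cons 1127 n7016 .nil)))
noncomputable def n7018 : Strat := .move 1046 n1624 (.cons 1047 n7017 .nil)
noncomputable def n7019 : Strat := .move 1002 n5560 (.cons 964 n6719 (.cons 1046 n7007 (.cons 963 n7009 (.cons 1001 n7018 .nil))))
noncomputable def n7020 : Strat := .move 880 n4200 (.cons 921 n7019 .nil)
noncomputable def n7021 : Strat := .move 924 n6491 (.cons 1046 n6736 .nil)
noncomputable def n7022 : Strat := .move 964 n4391 (.cons 1002 n7021 .nil)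
noncomputable def n7023 : Strat := .move 965 n4086 (.cons 966 n7022 .nil)
noncomputable def n7024 : Strat := .move 1044 n6552 (.cons 1007 n6676 .nil)
noncomputable def n7025 : Strat := .move 1006 n6864 (.cons 1044 n5387 (.cons 1007 n7023 (.cons 963 n7024 .nil)))
noncomputable def n7026 : Strat := .move 1045 n4563 (.cons 1127 n4668 (.cons 1044 n4662 (.cons 1086 n7025 .nil)))
noncomputable def n7027 : Strat := .move 921 n73 (.cons 880 n7026 .nil)
noncomputable def n7028 : Strat := .move 921 n73 (.cons 880 n4563 .nil)
noncomputable def n7029 : Strat := .move 1007 n1185 (.cons 1044 n5381 .nil)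
noncomputable def n7030 : Strat := .move 964 n6283 (.cons 923 n6092 .nil)
noncomputable def n7031 : Strat := .win 1091 2 1046
noncomputable def n7032 : Strat := .win 1087 2 1045
noncomputable def n7033 : Strat := .move 1090 n7031 (.cons 1091 n7032 .nil)
noncomputable def n7034 : Strat := .move 1089 n6324 (.cons 1044 n7033 .nil)
noncomputable def n7035 : Strat := .move 1088 n7030 (.cons 1129 n7034 .nil)
noncomputable def n7036 : Strat := .move 1046 n2229 (.cons 1002 n7035 .nil)
noncomputable def n7037 : Strat := .move 1047 n2230 (.cons 1048 n7036 .nil)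
noncomputable def n7038 : Strat := .move 1006 n6864 (.cons 1044 n5382 (.cons 963 n7029 (.cons 1007 n7037 .nil)))
noncomputable def n7039 : Strat := .move 921 n73 (.cons 880 n4662 .nil)
noncomputable def n7040 : Strat := .move 1045 n7028 (.cons 1086 n7038 (.cons 1044 n7039 .nil))
noncomputable def n7041 : Strat := .move 1006 n5387 (.cons 966 n5382 (.cons 1007 n5485 .nil))
noncomputable def n7042 : Strat := .move 921 n73 (.cons 880 n7041 .nil)
noncomputable def n7043 : Strat := .move 1005 n6872 (.cons 921 n6917 (.cons 880 n6933 (.cons 964 n6936 (.cons 963 n6959 (.cons 924 n6966 (.cons 1002 n6973 (.cons 1007 n6979 (.cons 966 n6992 (.cons 1048 n7004 (.cons 1006 n7020 (.cons 1047 n7027 (.cons 965 n7040 (.cons 1046 n7042 .nil)))))))))))))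
noncomputable def n7044 : Strat := .move 964 n4391 (.cons 1002 n6779 .nil)
noncomputable def n7045 : Strat := .move 965 n4086 (.cons 966 n7044 .nil)
noncomputable def n7046 : Strat := .move 1044 n4083 (.cons 1043 n5382 .nil)
noncomputable def n7047 : Strat := .move 1044 n4083 (.cons 1043 n6867 .nil)
noncomputable def n7048 : Strat := .move 1006 n7045 (.cons 964 n7046 (.cons 963 n7047 .nil))
noncomputable def n7049 : Strat := .move 921 n73 (.cons 880 n7048 .nil)
noncomputable def n7050 : Strat := .win 963 0 962
noncomputable def n7051 : Strat := .move 1007 n7050 (.cons 963 n5381 .nil)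
noncomputable def n7052 : Strat := .move 964 n4391 (.cons 1002 n7051 .nil)
noncomputable def n7053 : Strat := .move 965 n4086 (.cons 966 n7052 .nil)
noncomputable def n7054 : Strat := .move 1006 n7053 (.cons 1002 n5387 (.cons 965 n5382 (.cons 963 n6499 .nil)))
noncomputable def n7055 : Strat := .move 964 n6703 (.cons 879 n5482 .nil)
noncomputable def n7056 : Strat := .move 1047 n2230 (.cons 1048 n7055 .nil)
noncomputable def n7057 : Strat := .move 965 n4086 (.cons 966 n7056 .nil)
noncomputable def n7058 : Strat := .move 1044 n4083 (.cons 1043 n7057 .nil)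
noncomputable def n7059 : Strat := .move 1007 n5386 (.cons 966 n5381 .nil)
noncomputable def n7060 : Strat := .move 1006 n5387 (.cons 1007 n7058 (.cons 966 n5382 (.cons 963 n7059 .nil)))
noncomputable def n7061 : Strat := .move 921 n73 (.cons 880 n7060 .nil)
noncomputable def n7062 : Strat := .move 1044 n248 (.cons 1006 n120 .nil)
noncomputable def n7063 : Strat := .move 1043 n187 (.cons 1042 n7062 .nil)
noncomputable def n7064 : Strat := .move 1044 n4083 (.cons 1043 n6748 .nil)
noncomputable def n7065 : Strat := .move 1006 n2230 (.cons 1048 n7064 .nil)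
noncomputable def n7066 : Strat := .move 1047 n2710 (.cons 1046 n7065 .nil)
noncomputable def n7067 : Strat := .move 1043 n187 (.cons 1042 n6750 .nil)
noncomputable def n7068 : Strat := .move 1002 n7063 (.cons 1042 n7066 (.cons 1044 n7067 (.cons 1006 n6660 (.cons 1043 n6750 .nil))))
noncomputable def n7069 : Strat := .move 921 n73 (.cons 880 n7068 .nil)
noncomputable def n7070 : Strat := .move 963 n1105 (.cons 1007 n6478 .nil)
noncomputable def n7071 : Strat := .move 1006 n2230 (.cons 1048 n7070 .nil)
noncomputable def n7072 : Strat := .move 1047 n2710 (.cons 1046 n7071 .nil)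
noncomputable def n7073 : Strat := .move 1002 n7063 (.cons 1042 n7072 (.cons 1006 n6682 .nil))
noncomputable def n7074 : Strat := .move 921 n73 (.cons 880 n7073 .nil)
noncomputable def n7075 : Strat := .move 921 n73 (.cons 880 n6685 .nil)
noncomputable def n7076 : Strat := .move 1007 n1161 (.cons 963 n6754 .nil)
noncomputable def n7077 : Strat := .move 1044 n4083 (.cons 1043 n7076 .nil)
noncomputable def n7078 : Strat := .move 964 n4391 (.cons 1002 n6703 .nil)
noncomputable def n7079 : Strat := .move 965 n4086 (.cons 966 n7078 .nil)
noncomputable def n7080 : Strat := .move 1044 n4083 (.cons 1043 n7079 .nil)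
noncomputable def n7081 : Strat := .move 1002 n187 (.cons 1042 n5615 .nil)
noncomputable def n7082 : Strat := .move 1043 n5614 (.cons 1044 n7081 .nil)
noncomputable def n7083 : Strat := .move 1002 n187 (.cons 1042 n7070 .nil)
noncomputable def n7084 : Strat := .move 1043 n5614 (.cons 1044 n7083 .nil)
noncomputable def n7085 : Strat := .move 1006 n7045 (.cons 965 n7077 (.cons 1007 n7080 (.cons 963 n7082 (.cons 966 n7084 .nil))))
noncomputable def n7086 : Strat := .move 921 n73 (.cons 880 n7085 .nil)
noncomputable def n7087 : Strat := .move 964 n2855 (.cons 965 n7063 .nil)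
noncomputable def n7088 : Strat := .move 1006 n5615 (.cons 965 n7070 (.cons 964 n7064 .nil))
noncomputable def n7089 : Strat := .move 1047 n2710 (.cons 1046 n7088 .nil)
noncomputable def n7090 : Strat := .move 923 n92 (.cons 882 n6212 .nil)
noncomputable def n7091 : Strat := .move 1001 n3745 (.cons 963 n7090 .nil)
noncomputable def n7092 : Strat := .move 964 n2855 (.cons 965 n7091 .nil)
noncomputable def n7093 : Strat := .move 1002 n7087 (.cons 1042 n7089 (.cons 1044 n6506 (.cons 964 n7063 (.cons 1043 n7092 .nil))))
noncomputable def n7094 : Strat := .move 921 n73 (.cons 880 n7093 .nil)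
noncomputable def n7095 : Strat := .move 1002 n1624 (.cons 1047 n6506 .nil)
noncomputable def n7096 : Strat := .move 964 n1083 (.cons 1086 n1172 .nil)
noncomputable def n7097 : Strat := .move 1127 n1084 (.cons 1168 n7096 .nil)
noncomputable def n7098 : Strat := .move 1128 n3732 (.cons 963 n7097 .nil)
noncomputable def n7099 : Strat := .move 965 n865 (.cons 924 n6918 .nil)
noncomputable def n7100 : Strat := .move 923 n92 (.cons 882 n681 .nil)
noncomputable def n7101 : Strat := .move 965 n865 (.cons 924 n7100 .nil)
noncomputable def n7102 : Strat := .move 964 n7099 (.cons 966 n7101 (.cons 965 n7100 .nil))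
noncomputable def n7103 : Strat := .move 1169 n1098 (.cons 1211 n1206 .nil)
noncomputable def n7104 : Strat := .move 1168 n1207 (.cons 1127 n7103 .nil)
noncomputable def n7105 : Strat := .move 1170 n1099 (.cons 1129 n7104 .nil)
noncomputable def n7106 : Strat := .move 1128 n3732 (.cons 963 n7105 .nil)
noncomputable def n7107 : Strat := .move 923 n92 (.cons 882 n6052 .nil)
noncomputable def n7108 : Strat := .move 964 n1195 (.cons 1086 n7107 .nil)
noncomputable def n7109 : Strat := .move 1128 n3732 (.cons 963 n7108 .nil)
noncomputable def n7110 : Strat := .move 964 n7107 (.cons 883 n7100 (.cons 923 n6172 .nil))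
noncomputable def n7111 : Strat := .move 1087 n7098 (.cons 1128 n7102 (.cons 964 n7106 (.cons 1129 n7109 (.cons 963 n7110 .nil))))
noncomputable def n7112 : Strat := .move 921 n73 (.cons 880 n7111 .nil)
noncomputable def n7113 : Strat := .move 1002 n1624 (.cons 1047 n6660 .nil)
noncomputable def n7114 : Strat := .move 921 n73 (.cons 880 n7113 .nil)
noncomputable def n7115 : Strat := .move 965 n865 (.cons 924 n4391 .nil)
noncomputable def n7116 : Strat := .move 964 n1083 (.cons 1086 n7115 .nil)
noncomputable def n7117 : Strat := .move 1127 n1084 (.cons 1168 n7116 .nil)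
noncomputable def n7118 : Strat := .move 1128 n3732 (.cons 963 n7117 .nil)
noncomputable def n7119 : Strat := .move 1169 n1206 (.cons 1209 n1100 .nil)
noncomputable def n7120 : Strat := .move 1168 n1207 (.cons 1127 n7119 .nil)
noncomputable def n7121 : Strat := .move 1128 n3732 (.cons 963 n7120 .nil)
noncomputable def n7122 : Strat := .move 921 n73 (.cons 880 n7121 .nil)
noncomputable def n7123 : Strat := .move 965 n4391 (.cons 1002 n865 .nil)
noncomputable def n7124 : Strat := .move 1127 n1083 (.cons 1086 n1084 .nil)
noncomputable def n7125 : Strat := .move 1128 n7124 (.cons 1127 n6190 .nil)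
noncomputable def n7126 : Strat := .move 964 n7123 (.cons 965 n7125 .nil)
noncomputable def n7127 : Strat := .move 964 n1112 (.cons 1088 n7115 .nil)
noncomputable def n7128 : Strat := .move 1129 n1113 (.cons 1170 n7127 .nil)
noncomputable def n7129 : Strat := .move 1128 n3732 (.cons 963 n7128 .nil)
noncomputable def n7130 : Strat := .move 964 n668 (.cons 1127 n7123 .nil)
noncomputable def n7131 : Strat := .move 921 n120 (.cons 1084 n73 .nil)
noncomputable def n7132 : Strat := .move 1043 n1479 (.cons 1088 n7131 .nil)
noncomputable def n7133 : Strat := .move 1085 n211 (.cons 1127 n7132 .nil)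
noncomputable def n7134 : Strat := .move 1084 n216 (.cons 1125 n3726 .nil)
noncomputable def n7135 : Strat := .move 1043 n1479 (.cons 1088 n7134 .nil)
noncomputable def n7136 : Strat := .move 1085 n211 (.cons 1127 n7135 .nil)
noncomputable def n7137 : Strat := .move 921 n215 (.cons 1043 n73 .nil)
noncomputable def n7138 : Strat := .move 1084 n216 (.cons 1125 n7137 .nil)
noncomputable def n7139 : Strat := .move 1085 n211 (.cons 1127 n7138 .nil)
noncomputable def n7140 : Strat := .move 921 n73 (.cons 880 n5404 .nil)
noncomputable def n7141 : Strat := .move 1042 n1482 (.cons 1041 n1488 .nil)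
noncomputable def n7142 : Strat := .move 1043 n1479 (.cons 1088 n7141 .nil)
noncomputable def n7143 : Strat := .move 1085 n211 (.cons 1127 n7142 .nil)
noncomputable def n7144 : Strat := .move 1044 n7133 (.cons 880 n7136 (.cons 1088 n7139 (.cons 1085 n7140 (.cons 921 n7143 (.cons 1043 n6597 .nil)))))
noncomputable def n7145 : Strat := .move 966 n6077 (.cons 967 n6798 .nil)
noncomputable def n7146 : Strat := .move 965 n865 (.cons 924 n7145 .nil)
noncomputable def n7147 : Strat := .move 964 n668 (.cons 1127 n7146 .nil)
noncomputable def n7148 : Strat := .move 965 n4391 (.cons 1002 n7145 .nil)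
noncomputable def n7149 : Strat := .win 1084 2 1042
noncomputable def n7150 : Strat := .move 1042 n7149 (.cons 1084 n1488 .nil)
noncomputable def n7151 : Strat := .move 1088 n1585 (.cons 1044 n669 .nil)
noncomputable def n7152 : Strat := .move 1043 n7150 (.cons 1002 n7151 .nil)
noncomputable def n7153 : Strat := .move 964 n7115 (.cons 1002 n7146 (.cons 924 n7148 (.cons 965 n7152 .nil)))
noncomputable def n7154 : Strat := .move 1084 n1690 (.cons 1124 n1692 .nil)
noncomputable def n7155 : Strat := .win 964 6 964
noncomputable def n7156 : Strat := .move 1129 n1557 (.cons 1130 n7155 .nil)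
noncomputable def n7157 : Strat := .move 1088 n1826 (.cons 1126 n7156 .nil)
noncomputable def n7158 : Strat := .move 1125 n7154 (.cons 1084 n7157 .nil)
noncomputable def n7159 : Strat := .move 1084 n1690 (.cons 1124 n1618 .nil)
noncomputable def n7160 : Strat := .move 1125 n7159 (.cons 1044 n7157 .nil)
noncomputable def n7161 : Strat := .move 1088 n1826 (.cons 1126 n1529 .nil)
noncomputable def n7162 : Strat := .move 1044 n1473 (.cons 1084 n7161 .nil)
noncomputable def n7163 : Strat := .move 1044 n1474 (.cons 1166 n3826 .nil)
noncomputable def n7164 : Strat := .move 1126 n1879 (.cons 1088 n7163 .nil)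
noncomputable def n7165 : Strat := .move 1125 n7159 (.cons 1044 n7154 (.cons 1124 n7162 (.cons 1084 n7164 .nil)))
noncomputable def n7166 : Strat := .move 1125 n1690 (.cons 1124 n1618 .nil)
noncomputable def n7167 : Strat := .move 921 n5571 (.cons 1044 n73 .nil)
noncomputable def n7168 : Strat := .move 1043 n1478 (.cons 1042 n7167 .nil)
noncomputable def n7169 : Strat := .move 1084 n7166 (.cons 1044 n1722 (.cons 1124 n7168 .nil))
noncomputable def n7170 : Strat := .move 1126 n2362 (.cons 1125 n3826 .nil)
noncomputable def n7171 : Strat := .move 1044 n1529 (.cons 1043 n7170 .nil)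
noncomputable def n7172 : Strat := .move 1088 n7156 (.cons 964 n7171 .nil)
noncomputable def n7173 : Strat := .move 1085 n7153 (.cons 1044 n7158 (.cons 1043 n7160 (.cons 964 n7165 (.cons 1088 n7169 (.cons 1084 n7172 .nil)))))
noncomputable def n7174 : Strat := .move 1086 n7130 (.cons 964 n7144 (.cons 1002 n7147 (.cons 1127 n7173 .nil)))
noncomputable def n7175 : Strat := .move 1087 n7118 (.cons 964 n7122 (.cons 963 n7126 (.cons 1127 n7129 (.cons 1128 n7174 .nil))))
noncomputable def n7176 : Strat := .move 1046 n7095 (.cons 1002 n7112 (.cons 964 n7114 (.cons 1047 n7175 .nil)))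
noncomputable def n7177 : Strat := .move 1005 n7049 (.cons 921 n7054 (.cons 1002 n7061 (.cons 964 n7069 (.cons 965 n7074 (.cons 963 n7075 (.cons 1047 n7086 (.cons 1048 n7094 (.cons 1006 n7176 .nil))))))))
noncomputable def n7178 : Strat := .move 1004 n6475 (.cons 921 n6577 (.cons 1002 n6587 (.cons 1005 n6603 (.cons 963 n6687 (.cons 1086 n5623 (.cons 1042 n6714 (.cons 1044 n6863 (.cons 1043 n7043 (.cons 1045 n7177 .nil)))))))))
noncomputable def n7179 : Strat := .win 961 4 958
noncomputable def n7180 : Strat := .win 1039 4 998
noncomputable def n7181 : Strat := .win 1041 4 999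
noncomputable def n7182 : Strat := .move 1040 n7180 (.cons 1039 n7181 .nil)
noncomputable def n7183 : Strat := .move 999 n7179 (.cons 961 n7182 .nil)
noncomputable def n7184 : Strat := .move 960 n2002 (.cons 1004 n7183 .nil)
noncomputable def n7185 : Strat := .move 959 n2979 (.cons 958 n7184 .nil)
noncomputable def n7186 : Strat := .move 1000 n2819 (.cons 963 n7185 .nil)
noncomputable def n7187 : Strat := .move 1005 n3741 (.cons 961 n1626 .nil)
noncomputable def n7188 : Strat := .move 960 n1620 (.cons 959 n7187 .nil)
noncomputable def n7189 : Strat := .move 1041 n3083 (.cons 1042 n2980 .nil)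
noncomputable def n7190 : Strat := .move 1000 n2979 (.cons 958 n7189 .nil)
noncomputable def n7191 : Strat := .move 959 n5597 (.cons 960 n7190 .nil)
noncomputable def n7192 : Strat := .move 799 n7188 (.cons 960 n2151 (.cons 1005 n7191 .nil))
noncomputable def n7193 : Strat := .move 1083 n2277 (.cons 879 n1984 (.cons 961 n4455 .nil))
noncomputable def n7194 : Strat := .move 878 n1262 (.cons 1043 n1931 .nil)
noncomputable def n7195 : Strat := .move 878 n2990 (.cons 918 n1290 .nil)
noncomputable def n7196 : Strat := .move 879 n1289 (.cons 920 n7195 .nil)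
noncomputable def n7197 : Strat := .move 919 n4446 (.cons 878 n7193 (.cons 1084 n7194 (.cons 1043 n7196 .nil)))
noncomputable def n7198 : Strat := .move 1042 n222 (.cons 1041 n7197 .nil)
noncomputable def n7199 : Strat := .move 960 n1620 (.cons 959 n7198 .nil)
noncomputable def n7200 : Strat := .move 960 n1620 (.cons 959 n1384 .nil)
noncomputable def n7201 : Strat := .move 1043 n131 (.cons 1005 n7200 .nil)
noncomputable def n7202 : Strat := .move 1042 n222 (.cons 1041 n7201 .nil)
noncomputable def n7203 : Strat := .move 1045 n374 (.cons 1046 n7202 .nil)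
noncomputable def n7204 : Strat := .move 961 n3068 (.cons 1005 n4811 .nil)
noncomputable def n7205 : Strat := .move 960 n1620 (.cons 959 n7204 .nil)
noncomputable def n7206 : Strat := .move 1045 n374 (.cons 1046 n7205 .nil)
noncomputable def n7207 : Strat := .move 961 n2769 (.cons 960 n1465 .nil)
noncomputable def n7208 : Strat := .move 1005 n2099 (.cons 1043 n7207 .nil)
noncomputable def n7209 : Strat := .move 1042 n222 (.cons 1041 n7208 .nil)
noncomputable def n7210 : Strat := .move 999 n6205 (.cons 961 n7182 .nil)
noncomputable def n7211 : Strat := .move 1000 n2979 (.cons 958 n7210 .nil)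
noncomputable def n7212 : Strat := .move 959 n5597 (.cons 960 n7211 .nil)
noncomputable def n7213 : Strat := .move 1045 n374 (.cons 1046 n7212 .nil)
noncomputable def n7214 : Strat := .move 1006 n1627 (.cons 961 n4088 .nil)
noncomputable def n7215 : Strat := .move 1005 n2099 (.cons 1043 n7214 .nil)
noncomputable def n7216 : Strat := .move 1042 n222 (.cons 1041 n7215 .nil)
noncomputable def n7217 : Strat := .move 1045 n374 (.cons 1046 n7216 .nil)
noncomputable def n7218 : Strat := .move 1005 n3741 (.cons 961 n2963 .nil)
noncomputable def n7219 : Strat := .move 960 n1620 (.cons 959 n7218 .nil)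
noncomputable def n7220 : Strat := .move 1004 n7192 (.cons 1005 n7199 (.cons 961 n7203 (.cons 1043 n7206 (.cons 959 n7209 (.cons 1042 n7213 (.cons 960 n7217 (.cons 1041 n7219 .nil)))))))
noncomputable def n7221 : Strat := .move 1040 n7181 (.cons 1041 n7180 .nil)
noncomputable def n7222 : Strat := .move 999 n6205 (.cons 961 n7221 .nil)
noncomputable def n7223 : Strat := .move 1000 n2819 (.cons 963 n7222 .nil)
noncomputable def n7224 : Strat := .move 959 n2979 (.cons 958 n2983 .nil)
noncomputable def n7225 : Strat := .move 1042 n539 (.cons 1004 n7224 .nil)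
noncomputable def n7226 : Strat := .move 1041 n2980 (.cons 1040 n7225 .nil)
noncomputable def n7227 : Strat := .move 1000 n2819 (.cons 963 n7226 .nil)
noncomputable def n7228 : Strat := .move 999 n7180 (.cons 1039 n6208 .nil)
noncomputable def n7229 : Strat := .move 1040 n7181 (.cons 1041 n7228 .nil)
noncomputable def n7230 : Strat := .move 1000 n2819 (.cons 963 n7229 .nil)
noncomputable def n7231 : Strat := .move 1084 n1795 (.cons 1125 n2543 .nil)
noncomputable def n7232 : Strat := .move 960 n2002 (.cons 1004 n7231 .nil)
noncomputable def n7233 : Strat := .move 959 n2979 (.cons 958 n7232 .nil)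
noncomputable def n7234 : Strat := .move 1000 n2819 (.cons 963 n7233 .nil)
noncomputable def n7235 : Strat := .win 958 2 957
noncomputable def n7236 : Strat := .win 956 2 956
noncomputable def n7237 : Strat := .win 1042 0 998
noncomputable def n7238 : Strat := .move 998 n7236 (.cons 956 n7237 .nil)
noncomputable def n7239 : Strat := .move 957 n7235 (.cons 958 n7238 .nil)
noncomputable def n7240 : Strat := .move 999 n7180 (.cons 1039 n7239 .nil)
noncomputable def n7241 : Strat := .move 1040 n7181 (.cons 1041 n7240 .nil)
noncomputable def n7242 : Strat := .move 1000 n2819 (.cons 963 n7241 .nil)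
noncomputable def n7243 : Strat := .move 1041 n3096 (.cons 1082 n2980 .nil)
noncomputable def n7244 : Strat := .move 919 n1266 (.cons 878 n7243 .nil)
noncomputable def n7245 : Strat := .move 960 n2002 (.cons 1004 n7244 .nil)
noncomputable def n7246 : Strat := .move 959 n2979 (.cons 958 n7245 .nil)
noncomputable def n7247 : Strat := .move 1004 n3083 (.cons 1042 n5597 .nil)
noncomputable def n7248 : Strat := .move 1041 n2980 (.cons 1040 n7247 .nil)
noncomputable def n7249 : Strat := .move 919 n3096 (.cons 1082 n2262 .nil)
noncomputable def n7250 : Strat := .move 1041 n2980 (.cons 1040 n7249 .nil)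
noncomputable def n7251 : Strat := .move 1041 n2980 (.cons 1040 n3653 .nil)
noncomputable def n7252 : Strat := .win 997 5 956
noncomputable def n7253 : Strat := .move 998 n7252 (.cons 997 n7237 .nil)
noncomputable def n7254 : Strat := .move 999 n7182 (.cons 1041 n7253 .nil)
noncomputable def n7255 : Strat := .move 960 n7231 (.cons 1084 n7250 (.cons 878 n7251 (.cons 919 n7254 .nil)))
noncomputable def n7256 : Strat := .move 959 n7248 (.cons 1041 n7232 (.cons 1042 n7245 (.cons 1004 n7255 (.cons 960 n2985 .nil))))
noncomputable def n7257 : Strat := .move 1000 n7226 (.cons 1041 n7233 (.cons 959 n7241 (.cons 1042 n7246 (.cons 958 n7256 .nil))))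
noncomputable def n7258 : Strat := .move 1000 n2819 (.cons 963 n7256 .nil)
noncomputable def n7259 : Strat := .move 1042 n222 (.cons 1041 n131 .nil)
noncomputable def n7260 : Strat := .move 1005 n2855 (.cons 965 n1626 .nil)
noncomputable def n7261 : Strat := .move 964 n3745 (.cons 963 n7260 .nil)
noncomputable def n7262 : Strat := .move 960 n1620 (.cons 959 n7231 .nil)
noncomputable def n7263 : Strat := .move 964 n3745 (.cons 963 n7262 .nil)
noncomputable def n7264 : Strat := .move 1004 n7259 (.cons 1042 n7261 (.cons 1005 n7263 .nil))
noncomputable def n7265 : Strat := .move 1043 n7227 (.cons 1004 n7230 (.cons 1041 n7234 (.cons 959 n7242 (.cons 963 n7257 (.cons 958 n7258 (.cons 1000 n7264 .nil))))))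
noncomputable def n7266 : Strat := .move 964 n1416 (.cons 961 n1325 .nil)
noncomputable def n7267 : Strat := .move 963 n1417 (.cons 1000 n7266 .nil)
noncomputable def n7268 : Strat := .move 919 n4446 (.cons 878 n1988 .nil)
noncomputable def n7269 : Strat := .move 1042 n222 (.cons 1041 n7268 .nil)
noncomputable def n7270 : Strat := .move 960 n1620 (.cons 959 n7269 .nil)
noncomputable def n7271 : Strat := .move 960 n1981 (.cons 1005 n7269 (.cons 961 n6366 .nil))
noncomputable def n7272 : Strat := .move 1004 n2205 (.cons 1005 n7270 (.cons 959 n7271 (.cons 960 n2151 .nil)))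
noncomputable def n7273 : Strat := .move 1004 n5531 (.cons 964 n6367 .nil)
noncomputable def n7274 : Strat := .move 963 n7266 (.cons 964 n7272 (.cons 961 n7273 .nil))
noncomputable def n7275 : Strat := .move 1002 n7186 (.cons 963 n7220 (.cons 1004 n7223 (.cons 961 n7265 (.cons 1041 n7267 (.cons 1000 n7274 .nil)))))
noncomputable def n7276 : Strat := .move 880 n4200 (.cons 921 n7275 .nil)
noncomputable def n7277 : Strat := .move 880 n4200 (.cons 921 n7220 .nil)
noncomputable def n7278 : Strat := .move 1042 n2981 (.cons 1083 n2982 .nil)
noncomputable def n7279 : Strat := .win 961 2 917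
noncomputable def n7280 : Strat := .win 876 7 876
noncomputable def n7281 : Strat := .move 917 n7279 (.cons 961 n7280 .nil)
noncomputable def n7282 : Strat := .move 960 n7249 (.cons 878 n3653 (.cons 1082 n7281 .nil))
noncomputable def n7283 : Strat := .move 918 n7278 (.cons 877 n7282 .nil)
noncomputable def n7284 : Strat := .move 1041 n2980 (.cons 1040 n7283 .nil)
noncomputable def n7285 : Strat := .move 959 n2979 (.cons 958 n7284 .nil)
noncomputable def n7286 : Strat := .move 958 n6207 (.cons 959 n6206 .nil)
noncomputable def n7287 : Strat := .move 999 n7221 (.cons 1039 n7286 .nil)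
noncomputable def n7288 : Strat := .move 999 n6205 (.cons 961 n7286 .nil)
noncomputable def n7289 : Strat := .move 1000 n7222 (.cons 999 n7285 (.cons 961 n7287 (.cons 1041 n7288 .nil)))
noncomputable def n7290 : Strat := .move 921 n73 (.cons 880 n7289 .nil)
noncomputable def n7291 : Strat := .move 1004 n5597 (.cons 960 n3083 .nil)
noncomputable def n7292 : Strat := .move 959 n2979 (.cons 958 n7291 .nil)
noncomputable def n7293 : Strat := .move 1000 n2980 (.cons 1040 n7292 .nil)
noncomputable def n7294 : Strat := .move 1082 n3652 (.cons 919 n3651 .nil)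
noncomputable def n7295 : Strat := .move 960 n2002 (.cons 1004 n7294 .nil)
noncomputable def n7296 : Strat := .move 959 n2979 (.cons 958 n7295 .nil)
noncomputable def n7297 : Strat := .move 1000 n2980 (.cons 1040 n7296 .nil)
noncomputable def n7298 : Strat := .move 1040 n1391 (.cons 1039 n3358 .nil)
noncomputable def n7299 : Strat := .move 1042 n539 (.cons 1004 n7298 .nil)
noncomputable def n7300 : Strat := .move 960 n3652 (.cons 919 n3651 .nil)
noncomputable def n7301 : Strat := .win 960 3 918
noncomputable def n7302 : Strat := .move 919 n7301 (.cons 960 n3160 .nil)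
noncomputable def n7303 : Strat := .win 1124 6 959
noncomputable def n7304 : Strat := .win 1042 6 918
noncomputable def n7305 : Strat := .move 1083 n7303 (.cons 1124 n7304 .nil)
noncomputable def n7306 : Strat := .move 1082 n7300 (.cons 1123 n7302 (.cons 919 n7305 .nil))
noncomputable def n7307 : Strat := .move 878 n3608 (.cons 837 n3607 .nil)
noncomputable def n7308 : Strat := .move 877 n3091 (.cons 1042 n7307 .nil)
noncomputable def n7309 : Strat := .win 917 7 876
noncomputable def n7310 : Strat := .move 876 n4255 (.cons 835 n7309 .nil)
noncomputable def n7311 : Strat := .move 877 n7307 (.cons 919 n7310 .nil)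
noncomputable def n7312 : Strat := .move 918 n7278 (.cons 877 n7306 (.cons 1083 n7308 (.cons 1042 n7311 .nil)))
noncomputable def n7313 : Strat := .move 959 n2979 (.cons 958 n7312 .nil)
noncomputable def n7314 : Strat := .move 1000 n2980 (.cons 1040 n7313 .nil)
noncomputable def n7315 : Strat := .move 878 n1262 (.cons 1043 n1929 .nil)
noncomputable def n7316 : Strat := .move 919 n1388 (.cons 1082 n7315 .nil)
noncomputable def n7317 : Strat := .win 1000 2 958
noncomputable def n7318 : Strat := .move 958 n2665 (.cons 957 n7317 .nil)
noncomputable def n7319 : Strat := .move 918 n3094 (.cons 1083 n1943 .nil)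
noncomputable def n7320 : Strat := .move 959 n7318 (.cons 1000 n7319 .nil)
noncomputable def n7321 : Strat := .move 919 n1388 (.cons 1082 n7320 .nil)
noncomputable def n7322 : Strat := .move 959 n1938 (.cons 918 n7318 .nil)
noncomputable def n7323 : Strat := .win 1084 6 960
noncomputable def n7324 : Strat := .move 1125 n1645 (.cons 1166 n7323 .nil)
noncomputable def n7325 : Strat := .move 1124 n1936 (.cons 1082 n7324 .nil)
noncomputable def n7326 : Strat := .move 1083 n7322 (.cons 959 n7325 .nil)
noncomputable def n7327 : Strat := .win 1000 7 1000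
noncomputable def n7328 : Strat := .win 1043 3 1001
noncomputable def n7329 : Strat := .move 1165 n7327 (.cons 1000 n7328 .nil)
noncomputable def n7330 : Strat := .move 1124 n7324 (.cons 1084 n7329 .nil)
noncomputable def n7331 : Strat := .move 919 n4446 (.cons 878 n4455 (.cons 1084 n1944 .nil))
noncomputable def n7332 : Strat := .move 1083 n7322 (.cons 959 n7330 (.cons 1000 n7331 .nil))
noncomputable def n7333 : Strat := .move 1082 n1378 (.cons 1123 n1990 .nil)
noncomputable def n7334 : Strat := .move 919 n1388 (.cons 1082 n4446 .nil)
noncomputable def n7335 : Strat := .move 1083 n7333 (.cons 919 n7325 (.cons 1123 n7334 (.cons 1082 n7331 .nil)))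
noncomputable def n7336 : Strat := .move 960 n7316 (.cons 878 n7321 (.cons 919 n7326 (.cons 1082 n7332 (.cons 1000 n7335 .nil))))
noncomputable def n7337 : Strat := .move 1042 n539 (.cons 1004 n7336 .nil)
noncomputable def n7338 : Strat := .move 1041 n7293 (.cons 1042 n7297 (.cons 1000 n7299 (.cons 1004 n7314 (.cons 1040 n7337 .nil))))
noncomputable def n7339 : Strat := .move 921 n73 (.cons 880 n7338 .nil)
noncomputable def n7340 : Strat := .move 1041 n539 (.cons 1004 n2980 .nil)
noncomputable def n7341 : Strat := .move 1042 n7340 (.cons 1040 n1956 .nil)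
noncomputable def n7342 : Strat := .move 1043 n50 (.cons 1084 n7341 .nil)
noncomputable def n7343 : Strat := .move 961 n2818 (.cons 999 n7342 .nil)
noncomputable def n7344 : Strat := .move 959 n2979 (.cons 958 n2984 .nil)
noncomputable def n7345 : Strat := .move 1041 n2980 (.cons 1040 n7344 .nil)
noncomputable def n7346 : Strat := .move 1083 n1816 (.cons 920 n1375 .nil)
noncomputable def n7347 : Strat := .move 1042 n1956 (.cons 879 n7346 (.cons 1083 n223 .nil))
noncomputable def n7348 : Strat := .move 1043 n50 (.cons 1084 n7347 .nil)
noncomputable def n7349 : Strat := .move 961 n2818 (.cons 999 n7348 .nil)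
noncomputable def n7350 : Strat := .move 1004 n3083 (.cons 1042 n2650 .nil)
noncomputable def n7351 : Strat := .move 1041 n2980 (.cons 1040 n7350 .nil)
noncomputable def n7352 : Strat := .move 961 n2818 (.cons 999 n7351 .nil)
noncomputable def n7353 : Strat := .move 1000 n7343 (.cons 999 n7345 (.cons 1040 n7349 (.cons 1083 n7352 (.cons 1041 n7288 .nil))))
noncomputable def n7354 : Strat := .move 921 n73 (.cons 880 n7353 .nil)
noncomputable def n7355 : Strat := .move 999 n7286 (.cons 958 n7221 .nil)
noncomputable def n7356 : Strat := .move 960 n2002 (.cons 1004 n7250 .nil)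
noncomputable def n7357 : Strat := .move 959 n2979 (.cons 958 n7356 .nil)
noncomputable def n7358 : Strat := .move 1000 n7288 (.cons 961 n7355 (.cons 958 n7222 (.cons 999 n7357 .nil)))
noncomputable def n7359 : Strat := .move 880 n4200 (.cons 921 n7358 .nil)
noncomputable def n7360 : Strat := .move 961 n1465 (.cons 1006 n2769 .nil)
noncomputable def n7361 : Strat := .move 1005 n1624 (.cons 1047 n7360 .nil)
noncomputable def n7362 : Strat := .move 1046 n1625 (.cons 1045 n7361 .nil)
noncomputable def n7363 : Strat := .move 1004 n3083 (.cons 1042 n7362 .nil)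
noncomputable def n7364 : Strat := .move 1041 n2980 (.cons 1040 n7363 .nil)
noncomputable def n7365 : Strat := .win 1038 4 997
noncomputable def n7366 : Strat := .win 1040 4 998
noncomputable def n7367 : Strat := .move 1039 n7365 (.cons 1038 n7366 .nil)
noncomputable def n7368 : Strat := .move 998 n7236 (.cons 956 n7367 .nil)
noncomputable def n7369 : Strat := .move 957 n7235 (.cons 958 n7368 .nil)
noncomputable def n7370 : Strat := .move 999 n6205 (.cons 961 n7369 .nil)
noncomputable def n7371 : Strat := .move 1005 n187 (.cons 1042 n1465 .nil)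
noncomputable def n7372 : Strat := .move 1005 n187 (.cons 1042 n2769 .nil)
noncomputable def n7373 : Strat := .move 1004 n3048 (.cons 960 n7371 (.cons 1006 n7372 (.cons 1005 n4706 .nil)))
noncomputable def n7374 : Strat := .move 1043 n50 (.cons 1084 n7373 .nil)
noncomputable def n7375 : Strat := .move 961 n2818 (.cons 999 n7374 .nil)
noncomputable def n7376 : Strat := .win 997 0 997
noncomputable def n7377 : Strat := .win 1043 0 998
noncomputable def n7378 : Strat := .move 998 n7376 (.cons 997 n7377 .nil)
noncomputable def n7379 : Strat := .move 1042 n539 (.cons 1004 n7378 .nil)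
noncomputable def n7380 : Strat := .move 1041 n2980 (.cons 1040 n7379 .nil)
noncomputable def n7381 : Strat := .move 1041 n7376 (.cons 997 n539 .nil)
noncomputable def n7382 : Strat := .move 1042 n7377 (.cons 1043 n7381 .nil)
noncomputable def n7383 : Strat := .move 998 n7236 (.cons 956 n7382 .nil)
noncomputable def n7384 : Strat := .move 957 n7235 (.cons 958 n7383 .nil)
noncomputable def n7385 : Strat := .move 999 n7221 (.cons 1041 n7369 (.cons 1039 n7380 (.cons 1040 n7384 .nil)))
noncomputable def n7386 : Strat := .move 1000 n7222 (.cons 999 n7364 (.cons 1041 n7370 (.cons 1040 n7375 (.cons 961 n7385 .nil))))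
noncomputable def n7387 : Strat := .move 921 n73 (.cons 880 n7386 .nil)
noncomputable def n7388 : Strat := .move 1043 n50 (.cons 1084 n4706 .nil)
noncomputable def n7389 : Strat := .move 961 n3068 (.cons 1005 n7388 .nil)
noncomputable def n7390 : Strat := .move 960 n1620 (.cons 959 n7389 .nil)
noncomputable def n7391 : Strat := .move 1005 n2099 (.cons 1043 n2963 .nil)
noncomputable def n7392 : Strat := .move 1042 n222 (.cons 1041 n7391 .nil)
noncomputable def n7393 : Strat := .win 961 3 920
noncomputable def n7394 : Strat := .move 1043 n7393 (.cons 961 n1795 .nil)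
noncomputable def n7395 : Strat := .move 1043 n1386 (.cons 919 n7393 .nil)
noncomputable def n7396 : Strat := .move 1043 n1386 (.cons 919 n1795 .nil)
noncomputable def n7397 : Strat := .move 1084 n7394 (.cons 1125 n7395 (.cons 961 n7396 (.cons 1043 n1985 .nil)))
noncomputable def n7398 : Strat := .move 1042 n222 (.cons 1041 n7397 .nil)
noncomputable def n7399 : Strat := .move 960 n1620 (.cons 959 n7398 .nil)
noncomputable def n7400 : Strat := .move 1004 n7390 (.cons 960 n7392 (.cons 1041 n7219 (.cons 1005 n7399 .nil)))
noncomputable def n7401 : Strat := .move 921 n73 (.cons 880 n7400 .nil)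
noncomputable def n7402 : Strat := .move 1005 n3741 (.cons 961 n2890 .nil)
noncomputable def n7403 : Strat := .move 960 n1620 (.cons 959 n7402 .nil)
noncomputable def n7404 : Strat := .move 961 n1270 (.cons 920 n3194 (.cons 1083 n3200 .nil))
noncomputable def n7405 : Strat := .move 1042 n222 (.cons 1041 n7404 .nil)
noncomputable def n7406 : Strat := .move 960 n1620 (.cons 959 n7405 .nil)
noncomputable def n7407 : Strat := .move 1045 n374 (.cons 1046 n7209 .nil)
noncomputable def n7408 : Strat := .move 1004 n7403 (.cons 1005 n7406 (.cons 961 n7203 (.cons 959 n7407 (.cons 1043 n7206 (.cons 1042 n7213 (.cons 1041 n7219 (.cons 960 n7392 .nil)))))))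
noncomputable def n7409 : Strat := .move 959 n3219 (.cons 960 n3220 .nil)
noncomputable def n7410 : Strat := .move 1004 n3260 (.cons 959 n7372 (.cons 960 n7371 (.cons 1005 n7409 .nil)))
noncomputable def n7411 : Strat := .move 961 n50 (.cons 1084 n7410 .nil)
noncomputable def n7412 : Strat := .move 1004 n131 (.cons 1005 n3219 .nil)
noncomputable def n7413 : Strat := .move 1042 n7412 (.cons 960 n1956 .nil)
noncomputable def n7414 : Strat := .move 959 n2979 (.cons 958 n7413 .nil)
noncomputable def n7415 : Strat := .move 1000 n2818 (.cons 999 n7414 .nil)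
noncomputable def n7416 : Strat := .move 961 n50 (.cons 1084 n7415 .nil)
noncomputable def n7417 : Strat := .move 1084 n1795 (.cons 1125 n7393 .nil)
noncomputable def n7418 : Strat := .move 919 n1266 (.cons 878 n1743 .nil)
noncomputable def n7419 : Strat := .move 959 n2002 (.cons 1004 n7318 .nil)
noncomputable def n7420 : Strat := .move 919 n1743 (.cons 1042 n7419 .nil)
noncomputable def n7421 : Strat := .move 919 n1266 (.cons 878 n7419 .nil)
noncomputable def n7422 : Strat := .move 1004 n1620 (.cons 959 n2545 .nil)
noncomputable def n7423 : Strat := .move 960 n7418 (.cons 878 n7420 (.cons 1042 n7421 (.cons 919 n7422 .nil)))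
noncomputable def n7424 : Strat := .move 1084 n1795 (.cons 1125 n7423 .nil)
noncomputable def n7425 : Strat := .move 958 n7317 (.cons 1000 n2665 .nil)
noncomputable def n7426 : Strat := .move 960 n2002 (.cons 1004 n7425 .nil)
noncomputable def n7427 : Strat := .move 958 n2665 (.cons 957 n2664 .nil)
noncomputable def n7428 : Strat := .move 960 n2002 (.cons 1004 n7427 .nil)
noncomputable def n7429 : Strat := .move 998 n7237 (.cons 1042 n7367 .nil)
noncomputable def n7430 : Strat := .move 999 n6205 (.cons 961 n7429 .nil)
noncomputable def n7431 : Strat := .move 1000 n2979 (.cons 958 n7430 .nil)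
noncomputable def n7432 : Strat := .move 1004 n5597 (.cons 960 n2545 .nil)
noncomputable def n7433 : Strat := .move 959 n7426 (.cons 1000 n7428 (.cons 960 n7431 (.cons 958 n7432 .nil)))
noncomputable def n7434 : Strat := .move 1043 n7411 (.cons 1006 n7416 (.cons 958 n7417 (.cons 961 n7424 (.cons 1084 n7433 .nil))))
noncomputable def n7435 : Strat := .move 921 n73 (.cons 880 n7434 .nil)
noncomputable def n7436 : Strat := .move 1002 n7277 (.cons 1004 n7290 (.cons 961 n7339 (.cons 960 n7354 (.cons 1042 n7359 (.cons 959 n7387 (.cons 958 n7401 (.cons 921 n7408 (.cons 1041 n7435 .nil))))))))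
noncomputable def n7437 : Strat := .move 1041 n2980 (.cons 1040 n7292 .nil)
noncomputable def n7438 : Strat := .move 1000 n2819 (.cons 963 n7437 .nil)
noncomputable def n7439 : Strat := .win 1004 5 960
noncomputable def n7440 : Strat := .move 964 n1325 (.cons 965 n7439 .nil)
noncomputable def n7441 : Strat := .move 963 n1417 (.cons 1000 n7440 .nil)
noncomputable def n7442 : Strat := .move 921 n73 (.cons 880 n7441 .nil)
noncomputable def n7443 : Strat := .move 1000 n2819 (.cons 963 n7287 .nil)
noncomputable def n7444 : Strat := .move 921 n73 (.cons 880 n7443 .nil)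
noncomputable def n7445 : Strat := .move 963 n5531 (.cons 964 n4687 .nil)
noncomputable def n7446 : Strat := .move 960 n1763 (.cons 879 n1620 .nil)
noncomputable def n7447 : Strat := .move 919 n77 (.cons 918 n7446 .nil)
noncomputable def n7448 : Strat := .move 1042 n222 (.cons 1041 n7447 .nil)
noncomputable def n7449 : Strat := .move 963 n5531 (.cons 964 n7448 .nil)
noncomputable def n7450 : Strat := .move 963 n4687 (.cons 1046 n7448 .nil)
noncomputable def n7451 : Strat := .move 919 n1266 (.cons 878 n1763 .nil)
noncomputable def n7452 : Strat := .move 1043 n131 (.cons 1005 n7451 .nil)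
noncomputable def n7453 : Strat := .move 960 n1620 (.cons 959 n7452 .nil)
noncomputable def n7454 : Strat := .move 1042 n222 (.cons 1041 n7453 .nil)
noncomputable def n7455 : Strat := .move 920 n7445 (.cons 1046 n7449 (.cons 964 n7450 (.cons 963 n7454 .nil)))
noncomputable def n7456 : Strat := .move 1005 n2099 (.cons 1043 n6370 .nil)
noncomputable def n7457 : Strat := .move 1042 n222 (.cons 1041 n7456 .nil)
noncomputable def n7458 : Strat := .move 960 n1620 (.cons 959 n6365 .nil)
noncomputable def n7459 : Strat := .move 1042 n222 (.cons 1041 n7458 .nil)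
noncomputable def n7460 : Strat := .move 963 n4687 (.cons 1045 n7457 (.cons 1046 n7459 .nil))
noncomputable def n7461 : Strat := .move 963 n5531 (.cons 964 n2151 .nil)
noncomputable def n7462 : Strat := .move 963 n5531 (.cons 964 n7457 .nil)
noncomputable def n7463 : Strat := .move 963 n5531 (.cons 964 n7459 .nil)
noncomputable def n7464 : Strat := .move 1004 n7455 (.cons 964 n7460 (.cons 1086 n7461 (.cons 1045 n7462 (.cons 1046 n7463 (.cons 1005 n7445 (.cons 963 n7392 .nil))))))
noncomputable def n7465 : Strat := .move 921 n73 (.cons 880 n7464 .nil)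
noncomputable def n7466 : Strat := .move 1002 n7438 (.cons 963 n7339 (.cons 1041 n7442 (.cons 1004 n7444 (.cons 1000 n7465 .nil))))
noncomputable def n7467 : Strat := .move 1045 n4686 (.cons 1086 n2209 .nil)
noncomputable def n7468 : Strat := .move 1043 n1266 (.cons 878 n50 .nil)
noncomputable def n7469 : Strat := .move 919 n198 (.cons 918 n7468 .nil)
noncomputable def n7470 : Strat := .move 961 n1260 (.cons 1005 n7469 .nil)
noncomputable def n7471 : Strat := .move 960 n1620 (.cons 959 n7470 .nil)
noncomputable def n7472 : Strat := .move 1004 n4687 (.cons 1046 n7467 (.cons 1045 n7471 .nil))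
noncomputable def n7473 : Strat := .move 921 n73 (.cons 880 n7472 .nil)
noncomputable def n7474 : Strat := .move 1002 n1417 (.cons 1000 n7473 .nil)
noncomputable def n7475 : Strat := .move 1005 n1980 (.cons 961 n2890 .nil)
noncomputable def n7476 : Strat := .move 960 n1620 (.cons 959 n7475 .nil)
noncomputable def n7477 : Strat := .move 1005 n2099 (.cons 1043 n2483 .nil)
noncomputable def n7478 : Strat := .move 1042 n222 (.cons 1041 n7477 .nil)
noncomputable def n7479 : Strat := .move 1005 n1980 (.cons 961 n2963 .nil)
noncomputable def n7480 : Strat := .move 960 n1620 (.cons 959 n7479 .nil)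
noncomputable def n7481 : Strat := .move 1004 n7476 (.cons 960 n7478 (.cons 1043 n7480 (.cons 1005 n7270 (.cons 961 n6367 .nil))))
noncomputable def n7482 : Strat := .move 1002 n1417 (.cons 1000 n7481 .nil)
noncomputable def n7483 : Strat := .move 1000 n1996 (.cons 1002 n3377 .nil)
noncomputable def n7484 : Strat := .move 1004 n2647 (.cons 960 n4687 .nil)
noncomputable def n7485 : Strat := .move 1043 n50 (.cons 1084 n7484 .nil)
noncomputable def n7486 : Strat := .move 879 n1311 (.cons 1042 n282 .nil)
noncomputable def n7487 : Strat := .move 920 n7486 (.cons 838 n2551 (.cons 1042 n4234 .nil))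
noncomputable def n7488 : Strat := .move 1043 n50 (.cons 1084 n7487 .nil)
noncomputable def n7489 : Strat := .move 1043 n7484 (.cons 1004 n7487 .nil)
noncomputable def n7490 : Strat := .move 879 n282 (.cons 838 n7484 .nil)
noncomputable def n7491 : Strat := .move 919 n77 (.cons 918 n7484 .nil)
noncomputable def n7492 : Strat := .move 920 n1964 (.cons 1042 n7490 (.cons 879 n7491 .nil))
noncomputable def n7493 : Strat := .move 1002 n7485 (.cons 960 n7348 (.cons 1004 n7488 (.cons 1084 n7489 (.cons 1043 n7492 .nil))))
noncomputable def n7494 : Strat := .move 921 n73 (.cons 880 n7493 .nil)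
noncomputable def n7495 : Strat := .move 921 n73 (.cons 880 n7348 .nil)
noncomputable def n7496 : Strat := .move 1002 n1417 (.cons 1000 n7495 .nil)
noncomputable def n7497 : Strat := .move 879 n4211 (.cons 920 n4214 (.cons 878 n4405 (.cons 838 n4406 .nil)))
noncomputable def n7498 : Strat := .move 880 n4200 (.cons 921 n7497 .nil)
noncomputable def n7499 : Strat := .move 919 n198 (.cons 918 n7498 .nil)
noncomputable def n7500 : Strat := .move 960 n411 (.cons 1000 n7499 .nil)
noncomputable def n7501 : Strat := .move 961 n7483 (.cons 1000 n7494 (.cons 960 n7496 (.cons 1002 n7500 .nil)))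
noncomputable def n7502 : Strat := .win 920 0 918
noncomputable def n7503 : Strat := .move 918 n1987 (.cons 961 n7502 .nil)
noncomputable def n7504 : Strat := .move 919 n7503 (.cons 920 n4446 .nil)
noncomputable def n7505 : Strat := .move 1042 n222 (.cons 1041 n7504 .nil)
noncomputable def n7506 : Strat := .move 960 n1620 (.cons 959 n7505 .nil)
noncomputable def n7507 : Strat := .move 1004 n4687 (.cons 1045 n7506 .nil)
noncomputable def n7508 : Strat := .move 921 n73 (.cons 880 n7507 .nil)
noncomputable def n7509 : Strat := .move 1002 n1417 (.cons 1000 n7508 .nil)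
noncomputable def n7510 : Strat := .move 1005 n1980 (.cons 961 n6370 .nil)
noncomputable def n7511 : Strat := .move 960 n1620 (.cons 959 n7510 .nil)
noncomputable def n7512 : Strat := .move 961 n1260 (.cons 1005 n4811 .nil)
noncomputable def n7513 : Strat := .move 960 n1620 (.cons 959 n7512 .nil)
noncomputable def n7514 : Strat := .move 1004 n4687 (.cons 1045 n7511 (.cons 1046 n7513 .nil))
noncomputable def n7515 : Strat := .move 921 n73 (.cons 880 n7514 .nil)
noncomputable def n7516 : Strat := .move 1002 n1417 (.cons 1000 n7515 .nil)
noncomputable def n7517 : Strat := .move 921 n73 (.cons 880 n4687 .nil)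
noncomputable def n7518 : Strat := .move 1004 n7517 (.cons 921 n6367 .nil)
noncomputable def n7519 : Strat := .move 1002 n1417 (.cons 1000 n7518 .nil)
noncomputable def n7520 : Strat := .move 1004 n4687 (.cons 1046 n7471 .nil)
noncomputable def n7521 : Strat := .move 921 n73 (.cons 880 n7520 .nil)
noncomputable def n7522 : Strat := .move 1002 n1417 (.cons 1000 n7521 .nil)
noncomputable def n7523 : Strat := .move 1004 n7471 (.cons 960 n2192 (.cons 961 n7457 (.cons 1005 n7506 (.cons 1043 n7511 .nil))))
noncomputable def n7524 : Strat := .move 921 n73 (.cons 880 n7523 .nil)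
noncomputable def n7525 : Strat := .move 1002 n1417 (.cons 1000 n7524 .nil)
noncomputable def n7526 : Strat := .move 1045 n4686 (.cons 1086 n2192 .nil)
noncomputable def n7527 : Strat := .move 1004 n7467 (.cons 960 n7526 (.cons 961 n7459 (.cons 1043 n7513 (.cons 1041 n7471 (.cons 1005 n7506 .nil)))))
noncomputable def n7528 : Strat := .move 921 n73 (.cons 880 n7527 .nil)
noncomputable def n7529 : Strat := .move 1002 n1417 (.cons 1000 n7528 .nil)
noncomputable def n7530 : Strat := .move 1045 n374 (.cons 1046 n2192 .nil)
noncomputable def n7531 : Strat := .move 1004 n4687 (.cons 1046 n7526 (.cons 1086 n7530 (.cons 1045 n2192 .nil)))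
noncomputable def n7532 : Strat := .move 921 n73 (.cons 880 n7531 .nil)
noncomputable def n7533 : Strat := .move 1002 n1417 (.cons 1000 n7532 .nil)
noncomputable def n7534 : Strat := .move 837 n4167 (.cons 959 n1281 .nil)
noncomputable def n7535 : Strat := .move 878 n4168 (.cons 1041 n7534 .nil)
noncomputable def n7536 : Strat := .move 837 n1283 (.cons 795 n4167 .nil)
noncomputable def n7537 : Strat := .move 836 n1284 (.cons 877 n7536 .nil)
noncomputable def n7538 : Strat := .move 878 n4168 (.cons 1041 n7537 .nil)
noncomputable def n7539 : Strat := .win 959 6 836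
noncomputable def n7540 : Strat := .move 836 n7539 (.cons 959 n4879 .nil)
noncomputable def n7541 : Strat := .move 877 n4451 (.cons 1042 n7540 .nil)
noncomputable def n7542 : Strat := .move 918 n7502 (.cons 920 n7541 .nil)
noncomputable def n7543 : Strat := .move 878 n2080 (.cons 836 n4168 .nil)
noncomputable def n7544 : Strat := .move 877 n4451 (.cons 1042 n7543 .nil)
noncomputable def n7545 : Strat := .move 918 n7502 (.cons 920 n7544 .nil)
noncomputable def n7546 : Strat := .move 919 n7535 (.cons 797 n7538 (.cons 878 n7542 (.cons 959 n7545 .nil)))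
noncomputable def n7547 : Strat := .move 921 n73 (.cons 880 n7546 .nil)
noncomputable def n7548 : Strat := .move 960 n1997 (.cons 961 n7547 .nil)
noncomputable def n7549 : Strat := .move 1000 n1996 (.cons 1002 n7548 .nil)
noncomputable def n7550 : Strat := .move 961 n1454 (.cons 959 n7499 .nil)
noncomputable def n7551 : Strat := .move 1000 n1997 (.cons 961 n7547 .nil)
noncomputable def n7552 : Strat := .move 961 n411 (.cons 1000 n7499 .nil)
noncomputable def n7553 : Strat := .move 1000 n7535 (.cons 797 n7538 (.cons 878 n7542 (.cons 959 n7545 .nil)))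
noncomputable def n7554 : Strat := .move 1083 n1942 (.cons 959 n1380 .nil)
noncomputable def n7555 : Strat := .move 1042 n1943 (.cons 877 n7554 .nil)
noncomputable def n7556 : Strat := .move 918 n7502 (.cons 920 n7555 .nil)
noncomputable def n7557 : Strat := .move 918 n7502 (.cons 920 n4457 .nil)
noncomputable def n7558 : Strat := .move 877 n287 (.cons 876 n2080 .nil)
noncomputable def n7559 : Strat := .move 879 n1290 (.cons 838 n7558 .nil)
noncomputable def n7560 : Strat := .move 837 n4169 (.cons 1041 n1285 .nil)
noncomputable def n7561 : Strat := .move 837 n4169 (.cons 1041 n1281 .nil)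
noncomputable def n7562 : Strat := .move 878 n7559 (.cons 879 n7560 (.cons 836 n7561 .nil))
noncomputable def n7563 : Strat := .move 920 n77 (.cons 918 n7562 .nil)
noncomputable def n7564 : Strat := .move 838 n299 (.cons 797 n4209 .nil)
noncomputable def n7565 : Strat := .move 879 n1306 (.cons 1042 n7564 .nil)
noncomputable def n7566 : Strat := .move 920 n77 (.cons 918 n7565 .nil)
noncomputable def n7567 : Strat := .move 837 n1283 (.cons 795 n4169 .nil)
noncomputable def n7568 : Strat := .move 836 n1284 (.cons 877 n7567 .nil)
noncomputable def n7569 : Strat := .move 836 n1284 (.cons 877 n7561 .nil)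
noncomputable def n7570 : Strat := .move 1000 n4168 (.cons 1041 n7534 .nil)
noncomputable def n7571 : Strat := .move 837 n1283 (.cons 795 n1281 .nil)
noncomputable def n7572 : Strat := .move 836 n1284 (.cons 877 n7571 .nil)
noncomputable def n7573 : Strat := .move 878 n7568 (.cons 795 n7569 (.cons 877 n7570 (.cons 1000 n7572 (.cons 837 n4490 .nil))))
noncomputable def n7574 : Strat := .move 1042 n1289 (.cons 920 n4488 .nil)
noncomputable def n7575 : Strat := .move 879 n1290 (.cons 838 n7574 .nil)
noncomputable def n7576 : Strat := .move 879 n1290 (.cons 838 n7560 .nil)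
noncomputable def n7577 : Strat := .move 837 n4167 (.cons 959 n1285 .nil)
noncomputable def n7578 : Strat := .move 1000 n4168 (.cons 1041 n7577 .nil)
noncomputable def n7579 : Strat := .move 920 n287 (.cons 876 n1306 .nil)
noncomputable def n7580 : Strat := .move 877 n2080 (.cons 836 n7579 .nil)
noncomputable def n7581 : Strat := .move 879 n1290 (.cons 838 n7580 .nil)
noncomputable def n7582 : Strat := .move 878 n7575 (.cons 920 n7576 (.cons 879 n7578 (.cons 1000 n7581 .nil)))
noncomputable def n7583 : Strat := .move 919 n7553 (.cons 1000 n7556 (.cons 959 n7557 (.cons 1042 n7563 (.cons 877 n7566 (.cons 920 n7573 (.cons 918 n7582 .nil))))))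
noncomputable def n7584 : Strat := .move 921 n73 (.cons 880 n7583 .nil)
noncomputable def n7585 : Strat := .move 960 n1925 (.cons 1000 n7550 (.cons 1004 n7551 (.cons 959 n7552 (.cons 961 n7584 .nil))))
noncomputable def n7586 : Strat := .move 1004 n1260 (.cons 1005 n4786 .nil)
noncomputable def n7587 : Strat := .move 1004 n1261 (.cons 959 n4786 .nil)
noncomputable def n7588 : Strat := .move 958 n4632 (.cons 920 n1403 .nil)
noncomputable def n7589 : Strat := .move 959 n718 (.cons 917 n7588 .nil)
noncomputable def n7590 : Strat := .move 918 n716 (.cons 919 n7589 .nil)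
noncomputable def n7591 : Strat := .move 961 n1454 (.cons 959 n7586 (.cons 1005 n7587 (.cons 1004 n7590 .nil)))
noncomputable def n7592 : Strat := .move 921 n73 (.cons 880 n7591 .nil)
noncomputable def n7593 : Strat := .move 921 n73 (.cons 880 n1766 .nil)
noncomputable def n7594 : Strat := .move 1004 n1261 (.cons 959 n7593 .nil)
noncomputable def n7595 : Strat := .move 921 n4632 (.cons 920 n73 .nil)
noncomputable def n7596 : Strat := .move 958 n1403 (.cons 1002 n7595 .nil)
noncomputable def n7597 : Strat := .move 959 n718 (.cons 917 n7596 .nil)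
noncomputable def n7598 : Strat := .move 918 n716 (.cons 919 n7597 .nil)
noncomputable def n7599 : Strat := .move 1004 n1260 (.cons 1005 n7593 .nil)
noncomputable def n7600 : Strat := .move 961 n1454 (.cons 1005 n7594 (.cons 1004 n7598 (.cons 959 n7599 .nil)))
noncomputable def n7601 : Strat := .move 1002 n1620 (.cons 959 n5167 .nil)
noncomputable def n7602 : Strat := .move 1002 n374 (.cons 1046 n2207 .nil)
noncomputable def n7603 : Strat := .move 1045 n4686 (.cons 1086 n7602 .nil)
noncomputable def n7604 : Strat := .move 1005 n1980 (.cons 961 n7603 .nil)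
noncomputable def n7605 : Strat := .move 1004 n2214 (.cons 1005 n2218 (.cons 961 n7601 (.cons 959 n7604 .nil)))
noncomputable def n7606 : Strat := .move 921 n73 (.cons 880 n7605 .nil)
noncomputable def n7607 : Strat := .move 961 n1260 (.cons 1005 n3313 .nil)
noncomputable def n7608 : Strat := .move 961 n1261 (.cons 959 n3313 .nil)
noncomputable def n7609 : Strat := .move 1002 n1620 (.cons 959 n6366 .nil)
noncomputable def n7610 : Strat := .move 1004 n2214 (.cons 959 n7607 (.cons 1005 n7608 (.cons 961 n7609 .nil)))
noncomputable def n7611 : Strat := .move 1042 n1270 (.cons 1083 n3368 .nil)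
noncomputable def n7612 : Strat := .move 1002 n1264 (.cons 837 n7468 (.cons 1043 n7611 .nil))
noncomputable def n7613 : Strat := .move 919 n198 (.cons 918 n7612 .nil)
noncomputable def n7614 : Strat := .move 918 n716 (.cons 919 n4901 .nil)
noncomputable def n7615 : Strat := .move 961 n7587 (.cons 959 n7613 (.cons 1002 n7614 (.cons 918 n5244 (.cons 1004 n7590 .nil))))
noncomputable def n7616 : Strat := .move 921 n73 (.cons 880 n7615 .nil)
noncomputable def n7617 : Strat := .move 920 n1269 (.cons 1083 n1763 .nil)
noncomputable def n7618 : Strat := .move 1042 n7617 (.cons 879 n2023 .nil)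
noncomputable def n7619 : Strat := .move 1004 n1260 (.cons 1005 n7618 .nil)
noncomputable def n7620 : Strat := .move 961 n198 (.cons 918 n7619 .nil)
noncomputable def n7621 : Strat := .move 961 n198 (.cons 918 n7497 .nil)
noncomputable def n7622 : Strat := .move 920 n1306 (.cons 1042 n7564 .nil)
noncomputable def n7623 : Strat := .move 879 n4208 (.cons 882 n7622 (.cons 920 n4214 .nil))
noncomputable def n7624 : Strat := .move 918 n1987 (.cons 961 n4453 .nil)
noncomputable def n7625 : Strat := .move 1002 n4446 (.cons 878 n3368 .nil)
noncomputable def n7626 : Strat := .move 1042 n1943 (.cons 877 n7625 .nil)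
noncomputable def n7627 : Strat := .move 918 n1987 (.cons 961 n7626 .nil)
noncomputable def n7628 : Strat := .win 917 5 876
noncomputable def n7629 : Strat := .move 920 n7628 (.cons 917 n2814 .nil)
noncomputable def n7630 : Strat := .move 879 n2815 (.cons 878 n7629 .nil)
noncomputable def n7631 : Strat := .move 918 n1987 (.cons 961 n7630 .nil)
noncomputable def n7632 : Strat := .move 919 n7620 (.cons 1002 n7621 (.cons 918 n7623 (.cons 920 n7624 (.cons 879 n7627 (.cons 1042 n7631 .nil)))))
noncomputable def n7633 : Strat := .move 880 n4200 (.cons 921 n7632 .nil)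
noncomputable def n7634 : Strat := .move 1004 n1620 (.cons 959 n5167 .nil)
noncomputable def n7635 : Strat := .move 1084 n1743 (.cons 1042 n1795 .nil)
noncomputable def n7636 : Strat := .move 1043 n1266 (.cons 878 n7635 .nil)
noncomputable def n7637 : Strat := .move 878 n1262 (.cons 1043 n1286 .nil)
noncomputable def n7638 : Strat := .move 919 n7636 (.cons 1042 n7637 (.cons 878 n7542 .nil))
noncomputable def n7639 : Strat := .move 1004 n5167 (.cons 1045 n6366 .nil)
noncomputable def n7640 : Strat := .move 1002 n7634 (.cons 1004 n7638 (.cons 959 n7639 .nil))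
noncomputable def n7641 : Strat := .move 921 n73 (.cons 880 n7640 .nil)
noncomputable def n7642 : Strat := .move 1002 n7503 (.cons 961 n7636 .nil)
noncomputable def n7643 : Strat := .move 1084 n7393 (.cons 961 n1743 .nil)
noncomputable def n7644 : Strat := .move 1043 n1266 (.cons 878 n7643 .nil)
noncomputable def n7645 : Strat := .move 1041 n250 (.cons 1040 n1388 .nil)
noncomputable def n7646 : Strat := .move 1042 n1988 (.cons 961 n7645 .nil)
noncomputable def n7647 : Strat := .move 1043 n1266 (.cons 878 n7646 .nil)
noncomputable def n7648 : Strat := .move 961 n50 (.cons 1084 n198 .nil)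
noncomputable def n7649 : Strat := .move 1043 n1266 (.cons 878 n7648 .nil)
noncomputable def n7650 : Strat := .move 1084 n1795 (.cons 1125 n1743 .nil)
noncomputable def n7651 : Strat := .move 1043 n7643 (.cons 1042 n7648 (.cons 961 n7650 (.cons 1084 n7646 .nil)))
noncomputable def n7652 : Strat := .win 878 7 836
noncomputable def n7653 : Strat := .move 836 n4879 (.cons 795 n7652 .nil)
noncomputable def n7654 : Strat := .move 877 n4451 (.cons 1042 n7653 .nil)
noncomputable def n7655 : Strat := .move 918 n1987 (.cons 961 n7654 .nil)
noncomputable def n7656 : Strat := .move 1043 n1266 (.cons 878 n7650 .nil)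
noncomputable def n7657 : Strat := .move 1002 n7644 (.cons 1084 n7647 (.cons 1042 n7649 (.cons 878 n7651 (.cons 1043 n7655 (.cons 961 n7656 .nil)))))
noncomputable def n7658 : Strat := .move 1002 n7636 (.cons 1042 n7637 (.cons 878 n7542 .nil))
noncomputable def n7659 : Strat := .move 1002 n7503 (.cons 961 n7637 .nil)
noncomputable def n7660 : Strat := .move 1083 n2276 (.cons 961 n1380 .nil)
noncomputable def n7661 : Strat := .move 920 n1763 (.cons 879 n7660 .nil)
noncomputable def n7662 : Strat := .move 1083 n2276 (.cons 961 n4455 .nil)
noncomputable def n7663 : Strat := .move 920 n1763 (.cons 879 n7662 .nil)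
noncomputable def n7664 : Strat := .move 920 n1763 (.cons 879 n4456 .nil)
noncomputable def n7665 : Strat := .move 1002 n1266 (.cons 878 n7645 .nil)
noncomputable def n7666 : Strat := .move 1043 n1288 (.cons 1084 n7665 .nil)
noncomputable def n7667 : Strat := .move 1042 n7661 (.cons 1123 n7663 (.cons 961 n7664 (.cons 920 n7666 .nil)))
noncomputable def n7668 : Strat := .move 919 n7642 (.cons 920 n7657 (.cons 961 n7658 (.cons 1042 n7659 (.cons 1043 n7503 (.cons 918 n7667 .nil)))))
noncomputable def n7669 : Strat := .move 921 n73 (.cons 880 n7668 .nil)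
noncomputable def n7670 : Strat := .move 960 n7592 (.cons 1002 n7550 (.cons 878 n7600 (.cons 918 n7606 (.cons 880 n7610 (.cons 1005 n7616 (.cons 959 n7633 (.cons 961 n7641 (.cons 1004 n7669 .nil))))))))
noncomputable def n7671 : Strat := .move 963 n7474 (.cons 921 n7482 (.cons 959 n7501 (.cons 1005 n7509 (.cons 1043 n7516 (.cons 961 n7519 (.cons 1041 n7522 (.cons 1045 n7525 (.cons 1046 n7529 (.cons 960 n7533 (.cons 1004 n7549 (.cons 1002 n7585 (.cons 1000 n7670 .nil))))))))))))
noncomputable def n7672 : Strat := .move 963 n7266 (.cons 964 n7508 (.cons 961 n7440 .nil))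
noncomputable def n7673 : Strat := .move 963 n1417 (.cons 1000 n7508 .nil)
noncomputable def n7674 : Strat := .move 877 n3092 (.cons 836 n3091 .nil)
noncomputable def n7675 : Strat := .move 918 n718 (.cons 917 n7674 .nil)
noncomputable def n7676 : Strat := .move 960 n200 (.cons 1004 n7675 .nil)
noncomputable def n7677 : Strat := .move 959 n2979 (.cons 958 n7676 .nil)
noncomputable def n7678 : Strat := .move 1000 n2818 (.cons 999 n7677 .nil)
noncomputable def n7679 : Strat := .move 1042 n4692 (.cons 920 n3027 .nil)
noncomputable def n7680 : Strat := .move 1043 n50 (.cons 1084 n7679 .nil)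
noncomputable def n7681 : Strat := .win 960 2 917
noncomputable def n7682 : Strat := .move 917 n7280 (.cons 876 n7681 .nil)
noncomputable def n7683 : Strat := .move 918 n7278 (.cons 877 n7682 .nil)
noncomputable def n7684 : Strat := .move 1041 n2980 (.cons 1040 n7683 .nil)
noncomputable def n7685 : Strat := .move 959 n2979 (.cons 958 n7684 .nil)
noncomputable def n7686 : Strat := .move 1000 n2818 (.cons 999 n7685 .nil)
noncomputable def n7687 : Strat := .move 960 n200 (.cons 1004 n7250 .nil)
noncomputable def n7688 : Strat := .move 959 n2979 (.cons 958 n7687 .nil)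
noncomputable def n7689 : Strat := .move 1000 n2818 (.cons 999 n7688 .nil)
noncomputable def n7690 : Strat := .move 961 n7678 (.cons 958 n7680 (.cons 1004 n7686 (.cons 1042 n7689 .nil)))
noncomputable def n7691 : Strat := .move 921 n73 (.cons 880 n7690 .nil)
noncomputable def n7692 : Strat := .move 1002 n7267 (.cons 1000 n7672 (.cons 961 n7441 (.cons 964 n7673 (.cons 963 n7691 .nil))))
noncomputable def n7693 : Strat := .move 1000 n2819 (.cons 963 n7288 .nil)
noncomputable def n7694 : Strat := .move 1004 n5597 (.cons 960 n3084 .nil)
noncomputable def n7695 : Strat := .move 959 n2979 (.cons 958 n7694 .nil)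
noncomputable def n7696 : Strat := .move 1000 n2819 (.cons 963 n7695 .nil)
noncomputable def n7697 : Strat := .move 1000 n7222 (.cons 999 n7695 (.cons 1041 n7288 .nil))
noncomputable def n7698 : Strat := .move 963 n4687 (.cons 1046 n7467 (.cons 1045 n2209 .nil))
noncomputable def n7699 : Strat := .move 963 n5531 (.cons 964 n2209 .nil)
noncomputable def n7700 : Strat := .move 1004 n7445 (.cons 964 n7698 (.cons 1045 n7699 (.cons 963 n7403 .nil)))
noncomputable def n7701 : Strat := .move 921 n73 (.cons 880 n7700 .nil)
noncomputable def n7702 : Strat := .move 1002 n7223 (.cons 1039 n7693 (.cons 961 n7443 (.cons 999 n7696 (.cons 963 n7697 (.cons 1000 n7701 .nil)))))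
noncomputable def n7703 : Strat := .move 1005 n3741 (.cons 961 n6987 .nil)
noncomputable def n7704 : Strat := .move 1004 n1620 (.cons 959 n7703 .nil)
noncomputable def n7705 : Strat := .move 878 n1262 (.cons 1043 n4485 .nil)
noncomputable def n7706 : Strat := .move 879 n1290 (.cons 838 n4406 .nil)
noncomputable def n7707 : Strat := .move 878 n1262 (.cons 1043 n7706 .nil)
noncomputable def n7708 : Strat := .move 963 n198 (.cons 918 n1357 .nil)
noncomputable def n7709 : Strat := .move 961 n1263 (.cons 837 n7708 .nil)
noncomputable def n7710 : Strat := .move 878 n4485 (.cons 918 n7706 (.cons 879 n7709 .nil))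
noncomputable def n7711 : Strat := .move 878 n1262 (.cons 1043 n7709 .nil)
noncomputable def n7712 : Strat := .move 917 n3586 (.cons 920 n3583 .nil)
noncomputable def n7713 : Strat := .move 918 n3503 (.cons 963 n7712 .nil)
noncomputable def n7714 : Strat := .move 959 n718 (.cons 917 n199 .nil)
noncomputable def n7715 : Strat := .move 1042 n1943 (.cons 877 n1374 .nil)
noncomputable def n7716 : Strat := .move 918 n7712 (.cons 916 n7714 (.cons 917 n7715 .nil))
noncomputable def n7717 : Strat := .move 1083 n1375 (.cons 1124 n1816 .nil)
noncomputable def n7718 : Strat := .move 1042 n1956 (.cons 879 n7717 (.cons 1083 n7645 .nil))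
noncomputable def n7719 : Strat := .move 1043 n1265 (.cons 1084 n7718 .nil)
noncomputable def n7720 : Strat := .move 961 n5105 (.cons 964 n7713 (.cons 963 n7716 (.cons 918 n7719 .nil)))
noncomputable def n7721 : Strat := .move 919 n7705 (.cons 918 n7707 (.cons 1043 n7710 (.cons 879 n7711 (.cons 878 n7720 .nil))))
noncomputable def n7722 : Strat := .move 1004 n1620 (.cons 959 n7187 .nil)
noncomputable def n7723 : Strat := .move 1004 n1620 (.cons 959 n6366 .nil)
noncomputable def n7724 : Strat := .move 959 n2002 (.cons 1004 n7427 .nil)
noncomputable def n7725 : Strat := .move 1005 n2099 (.cons 1043 n3741 .nil)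
noncomputable def n7726 : Strat := .move 1004 n222 (.cons 1041 n7725 .nil)
noncomputable def n7727 : Strat := .move 1004 n222 (.cons 1041 n6365 .nil)
noncomputable def n7728 : Strat := .move 1043 n250 (.cons 1040 n1266 .nil)
noncomputable def n7729 : Strat := .move 919 n1388 (.cons 1082 n7728 .nil)
noncomputable def n7730 : Strat := .win 1164 3 1000
noncomputable def n7731 : Strat := .win 1083 1 959
noncomputable def n7732 : Strat := .move 1123 n7730 (.cons 1164 n7731 .nil)
noncomputable def n7733 : Strat := .move 1082 n1990 (.cons 919 n7732 .nil)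
noncomputable def n7734 : Strat := .move 1041 n3359 (.cons 1039 n7729 (.cons 1043 n7733 .nil))
noncomputable def n7735 : Strat := .move 919 n1986 (.cons 1004 n7196 .nil)
noncomputable def n7736 : Strat := .move 1042 n7726 (.cons 961 n7727 (.cons 1005 n3360 (.cons 1004 n7734 (.cons 1041 n7197 (.cons 1043 n7735 .nil)))))
noncomputable def n7737 : Strat := .move 1043 n1288 (.cons 1084 n7645 .nil)
noncomputable def n7738 : Strat := .move 919 n4446 (.cons 878 n7737 (.cons 1084 n7194 (.cons 1043 n7196 .nil)))
noncomputable def n7739 : Strat := .move 879 n2990 (.cons 918 n1289 .nil)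
noncomputable def n7740 : Strat := .move 878 n1262 (.cons 1043 n7739 .nil)
noncomputable def n7741 : Strat := .move 918 n2815 (.cons 878 n1943 .nil)
noncomputable def n7742 : Strat := .move 879 n1289 (.cons 920 n7741 .nil)
noncomputable def n7743 : Strat := .move 919 n4446 (.cons 878 n7737 (.cons 1084 n7740 (.cons 1043 n7742 .nil)))
noncomputable def n7744 : Strat := .move 1124 n242 (.cons 961 n1936 .nil)
noncomputable def n7745 : Strat := .move 959 n1938 (.cons 918 n199 .nil)
noncomputable def n7746 : Strat := .move 961 n1948 (.cons 920 n7745 .nil)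
noncomputable def n7747 : Strat := .move 1083 n1984 (.cons 920 n7744 (.cons 1124 n7746 (.cons 961 n7325 .nil)))
noncomputable def n7748 : Strat := .move 919 n1380 (.cons 1041 n1944 .nil)
noncomputable def n7749 : Strat := .move 1083 n1984 (.cons 920 n7744 (.cons 1124 n7746 (.cons 961 n7748 .nil)))
noncomputable def n7750 : Strat := .move 959 n1938 (.cons 918 n2666 .nil)
noncomputable def n7751 : Strat := .move 919 n1380 (.cons 1041 n4446 .nil)
noncomputable def n7752 : Strat := .move 1083 n7744 (.cons 1124 n7750 (.cons 961 n7751 .nil))
noncomputable def n7753 : Strat := .move 919 n1380 (.cons 1041 n2277 .nil)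
noncomputable def n7754 : Strat := .move 1083 n1984 (.cons 920 n7744 (.cons 1124 n7753 (.cons 961 n7751 .nil)))
noncomputable def n7755 : Strat := .move 1124 n242 (.cons 961 n7324 .nil)
noncomputable def n7756 : Strat := .move 1083 n1984 (.cons 920 n7755 (.cons 1124 n7746 (.cons 961 n7331 .nil)))
noncomputable def n7757 : Strat := .move 1042 n7738 (.cons 838 n7743 (.cons 919 n7747 (.cons 1084 n7749 (.cons 920 n7752 (.cons 918 n7754 (.cons 1082 n7756 .nil))))))
noncomputable def n7758 : Strat := .move 758 n7722 (.cons 961 n7723 (.cons 1005 n7724 (.cons 959 n7736 (.cons 1004 n7757 .nil))))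
noncomputable def n7759 : Strat := .move 963 n5531 (.cons 964 n7268 .nil)
noncomputable def n7760 : Strat := .move 1042 n222 (.cons 1041 n7759 .nil)
noncomputable def n7761 : Strat := .move 1004 n7703 (.cons 1005 n7760 (.cons 963 n7402 (.cons 961 n6366 .nil)))
noncomputable def n7762 : Strat := .move 1002 n7704 (.cons 1004 n7721 (.cons 963 n7758 (.cons 959 n7761 (.cons 961 n7723 .nil))))
noncomputable def n7763 : Strat := .move 1004 n1260 (.cons 1005 n4535 .nil)
noncomputable def n7764 : Strat := .move 919 n198 (.cons 918 n7497 .nil)
noncomputable def n7765 : Strat := .move 963 n7763 (.cons 919 n4473 (.cons 1004 n4535 (.cons 964 n7764 .nil)))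
noncomputable def n7766 : Strat := .win 919 7 877
noncomputable def n7767 : Strat := .move 877 n7766 (.cons 919 n3092 .nil)
noncomputable def n7768 : Strat := .move 1042 n3094 (.cons 1083 n7767 .nil)
noncomputable def n7769 : Strat := .move 918 n718 (.cons 917 n7768 .nil)
noncomputable def n7770 : Strat := .move 959 n200 (.cons 1004 n7769 .nil)
noncomputable def n7771 : Strat := .move 963 n198 (.cons 918 n4534 .nil)
noncomputable def n7772 : Strat := .move 879 n2814 (.cons 882 n1352 .nil)
noncomputable def n7773 : Strat := .move 920 n1351 (.cons 964 n7772 .nil)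
noncomputable def n7774 : Strat := .move 963 n198 (.cons 918 n7773 .nil)
noncomputable def n7775 : Strat := .move 920 n1352 (.cons 838 n1306 .nil)
noncomputable def n7776 : Strat := .move 920 n1352 (.cons 838 n2814 .nil)
noncomputable def n7777 : Strat := .move 878 n1290 (.cons 838 n2990 .nil)
noncomputable def n7778 : Strat := .move 878 n2990 (.cons 918 n4406 .nil)
noncomputable def n7779 : Strat := .move 879 n7775 (.cons 1042 n7776 (.cons 920 n7777 (.cons 838 n7778 .nil)))
noncomputable def n7780 : Strat := .move 918 n3503 (.cons 963 n3584 .nil)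
noncomputable def n7781 : Strat := .move 878 n4406 (.cons 1042 n4213 .nil)
noncomputable def n7782 : Strat := .move 879 n7775 (.cons 920 n4214 (.cons 838 n7781 .nil))
noncomputable def n7783 : Strat := .move 919 n7771 (.cons 1042 n7774 (.cons 963 n7779 (.cons 920 n7780 (.cons 918 n7782 .nil))))
noncomputable def n7784 : Strat := .move 961 n4924 (.cons 959 n7765 (.cons 963 n7770 (.cons 1004 n7783 .nil)))
noncomputable def n7785 : Strat := .move 879 n7777 (.cons 878 n4208 .nil)
noncomputable def n7786 : Strat := .move 1042 n222 (.cons 1041 n4446 .nil)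
noncomputable def n7787 : Strat := .move 1004 n1620 (.cons 959 n7786 .nil)
noncomputable def n7788 : Strat := .move 1004 n1620 (.cons 959 n7656 .nil)
noncomputable def n7789 : Strat := .move 964 n2855 (.cons 965 n3745 .nil)
noncomputable def n7790 : Strat := .move 1005 n1626 (.cons 1045 n7789 .nil)
noncomputable def n7791 : Strat := .move 1004 n1620 (.cons 959 n7790 .nil)
noncomputable def n7792 : Strat := .move 920 n7787 (.cons 1041 n7788 (.cons 1043 n7791 (.cons 1004 n7656 .nil)))
noncomputable def n7793 : Strat := .move 1042 n222 (.cons 1041 n7790 .nil)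
noncomputable def n7794 : Strat := .move 1004 n1620 (.cons 959 n7793 .nil)
noncomputable def n7795 : Strat := .move 878 n1262 (.cons 1043 n7791 .nil)
noncomputable def n7796 : Strat := .move 1002 n7792 (.cons 1004 n7636 (.cons 1043 n7794 (.cons 1042 n7795 .nil)))
noncomputable def n7797 : Strat := .move 1002 n1262 (.cons 1043 n7791 .nil)
noncomputable def n7798 : Strat := .move 878 n4485 (.cons 879 n7797 .nil)
noncomputable def n7799 : Strat := .move 1002 n539 (.cons 1004 n3359 .nil)
noncomputable def n7800 : Strat := .move 1041 n1388 (.cons 1082 n7799 .nil)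
noncomputable def n7801 : Strat := .move 918 n1943 (.cons 877 n2018 .nil)
noncomputable def n7802 : Strat := .move 1084 n1377 (.cons 1043 n7801 .nil)
noncomputable def n7803 : Strat := .move 1041 n1388 (.cons 1082 n3359 .nil)
noncomputable def n7804 : Strat := .move 879 n1289 (.cons 920 n2155 .nil)
noncomputable def n7805 : Strat := .move 1002 n7737 (.cons 1082 n7802 (.cons 1084 n7803 (.cons 1043 n7804 .nil)))
noncomputable def n7806 : Strat := .move 1083 n1942 (.cons 959 n4455 .nil)
noncomputable def n7807 : Strat := .move 920 n1763 (.cons 879 n7806 .nil)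
noncomputable def n7808 : Strat := .move 918 n1943 (.cons 877 n7807 .nil)
noncomputable def n7809 : Strat := .move 920 n1763 (.cons 879 n7554 .nil)
noncomputable def n7810 : Strat := .move 918 n1943 (.cons 877 n7809 .nil)
noncomputable def n7811 : Strat := .move 1042 n7800 (.cons 1004 n7805 (.cons 1041 n7808 (.cons 1043 n7810 .nil)))
noncomputable def n7812 : Strat := .move 919 n7785 (.cons 879 n7796 (.cons 1042 n7798 (.cons 878 n7811 .nil)))
noncomputable def n7813 : Strat := .move 1002 n1620 (.cons 959 n7703 .nil)
noncomputable def n7814 : Strat := .move 961 n1261 (.cons 959 n4322 .nil)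
noncomputable def n7815 : Strat := .move 1002 n3741 (.cons 961 n6987 .nil)
noncomputable def n7816 : Strat := .move 961 n2777 (.cons 963 n1465 .nil)
noncomputable def n7817 : Strat := .move 961 n2780 (.cons 1002 n1465 .nil)
noncomputable def n7818 : Strat := .move 1002 n6987 (.cons 964 n2890 .nil)
noncomputable def n7819 : Strat := .move 1005 n7815 (.cons 1002 n7816 (.cons 963 n7817 (.cons 961 n7818 .nil)))
noncomputable def n7820 : Strat := .move 1005 n6987 (.cons 964 n2890 .nil)
noncomputable def n7821 : Strat := .move 1002 n1620 (.cons 959 n7820 .nil)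
noncomputable def n7822 : Strat := .move 1002 n1620 (.cons 959 n7402 .nil)
noncomputable def n7823 : Strat := .move 1004 n7813 (.cons 1002 n7814 (.cons 959 n7819 (.cons 961 n7821 (.cons 963 n7822 (.cons 1005 n2218 .nil)))))
noncomputable def n7824 : Strat := .move 919 n198 (.cons 918 n7773 .nil)
noncomputable def n7825 : Strat := .move 957 n3687 (.cons 917 n5038 .nil)
noncomputable def n7826 : Strat := .move 958 n1403 (.cons 1002 n7825 .nil)
noncomputable def n7827 : Strat := .move 919 n5031 (.cons 920 n198 .nil)
noncomputable def n7828 : Strat := .move 957 n5038 (.cons 999 n7827 .nil)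
noncomputable def n7829 : Strat := .move 958 n1403 (.cons 1002 n7828 .nil)
noncomputable def n7830 : Strat := .move 959 n1449 (.cons 919 n4414 (.cons 918 n7826 (.cons 917 n7829 .nil)))
noncomputable def n7831 : Strat := .move 963 n1258 (.cons 919 n5044 (.cons 1002 n7824 (.cons 964 n7830 .nil)))
noncomputable def n7832 : Strat := .win 919 3 837
noncomputable def n7833 : Strat := .move 837 n4358 (.cons 882 n4269 .nil)
noncomputable def n7834 : Strat := .move 878 n7832 (.cons 919 n7833 .nil)
noncomputable def n7835 : Strat := .move 838 n4210 (.cons 920 n7834 .nil)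
noncomputable def n7836 : Strat := .win 837 2 837
noncomputable def n7837 : Strat := .move 1005 n5738 (.cons 963 n3511 (.cons 1002 n3510 (.cons 1004 n4280 .nil)))
noncomputable def n7838 : Strat := .move 882 n7836 (.cons 837 n7837 .nil)
noncomputable def n7839 : Strat := .move 838 n4210 (.cons 920 n7838 .nil)
noncomputable def n7840 : Strat := .move 919 n4209 (.cons 878 n198 .nil)
noncomputable def n7841 : Strat := .move 964 n410 (.cons 1002 n5345 .nil)
noncomputable def n7842 : Strat := .move 963 n7840 (.cons 918 n7841 .nil)
noncomputable def n7843 : Strat := .move 838 n4210 (.cons 920 n7842 .nil)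
noncomputable def n7844 : Strat := .move 918 n3503 (.cons 963 n2815 .nil)
noncomputable def n7845 : Strat := .move 918 n2815 (.cons 878 n7712 .nil)
noncomputable def n7846 : Strat := .move 882 n4599 (.cons 920 n7837 .nil)
noncomputable def n7847 : Strat := .move 919 n7844 (.cons 963 n7845 (.cons 918 n7846 .nil))
noncomputable def n7848 : Strat := .move 963 n198 (.cons 918 n7841 .nil)
noncomputable def n7849 : Strat := .move 878 n1263 (.cons 837 n1290 .nil)
noncomputable def n7850 : Strat := .move 1002 n1357 (.cons 964 n7849 .nil)
noncomputable def n7851 : Strat := .move 878 n1290 (.cons 838 n4273 .nil)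
noncomputable def n7852 : Strat := .move 878 n1262 (.cons 1043 n1290 .nil)
noncomputable def n7853 : Strat := .move 1002 n1357 (.cons 964 n7852 .nil)
noncomputable def n7854 : Strat := .move 963 n7850 (.cons 1002 n7851 (.cons 838 n4821 (.cons 837 n7853 (.cons 878 n7841 .nil))))
noncomputable def n7855 : Strat := .move 919 n7777 (.cons 878 n7848 (.cons 918 n7854 .nil))
noncomputable def n7856 : Strat := .move 879 n7835 (.cons 878 n7839 (.cons 882 n7843 (.cons 838 n7847 (.cons 920 n7855 .nil))))
noncomputable def n7857 : Strat := .move 1004 n1261 (.cons 959 n7824 .nil)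
noncomputable def n7858 : Strat := .move 963 n1454 (.cons 1005 n7857 (.cons 1004 n7824 .nil))
noncomputable def n7859 : Strat := .move 961 n5812 (.cons 1004 n7831 (.cons 1005 n3299 (.cons 959 n7856 (.cons 1002 n7858 .nil))))
noncomputable def n7860 : Strat := .move 1004 n7402 (.cons 1043 n7218 (.cons 1005 n7198 (.cons 961 n6366 .nil)))
noncomputable def n7861 : Strat := .move 1004 n1620 (.cons 959 n7402 .nil)
noncomputable def n7862 : Strat := .move 1004 n1620 (.cons 959 n7198 .nil)
noncomputable def n7863 : Strat := .move 1004 n1620 (.cons 959 n7218 .nil)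
noncomputable def n7864 : Strat := .move 879 n2990 (.cons 918 n4406 .nil)
noncomputable def n7865 : Strat := .move 878 n1262 (.cons 1043 n7864 .nil)
noncomputable def n7866 : Strat := .win 961 7 919
noncomputable def n7867 : Strat := .move 1084 n1795 (.cons 1125 n7866 .nil)
noncomputable def n7868 : Strat := .move 920 n224 (.cons 961 n1763 .nil)
noncomputable def n7869 : Strat := .move 1083 n7868 (.cons 879 n2762 (.cons 961 n1944 .nil))
noncomputable def n7870 : Strat := .move 1042 n7645 (.cons 1082 n7869 .nil)
noncomputable def n7871 : Strat := .move 1043 n7650 (.cons 1042 n7867 (.cons 1084 n7870 .nil))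
noncomputable def n7872 : Strat := .move 918 n1943 (.cons 877 n7554 .nil)
noncomputable def n7873 : Strat := .win 961 6 837
noncomputable def n7874 : Strat := .move 837 n4269 (.cons 836 n7873 .nil)
noncomputable def n7875 : Strat := .move 878 n1290 (.cons 838 n7874 .nil)
noncomputable def n7876 : Strat := .move 879 n1289 (.cons 920 n7875 .nil)
noncomputable def n7877 : Strat := .move 1042 n7196 (.cons 879 n7872 (.cons 918 n7876 .nil))
noncomputable def n7878 : Strat := .move 837 n7873 (.cons 961 n1285 .nil)
noncomputable def n7879 : Strat := .move 878 n1262 (.cons 1043 n7878 .nil)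
noncomputable def n7880 : Strat := .move 919 n7705 (.cons 918 n7707 (.cons 838 n7865 (.cons 878 n7871 (.cons 1043 n7877 (.cons 879 n7879 .nil)))))
noncomputable def n7881 : Strat := .move 1002 n7758 (.cons 959 n7860 (.cons 961 n7723 (.cons 878 n7861 (.cons 1005 n7862 (.cons 1041 n7863 (.cons 1004 n7880 .nil))))))
noncomputable def n7882 : Strat := .move 961 n1261 (.cons 959 n4828 .nil)
noncomputable def n7883 : Strat := .move 877 n2081 (.cons 918 n4456 .nil)
noncomputable def n7884 : Strat := .move 878 n2080 (.cons 836 n1290 .nil)
noncomputable def n7885 : Strat := .move 879 n1289 (.cons 920 n7884 .nil)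
noncomputable def n7886 : Strat := .move 877 n7885 (.cons 879 n4456 .nil)
noncomputable def n7887 : Strat := .move 919 n7196 (.cons 838 n7742 (.cons 879 n7883 (.cons 918 n7886 .nil)))
noncomputable def n7888 : Strat := .move 1083 n1948 (.cons 920 n7325 .nil)
noncomputable def n7889 : Strat := .move 961 n1261 (.cons 959 n7888 .nil)
noncomputable def n7890 : Strat := .move 877 n3092 (.cons 836 n7766 .nil)
noncomputable def n7891 : Strat := .move 918 n3094 (.cons 1083 n7890 .nil)
noncomputable def n7892 : Strat := .move 959 n2026 (.cons 961 n7891 .nil)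
noncomputable def n7893 : Strat := .move 961 n3503 (.cons 963 n1261 .nil)
noncomputable def n7894 : Strat := .move 918 n1943 (.cons 877 n7893 .nil)
noncomputable def n7895 : Strat := .move 879 n1289 (.cons 920 n4214 .nil)
noncomputable def n7896 : Strat := .move 919 n7196 (.cons 879 n7894 (.cons 918 n7895 .nil))
noncomputable def n7897 : Strat := .move 1042 n7882 (.cons 961 n7887 (.cons 919 n7889 (.cons 920 n7892 (.cons 1083 n7896 .nil))))
noncomputable def n7898 : Strat := .move 959 n2025 (.cons 1002 n7891 .nil)
noncomputable def n7899 : Strat := .move 1042 n2077 (.cons 1002 n7887 (.cons 1041 n7898 .nil))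
noncomputable def n7900 : Strat := .move 1002 n222 (.cons 1041 n4446 .nil)
noncomputable def n7901 : Strat := .move 1002 n222 (.cons 1041 n7196 .nil)
noncomputable def n7902 : Strat := .move 879 n1289 (.cons 920 n1762 .nil)
noncomputable def n7903 : Strat := .move 1042 n7900 (.cons 1043 n7901 (.cons 1002 n7196 (.cons 878 n7902 .nil)))
noncomputable def n7904 : Strat := .move 963 n5531 (.cons 964 n1988 .nil)
noncomputable def n7905 : Strat := .move 1042 n222 (.cons 1041 n7904 .nil)
noncomputable def n7906 : Strat := .move 1084 n7866 (.cons 961 n1795 .nil)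
noncomputable def n7907 : Strat := .move 1043 n1266 (.cons 878 n7906 .nil)
noncomputable def n7908 : Strat := .move 963 n5531 (.cons 964 n7907 .nil)
noncomputable def n7909 : Strat := .move 1002 n7786 (.cons 1084 n7905 (.cons 1042 n7908 .nil))
noncomputable def n7910 : Strat := .move 918 n1943 (.cons 877 n2815 .nil)
noncomputable def n7911 : Strat := .move 879 n1289 (.cons 920 n7910 .nil)
noncomputable def n7912 : Strat := .move 878 n2080 (.cons 836 n1287 .nil)
noncomputable def n7913 : Strat := .move 877 n2081 (.cons 918 n7912 .nil)
noncomputable def n7914 : Strat := .move 1043 n1288 (.cons 1084 n7913 .nil)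
noncomputable def n7915 : Strat := .move 878 n1287 (.cons 1002 n1291 .nil)
noncomputable def n7916 : Strat := .move 1043 n1288 (.cons 1084 n7915 .nil)
noncomputable def n7917 : Strat := .move 918 n1943 (.cons 877 n3503 .nil)
noncomputable def n7918 : Strat := .move 961 n7917 (.cons 963 n7617 .nil)
noncomputable def n7919 : Strat := .move 1043 n1288 (.cons 1084 n7918 .nil)
noncomputable def n7920 : Strat := .move 1042 n7196 (.cons 838 n7911 (.cons 879 n7914 (.cons 918 n7916 (.cons 878 n7919 .nil))))
noncomputable def n7921 : Strat := .move 879 n4208 (.cons 920 n7777 .nil)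
noncomputable def n7922 : Strat := .win 961 1 837
noncomputable def n7923 : Strat := .move 838 n7922 (.cons 961 n299 .nil)
noncomputable def n7924 : Strat := .move 920 n2814 (.cons 882 n7923 .nil)
noncomputable def n7925 : Strat := .move 918 n7628 (.cons 917 n2815 .nil)
noncomputable def n7926 : Strat := .move 920 n2814 (.cons 882 n7925 .nil)
noncomputable def n7927 : Strat := .move 879 n7777 (.cons 918 n4214 (.cons 878 n7924 (.cons 838 n7926 .nil)))
noncomputable def n7928 : Strat := .move 879 n4208 (.cons 1042 n4214 .nil)
noncomputable def n7929 : Strat := .move 1043 n1288 (.cons 1084 n1762 .nil)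
noncomputable def n7930 : Strat := .move 1042 n7902 (.cons 1041 n7919 (.cons 879 n7929 .nil))
noncomputable def n7931 : Strat := .move 919 n7903 (.cons 879 n7909 (.cons 1041 n7920 (.cons 1043 n7921 (.cons 1042 n7927 (.cons 918 n7928 (.cons 878 n7930 .nil))))))
noncomputable def n7932 : Strat := .move 1004 n2218 (.cons 1002 n7897 (.cons 961 n7899 (.cons 959 n7931 .nil)))
noncomputable def n7933 : Strat := .move 1002 n7705 (.cons 918 n7707 (.cons 1043 n7710 (.cons 879 n7711 (.cons 878 n7720 .nil))))
noncomputable def n7934 : Strat := .move 1084 n7866 (.cons 961 n1743 .nil)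
noncomputable def n7935 : Strat := .move 1043 n1266 (.cons 878 n7934 .nil)
noncomputable def n7936 : Strat := .move 961 n501 (.cons 917 n3503 .nil)
noncomputable def n7937 : Strat := .move 1042 n1269 (.cons 1083 n1943 .nil)
noncomputable def n7938 : Strat := .move 961 n501 (.cons 917 n7937 .nil)
noncomputable def n7939 : Strat := .move 961 n3503 (.cons 963 n7937 .nil)
noncomputable def n7940 : Strat := .move 918 n7936 (.cons 963 n7938 (.cons 917 n7939 (.cons 961 n7654 .nil)))
noncomputable def n7941 : Strat := .move 918 n7936 (.cons 963 n7938 (.cons 917 n7939 (.cons 961 n7541 .nil)))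
noncomputable def n7942 : Strat := .move 920 n7656 (.cons 1125 n7935 (.cons 1043 n7940 (.cons 878 n7941 (.cons 1042 n7907 .nil))))
noncomputable def n7943 : Strat := .move 1084 n1743 (.cons 1042 n7866 .nil)
noncomputable def n7944 : Strat := .move 1042 n7717 (.cons 920 n7645 .nil)
noncomputable def n7945 : Strat := .move 961 n5105 (.cons 918 n7944 .nil)
noncomputable def n7946 : Strat := .move 961 n1265 (.cons 1084 n5105 .nil)
noncomputable def n7947 : Strat := .move 1043 n7635 (.cons 1125 n7943 (.cons 1084 n7945 (.cons 1042 n7946 .nil)))
noncomputable def n7948 : Strat := .move 961 n3503 (.cons 963 n7712 .nil)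
noncomputable def n7949 : Strat := .move 961 n3503 (.cons 963 n7714 .nil)
noncomputable def n7950 : Strat := .move 918 n7948 (.cons 916 n7949 (.cons 961 n7654 .nil))
noncomputable def n7951 : Strat := .move 1002 n7711 (.cons 918 n7879 (.cons 837 n7942 (.cons 961 n7636 (.cons 878 n7947 (.cons 1043 n7950 .nil)))))
noncomputable def n7952 : Strat := .move 878 n1290 (.cons 838 n4406 .nil)
noncomputable def n7953 : Strat := .move 878 n4406 (.cons 1042 n7874 .nil)
noncomputable def n7954 : Strat := .move 879 n7952 (.cons 882 n7875 (.cons 838 n7953 (.cons 878 n4208 .nil)))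
noncomputable def n7955 : Strat := .move 879 n4269 (.cons 836 n1290 .nil)
noncomputable def n7956 : Strat := .move 837 n7873 (.cons 961 n7955 .nil)
noncomputable def n7957 : Strat := .move 878 n1262 (.cons 1043 n7956 .nil)
noncomputable def n7958 : Strat := .move 878 n1262 (.cons 1043 n7874 .nil)
noncomputable def n7959 : Strat := .move 920 n2814 (.cons 882 n7958 .nil)
noncomputable def n7960 : Strat := .move 920 n1306 (.cons 1042 n7958 .nil)
noncomputable def n7961 : Strat := .move 879 n4208 (.cons 1042 n7959 (.cons 882 n7960 (.cons 920 n7656 .nil)))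
noncomputable def n7962 : Strat := .move 1042 n7737 (.cons 1084 n7661 (.cons 1041 n7663 .nil))
noncomputable def n7963 : Strat := .move 1002 n7707 (.cons 1043 n7954 (.cons 1042 n7957 (.cons 838 n7961 (.cons 878 n7962 (.cons 879 n7879 .nil)))))
noncomputable def n7964 : Strat := .move 959 n2666 (.cons 957 n7319 .nil)
noncomputable def n7965 : Strat := .move 1043 n7645 (.cons 1082 n7964 .nil)
noncomputable def n7966 : Strat := .move 1083 n1942 (.cons 959 n1375 .nil)
noncomputable def n7967 : Strat := .move 961 n3503 (.cons 963 n7966 .nil)
noncomputable def n7968 : Strat := .move 918 n1943 (.cons 877 n7967 .nil)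
noncomputable def n7969 : Strat := .move 1042 n7737 (.cons 1084 n7965 (.cons 1043 n7968 .nil))
noncomputable def n7970 : Strat := .move 879 n2990 (.cons 918 n7874 .nil)
noncomputable def n7971 : Strat := .move 961 n1263 (.cons 837 n5105 .nil)
noncomputable def n7972 : Strat := .move 878 n4485 (.cons 838 n7970 (.cons 879 n7971 (.cons 918 n7956 .nil)))
noncomputable def n7973 : Strat := .move 1002 n7705 (.cons 878 n7969 (.cons 1043 n7972 (.cons 918 n7957 .nil)))
noncomputable def n7974 : Strat := .move 1042 n7737 (.cons 1082 n7802 (.cons 1084 n7803 (.cons 1043 n7804 .nil)))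
noncomputable def n7975 : Strat := .move 1042 n7196 (.cons 878 n7804 (.cons 879 n7872 (.cons 918 n7895 .nil)))
noncomputable def n7976 : Strat := .move 1002 n7705 (.cons 879 n7636 (.cons 878 n7974 (.cons 1043 n7975 .nil)))
noncomputable def n7977 : Strat := .move 961 n7771 (.cons 1042 n7774 (.cons 963 n7779 (.cons 920 n7780 (.cons 918 n7782 .nil))))
noncomputable def n7978 : Strat := .move 1042 n7645 (.cons 1082 n1956 .nil)
noncomputable def n7979 : Strat := .move 961 n5105 (.cons 918 n7978 .nil)
noncomputable def n7980 : Strat := .move 1043 n1266 (.cons 878 n7979 .nil)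
noncomputable def n7981 : Strat := .move 1043 n7635 (.cons 1084 n7979 (.cons 1042 n7946 .nil))
noncomputable def n7982 : Strat := .move 1043 n1266 (.cons 878 n7946 .nil)
noncomputable def n7983 : Strat := .move 920 n2814 (.cons 882 n1311 .nil)
noncomputable def n7984 : Strat := .move 879 n7983 (.cons 1042 n7849 .nil)
noncomputable def n7985 : Strat := .move 963 n198 (.cons 918 n7984 .nil)
noncomputable def n7986 : Strat := .move 879 n7195 (.cons 838 n7983 .nil)
noncomputable def n7987 : Strat := .move 961 n7708 (.cons 964 n7985 (.cons 963 n7986 (.cons 918 n7984 .nil)))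
noncomputable def n7988 : Strat := .move 1002 n7636 (.cons 1084 n7980 (.cons 878 n7981 (.cons 1042 n7982 (.cons 1043 n7987 .nil))))
noncomputable def n7989 : Strat := .move 878 n4485 (.cons 918 n7706 (.cons 879 n7971 .nil))
noncomputable def n7990 : Strat := .move 878 n1262 (.cons 1043 n7971 .nil)
noncomputable def n7991 : Strat := .move 918 n1943 (.cons 877 n7936 .nil)
noncomputable def n7992 : Strat := .move 920 n1763 (.cons 879 n7991 .nil)
noncomputable def n7993 : Strat := .move 1042 n7737 (.cons 1040 n7992 .nil)
noncomputable def n7994 : Strat := .move 1002 n7705 (.cons 918 n7707 (.cons 1043 n7989 (.cons 879 n7990 (.cons 878 n7993 .nil))))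
noncomputable def n7995 : Strat := .move 961 n1269 (.cons 1083 n7917 .nil)
noncomputable def n7996 : Strat := .move 920 n1763 (.cons 879 n7995 .nil)
noncomputable def n7997 : Strat := .move 1002 n7737 (.cons 1084 n7661 (.cons 1041 n7663 .nil))
noncomputable def n7998 : Strat := .move 1002 n7737 (.cons 1040 n7992 .nil)
noncomputable def n7999 : Strat := .move 1083 n1942 (.cons 959 n1948 .nil)
noncomputable def n8000 : Strat := .move 961 n3503 (.cons 963 n7999 .nil)
noncomputable def n8001 : Strat := .move 918 n1943 (.cons 877 n8000 .nil)
noncomputable def n8002 : Strat := .move 1002 n7737 (.cons 1043 n8001 .nil)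
noncomputable def n8003 : Strat := .move 1002 n7737 (.cons 1084 n7965 (.cons 1043 n7968 .nil))
noncomputable def n8004 : Strat := .move 1042 n7996 (.cons 961 n7805 (.cons 918 n7997 (.cons 1083 n7998 (.cons 879 n8002 (.cons 920 n8003 .nil)))))
noncomputable def n8005 : Strat := .move 1002 n1262 (.cons 1043 n4485 .nil)
noncomputable def n8006 : Strat := .move 1002 n1262 (.cons 1043 n7971 .nil)
noncomputable def n8007 : Strat := .move 1002 n4485 (.cons 879 n7971 (.cons 918 n7956 .nil))
noncomputable def n8008 : Strat := .move 1002 n1262 (.cons 1043 n7956 .nil)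
noncomputable def n8009 : Strat := .move 878 n8005 (.cons 879 n8006 (.cons 1043 n8007 (.cons 1002 n4485 (.cons 918 n8008 .nil))))
noncomputable def n8010 : Strat := .move 919 n7933 (.cons 879 n7951 (.cons 918 n7963 (.cons 920 n7973 (.cons 961 n7976 (.cons 1002 n7977 (.cons 877 n7988 (.cons 1083 n7994 (.cons 878 n8004 (.cons 1042 n8009 .nil)))))))))
noncomputable def n8011 : Strat := .move 878 n4485 (.cons 879 n8006 (.cons 918 n4486 .nil))
noncomputable def n8012 : Strat := .move 878 n2990 (.cons 918 n4273 .nil)
noncomputable def n8013 : Strat := .move 879 n4208 (.cons 920 n8012 .nil)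
noncomputable def n8014 : Strat := .move 1002 n1266 (.cons 878 n3368 .nil)
noncomputable def n8015 : Strat := .move 1043 n1288 (.cons 1084 n8014 .nil)
noncomputable def n8016 : Strat := .move 918 n1943 (.cons 877 n7948 .nil)
noncomputable def n8017 : Strat := .move 1042 n8015 (.cons 1043 n8016 .nil)
noncomputable def n8018 : Strat := .move 1042 n7996 (.cons 1083 n7992 (.cons 918 n7661 (.cons 920 n4498 .nil)))
noncomputable def n8019 : Strat := .move 879 n4208 (.cons 920 n7851 .nil)
noncomputable def n8020 : Strat := .move 919 n8011 (.cons 838 n8013 (.cons 879 n8017 (.cons 877 n7921 (.cons 878 n8018 (.cons 918 n8019 .nil)))))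
noncomputable def n8021 : Strat := .move 960 n7762 (.cons 1002 n7784 (.cons 961 n7812 (.cons 919 n7823 (.cons 1042 n7859 (.cons 963 n7881 (.cons 1005 n7932 (.cons 1004 n8010 (.cons 959 n8020 .nil))))))))
noncomputable def n8022 : Strat := .move 880 n4200 (.cons 921 n8021 .nil)
noncomputable def n8023 : Strat := .move 1000 n2865 (.cons 963 n825 .nil)
noncomputable def n8024 : Strat := .move 959 n200 (.cons 1004 n8023 .nil)
noncomputable def n8025 : Strat := .move 1004 n1261 (.cons 959 n4324 .nil)
noncomputable def n8026 : Strat := .move 963 n411 (.cons 1000 n4527 .nil)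
noncomputable def n8027 : Strat := .move 963 n411 (.cons 1000 n1260 .nil)
noncomputable def n8028 : Strat := .move 1004 n2853 (.cons 963 n4324 (.cons 1005 n8026 (.cons 1002 n8027 .nil)))
noncomputable def n8029 : Strat := .move 961 n8024 (.cons 963 n8025 (.cons 1004 n3703 (.cons 959 n8028 .nil)))
noncomputable def n8030 : Strat := .move 963 n411 (.cons 1000 n1454 .nil)
noncomputable def n8031 : Strat := .move 919 n4168 (.cons 1041 n3163 .nil)
noncomputable def n8032 : Strat := .move 919 n4349 (.cons 879 n4168 .nil)
noncomputable def n8033 : Strat := .move 877 n3608 (.cons 837 n3092 .nil)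
noncomputable def n8034 : Strat := .move 878 n8031 (.cons 837 n8032 (.cons 1041 n8033 .nil))
noncomputable def n8035 : Strat := .move 918 n718 (.cons 917 n8034 .nil)
noncomputable def n8036 : Strat := .move 1000 n825 (.cons 999 n8035 .nil)
noncomputable def n8037 : Strat := .move 959 n200 (.cons 1004 n8036 .nil)
noncomputable def n8038 : Strat := .move 963 n411 (.cons 1000 n7824 .nil)
noncomputable def n8039 : Strat := .move 961 n8030 (.cons 963 n8037 (.cons 1000 n7858 (.cons 1004 n8038 .nil)))
noncomputable def n8040 : Strat := .move 1041 n2980 (.cons 1040 n7294 .nil)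
noncomputable def n8041 : Strat := .move 1002 n199 (.cons 958 n8040 .nil)
noncomputable def n8042 : Strat := .move 959 n4414 (.cons 1002 n8035 (.cons 917 n8041 .nil))
noncomputable def n8043 : Strat := .move 1000 n3702 (.cons 959 n5098 (.cons 999 n8042 .nil))
noncomputable def n8044 : Strat := .move 963 n411 (.cons 1000 n1258 .nil)
noncomputable def n8045 : Strat := .move 961 n3703 (.cons 963 n8043 (.cons 1000 n7831 (.cons 999 n8044 .nil)))
noncomputable def n8046 : Strat := .move 836 n4580 (.cons 835 n4579 .nil)
noncomputable def n8047 : Strat := .move 837 n4358 (.cons 882 n8046 .nil)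
noncomputable def n8048 : Strat := .move 838 n4210 (.cons 920 n8047 .nil)
noncomputable def n8049 : Strat := .move 1005 n3511 (.cons 1002 n4280 .nil)
noncomputable def n8050 : Strat := .move 882 n7836 (.cons 837 n8049 .nil)
noncomputable def n8051 : Strat := .move 838 n4210 (.cons 920 n8050 .nil)
noncomputable def n8052 : Strat := .win 1002 7 837
noncomputable def n8053 : Strat := .move 837 n8052 (.cons 1002 n4269 .nil)
noncomputable def n8054 : Strat := .move 919 n2990 (.cons 918 n4166 .nil)
noncomputable def n8055 : Strat := .move 837 n99 (.cons 796 n4269 .nil)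
noncomputable def n8056 : Strat := .move 919 n2990 (.cons 918 n8055 .nil)
noncomputable def n8057 : Strat := .move 919 n4168 (.cons 1041 n2990 .nil)
noncomputable def n8058 : Strat := .move 1000 n4624 (.cons 998 n8057 .nil)
noncomputable def n8059 : Strat := .move 878 n8053 (.cons 836 n8054 (.cons 1002 n8056 (.cons 837 n8058 .nil)))
noncomputable def n8060 : Strat := .move 920 n1352 (.cons 838 n8059 .nil)
noncomputable def n8061 : Strat := .move 920 n1352 (.cons 838 n2817 .nil)
noncomputable def n8062 : Strat := .move 878 n2990 (.cons 918 n5721 .nil)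
noncomputable def n8063 : Strat := .move 920 n2814 (.cons 882 n2816 .nil)
noncomputable def n8064 : Strat := .move 878 n5721 (.cons 836 n3443 (.cons 1002 n4273 (.cons 837 n4495 .nil)))
noncomputable def n8065 : Strat := .move 882 n4599 (.cons 920 n8049 .nil)
noncomputable def n8066 : Strat := .move 919 n8062 (.cons 837 n8063 (.cons 918 n8064 (.cons 878 n8065 .nil)))
noncomputable def n8067 : Strat := .move 838 n7832 (.cons 919 n7833 .nil)
noncomputable def n8068 : Strat := .move 837 n4276 (.cons 838 n4269 .nil)
noncomputable def n8069 : Strat := .move 882 n8068 (.cons 836 n8049 .nil)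
noncomputable def n8070 : Strat := .move 919 n1290 (.cons 838 n2990 .nil)
noncomputable def n8071 : Strat := .move 919 n2990 (.cons 918 n5721 .nil)
noncomputable def n8072 : Strat := .move 878 n8067 (.cons 919 n8069 (.cons 882 n8070 (.cons 838 n8071 .nil)))
noncomputable def n8073 : Strat := .move 879 n7835 (.cons 919 n8048 (.cons 878 n8051 (.cons 882 n8060 (.cons 837 n8061 (.cons 838 n8066 (.cons 920 n8072 .nil))))))
noncomputable def n8074 : Strat := .move 961 n8025 (.cons 1004 n8043 (.cons 959 n8073 (.cons 1002 n8037 .nil)))
noncomputable def n8075 : Strat := .win 956 0 956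
noncomputable def n8076 : Strat := .move 957 n8075 (.cons 956 n3687 .nil)
noncomputable def n8077 : Strat := .move 958 n1403 (.cons 1002 n8076 .nil)
noncomputable def n8078 : Strat := .move 959 n200 (.cons 1004 n8077 .nil)
noncomputable def n8079 : Strat := .move 1000 n3702 (.cons 959 n5098 (.cons 999 n8078 .nil))
noncomputable def n8080 : Strat := .move 961 n3703 (.cons 959 n5099 (.cons 1000 n5812 (.cons 963 n8079 .nil)))
noncomputable def n8081 : Strat := .move 1004 n1261 (.cons 959 n4527 .nil)
noncomputable def n8082 : Strat := .move 963 n411 (.cons 1000 n8081 .nil)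
noncomputable def n8083 : Strat := .move 1000 n825 (.cons 999 n4414 .nil)
noncomputable def n8084 : Strat := .move 959 n200 (.cons 1004 n8083 .nil)
noncomputable def n8085 : Strat := .move 961 n8024 (.cons 999 n8082 (.cons 1004 n4820 (.cons 963 n8084 (.cons 1000 n3299 .nil))))
noncomputable def n8086 : Strat := .move 963 n1454 (.cons 1004 n1258 .nil)
noncomputable def n8087 : Strat := .move 1000 n4414 (.cons 1002 n8035 (.cons 917 n8041 .nil))
noncomputable def n8088 : Strat := .move 959 n200 (.cons 1004 n8087 .nil)
noncomputable def n8089 : Strat := .move 961 n8030 (.cons 1004 n8044 (.cons 1000 n8086 (.cons 963 n8088 .nil)))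
noncomputable def n8090 : Strat := .move 959 n2002 (.cons 1004 n2979 .nil)
noncomputable def n8091 : Strat := .move 1000 n2819 (.cons 963 n8090 .nil)
noncomputable def n8092 : Strat := .move 1004 n1620 (.cons 959 n7261 .nil)
noncomputable def n8093 : Strat := .move 959 n2979 (.cons 958 n8040 .nil)
noncomputable def n8094 : Strat := .move 1000 n2819 (.cons 963 n8093 .nil)
noncomputable def n8095 : Strat := .move 1000 n2979 (.cons 958 n8040 .nil)
noncomputable def n8096 : Strat := .move 959 n2002 (.cons 1004 n8095 .nil)
noncomputable def n8097 : Strat := .move 1002 n8091 (.cons 1000 n8092 (.cons 1004 n8094 (.cons 959 n7441 (.cons 963 n8096 .nil))))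
noncomputable def n8098 : Strat := .move 1002 n1417 (.cons 1000 n7266 .nil)
noncomputable def n8099 : Strat := .move 1002 n1417 (.cons 1000 n7440 .nil)
noncomputable def n8100 : Strat := .move 919 n198 (.cons 918 n4476 .nil)
noncomputable def n8101 : Strat := .move 1004 n1260 (.cons 1005 n8100 .nil)
noncomputable def n8102 : Strat := .move 961 n1357 (.cons 964 n8101 .nil)
noncomputable def n8103 : Strat := .move 1002 n1417 (.cons 1000 n8102 .nil)
noncomputable def n8104 : Strat := .move 961 n411 (.cons 1000 n7824 .nil)
noncomputable def n8105 : Strat := .move 1002 n1416 (.cons 961 n1325 .nil)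
noncomputable def n8106 : Strat := .move 1002 n1325 (.cons 965 n7439 .nil)
noncomputable def n8107 : Strat := .move 1002 n1416 (.cons 961 n7439 .nil)
noncomputable def n8108 : Strat := .move 1005 n166 (.cons 1006 n626 .nil)
noncomputable def n8109 : Strat := .move 961 n1253 (.cons 1004 n8108 (.cons 1005 n449 .nil))
noncomputable def n8110 : Strat := .move 964 n8105 (.cons 961 n8106 (.cons 965 n8107 (.cons 1002 n8109 .nil)))
noncomputable def n8111 : Strat := .move 963 n8098 (.cons 961 n8099 (.cons 965 n8103 (.cons 1002 n8104 (.cons 1000 n8110 (.cons 964 n1998 .nil)))))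
noncomputable def n8112 : Strat := .move 960 n8029 (.cons 1002 n8039 (.cons 1000 n7859 (.cons 1004 n8045 (.cons 963 n8074 (.cons 918 n8080 (.cons 1005 n8085 (.cons 999 n8089 (.cons 961 n8097 (.cons 959 n8111 .nil)))))))))
noncomputable def n8113 : Strat := .move 880 n4200 (.cons 921 n8112 .nil)
noncomputable def n8114 : Strat := .move 964 n1416 (.cons 961 n7439 .nil)
noncomputable def n8115 : Strat := .move 963 n1417 (.cons 1000 n8114 .nil)
noncomputable def n8116 : Strat := .move 920 n282 (.cons 838 n1311 .nil)
noncomputable def n8117 : Strat := .move 1004 n3083 (.cons 1042 n3048 .nil)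
noncomputable def n8118 : Strat := .move 1041 n2980 (.cons 1040 n8117 .nil)
noncomputable def n8119 : Strat := .move 1000 n2818 (.cons 999 n8118 .nil)
noncomputable def n8120 : Strat := .move 961 n8116 (.cons 920 n8119 (.cons 1042 n5952 .nil))
noncomputable def n8121 : Strat := .move 961 n282 (.cons 838 n1311 .nil)
noncomputable def n8122 : Strat := .move 919 n2814 (.cons 882 n7925 .nil)
noncomputable def n8123 : Strat := .move 920 n8121 (.cons 961 n8122 .nil)
noncomputable def n8124 : Strat := .move 963 n7266 (.cons 961 n7440 (.cons 965 n8114 (.cons 964 n8123 .nil)))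
noncomputable def n8125 : Strat := .move 1002 n7267 (.cons 961 n7441 (.cons 965 n8115 (.cons 963 n8120 (.cons 1000 n8124 .nil))))
noncomputable def n8126 : Strat := .move 918 n2815 (.cons 878 n7628 .nil)
noncomputable def n8127 : Strat := .move 920 n2814 (.cons 882 n8126 .nil)
noncomputable def n8128 : Strat := .win 960 3 878
noncomputable def n8129 : Strat := .move 1042 n8128 (.cons 960 n2085 .nil)
noncomputable def n8130 : Strat := .move 961 n282 (.cons 838 n8129 .nil)
noncomputable def n8131 : Strat := .move 920 n2814 (.cons 882 n8130 .nil)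
noncomputable def n8132 : Strat := .move 920 n8126 (.cons 878 n8130 .nil)
noncomputable def n8133 : Strat := .move 1000 n4168 (.cons 1041 n2819 .nil)
noncomputable def n8134 : Strat := .move 1002 n1262 (.cons 1043 n8133 .nil)
noncomputable def n8135 : Strat := .move 960 n1290 (.cons 838 n8134 .nil)
noncomputable def n8136 : Strat := .move 878 n2990 (.cons 918 n8135 .nil)
noncomputable def n8137 : Strat := .move 919 n8127 (.cons 878 n8131 (.cons 882 n8132 (.cons 920 n8136 .nil)))
noncomputable def n8138 : Strat := .move 961 n167 (.cons 960 n3195 .nil)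
noncomputable def n8139 : Strat := .move 1005 n2099 (.cons 1043 n8138 .nil)
noncomputable def n8140 : Strat := .move 1042 n222 (.cons 1041 n8139 .nil)
noncomputable def n8141 : Strat := .move 961 n3195 (.cons 920 n2647 .nil)
noncomputable def n8142 : Strat := .move 1042 n222 (.cons 1041 n8141 .nil)
noncomputable def n8143 : Strat := .move 1005 n1626 (.cons 1045 n2136 .nil)
noncomputable def n8144 : Strat := .win 961 1 878
noncomputable def n8145 : Strat := .move 919 n8128 (.cons 960 n2814 .nil)
noncomputable def n8146 : Strat := .move 920 n8144 (.cons 961 n8145 .nil)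
noncomputable def n8147 : Strat := .move 1042 n222 (.cons 1041 n8146 .nil)
noncomputable def n8148 : Strat := .move 1004 n8140 (.cons 1043 n8142 (.cons 1042 n8143 (.cons 1005 n8147 (.cons 961 n2151 .nil))))
noncomputable def n8149 : Strat := .move 1004 n5531 (.cons 964 n2151 .nil)
noncomputable def n8150 : Strat := .move 963 n7266 (.cons 964 n8148 (.cons 961 n8149 .nil))
noncomputable def n8151 : Strat := .move 963 n1417 (.cons 1000 n8149 .nil)
noncomputable def n8152 : Strat := .move 963 n1417 (.cons 1000 n8148 .nil)
noncomputable def n8153 : Strat := .win 1000 4 999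
noncomputable def n8154 : Strat := .move 1040 n8153 (.cons 1000 n1391 .nil)
noncomputable def n8155 : Strat := .move 1041 n539 (.cons 1004 n8154 .nil)
noncomputable def n8156 : Strat := .move 1041 n8154 (.cons 1040 n8146 .nil)
noncomputable def n8157 : Strat := .move 1041 n539 (.cons 1004 n8146 .nil)
noncomputable def n8158 : Strat := .move 919 n2814 (.cons 882 n8128 .nil)
noncomputable def n8159 : Strat := .move 920 n8144 (.cons 961 n8158 .nil)
noncomputable def n8160 : Strat := .move 1042 n8155 (.cons 1004 n8156 (.cons 1040 n8157 (.cons 1041 n8159 .nil)))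
noncomputable def n8161 : Strat := .move 1002 n7267 (.cons 1000 n8150 (.cons 961 n8151 (.cons 964 n8152 (.cons 963 n8160 .nil))))
noncomputable def n8162 : Strat := .move 920 n8 (.cons 919 n8121 .nil)
noncomputable def n8163 : Strat := .move 1004 n1626 (.cons 1045 n2207 .nil)
noncomputable def n8164 : Strat := .move 1005 n4278 (.cons 964 n8163 .nil)
noncomputable def n8165 : Strat := .move 923 n4279 (.cons 924 n8164 .nil)
noncomputable def n8166 : Strat := .move 838 n7836 (.cons 837 n275 .nil)
noncomputable def n8167 : Strat := .move 920 n8 (.cons 919 n8166 .nil)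
noncomputable def n8168 : Strat := .move 882 n8162 (.cons 920 n8165 (.cons 1042 n8167 .nil))
noncomputable def n8169 : Strat := .move 1002 n7267 (.cons 963 n8168 (.cons 961 n7441 (.cons 964 n7223 .nil)))
noncomputable def n8170 : Strat := .move 878 n2990 (.cons 918 n8068 .nil)
noncomputable def n8171 : Strat := .move 919 n4599 (.cons 920 n8170 .nil)
noncomputable def n8172 : Strat := .move 923 n4279 (.cons 924 n8171 .nil)
noncomputable def n8173 : Strat := .move 882 n8172 (.cons 923 n8171 (.cons 878 n8165 .nil))
noncomputable def n8174 : Strat := .move 964 n12 (.cons 1005 n1325 .nil)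
noncomputable def n8175 : Strat := .move 963 n1417 (.cons 1000 n8174 .nil)
noncomputable def n8176 : Strat := .move 923 n4279 (.cons 924 n8175 .nil)
noncomputable def n8177 : Strat := .move 919 n4599 (.cons 920 n8176 .nil)
noncomputable def n8178 : Strat := .move 963 n1325 (.cons 965 n1417 .nil)
noncomputable def n8179 : Strat := .move 964 n12 (.cons 1005 n8178 .nil)
noncomputable def n8180 : Strat := .move 923 n4279 (.cons 924 n8179 .nil)
noncomputable def n8181 : Strat := .move 882 n8171 (.cons 918 n8177 (.cons 919 n8180 .nil))
noncomputable def n8182 : Strat := .move 878 n3055 (.cons 960 n2990 .nil)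
noncomputable def n8183 : Strat := .move 1042 n1388 (.cons 1082 n539 .nil)
noncomputable def n8184 : Strat := .move 960 n2262 (.cons 878 n8183 .nil)
noncomputable def n8185 : Strat := .move 918 n2815 (.cons 878 n7629 .nil)
noncomputable def n8186 : Strat := .move 1042 n8128 (.cons 960 n539 .nil)
noncomputable def n8187 : Strat := .move 920 n2814 (.cons 882 n8186 .nil)
noncomputable def n8188 : Strat := .move 919 n8182 (.cons 918 n8184 (.cons 960 n8185 (.cons 878 n8187 .nil)))
noncomputable def n8189 : Strat := .move 1041 n2980 (.cons 1040 n8188 .nil)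
noncomputable def n8190 : Strat := .move 1000 n2819 (.cons 963 n8189 .nil)
noncomputable def n8191 : Strat := .move 1002 n7441 (.cons 963 n8173 (.cons 1004 n8181 (.cons 964 n8190 .nil)))
noncomputable def n8192 : Strat := .move 920 n275 (.cons 961 n8 .nil)
noncomputable def n8193 : Strat := .move 838 n7836 (.cons 837 n8192 .nil)
noncomputable def n8194 : Strat := .move 923 n4279 (.cons 924 n8193 .nil)
noncomputable def n8195 : Strat := .move 838 n4578 (.cons 920 n7836 .nil)
noncomputable def n8196 : Strat := .move 1004 n1465 (.cons 1006 n2769 .nil)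
noncomputable def n8197 : Strat := .move 961 n8195 (.cons 837 n8196 .nil)
noncomputable def n8198 : Strat := .move 1005 n4278 (.cons 964 n8197 .nil)
noncomputable def n8199 : Strat := .move 923 n4279 (.cons 924 n8198 .nil)
noncomputable def n8200 : Strat := .move 1004 n1626 (.cons 1045 n7360 .nil)
noncomputable def n8201 : Strat := .move 1005 n4278 (.cons 964 n8200 .nil)
noncomputable def n8202 : Strat := .move 923 n4279 (.cons 924 n8201 .nil)
noncomputable def n8203 : Strat := .move 882 n8194 (.cons 923 n8171 (.cons 919 n8199 (.cons 838 n8202 .nil)))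
noncomputable def n8204 : Strat := .move 1002 n7267 (.cons 963 n8203 (.cons 961 n7441 (.cons 964 n7223 .nil)))
noncomputable def n8205 : Strat := .move 961 n2818 (.cons 999 n8116 .nil)
noncomputable def n8206 : Strat := .move 1000 n2819 (.cons 963 n8205 .nil)
noncomputable def n8207 : Strat := .move 961 n1311 (.cons 1042 n2817 .nil)
noncomputable def n8208 : Strat := .move 961 n282 (.cons 838 n2817 .nil)
noncomputable def n8209 : Strat := .move 919 n2814 (.cons 882 n8126 .nil)
noncomputable def n8210 : Strat := .move 920 n8121 (.cons 838 n8207 (.cons 1042 n8208 (.cons 961 n8209 .nil)))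
noncomputable def n8211 : Strat := .move 1002 n7267 (.cons 961 n7441 (.cons 964 n8206 (.cons 963 n8210 .nil)))
noncomputable def n8212 : Strat := .move 960 n1306 (.cons 1042 n7923 .nil)
noncomputable def n8213 : Strat := .move 919 n8126 (.cons 878 n8212 .nil)
noncomputable def n8214 : Strat := .move 919 n2814 (.cons 882 n8212 .nil)
noncomputable def n8215 : Strat := .move 838 n275 (.cons 961 n4582 .nil)
noncomputable def n8216 : Strat := .move 920 n8209 (.cons 882 n8213 (.cons 878 n8214 (.cons 919 n8215 .nil)))
noncomputable def n8217 : Strat := .move 1002 n1311 (.cons 1042 n4691 .nil)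
noncomputable def n8218 : Strat := .move 920 n282 (.cons 838 n8217 .nil)
noncomputable def n8219 : Strat := .move 1002 n1417 (.cons 1000 n1357 .nil)
noncomputable def n8220 : Strat := .move 1004 n222 (.cons 1041 n1466 .nil)
noncomputable def n8221 : Strat := .move 1042 n3195 (.cons 920 n8220 .nil)
noncomputable def n8222 : Strat := .move 1002 n1357 (.cons 964 n8221 .nil)
noncomputable def n8223 : Strat := .move 1002 n1417 (.cons 1000 n8221 .nil)
noncomputable def n8224 : Strat := .move 960 n411 (.cons 1000 n4473 .nil)
noncomputable def n8225 : Strat := .move 963 n8219 (.cons 1000 n8222 (.cons 964 n8223 (.cons 1002 n8224 .nil)))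
noncomputable def n8226 : Strat := .move 964 n410 (.cons 1002 n689 .nil)
noncomputable def n8227 : Strat := .move 963 n8219 (.cons 1002 n8224 (.cons 964 n7483 (.cons 1000 n8226 .nil)))
noncomputable def n8228 : Strat := .move 961 n8218 (.cons 1002 n4583 (.cons 838 n8225 (.cons 920 n8227 .nil)))
noncomputable def n8229 : Strat := .move 960 n1262 (.cons 1043 n7873 .nil)
noncomputable def n8230 : Strat := .move 919 n2990 (.cons 918 n8229 .nil)
noncomputable def n8231 : Strat := .move 878 n4269 (.cons 836 n8230 .nil)
noncomputable def n8232 : Strat := .move 837 n4276 (.cons 838 n8231 .nil)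
noncomputable def n8233 : Strat := .move 882 n8202 (.cons 960 n8165 (.cons 923 n8232 .nil))
noncomputable def n8234 : Strat := .move 1002 n7267 (.cons 964 n7223 (.cons 961 n7441 (.cons 963 n8233 .nil)))
noncomputable def n8235 : Strat := .move 920 n282 (.cons 838 n4585 .nil)
noncomputable def n8236 : Strat := .move 961 n8116 (.cons 920 n8119 (.cons 1042 n8235 .nil))
noncomputable def n8237 : Strat := .move 961 n1357 (.cons 964 n8116 .nil)
noncomputable def n8238 : Strat := .move 1005 n167 (.cons 960 n2099 .nil)
noncomputable def n8239 : Strat := .move 1004 n222 (.cons 1041 n8238 .nil)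
noncomputable def n8240 : Strat := .move 961 n3195 (.cons 920 n8239 .nil)
noncomputable def n8241 : Strat := .move 961 n3195 (.cons 920 n3360 .nil)
noncomputable def n8242 : Strat := .move 919 n8128 (.cons 960 n7925 .nil)
noncomputable def n8243 : Strat := .move 920 n8144 (.cons 961 n8242 .nil)
noncomputable def n8244 : Strat := .move 920 n8242 (.cons 919 n3360 .nil)
noncomputable def n8245 : Strat := .move 1004 n222 (.cons 1041 n2150 .nil)
noncomputable def n8246 : Strat := .move 1042 n8240 (.cons 1005 n8241 (.cons 1004 n8243 (.cons 961 n8244 (.cons 920 n8245 .nil))))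
noncomputable def n8247 : Strat := .move 963 n7266 (.cons 961 n7440 (.cons 965 n8237 (.cons 964 n8246 .nil)))
noncomputable def n8248 : Strat := .move 1002 n7267 (.cons 963 n8236 (.cons 961 n7441 (.cons 1000 n8247 .nil)))
noncomputable def n8249 : Strat := .move 879 n8125 (.cons 837 n8137 (.cons 838 n8161 (.cons 960 n8169 (.cons 961 n8191 (.cons 1042 n8204 (.cons 1041 n8211 (.cons 963 n8216 (.cons 919 n8228 (.cons 920 n8234 (.cons 882 n8248 .nil))))))))))
noncomputable def n8250 : Strat := .move 880 n4200 (.cons 921 n8249 .nil)
noncomputable def n8251 : Strat := .move 1041 n2980 (.cons 1040 n7291 .nil)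
noncomputable def n8252 : Strat := .move 959 n2979 (.cons 958 n8251 .nil)
noncomputable def n8253 : Strat := .move 1000 n7185 (.cons 959 n7222 (.cons 1041 n7288 (.cons 961 n8252 .nil)))
noncomputable def n8254 : Strat := .move 1000 n2819 (.cons 963 n8252 .nil)
noncomputable def n8255 : Strat := .move 961 n1269 (.cons 1083 n5002 .nil)
noncomputable def n8256 : Strat := .move 920 n1763 (.cons 879 n8255 .nil)
noncomputable def n8257 : Strat := .move 1042 n8256 (.cons 920 n7968 (.cons 961 n7804 (.cons 918 n7661 (.cons 1083 n7992 .nil))))
noncomputable def n8258 : Strat := .move 878 n4485 (.cons 879 n7971 (.cons 918 n7956 .nil))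
noncomputable def n8259 : Strat := .move 919 n7710 (.cons 961 n7975 (.cons 879 n7950 (.cons 878 n8257 (.cons 918 n7954 (.cons 1042 n8258 .nil)))))
noncomputable def n8260 : Strat := .move 961 n198 (.cons 918 n7984 .nil)
noncomputable def n8261 : Strat := .move 920 n299 (.cons 797 n2814 .nil)
noncomputable def n8262 : Strat := .move 838 n4209 (.cons 878 n8261 .nil)
noncomputable def n8263 : Strat := .move 879 n4406 (.cons 1042 n8262 (.cons 882 n7622 (.cons 920 n7875 .nil)))
noncomputable def n8264 : Strat := .move 1042 n1971 (.cons 1041 n3438 .nil)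
noncomputable def n8265 : Strat := .move 961 n198 (.cons 918 n8264 .nil)
noncomputable def n8266 : Strat := .move 879 n7195 (.cons 838 n4406 .nil)
noncomputable def n8267 : Strat := .move 918 n2815 (.cons 878 n1987 .nil)
noncomputable def n8268 : Strat := .move 879 n7195 (.cons 838 n8267 (.cons 918 n8262 (.cons 878 n7924 .nil)))
noncomputable def n8269 : Strat := .move 1042 n1986 (.cons 1004 n1988 .nil)
noncomputable def n8270 : Strat := .move 879 n7195 (.cons 838 n8267 (.cons 918 n7875 (.cons 878 n8269 .nil)))
noncomputable def n8271 : Strat := .move 919 n8260 (.cons 918 n8263 (.cons 879 n8265 (.cons 961 n8266 (.cons 1042 n8268 (.cons 920 n8270 .nil)))))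
noncomputable def n8272 : Strat := .move 963 n7266 (.cons 964 n8271 (.cons 961 n7440 .nil))
noncomputable def n8273 : Strat := .move 960 n7704 (.cons 1004 n8259 (.cons 961 n8092 (.cons 964 n7863 (.cons 959 n8272 .nil))))
noncomputable def n8274 : Strat := .move 1002 n7186 (.cons 963 n8253 (.cons 961 n8254 (.cons 959 n7223 (.cons 1041 n7693 (.cons 1000 n8273 .nil)))))
noncomputable def n8275 : Strat := .move 880 n4200 (.cons 921 n8274 .nil)
noncomputable def n8276 : Strat := .move 1004 n2853 (.cons 1005 n8026 (.cons 963 n4324 (.cons 1002 n8027 .nil)))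
noncomputable def n8277 : Strat := .move 961 n8024 (.cons 1004 n3703 (.cons 963 n8025 (.cons 959 n8276 .nil)))
noncomputable def n8278 : Strat := .move 1000 n825 (.cons 999 n3324 .nil)
noncomputable def n8279 : Strat := .move 959 n200 (.cons 1004 n8278 .nil)
noncomputable def n8280 : Strat := .move 961 n8030 (.cons 959 n4810 (.cons 963 n8279 (.cons 1000 n4924 .nil)))
noncomputable def n8281 : Strat := .move 920 n1352 (.cons 838 n3675 .nil)
noncomputable def n8282 : Strat := .move 920 n3675 (.cons 1042 n2817 .nil)
noncomputable def n8283 : Strat := .move 919 n1284 (.cons 877 n2990 .nil)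
noncomputable def n8284 : Strat := .move 836 n4212 (.cons 837 n8283 .nil)
noncomputable def n8285 : Strat := .move 882 n8071 (.cons 919 n8049 (.cons 1002 n8284 .nil))
noncomputable def n8286 : Strat := .move 878 n8070 (.cons 919 n8069 (.cons 838 n8285 .nil))
noncomputable def n8287 : Strat := .move 879 n8281 (.cons 1042 n8061 (.cons 838 n8282 (.cons 920 n8286 .nil)))
noncomputable def n8288 : Strat := .move 961 n8276 (.cons 963 n8287 (.cons 1004 n5099 (.cons 1002 n4810 .nil)))
noncomputable def n8289 : Strat := .move 963 n1258 (.cons 964 n4408 (.cons 1002 n4535 (.cons 919 n5044 .nil)))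
noncomputable def n8290 : Strat := .move 959 n825 (.cons 999 n4414 .nil)
noncomputable def n8291 : Strat := .win 919 0 917
noncomputable def n8292 : Strat := .move 917 n8291 (.cons 919 n3582 .nil)
noncomputable def n8293 : Strat := .move 919 n1943 (.cons 877 n501 .nil)
noncomputable def n8294 : Strat := .move 959 n2982 (.cons 877 n718 .nil)
noncomputable def n8295 : Strat := .win 959 6 877
noncomputable def n8296 : Strat := .move 877 n7766 (.cons 919 n8295 .nil)
noncomputable def n8297 : Strat := .move 918 n8292 (.cons 959 n8293 (.cons 919 n8294 (.cons 917 n8296 .nil)))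
noncomputable def n8298 : Strat := .move 1042 n1269 (.cons 1083 n8297 .nil)
noncomputable def n8299 : Strat := .move 879 n1352 (.cons 838 n4265 .nil)
noncomputable def n8300 : Strat := .move 920 n3455 (.cons 879 n8298 (.cons 1042 n8299 .nil))
noncomputable def n8301 : Strat := .move 1000 n3702 (.cons 959 n5098 (.cons 998 n8290 (.cons 999 n8300 .nil)))
noncomputable def n8302 : Strat := .move 961 n3703 (.cons 959 n5099 (.cons 999 n8044 (.cons 1000 n8289 (.cons 963 n8301 .nil))))
noncomputable def n8303 : Strat := .move 961 n8025 (.cons 959 n8287 (.cons 1004 n8301 (.cons 1002 n8279 .nil)))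
noncomputable def n8304 : Strat := .move 963 n1357 (.cons 964 n8100 .nil)
noncomputable def n8305 : Strat := .move 961 n3068 (.cons 1005 n8304 .nil)
noncomputable def n8306 : Strat := .move 1002 n1620 (.cons 959 n8305 .nil)
noncomputable def n8307 : Strat := .move 1002 n1620 (.cons 959 n7261 .nil)
noncomputable def n8308 : Strat := .move 961 n2777 (.cons 963 n2780 .nil)
noncomputable def n8309 : Strat := .move 1002 n6987 (.cons 963 n2963 .nil)
noncomputable def n8310 : Strat := .move 1005 n8308 (.cons 963 n7817 (.cons 961 n8309 (.cons 1002 n7816 .nil)))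
noncomputable def n8311 : Strat := .move 1004 n8306 (.cons 1002 n7814 (.cons 961 n8307 (.cons 1005 n2218 (.cons 959 n8310 .nil))))
noncomputable def n8312 : Strat := .move 1002 n1620 (.cons 959 n5570 .nil)
noncomputable def n8313 : Strat := .move 1002 n5570 (.cons 963 n7218 .nil)
noncomputable def n8314 : Strat := .move 1002 n1620 (.cons 959 n7218 .nil)
noncomputable def n8315 : Strat := .move 1004 n8312 (.cons 1002 n7814 (.cons 959 n8313 (.cons 963 n8314 .nil)))
noncomputable def n8316 : Strat := .move 963 n1454 (.cons 1004 n4408 .nil)
noncomputable def n8317 : Strat := .move 963 n411 (.cons 1000 n4408 .nil)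
noncomputable def n8318 : Strat := .move 961 n8030 (.cons 1000 n8316 (.cons 1004 n8317 (.cons 963 n3304 .nil)))
noncomputable def n8319 : Strat := .move 1042 n1943 (.cons 877 n3094 .nil)
noncomputable def n8320 : Strat := .move 919 n3503 (.cons 963 n8319 .nil)
noncomputable def n8321 : Strat := .move 918 n718 (.cons 917 n8320 .nil)
noncomputable def n8322 : Strat := .move 959 n200 (.cons 1004 n8321 .nil)
noncomputable def n8323 : Strat := .move 959 n8023 (.cons 1000 n8321 (.cons 963 n8083 .nil))
noncomputable def n8324 : Strat := .move 961 n8024 (.cons 1000 n8322 (.cons 963 n8084 (.cons 1004 n8323 (.cons 959 n8044 .nil))))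
noncomputable def n8325 : Strat := .move 1004 n1620 (.cons 959 n5570 .nil)
noncomputable def n8326 : Strat := .move 998 n7252 (.cons 997 n7367 .nil)
noncomputable def n8327 : Strat := .move 959 n2979 (.cons 958 n8326 .nil)
noncomputable def n8328 : Strat := .win 959 5 956
noncomputable def n8329 : Strat := .win 955 2 955
noncomputable def n8330 : Strat := .win 957 2 956
noncomputable def n8331 : Strat := .move 956 n8329 (.cons 955 n8330 .nil)
noncomputable def n8332 : Strat := .move 997 n8328 (.cons 959 n8331 .nil)
noncomputable def n8333 : Strat := .move 998 n7367 (.cons 1040 n8332 .nil)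
noncomputable def n8334 : Strat := .move 999 n7286 (.cons 957 n8327 (.cons 959 n7369 (.cons 958 n8333 .nil)))
noncomputable def n8335 : Strat := .move 1000 n2819 (.cons 963 n8334 .nil)
noncomputable def n8336 : Strat := .move 1002 n8325 (.cons 959 n7441 (.cons 963 n7419 (.cons 1000 n8092 (.cons 1004 n8335 .nil))))
noncomputable def n8337 : Strat := .move 960 n8277 (.cons 1002 n8280 (.cons 959 n8288 (.cons 1004 n8302 (.cons 963 n8303 (.cons 1000 n8311 (.cons 918 n8315 (.cons 964 n8318 (.cons 1005 n8324 (.cons 961 n8336 .nil)))))))))
noncomputable def n8338 : Strat := .move 880 n4200 (.cons 921 n8337 .nil)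
noncomputable def n8339 : Strat := .move 1004 n1981 (.cons 1005 n7269 (.cons 961 n6366 .nil))
noncomputable def n8340 : Strat := .move 1004 n1620 (.cons 959 n7269 .nil)
noncomputable def n8341 : Strat := .move 1083 n7751 (.cons 919 n7325 (.cons 1084 n7748 (.cons 1123 n7331 .nil)))
noncomputable def n8342 : Strat := .move 1042 n7268 (.cons 919 n7747 (.cons 961 n8341 (.cons 1084 n7749 (.cons 918 n7754 .nil))))
noncomputable def n8343 : Strat := .move 960 n1982 (.cons 959 n8339 (.cons 961 n7723 (.cons 1005 n8340 (.cons 1004 n8342 .nil))))
noncomputable def n8344 : Strat := .move 963 n7266 (.cons 961 n7440 (.cons 965 n8114 (.cons 964 n8343 .nil)))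
noncomputable def n8345 : Strat := .move 961 n825 (.cons 999 n7675 .nil)
noncomputable def n8346 : Strat := .move 960 n2002 (.cons 1004 n8345 .nil)
noncomputable def n8347 : Strat := .move 959 n2979 (.cons 958 n8346 .nil)
noncomputable def n8348 : Strat := .move 1000 n2819 (.cons 963 n8347 .nil)
noncomputable def n8349 : Strat := .move 1005 n2855 (.cons 965 n7207 .nil)
noncomputable def n8350 : Strat := .move 961 n7409 (.cons 959 n3221 .nil)
noncomputable def n8351 : Strat := .move 1042 n222 (.cons 1041 n8350 .nil)
noncomputable def n8352 : Strat := .move 1005 n2099 (.cons 1043 n2855 .nil)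
noncomputable def n8353 : Strat := .move 1042 n222 (.cons 1041 n8352 .nil)
noncomputable def n8354 : Strat := .move 964 n8349 (.cons 1005 n8351 (.cons 960 n8353 .nil))
noncomputable def n8355 : Strat := .move 1045 n374 (.cons 1046 n8351 .nil)
noncomputable def n8356 : Strat := .move 1004 n8354 (.cons 960 n7217 (.cons 1005 n8355 (.cons 961 n7203 (.cons 1043 n7206 (.cons 1042 n7219 .nil)))))
noncomputable def n8357 : Strat := .move 1002 n7267 (.cons 1000 n8344 (.cons 961 n7441 (.cons 964 n8348 (.cons 963 n8356 .nil))))
noncomputable def n8358 : Strat := .move 880 n4200 (.cons 921 n8357 .nil)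
noncomputable def n8359 : Strat := .move 963 n7266 (.cons 964 n7527 (.cons 961 n7440 .nil))
noncomputable def n8360 : Strat := .move 1000 n8347 (.cons 959 n7222 (.cons 999 n8252 .nil))
noncomputable def n8361 : Strat := .move 1002 n7267 (.cons 1000 n8359 (.cons 961 n7441 (.cons 965 n8115 (.cons 963 n8360 .nil))))
noncomputable def n8362 : Strat := .move 921 n73 (.cons 880 n8361 .nil)
noncomputable def n8363 : Strat := .move 1004 n5531 (.cons 964 n7471 .nil)
noncomputable def n8364 : Strat := .move 1002 n1417 (.cons 1000 n8363 .nil)
noncomputable def n8365 : Strat := .move 964 n8105 (.cons 965 n8107 (.cons 961 n8106 (.cons 1002 n182 .nil)))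
noncomputable def n8366 : Strat := .move 1004 n5531 (.cons 964 n7457 .nil)
noncomputable def n8367 : Strat := .move 1002 n1417 (.cons 1000 n8366 .nil)
noncomputable def n8368 : Strat := .move 1002 n1417 (.cons 1000 n7523 .nil)
noncomputable def n8369 : Strat := .move 960 n1454 (.cons 959 n7763 (.cons 1004 n4535 .nil))
noncomputable def n8370 : Strat := .move 960 n411 (.cons 1000 n4535 .nil)
noncomputable def n8371 : Strat := .move 920 n30 (.cons 965 n689 .nil)
noncomputable def n8372 : Strat := .move 964 n4782 (.cons 965 n698 (.cons 919 n8371 (.cons 920 n172 .nil)))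
noncomputable def n8373 : Strat := .move 961 n1455 (.cons 1000 n8369 (.cons 1004 n8370 (.cons 960 n8372 .nil)))
noncomputable def n8374 : Strat := .move 963 n8364 (.cons 1000 n8365 (.cons 961 n8367 (.cons 1004 n8098 (.cons 964 n8368 (.cons 1002 n8373 .nil)))))
noncomputable def n8375 : Strat := .move 921 n73 (.cons 880 n8374 .nil)
noncomputable def n8376 : Strat := .move 1002 n2819 (.cons 963 n7222 .nil)
noncomputable def n8377 : Strat := .move 1002 n7222 (.cons 999 n7285 (.cons 961 n7287 (.cons 1041 n7288 .nil)))
noncomputable def n8378 : Strat := .move 1002 n2819 (.cons 963 n7287 .nil)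
noncomputable def n8379 : Strat := .move 1002 n2819 (.cons 963 n7285 .nil)
noncomputable def n8380 : Strat := .move 1002 n2819 (.cons 963 n7288 .nil)
noncomputable def n8381 : Strat := .move 961 n2865 (.cons 963 n3702 .nil)
noncomputable def n8382 : Strat := .move 961 n825 (.cons 999 n3324 .nil)
noncomputable def n8383 : Strat := .move 878 n3163 (.cons 837 n4168 .nil)
noncomputable def n8384 : Strat := .move 920 n306 (.cons 876 n86 .nil)
noncomputable def n8385 : Strat := .move 919 n8383 (.cons 1041 n8384 .nil)
noncomputable def n8386 : Strat := .move 877 n3091 (.cons 1042 n8385 .nil)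
noncomputable def n8387 : Strat := .move 920 n1763 (.cons 879 n86 .nil)
noncomputable def n8388 : Strat := .move 919 n8383 (.cons 1041 n8387 .nil)
noncomputable def n8389 : Strat := .move 1042 n3094 (.cons 1083 n8388 .nil)
noncomputable def n8390 : Strat := .move 877 n3092 (.cons 836 n8385 .nil)
noncomputable def n8391 : Strat := .move 918 n7674 (.cons 836 n8386 (.cons 877 n8389 (.cons 1042 n8390 .nil)))
noncomputable def n8392 : Strat := .move 920 n824 (.cons 958 n3462 .nil)
noncomputable def n8393 : Strat := .move 961 n825 (.cons 999 n8392 .nil)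
noncomputable def n8394 : Strat := .move 958 n4632 (.cons 920 n4413 .nil)
noncomputable def n8395 : Strat := .move 961 n825 (.cons 999 n8394 .nil)
noncomputable def n8396 : Strat := .move 959 n8382 (.cons 961 n8391 (.cons 877 n8393 (.cons 1042 n8395 .nil)))
noncomputable def n8397 : Strat := .move 878 n1290 (.cons 838 n4168 .nil)
noncomputable def n8398 : Strat := .move 879 n1306 (.cons 1042 n8397 .nil)
noncomputable def n8399 : Strat := .move 920 n77 (.cons 918 n8398 .nil)
noncomputable def n8400 : Strat := .move 1041 n2262 (.cons 878 n4435 .nil)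
noncomputable def n8401 : Strat := .move 920 n77 (.cons 918 n8400 .nil)
noncomputable def n8402 : Strat := .move 1042 n5601 (.cons 918 n4456 .nil)
noncomputable def n8403 : Strat := .move 878 n4168 (.cons 1041 n1286 .nil)
noncomputable def n8404 : Strat := .move 879 n1306 (.cons 1042 n1290 .nil)
noncomputable def n8405 : Strat := .move 920 n77 (.cons 918 n8404 .nil)
noncomputable def n8406 : Strat := .move 918 n4451 (.cons 1042 n7502 .nil)
noncomputable def n8407 : Strat := .move 877 n2080 (.cons 836 n8406 .nil)
noncomputable def n8408 : Strat := .move 878 n8405 (.cons 920 n1286 (.cons 838 n8407 .nil))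
noncomputable def n8409 : Strat := .move 919 n8399 (.cons 838 n8401 (.cons 878 n8402 (.cons 920 n8403 (.cons 1041 n8408 .nil))))
noncomputable def n8410 : Strat := .move 963 n1997 (.cons 961 n8409 .nil)
noncomputable def n8411 : Strat := .move 963 n7535 (.cons 959 n8399 (.cons 878 n7542 .nil))
noncomputable def n8412 : Strat := .win 959 3 918
noncomputable def n8413 : Strat := .move 1082 n3651 (.cons 1123 n8412 .nil)
noncomputable def n8414 : Strat := .move 1041 n2262 (.cons 878 n8413 .nil)
noncomputable def n8415 : Strat := .move 920 n306 (.cons 876 n81 .nil)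
noncomputable def n8416 : Strat := .move 877 n4451 (.cons 1042 n8415 .nil)
noncomputable def n8417 : Strat := .move 920 n81 (.cons 963 n7565 .nil)
noncomputable def n8418 : Strat := .move 877 n306 (.cons 876 n7653 .nil)
noncomputable def n8419 : Strat := .move 920 n81 (.cons 963 n8418 .nil)
noncomputable def n8420 : Strat := .move 918 n8416 (.cons 876 n7654 (.cons 877 n8417 (.cons 1042 n8419 .nil)))
noncomputable def n8421 : Strat := .move 963 n7502 (.cons 920 n7541 .nil)
noncomputable def n8422 : Strat := .move 920 n1763 (.cons 879 n81 .nil)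
noncomputable def n8423 : Strat := .move 1042 n1943 (.cons 877 n8422 .nil)
noncomputable def n8424 : Strat := .move 877 n3092 (.cons 836 n306 .nil)
noncomputable def n8425 : Strat := .move 959 n86 (.cons 958 n8424 .nil)
noncomputable def n8426 : Strat := .move 920 n81 (.cons 963 n8425 .nil)
noncomputable def n8427 : Strat := .move 1042 n3094 (.cons 1083 n1763 .nil)
noncomputable def n8428 : Strat := .move 959 n86 (.cons 958 n8427 .nil)
noncomputable def n8429 : Strat := .move 920 n81 (.cons 963 n8428 .nil)
noncomputable def n8430 : Strat := .move 918 n8421 (.cons 795 n8423 (.cons 1042 n8426 (.cons 877 n8429 (.cons 920 n7555 .nil))))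
noncomputable def n8431 : Strat := .move 919 n8411 (.cons 918 n4620 (.cons 1042 n8414 (.cons 1041 n8420 (.cons 878 n8430 .nil))))
noncomputable def n8432 : Strat := .move 960 n8381 (.cons 963 n8396 (.cons 959 n8410 (.cons 961 n8431 .nil)))
noncomputable def n8433 : Strat := .move 1000 n8376 (.cons 963 n8377 (.cons 961 n8378 (.cons 999 n8379 (.cons 1040 n8380 (.cons 1002 n8432 .nil)))))
noncomputable def n8434 : Strat := .move 921 n73 (.cons 880 n8433 .nil)
noncomputable def n8435 : Strat := .move 960 n1620 (.cons 959 n7703 .nil)
noncomputable def n8436 : Strat := .move 918 n1987 (.cons 961 n1943 .nil)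
noncomputable def n8437 : Strat := .move 919 n4446 (.cons 878 n8436 .nil)
noncomputable def n8438 : Strat := .move 963 n5531 (.cons 964 n8437 .nil)
noncomputable def n8439 : Strat := .move 1042 n222 (.cons 1041 n8438 .nil)
noncomputable def n8440 : Strat := .move 960 n1620 (.cons 959 n8439 .nil)
noncomputable def n8441 : Strat := .move 1004 n8435 (.cons 965 n7403 (.cons 960 n5610 (.cons 1005 n8440 .nil)))
noncomputable def n8442 : Strat := .move 1000 n7185 (.cons 999 n7695 (.cons 1041 n7288 (.cons 959 n7222 .nil)))
noncomputable def n8443 : Strat := .move 799 n7186 (.cons 1000 n8441 (.cons 1004 n7223 (.cons 1041 n7693 (.cons 961 n7441 (.cons 963 n8442 .nil)))))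
noncomputable def n8444 : Strat := .move 963 n7266 (.cons 964 n7481 (.cons 961 n7273 .nil))
noncomputable def n8445 : Strat := .move 918 n718 (.cons 917 n7278 .nil)
noncomputable def n8446 : Strat := .move 960 n7249 (.cons 878 n3653 (.cons 1082 n8445 .nil))
noncomputable def n8447 : Strat := .move 1041 n2980 (.cons 1040 n8446 .nil)
noncomputable def n8448 : Strat := .move 959 n2979 (.cons 958 n8447 .nil)
noncomputable def n8449 : Strat := .move 961 n2818 (.cons 999 n8448 .nil)
noncomputable def n8450 : Strat := .move 1000 n2819 (.cons 963 n8449 .nil)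
noncomputable def n8451 : Strat := .move 960 n2002 (.cons 1004 n3098 .nil)
noncomputable def n8452 : Strat := .move 959 n2979 (.cons 958 n8451 .nil)
noncomputable def n8453 : Strat := .move 1000 n2819 (.cons 963 n8452 .nil)
noncomputable def n8454 : Strat := .move 961 n2989 (.cons 1000 n2999 (.cons 964 n3000 (.cons 963 n3005 .nil)))
noncomputable def n8455 : Strat := .move 961 n2818 (.cons 999 n7486 .nil)
noncomputable def n8456 : Strat := .move 1000 n2819 (.cons 963 n8455 .nil)
noncomputable def n8457 : Strat := .move 1000 n8455 (.cons 961 n8252 (.cons 1042 n7288 .nil))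
noncomputable def n8458 : Strat := .move 964 n3745 (.cons 963 n8349 .nil)
noncomputable def n8459 : Strat := .move 1005 n2855 (.cons 965 n6161 .nil)
noncomputable def n8460 : Strat := .move 964 n3745 (.cons 963 n8459 .nil)
noncomputable def n8461 : Strat := .move 1042 n222 (.cons 1041 n1268 .nil)
noncomputable def n8462 : Strat := .move 961 n3068 (.cons 1005 n8461 .nil)
noncomputable def n8463 : Strat := .move 960 n1620 (.cons 959 n8462 .nil)
noncomputable def n8464 : Strat := .move 1083 n4860 (.cons 960 n2931 .nil)
noncomputable def n8465 : Strat := .move 961 n1268 (.cons 879 n8464 .nil)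
noncomputable def n8466 : Strat := .move 1042 n222 (.cons 1041 n8465 .nil)
noncomputable def n8467 : Strat := .move 964 n3745 (.cons 963 n8466 .nil)
noncomputable def n8468 : Strat := .move 1004 n8458 (.cons 1006 n8460 (.cons 961 n5610 (.cons 964 n8463 (.cons 1005 n8467 .nil))))
noncomputable def n8469 : Strat := .move 920 n8456 (.cons 963 n8457 (.cons 1042 n7693 (.cons 999 n7696 (.cons 1000 n8468 .nil))))
noncomputable def n8470 : Strat := .move 1002 n8443 (.cons 963 n7408 (.cons 1000 n8444 (.cons 1004 n8450 (.cons 961 n8453 (.cons 960 n8454 (.cons 919 n8469 (.cons 1041 n8348 .nil)))))))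
noncomputable def n8471 : Strat := .move 999 n7179 (.cons 961 n7221 .nil)
noncomputable def n8472 : Strat := .move 960 n2002 (.cons 1004 n8471 .nil)
noncomputable def n8473 : Strat := .move 959 n2979 (.cons 958 n8472 .nil)
noncomputable def n8474 : Strat := .move 1000 n2819 (.cons 963 n8473 .nil)
noncomputable def n8475 : Strat := .move 1041 n2980 (.cons 1040 n7313 .nil)
noncomputable def n8476 : Strat := .move 920 n8455 (.cons 1042 n7288 (.cons 961 n8475 .nil))
noncomputable def n8477 : Strat := .move 1000 n2819 (.cons 963 n8476 .nil)
noncomputable def n8478 : Strat := .move 961 n2818 (.cons 999 n3004 .nil)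
noncomputable def n8479 : Strat := .move 1000 n2819 (.cons 963 n8478 .nil)
noncomputable def n8480 : Strat := .move 960 n3068 (.cons 1005 n4433 .nil)
noncomputable def n8481 : Strat := .move 964 n2882 (.cons 963 n4556 .nil)
noncomputable def n8482 : Strat := .move 964 n2882 (.cons 963 n5941 .nil)
noncomputable def n8483 : Strat := .move 1004 n3260 (.cons 959 n8480 (.cons 960 n8481 (.cons 1005 n8482 .nil)))
noncomputable def n8484 : Strat := .move 1005 n2855 (.cons 965 n2890 .nil)
noncomputable def n8485 : Strat := .move 1004 n4556 (.cons 1006 n8484 (.cons 1005 n3222 .nil))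
noncomputable def n8486 : Strat := .move 964 n2882 (.cons 963 n8485 .nil)
noncomputable def n8487 : Strat := .move 920 n1311 (.cons 1042 n282 .nil)
noncomputable def n8488 : Strat := .move 1043 n3154 (.cons 919 n4796 .nil)
noncomputable def n8489 : Strat := .move 878 n286 (.cons 837 n8488 .nil)
noncomputable def n8490 : Strat := .move 920 n282 (.cons 838 n8489 .nil)
noncomputable def n8491 : Strat := .move 920 n1311 (.cons 1042 n8489 .nil)
noncomputable def n8492 : Strat := .move 1004 n1261 (.cons 959 n3068 .nil)
noncomputable def n8493 : Strat := .move 919 n7849 (.cons 838 n1264 (.cons 837 n7852 (.cons 878 n7917 .nil)))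
noncomputable def n8494 : Strat := .move 1042 n222 (.cons 1041 n8493 .nil)
noncomputable def n8495 : Strat := .move 1004 n3068 (.cons 1005 n8494 .nil)
noncomputable def n8496 : Strat := .move 1004 n1261 (.cons 959 n8494 .nil)
noncomputable def n8497 : Strat := .move 919 n3503 (.cons 963 n7849 .nil)
noncomputable def n8498 : Strat := .move 918 n718 (.cons 917 n8497 .nil)
noncomputable def n8499 : Strat := .move 959 n199 (.cons 958 n8498 .nil)
noncomputable def n8500 : Strat := .move 960 n8492 (.cons 959 n8495 (.cons 1005 n8496 (.cons 1004 n8499 .nil)))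
noncomputable def n8501 : Strat := .move 879 n8487 (.cons 1042 n8490 (.cons 838 n8491 (.cons 920 n8500 .nil)))
noncomputable def n8502 : Strat := .move 920 n282 (.cons 838 n3957 .nil)
noncomputable def n8503 : Strat := .win 921 7 921
noncomputable def n8504 : Strat := .move 1086 n8503 (.cons 921 n1781 .nil)
noncomputable def n8505 : Strat := .move 1045 n374 (.cons 1046 n8504 .nil)
noncomputable def n8506 : Strat := .move 963 n1357 (.cons 964 n8505 .nil)
noncomputable def n8507 : Strat := .move 1004 n3260 (.cons 1005 n8506 .nil)
noncomputable def n8508 : Strat := .move 920 n282 (.cons 838 n8507 .nil)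
noncomputable def n8509 : Strat := .move 920 n201 (.cons 1004 n3955 .nil)
noncomputable def n8510 : Strat := .move 960 n8509 (.cons 920 n1454 (.cons 1004 n3955 .nil))
noncomputable def n8511 : Strat := .move 963 n1357 (.cons 964 n8510 .nil)
noncomputable def n8512 : Strat := .move 919 n198 (.cons 918 n7849 .nil)
noncomputable def n8513 : Strat := .move 960 n1260 (.cons 1005 n8512 .nil)
noncomputable def n8514 : Strat := .move 960 n1261 (.cons 959 n8512 .nil)
noncomputable def n8515 : Strat := .move 1004 n1469 (.cons 959 n8513 (.cons 960 n2650 (.cons 1005 n8514 .nil)))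
noncomputable def n8516 : Strat := .move 963 n1357 (.cons 964 n8515 .nil)
noncomputable def n8517 : Strat := .move 879 n8502 (.cons 964 n8490 (.cons 919 n8508 (.cons 838 n8511 (.cons 920 n8516 .nil))))
noncomputable def n8518 : Strat := .win 921 0 918
noncomputable def n8519 : Strat := .move 918 n8518 (.cons 921 n501 .nil)
noncomputable def n8520 : Strat := .move 919 n1362 (.cons 1043 n8519 .nil)
noncomputable def n8521 : Strat := .move 878 n286 (.cons 837 n8520 .nil)
noncomputable def n8522 : Strat := .move 963 n1357 (.cons 964 n8521 .nil)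
noncomputable def n8523 : Strat := .move 920 n282 (.cons 838 n8522 .nil)
noncomputable def n8524 : Strat := .move 920 n1311 (.cons 1042 n8522 .nil)
noncomputable def n8525 : Strat := .move 960 n1797 (.cons 958 n1742 (.cons 1004 n1450 (.cons 959 n8512 .nil)))
noncomputable def n8526 : Strat := .move 963 n1357 (.cons 964 n8525 .nil)
noncomputable def n8527 : Strat := .move 879 n8487 (.cons 1042 n8523 (.cons 838 n8524 (.cons 920 n8526 .nil)))
noncomputable def n8528 : Strat := .move 1086 n1781 (.cons 1127 n8503 .nil)
noncomputable def n8529 : Strat := .move 1045 n374 (.cons 1046 n8528 .nil)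
noncomputable def n8530 : Strat := .move 1004 n2558 (.cons 959 n2647 (.cons 1005 n8529 .nil))
noncomputable def n8531 : Strat := .move 963 n1357 (.cons 964 n8530 .nil)
noncomputable def n8532 : Strat := .move 920 n282 (.cons 838 n8531 .nil)
noncomputable def n8533 : Strat := .move 920 n1311 (.cons 1042 n8531 .nil)
noncomputable def n8534 : Strat := .move 1004 n1261 (.cons 959 n8512 .nil)
noncomputable def n8535 : Strat := .move 960 n1454 (.cons 1005 n8534 (.cons 1004 n8512 .nil))
noncomputable def n8536 : Strat := .move 963 n1357 (.cons 964 n8535 .nil)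
noncomputable def n8537 : Strat := .move 879 n8487 (.cons 1042 n8532 (.cons 838 n8533 (.cons 920 n8536 .nil)))
noncomputable def n8538 : Strat := .move 1005 n1465 (.cons 1006 n2890 .nil)
noncomputable def n8539 : Strat := .move 1043 n4795 (.cons 921 n1795 .nil)
noncomputable def n8540 : Strat := .move 1043 n1386 (.cons 919 n4795 .nil)
noncomputable def n8541 : Strat := .move 1084 n8539 (.cons 1125 n8540 (.cons 921 n7396 (.cons 1043 n3086 .nil)))
noncomputable def n8542 : Strat := .move 1042 n222 (.cons 1041 n8541 .nil)
noncomputable def n8543 : Strat := .move 960 n1261 (.cons 959 n8542 .nil)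
noncomputable def n8544 : Strat := .move 1004 n3260 (.cons 960 n8538 (.cons 1005 n8543 .nil))
noncomputable def n8545 : Strat := .move 879 n8487 (.cons 920 n8544 (.cons 1042 n8490 .nil))
noncomputable def n8546 : Strat := .move 963 n1357 (.cons 964 n5167 .nil)
noncomputable def n8547 : Strat := .win 1043 3 920
noncomputable def n8548 : Strat := .move 1084 n8547 (.cons 1043 n3087 .nil)
noncomputable def n8549 : Strat := .move 921 n8546 (.cons 963 n8548 .nil)
noncomputable def n8550 : Strat := .move 960 n3068 (.cons 1005 n8549 .nil)
noncomputable def n8551 : Strat := .move 964 n2882 (.cons 963 n8543 .nil)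
noncomputable def n8552 : Strat := .move 1004 n3260 (.cons 959 n8550 (.cons 960 n8481 (.cons 1005 n8551 .nil)))
noncomputable def n8553 : Strat := .move 879 n282 (.cons 838 n8522 .nil)
noncomputable def n8554 : Strat := .move 879 n1311 (.cons 1042 n8522 .nil)
noncomputable def n8555 : Strat := .move 1084 n1795 (.cons 1125 n4795 .nil)
noncomputable def n8556 : Strat := .move 919 n1965 (.cons 878 n8519 .nil)
noncomputable def n8557 : Strat := .move 1043 n8555 (.cons 921 n2953 (.cons 1084 n8556 .nil))
noncomputable def n8558 : Strat := .move 963 n1357 (.cons 964 n8557 .nil)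
noncomputable def n8559 : Strat := .move 920 n7486 (.cons 1042 n8553 (.cons 838 n8554 (.cons 879 n8558 .nil)))
noncomputable def n8560 : Strat := .move 961 n8483 (.cons 960 n8486 (.cons 964 n8501 (.cons 1042 n8517 (.cons 1005 n8527 (.cons 1043 n8537 (.cons 963 n8545 (.cons 920 n8552 (.cons 1004 n8559 .nil))))))))
noncomputable def n8561 : Strat := .move 1000 n8473 (.cons 999 n7695 (.cons 1041 n7288 (.cons 959 n7222 .nil)))
noncomputable def n8562 : Strat := .move 1002 n8474 (.cons 1004 n8477 (.cons 960 n8479 (.cons 1041 n7693 (.cons 999 n7696 (.cons 1000 n8560 (.cons 963 n8561 .nil))))))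
noncomputable def n8563 : Strat := .move 963 n7266 (.cons 964 n7532 (.cons 961 n7440 .nil))
noncomputable def n8564 : Strat := .move 1002 n7267 (.cons 963 n7354 (.cons 1000 n8563 (.cons 961 n7441 .nil)))
noncomputable def n8565 : Strat := .move 959 n200 (.cons 1004 n825 .nil)
noncomputable def n8566 : Strat := .move 1000 n2865 (.cons 963 n8565 .nil)
noncomputable def n8567 : Strat := .move 963 n411 (.cons 1000 n7763 .nil)
noncomputable def n8568 : Strat := .move 961 n8566 (.cons 959 n8567 (.cons 1000 n4924 (.cons 1004 n3703 (.cons 963 n8279 .nil))))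
noncomputable def n8569 : Strat := .move 880 n4200 (.cons 921 n8568 .nil)
noncomputable def n8570 : Strat := .move 963 n1925 (.cons 1000 n7550 (.cons 1004 n7551 (.cons 959 n7552 (.cons 961 n7584 .nil))))
noncomputable def n8571 : Strat := .move 919 n1306 (.cons 1042 n2814 .nil)
noncomputable def n8572 : Strat := .move 958 n4413 (.cons 918 n5319 .nil)
noncomputable def n8573 : Strat := .move 959 n200 (.cons 1004 n8572 .nil)
noncomputable def n8574 : Strat := .move 961 n1352 (.cons 838 n8573 .nil)
noncomputable def n8575 : Strat := .move 920 n8571 (.cons 919 n8574 .nil)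
noncomputable def n8576 : Strat := .move 920 n1352 (.cons 838 n8573 .nil)
noncomputable def n8577 : Strat := .move 1000 n825 (.cons 999 n3093 .nil)
noncomputable def n8578 : Strat := .move 918 n718 (.cons 917 n8577 .nil)
noncomputable def n8579 : Strat := .move 959 n200 (.cons 1004 n8578 .nil)
noncomputable def n8580 : Strat := .move 961 n8576 (.cons 959 n8048 (.cons 838 n8579 .nil))
noncomputable def n8581 : Strat := .move 919 n7777 (.cons 878 n4208 .nil)
noncomputable def n8582 : Strat := .move 919 n2990 (.cons 918 n4213 .nil)
noncomputable def n8583 : Strat := .move 919 n1290 (.cons 838 n4213 .nil)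
noncomputable def n8584 : Strat := .move 918 n7539 (.cons 959 n4929 .nil)
noncomputable def n8585 : Strat := .move 877 n4365 (.cons 835 n8584 .nil)
noncomputable def n8586 : Strat := .move 836 n4212 (.cons 837 n8585 .nil)
noncomputable def n8587 : Strat := .move 878 n8070 (.cons 838 n8582 (.cons 918 n8583 (.cons 919 n8586 .nil)))
noncomputable def n8588 : Strat := .move 920 n1306 (.cons 1042 n8126 .nil)
noncomputable def n8589 : Strat := .move 878 n2990 (.cons 918 n4213 .nil)
noncomputable def n8590 : Strat := .move 919 n4208 (.cons 1042 n8127 (.cons 882 n8588 (.cons 920 n8589 .nil)))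
noncomputable def n8591 : Strat := .move 919 n4209 (.cons 878 n1306 .nil)
noncomputable def n8592 : Strat := .move 920 n7922 (.cons 961 n8591 .nil)
noncomputable def n8593 : Strat := .move 920 n7922 (.cons 961 n8571 .nil)
noncomputable def n8594 : Strat := .move 920 n8591 (.cons 878 n8571 (.cons 919 n8047 .nil))
noncomputable def n8595 : Strat := .move 920 n7922 (.cons 961 n8047 .nil)
noncomputable def n8596 : Strat := .move 878 n4269 (.cons 836 n7832 .nil)
noncomputable def n8597 : Strat := .move 837 n4358 (.cons 882 n8596 .nil)
noncomputable def n8598 : Strat := .move 838 n8592 (.cons 878 n8593 (.cons 961 n8594 (.cons 919 n8595 (.cons 920 n8597 .nil))))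
noncomputable def n8599 : Strat := .move 879 n8575 (.cons 919 n8580 (.cons 917 n8581 (.cons 920 n8587 (.cons 838 n8590 (.cons 918 n8598 .nil)))))
noncomputable def n8600 : Strat := .move 880 n4200 (.cons 921 n8599 .nil)
noncomputable def n8601 : Strat := .move 961 n2865 (.cons 963 n4935 .nil)
noncomputable def n8602 : Strat := .move 1000 n4168 (.cons 1041 n8601 .nil)
noncomputable def n8603 : Strat := .move 878 n1290 (.cons 838 n8602 .nil)
noncomputable def n8604 : Strat := .move 879 n4208 (.cons 920 n8603 .nil)
noncomputable def n8605 : Strat := .move 838 n4209 (.cons 878 n299 .nil)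
noncomputable def n8606 : Strat := .move 920 n1306 (.cons 1042 n8605 .nil)
noncomputable def n8607 : Strat := .move 838 n299 (.cons 797 n7922 .nil)
noncomputable def n8608 : Strat := .move 920 n1306 (.cons 1042 n8607 .nil)
noncomputable def n8609 : Strat := .move 878 n1929 (.cons 1000 n4213 .nil)
noncomputable def n8610 : Strat := .move 1041 n1388 (.cons 1082 n8609 .nil)
noncomputable def n8611 : Strat := .move 1042 n1289 (.cons 920 n8610 .nil)
noncomputable def n8612 : Strat := .move 879 n7851 (.cons 877 n8606 (.cons 878 n8608 (.cons 838 n8611 .nil)))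
noncomputable def n8613 : Strat := .move 878 n4273 (.cons 837 n8602 .nil)
noncomputable def n8614 : Strat := .move 879 n4208 (.cons 920 n8613 .nil)
noncomputable def n8615 : Strat := .move 920 n2814 (.cons 882 n299 .nil)
noncomputable def n8616 : Strat := .move 838 n4209 (.cons 878 n8615 .nil)
noncomputable def n8617 : Strat := .move 878 n4168 (.cons 1041 n4213 .nil)
noncomputable def n8618 : Strat := .move 1000 n8601 (.cons 961 n8617 .nil)
noncomputable def n8619 : Strat := .move 920 n2814 (.cons 882 n8618 .nil)
noncomputable def n8620 : Strat := .move 920 n2814 (.cons 882 n8607 .nil)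
noncomputable def n8621 : Strat := .move 920 n299 (.cons 797 n7922 .nil)
noncomputable def n8622 : Strat := .move 838 n4209 (.cons 878 n8621 .nil)
noncomputable def n8623 : Strat := .move 879 n8616 (.cons 838 n8619 (.cons 878 n8620 (.cons 882 n8622 (.cons 920 n7851 .nil))))
noncomputable def n8624 : Strat := .move 961 n2865 (.cons 963 n8565 .nil)
noncomputable def n8625 : Strat := .move 878 n4168 (.cons 1041 n7577 .nil)
noncomputable def n8626 : Strat := .move 1000 n8624 (.cons 961 n8625 (.cons 959 n8400 .nil))
noncomputable def n8627 : Strat := .move 879 n2814 (.cons 882 n1306 .nil)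
noncomputable def n8628 : Strat := .move 879 n1352 (.cons 838 n2814 .nil)
noncomputable def n8629 : Strat := .win 957 5 916
noncomputable def n8630 : Strat := .move 958 n8629 (.cons 957 n5319 .nil)
noncomputable def n8631 : Strat := .move 920 n8627 (.cons 1042 n8628 (.cons 882 n1353 (.cons 879 n8630 .nil)))
noncomputable def n8632 : Strat := .move 959 n200 (.cons 1004 n8631 .nil)
noncomputable def n8633 : Strat := .move 920 n1351 (.cons 964 n8627 .nil)
noncomputable def n8634 : Strat := .move 963 n411 (.cons 1000 n8633 .nil)
noncomputable def n8635 : Strat := .move 963 n1454 (.cons 959 n8633 .nil)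
noncomputable def n8636 : Strat := .move 961 n8030 (.cons 963 n8632 (.cons 959 n8634 (.cons 1000 n8635 .nil)))
noncomputable def n8637 : Strat := .move 919 n8019 (.cons 837 n8604 (.cons 882 n8612 (.cons 838 n8614 (.cons 1042 n8623 (.cons 879 n8626 (.cons 878 n8636 .nil))))))
noncomputable def n8638 : Strat := .move 880 n4200 (.cons 921 n8637 .nil)
noncomputable def n8639 : Strat := .move 1000 n2865 (.cons 963 n3324 .nil)
noncomputable def n8640 : Strat := .move 959 n200 (.cons 1004 n8639 .nil)
noncomputable def n8641 : Strat := .move 959 n8023 (.cons 1000 n8321 (.cons 963 n8278 .nil))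
noncomputable def n8642 : Strat := .move 961 n8024 (.cons 999 n8640 (.cons 959 n4474 (.cons 1000 n8322 (.cons 963 n8279 (.cons 1004 n8641 .nil)))))
noncomputable def n8643 : Strat := .move 880 n4200 (.cons 921 n8642 .nil)
noncomputable def n8644 : Strat := .move 1042 n1289 (.cons 920 n3094 .nil)
noncomputable def n8645 : Strat := .move 879 n2815 (.cons 878 n8644 .nil)
noncomputable def n8646 : Strat := .move 919 n3503 (.cons 963 n8645 .nil)
noncomputable def n8647 : Strat := .move 918 n718 (.cons 917 n8646 .nil)
noncomputable def n8648 : Strat := .move 959 n200 (.cons 1004 n8647 .nil)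
noncomputable def n8649 : Strat := .move 958 n3301 (.cons 998 n4413 .nil)
noncomputable def n8650 : Strat := .move 999 n3300 (.cons 1000 n8649 .nil)
noncomputable def n8651 : Strat := .move 959 n200 (.cons 1004 n8650 .nil)
noncomputable def n8652 : Strat := .move 961 n8024 (.cons 959 n4810 (.cons 1000 n8648 (.cons 963 n8651 .nil)))
noncomputable def n8653 : Strat := .move 880 n4200 (.cons 921 n8652 .nil)
noncomputable def n8654 : Strat := .move 961 n8566 (.cons 959 n4474 (.cons 1000 n4924 (.cons 1004 n3703 (.cons 963 n8279 .nil))))
noncomputable def n8655 : Strat := .move 880 n4200 (.cons 921 n8654 .nil)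
noncomputable def n8656 : Strat := .move 878 n4168 (.cons 1041 n4485 .nil)
noncomputable def n8657 : Strat := .move 1042 n1269 (.cons 1083 n3198 .nil)
noncomputable def n8658 : Strat := .move 920 n8627 (.cons 1042 n8628 (.cons 882 n1353 (.cons 879 n8657 .nil)))
noncomputable def n8659 : Strat := .move 961 n2865 (.cons 963 n8658 .nil)
noncomputable def n8660 : Strat := .move 878 n4168 (.cons 1041 n7706 .nil)
noncomputable def n8661 : Strat := .move 918 n4452 (.cons 836 n7712 .nil)
noncomputable def n8662 : Strat := .move 961 n2865 (.cons 963 n8661 .nil)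
noncomputable def n8663 : Strat := .move 878 n4168 (.cons 1041 n8662 .nil)
noncomputable def n8664 : Strat := .move 1000 n8656 (.cons 878 n8659 (.cons 918 n8660 (.cons 879 n8663 .nil)))
noncomputable def n8665 : Strat := .move 879 n1289 (.cons 920 n7777 .nil)
noncomputable def n8666 : Strat := .move 1083 n1378 (.cons 1123 n4455 .nil)
noncomputable def n8667 : Strat := .move 1082 n1379 (.cons 1041 n8666 .nil)
noncomputable def n8668 : Strat := .move 920 n1763 (.cons 879 n8667 .nil)
noncomputable def n8669 : Strat := .move 878 n1929 (.cons 1000 n4492 .nil)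
noncomputable def n8670 : Strat := .move 1041 n1388 (.cons 1082 n8669 .nil)
noncomputable def n8671 : Strat := .move 878 n2080 (.cons 836 n1929 .nil)
noncomputable def n8672 : Strat := .move 877 n2081 (.cons 918 n8671 .nil)
noncomputable def n8673 : Strat := .move 1041 n1388 (.cons 1082 n8672 .nil)
noncomputable def n8674 : Strat := .move 1043 n1288 (.cons 1084 n8673 .nil)
noncomputable def n8675 : Strat := .move 1042 n8665 (.cons 878 n8668 (.cons 920 n8670 (.cons 879 n8674 .nil)))
noncomputable def n8676 : Strat := .move 878 n4168 (.cons 1041 n1290 .nil)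
noncomputable def n8677 : Strat := .move 961 n2865 (.cons 963 n7775 .nil)
noncomputable def n8678 : Strat := .move 1041 n1388 (.cons 1082 n2262 .nil)
noncomputable def n8679 : Strat := .move 1042 n1289 (.cons 920 n8678 .nil)
noncomputable def n8680 : Strat := .move 961 n2865 (.cons 963 n8679 .nil)
noncomputable def n8681 : Strat := .move 1000 n8676 (.cons 1041 n4214 (.cons 878 n8677 (.cons 838 n8680 .nil)))
noncomputable def n8682 : Strat := .move 879 n4208 (.cons 882 n8681 (.cons 1042 n8616 (.cons 920 n7851 .nil)))
noncomputable def n8683 : Strat := .move 961 n3503 (.cons 963 n3589 .nil)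
noncomputable def n8684 : Strat := .move 920 n1269 (.cons 1083 n501 .nil)
noncomputable def n8685 : Strat := .move 1042 n1943 (.cons 877 n8684 .nil)
noncomputable def n8686 : Strat := .move 961 n3503 (.cons 963 n8685 .nil)
noncomputable def n8687 : Strat := .move 836 n7652 (.cons 878 n4879 .nil)
noncomputable def n8688 : Strat := .move 877 n4451 (.cons 1042 n8687 .nil)
noncomputable def n8689 : Strat := .move 918 n8683 (.cons 916 n8686 (.cons 961 n8688 .nil))
noncomputable def n8690 : Strat := .move 963 n198 (.cons 918 n411 .nil)
noncomputable def n8691 : Strat := .move 961 n1352 (.cons 838 n8690 .nil)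
noncomputable def n8692 : Strat := .move 920 n2814 (.cons 882 n8691 .nil)
noncomputable def n8693 : Strat := .move 879 n7777 (.cons 878 n8692 (.cons 838 n8012 (.cons 918 n8616 .nil)))
noncomputable def n8694 : Strat := .move 961 n1269 (.cons 1083 n8690 .nil)
noncomputable def n8695 : Strat := .move 920 n1763 (.cons 879 n8694 .nil)
noncomputable def n8696 : Strat := .move 1043 n1288 (.cons 1084 n8016 .nil)
noncomputable def n8697 : Strat := .move 961 n3503 (.cons 963 n4456 .nil)
noncomputable def n8698 : Strat := .move 918 n1943 (.cons 877 n8697 .nil)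
noncomputable def n8699 : Strat := .move 1042 n8695 (.cons 961 n8668 (.cons 879 n8696 (.cons 920 n8698 .nil)))
noncomputable def n8700 : Strat := .move 919 n8664 (.cons 961 n8675 (.cons 836 n7921 (.cons 918 n8682 (.cons 838 n8013 (.cons 879 n8689 (.cons 1042 n8693 (.cons 878 n8699 (.cons 920 n4491 .nil))))))))
noncomputable def n8701 : Strat := .move 880 n4200 (.cons 921 n8700 .nil)
noncomputable def n8702 : Strat := .move 880 n4200 (.cons 921 n7784 .nil)
noncomputable def n8703 : Strat := .move 880 n4200 (.cons 921 n8039 .nil)
noncomputable def n8704 : Strat := .move 963 n198 (.cons 918 n4473 .nil)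
noncomputable def n8705 : Strat := .move 920 n1763 (.cons 879 n3467 .nil)
noncomputable def n8706 : Strat := .move 1042 n7617 (.cons 1083 n8705 (.cons 920 n7883 .nil))
noncomputable def n8707 : Strat := .move 920 n1306 (.cons 1042 n7558 .nil)
noncomputable def n8708 : Strat := .move 879 n1290 (.cons 838 n8707 .nil)
noncomputable def n8709 : Strat := .win 920 6 796
noncomputable def n8710 : Strat := .win 756 3 755
noncomputable def n8711 : Strat := .win 838 3 796
noncomputable def n8712 : Strat := .move 797 n8710 (.cons 756 n8711 .nil)
noncomputable def n8713 : Strat := .move 796 n8709 (.cons 920 n8712 .nil)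
noncomputable def n8714 : Strat := .move 837 n1285 (.cons 877 n8713 .nil)
noncomputable def n8715 : Strat := .move 920 n99 (.cons 796 n3391 .nil)
noncomputable def n8716 : Strat := .move 837 n1281 (.cons 879 n8713 (.cons 797 n8715 .nil))
noncomputable def n8717 : Strat := .move 837 n1285 (.cons 877 n8715 .nil)
noncomputable def n8718 : Strat := .move 878 n8708 (.cons 879 n8714 (.cons 836 n8716 (.cons 920 n1286 (.cons 838 n8717 .nil))))
noncomputable def n8719 : Strat := .move 919 n7771 (.cons 920 n8704 (.cons 963 n8706 (.cons 918 n8718 .nil)))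
noncomputable def n8720 : Strat := .move 963 n1260 (.cons 1005 n4535 .nil)
noncomputable def n8721 : Strat := .move 1004 n1261 (.cons 959 n8720 .nil)
noncomputable def n8722 : Strat := .move 959 n200 (.cons 1004 n8392 .nil)
noncomputable def n8723 : Strat := .move 959 n8392 (.cons 920 n8321 (.cons 919 n5245 .nil))
noncomputable def n8724 : Strat := .move 921 n4924 (.cons 959 n8719 (.cons 1006 n8721 (.cons 1005 n8722 (.cons 1004 n8723 .nil))))
noncomputable def n8725 : Strat := .move 963 n411 (.cons 1000 n5665 .nil)
noncomputable def n8726 : Strat := .move 879 n3400 (.cons 919 n1352 .nil)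
noncomputable def n8727 : Strat := .move 920 n1269 (.cons 1083 n8726 .nil)
noncomputable def n8728 : Strat := .move 919 n1763 (.cons 879 n3198 .nil)
noncomputable def n8729 : Strat := .move 920 n1269 (.cons 1083 n8728 .nil)
noncomputable def n8730 : Strat := .move 959 n3094 (.cons 1083 n718 .nil)
noncomputable def n8731 : Strat := .move 918 n1943 (.cons 877 n8730 .nil)
noncomputable def n8732 : Strat := .move 1041 n2262 (.cons 878 n1388 .nil)
noncomputable def n8733 : Strat := .move 1000 n3695 (.cons 959 n8732 .nil)
noncomputable def n8734 : Strat := .move 878 n1930 (.cons 1082 n2082 .nil)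
noncomputable def n8735 : Strat := .move 919 n8731 (.cons 918 n8733 (.cons 959 n8734 .nil))
noncomputable def n8736 : Strat := .move 920 n1763 (.cons 879 n3198 .nil)
noncomputable def n8737 : Strat := .move 918 n1943 (.cons 877 n5814 .nil)
noncomputable def n8738 : Strat := .move 919 n8736 (.cons 920 n8737 (.cons 877 n8733 .nil))
noncomputable def n8739 : Strat := .move 1000 n2266 (.cons 1124 n825 .nil)
noncomputable def n8740 : Strat := .move 959 n1938 (.cons 918 n8739 .nil)
noncomputable def n8741 : Strat := .move 1083 n1948 (.cons 920 n8740 .nil)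
noncomputable def n8742 : Strat := .move 1042 n8727 (.cons 838 n8729 (.cons 920 n8735 (.cons 1083 n8738 (.cons 919 n8741 .nil))))
noncomputable def n8743 : Strat := .move 919 n4672 (.cons 917 n4290 (.cons 963 n3392 .nil))
noncomputable def n8744 : Strat := .move 920 n824 (.cons 958 n8743 .nil)
noncomputable def n8745 : Strat := .move 1042 n7766 (.cons 919 n3094 .nil)
noncomputable def n8746 : Strat := .move 877 n3092 (.cons 836 n8745 .nil)
noncomputable def n8747 : Strat := .move 918 n718 (.cons 917 n8746 .nil)
noncomputable def n8748 : Strat := .move 959 n8392 (.cons 1083 n8744 (.cons 919 n8394 (.cons 920 n8747 .nil)))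
noncomputable def n8749 : Strat := .move 1005 n8725 (.cons 963 n8742 (.cons 918 n3703 (.cons 1000 n8748 .nil)))
noncomputable def n8750 : Strat := .move 959 n825 (.cons 999 n3324 .nil)
noncomputable def n8751 : Strat := .move 1000 n2865 (.cons 963 n8750 .nil)
noncomputable def n8752 : Strat := .move 919 n1351 (.cons 964 n3391 .nil)
noncomputable def n8753 : Strat := .move 919 n1351 (.cons 964 n3392 .nil)
noncomputable def n8754 : Strat := .move 879 n1352 (.cons 838 n5018 .nil)
noncomputable def n8755 : Strat := .move 920 n8752 (.cons 1083 n8753 (.cons 964 n3462 (.cons 1042 n8754 (.cons 879 n4131 (.cons 919 n4232 .nil)))))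
noncomputable def n8756 : Strat := .move 963 n411 (.cons 1000 n8755 .nil)
noncomputable def n8757 : Strat := .move 964 n197 (.cons 920 n3625 .nil)
noncomputable def n8758 : Strat := .move 919 n198 (.cons 918 n8757 .nil)
noncomputable def n8759 : Strat := .move 963 n411 (.cons 1000 n8758 .nil)
noncomputable def n8760 : Strat := .move 1000 n825 (.cons 999 n8394 .nil)
noncomputable def n8761 : Strat := .move 959 n8392 (.cons 920 n8278 (.cons 1042 n8760 .nil))
noncomputable def n8762 : Strat := .move 921 n8749 (.cons 920 n8751 (.cons 918 n8756 (.cons 1042 n8759 (.cons 963 n8761 (.cons 1000 n8723 .nil)))))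
noncomputable def n8763 : Strat := .move 918 n718 (.cons 917 n3095 .nil)
noncomputable def n8764 : Strat := .move 1000 n825 (.cons 999 n8763 .nil)
noncomputable def n8765 : Strat := .move 959 n200 (.cons 1004 n8764 .nil)
noncomputable def n8766 : Strat := .move 963 n411 (.cons 1000 n1355 .nil)
noncomputable def n8767 : Strat := .move 961 n8566 (.cons 1000 n8724 (.cons 1004 n8762 (.cons 963 n8765 (.cons 959 n8766 .nil))))
noncomputable def n8768 : Strat := .move 1042 n1763 (.cons 879 n4456 .nil)
noncomputable def n8769 : Strat := .move 920 n77 (.cons 918 n8768 .nil)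
noncomputable def n8770 : Strat := .move 878 n7568 (.cons 1000 n7572 (.cons 836 n7570 (.cons 837 n4490 .nil)))
noncomputable def n8771 : Strat := .move 1042 n1289 (.cons 920 n4456 .nil)
noncomputable def n8772 : Strat := .move 878 n1290 (.cons 838 n7560 .nil)
noncomputable def n8773 : Strat := .move 879 n7622 (.cons 838 n8771 (.cons 920 n8772 .nil))
noncomputable def n8774 : Strat := .move 963 n7566 (.cons 797 n8769 (.cons 1042 n7563 (.cons 879 n7556 (.cons 920 n8770 (.cons 918 n8773 .nil)))))
noncomputable def n8775 : Strat := .move 963 n77 (.cons 918 n8768 .nil)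
noncomputable def n8776 : Strat := .move 1042 n1763 (.cons 879 n8667 .nil)
noncomputable def n8777 : Strat := .move 918 n81 (.cons 963 n1943 .nil)
noncomputable def n8778 : Strat := .move 1042 n8777 (.cons 918 n8667 .nil)
noncomputable def n8779 : Strat := .move 1042 n1763 (.cons 879 n8777 .nil)
noncomputable def n8780 : Strat := .move 918 n81 (.cons 963 n8425 .nil)
noncomputable def n8781 : Strat := .move 920 n8775 (.cons 918 n8776 (.cons 879 n8778 (.cons 1123 n8779 (.cons 1042 n8780 .nil))))
noncomputable def n8782 : Strat := .move 879 n1290 (.cons 838 n1306 .nil)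
noncomputable def n8783 : Strat := .move 879 n1306 (.cons 1042 n7558 .nil)
noncomputable def n8784 : Strat := .move 920 n8782 (.cons 838 n8783 (.cons 879 n7578 .nil))
noncomputable def n8785 : Strat := .move 837 n1279 (.cons 797 n4169 .nil)
noncomputable def n8786 : Strat := .move 838 n1280 (.cons 879 n8785 .nil)
noncomputable def n8787 : Strat := .move 877 n2080 (.cons 836 n8786 .nil)
noncomputable def n8788 : Strat := .move 879 n1290 (.cons 838 n7579 .nil)
noncomputable def n8789 : Strat := .move 877 n2080 (.cons 836 n8788 .nil)
noncomputable def n8790 : Strat := .move 878 n8784 (.cons 920 n8787 (.cons 837 n8789 (.cons 877 n7570 (.cons 838 n7578 .nil))))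
noncomputable def n8791 : Strat := .move 1042 n2081 (.cons 918 n4456 .nil)
noncomputable def n8792 : Strat := .win 959 1 795
noncomputable def n8793 : Strat := .win 755 1 754
noncomputable def n8794 : Strat := .move 796 n8792 (.cons 959 n8793 .nil)
noncomputable def n8795 : Strat := .move 837 n1281 (.cons 879 n8794 .nil)
noncomputable def n8796 : Strat := .move 918 n4451 (.cons 1042 n8795 .nil)
noncomputable def n8797 : Strat := .move 877 n4489 (.cons 918 n8786 (.cons 1000 n8791 (.cons 1041 n8796 .nil)))
noncomputable def n8798 : Strat := .move 877 n2080 (.cons 836 n8791 .nil)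
noncomputable def n8799 : Strat := .move 877 n2080 (.cons 836 n8796 .nil)
noncomputable def n8800 : Strat := .move 878 n4490 (.cons 918 n8787 (.cons 836 n8797 (.cons 1000 n8798 (.cons 1041 n8799 (.cons 877 n7570 .nil)))))
noncomputable def n8801 : Strat := .move 959 n86 (.cons 958 n3094 .nil)
noncomputable def n8802 : Strat := .move 918 n81 (.cons 963 n8801 .nil)
noncomputable def n8803 : Strat := .move 920 n1763 (.cons 879 n8802 .nil)
noncomputable def n8804 : Strat := .win 918 6 918
noncomputable def n8805 : Strat := .move 959 n2266 (.cons 1124 n8804 .nil)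
noncomputable def n8806 : Strat := .move 1083 n4455 (.cons 1043 n8805 .nil)
noncomputable def n8807 : Strat := .move 1000 n2262 (.cons 878 n8806 .nil)
noncomputable def n8808 : Strat := .move 1041 n1388 (.cons 1082 n8807 .nil)
noncomputable def n8809 : Strat := .move 920 n77 (.cons 918 n1763 .nil)
noncomputable def n8810 : Strat := .move 963 n8809 (.cons 918 n7664 (.cons 920 n8667 .nil))
noncomputable def n8811 : Strat := .move 878 n1929 (.cons 1000 n1291 .nil)
noncomputable def n8812 : Strat := .move 1041 n1388 (.cons 1082 n8811 .nil)
noncomputable def n8813 : Strat := .move 1042 n8803 (.cons 879 n8808 (.cons 959 n8810 (.cons 918 n8668 (.cons 1083 n8812 .nil))))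
noncomputable def n8814 : Strat := .move 920 n8777 (.cons 877 n8802 (.cons 918 n8667 .nil))
noncomputable def n8815 : Strat := .move 920 n86 (.cons 958 n81 .nil)
noncomputable def n8816 : Strat := .move 959 n3094 (.cons 1083 n8815 .nil)
noncomputable def n8817 : Strat := .move 918 n1943 (.cons 877 n8816 .nil)
noncomputable def n8818 : Strat := .move 1042 n8814 (.cons 877 n8808 (.cons 1043 n8817 (.cons 918 n8667 (.cons 1083 n8673 .nil))))
noncomputable def n8819 : Strat := .move 920 n81 (.cons 963 n306 .nil)
noncomputable def n8820 : Strat := .move 877 n4451 (.cons 1042 n8819 .nil)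
noncomputable def n8821 : Strat := .move 918 n8688 (.cons 836 n8820 (.cons 877 n8417 (.cons 1042 n8419 .nil)))
noncomputable def n8822 : Strat := .move 920 n77 (.cons 918 n7559 .nil)
noncomputable def n8823 : Strat := .move 920 n77 (.cons 918 n7561 .nil)
noncomputable def n8824 : Strat := .move 963 n8822 (.cons 876 n8823 (.cons 920 n7568 .nil))
noncomputable def n8825 : Strat := .move 1000 n4168 (.cons 1041 n7537 .nil)
noncomputable def n8826 : Strat := .win 879 0 876
noncomputable def n8827 : Strat := .win 875 0 875
noncomputable def n8828 : Strat := .move 876 n8826 (.cons 879 n8827 .nil)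
noncomputable def n8829 : Strat := .move 877 n2080 (.cons 836 n8828 .nil)
noncomputable def n8830 : Strat := .move 879 n287 (.cons 876 n1290 .nil)
noncomputable def n8831 : Strat := .move 877 n2080 (.cons 836 n8830 .nil)
noncomputable def n8832 : Strat := .win 875 2 875
noncomputable def n8833 : Strat := .win 877 2 876
noncomputable def n8834 : Strat := .move 876 n8832 (.cons 875 n8833 .nil)
noncomputable def n8835 : Strat := .win 957 4 916
noncomputable def n8836 : Strat := .win 959 4 917
noncomputable def n8837 : Strat := .move 958 n8835 (.cons 957 n8836 .nil)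
noncomputable def n8838 : Strat := .move 917 n8834 (.cons 877 n8837 .nil)
noncomputable def n8839 : Strat := .move 918 n81 (.cons 963 n8838 .nil)
noncomputable def n8840 : Strat := .win 916 5 875
noncomputable def n8841 : Strat := .move 879 n8840 (.cons 916 n1290 .nil)
noncomputable def n8842 : Strat := .move 917 n8837 (.cons 959 n8841 .nil)
noncomputable def n8843 : Strat := .move 918 n81 (.cons 963 n8842 .nil)
noncomputable def n8844 : Strat := .move 920 n8829 (.cons 875 n8831 (.cons 836 n8839 (.cons 877 n8843 .nil)))
noncomputable def n8845 : Strat := .move 878 n8824 (.cons 1000 n7572 (.cons 797 n8825 (.cons 795 n7570 (.cons 837 n8844 .nil))))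
noncomputable def n8846 : Strat := .move 919 n8774 (.cons 878 n8781 (.cons 918 n8790 (.cons 920 n8800 (.cons 877 n8813 (.cons 879 n8818 (.cons 1041 n8821 (.cons 1042 n8845 .nil)))))))
noncomputable def n8847 : Strat := .move 921 n73 (.cons 880 n8846 .nil)
noncomputable def n8848 : Strat := .move 918 n7712 (.cons 916 n4452 .nil)
noncomputable def n8849 : Strat := .move 878 n4168 (.cons 1041 n8848 .nil)
noncomputable def n8850 : Strat := .move 877 n2081 (.cons 918 n2080 .nil)
noncomputable def n8851 : Strat := .move 1042 n1764 (.cons 1083 n1291 (.cons 879 n8850 .nil))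
noncomputable def n8852 : Strat := .move 878 n4168 (.cons 1041 n8851 .nil)
noncomputable def n8853 : Strat := .move 879 n2942 (.cons 880 n1290 .nil)
noncomputable def n8854 : Strat := .move 918 n7712 (.cons 916 n8853 .nil)
noncomputable def n8855 : Strat := .move 878 n8848 (.cons 918 n1286 (.cons 836 n8854 .nil))
noncomputable def n8856 : Strat := .move 918 n1943 (.cons 877 n7712 .nil)
noncomputable def n8857 : Strat := .move 1042 n1764 (.cons 1083 n8705 (.cons 879 n8856 (.cons 920 n4456 .nil)))
noncomputable def n8858 : Strat := .move 1042 n8678 (.cons 878 n1764 .nil)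
noncomputable def n8859 : Strat := .move 919 n8849 (.cons 916 n8852 (.cons 1041 n8855 (.cons 1042 n8403 (.cons 878 n8857 (.cons 877 n8858 .nil)))))
noncomputable def n8860 : Strat := .move 999 n3693 (.cons 998 n8859 .nil)
noncomputable def n8861 : Strat := .move 1000 n2865 (.cons 963 n8860 .nil)
noncomputable def n8862 : Strat := .move 880 n7763 (.cons 919 n4473 (.cons 1004 n4535 (.cons 964 n7764 .nil)))
noncomputable def n8863 : Strat := .move 963 n1454 (.cons 959 n8862 (.cons 1005 n1355 .nil))
noncomputable def n8864 : Strat := .move 959 n200 (.cons 1004 n3338 .nil)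
noncomputable def n8865 : Strat := .move 1000 n8565 (.cons 999 n8864 (.cons 1004 n3702 (.cons 959 n8860 .nil)))
noncomputable def n8866 : Strat := .move 961 n8566 (.cons 959 n8861 (.cons 1000 n8863 (.cons 963 n8865 .nil)))
noncomputable def n8867 : Strat := .move 960 n8569 (.cons 964 n8570 (.cons 963 n8600 (.cons 918 n8638 (.cons 920 n8643 (.cons 877 n8653 (.cons 919 n8655 (.cons 959 n8701 (.cons 1000 n8702 (.cons 1042 n8703 (.cons 880 n8767 (.cons 961 n8847 (.cons 921 n8866 .nil))))))))))))
noncomputable def n8868 : Strat := .move 1001 n7276 (.cons 963 n7436 (.cons 961 n7466 (.cons 964 n7671 (.cons 1005 n7692 (.cons 919 n7702 (.cons 1000 n8022 (.cons 1042 n8113 (.cons 959 n8250 (.cons 1043 n8275 (.cons 1041 n8338 (.cons 1040 n8358 (.cons 1046 n8362 (.cons 1045 n8375 (.cons 1004 n8434 (.cons 921 n8470 (.cons 880 n8562 (.cons 960 n8564 (.cons 1002 n8867 .nil))))))))))))))))))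
noncomputable def n8869 : Strat := .move 1003 n2810 (.cons 921 n3717 (.cons 880 n3962 (.cons 1002 n3987 (.cons 1004 n4032 (.cons 920 n4127 (.cons 1005 n4128 (.cons 1045 n4514 (.cons 1085 n5054 (.cons 1001 n5084 (.cons 1084 n5379 (.cons 1086 n5624 (.cons 1127 n5626 (.cons 1041 n5637 (.cons 1042 n5824 (.cons 1046 n5839 (.cons 1082 n5852 (.cons 1043 n6363 (.cons 961 n7178 (.cons 1044 n8868 .nil)))))))))))))))))))
noncomputable def n8870 : Strat := .move 962 n115 (.cons 799 n266 (.cons 963 n403 (.cons 880 n443 (.cons 882 n509 (.cons 1005 n561 (.cons 920 n566 (.cons 1003 n1251 (.cons 921 n2761 (.cons 922 n8869 .nil)))))))))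

theorem ok : checkS n8870 (pairBits 840 881) (pairBits 841 839) ≠ 0 := by decide +kernel

theorem reply : MakerWins {cellOf 881, cellOf 840} {cellOf 841, cellOf 839} :=
  reply2 n8870 840 881 841 839 ok

end Vale.Agent.Snaky.Cert2.R839
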