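import Vale.Agent.Snaky.Cert2.Lem

namespace Vale.Agent.Snaky.Cert2.R879

open Vale.Agent.Snaky

noncomputable def n0 : Strat := .win 962 1 798
noncomputable def n1 : Strat := .win 880 1 757
noncomputable def n2 : Strat := .win 798 7 757
noncomputable def n3 : Strat := .win 716 7 716
noncomputable def n4 : Strat := .move 757 n2 (.cons 798 n3 .nil)
noncomputable def n5 : Strat := .move 758 n1 (.cons 880 n4 .nil)
noncomputable def n6 : Strat := .move 921 n0 (.cons 962 n5 .nil)
noncomputable def n7 : Strat := .win 757 7 757
noncomputable def n8 : Strat := .win 839 7 798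
noncomputable def n9 : Strat := .win 923 6 799
noncomputable def n10 : Strat := .win 1005 6 840
noncomputable def n11 : Strat := .move 964 n9 (.cons 923 n10 .nil)
noncomputable def n12 : Strat := .move 963 n8 (.cons 839 n11 .nil)
noncomputable def n13 : Strat := .move 798 n7 (.cons 757 n12 .nil)
noncomputable def n14 : Strat := .win 964 6 799
noncomputable def n15 : Strat := .win 882 6 758
noncomputable def n16 : Strat := .move 923 n14 (.cons 964 n15 .nil)
noncomputable def n17 : Strat := .move 758 n1 (.cons 880 n16 .nil)
noncomputable def n18 : Strat := .move 921 n0 (.cons 962 n17 .nil)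
noncomputable def n19 : Strat := .move 799 n6 (.cons 921 n13 (.cons 757 n18 .nil))
noncomputable def n20 : Strat := .win 921 1 798
noncomputable def n21 : Strat := .win 1003 1 839
noncomputable def n22 : Strat := .move 962 n20 (.cons 921 n21 .nil)
noncomputable def n23 : Strat := .move 963 n8 (.cons 839 n22 .nil)
noncomputable def n24 : Strat := .move 798 n7 (.cons 757 n23 .nil)
noncomputable def n25 : Strat := .win 800 3 758
noncomputable def n26 : Strat := .win 718 3 717
noncomputable def n27 : Strat := .move 759 n25 (.cons 800 n26 .nil)
noncomputable def n28 : Strat := .move 758 n1 (.cons 880 n27 .nil)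
noncomputable def n29 : Strat := .move 921 n0 (.cons 962 n28 .nil)
noncomputable def n30 : Strat := .move 799 n24 (.cons 798 n29 (.cons 921 n13 .nil))
noncomputable def n31 : Strat := .move 758 n4 (.cons 798 n16 .nil)
noncomputable def n32 : Strat := .move 921 n0 (.cons 962 n31 .nil)
noncomputable def n33 : Strat := .win 963 7 798
noncomputable def n34 : Strat := .win 759 3 758
noncomputable def n35 : Strat := .win 801 4 797
noncomputable def n36 : Strat := .win 837 5 796
noncomputable def n37 : Strat := .move 838 n35 (.cons 801 n36 .nil)
noncomputable def n38 : Strat := .move 800 n34 (.cons 759 n37 .nil)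
noncomputable def n39 : Strat := .move 839 n33 (.cons 963 n38 .nil)
noncomputable def n40 : Strat := .move 798 n7 (.cons 757 n39 .nil)
noncomputable def n41 : Strat := .move 799 n6 (.cons 798 n18 (.cons 880 n32 (.cons 921 n40 .nil)))
noncomputable def n42 : Strat := .move 758 n15 (.cons 882 n27 .nil)
noncomputable def n43 : Strat := .move 923 n14 (.cons 964 n42 .nil)
noncomputable def n44 : Strat := .move 799 n13 (.cons 798 n43 (.cons 964 n40 .nil))
noncomputable def n45 : Strat := .move 799 n6 (.cons 921 n40 (.cons 798 n29 .nil))
noncomputable def n46 : Strat := .win 798 7 798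
noncomputable def n47 : Strat := .win 880 7 839
noncomputable def n48 : Strat := .win 964 6 840
noncomputable def n49 : Strat := .win 1046 6 881
noncomputable def n50 : Strat := .move 1005 n48 (.cons 964 n49 .nil)
noncomputable def n51 : Strat := .move 1004 n47 (.cons 880 n50 .nil)
noncomputable def n52 : Strat := .move 839 n46 (.cons 798 n51 .nil)
noncomputable def n53 : Strat := .win 962 1 839
noncomputable def n54 : Strat := .win 1044 1 880
noncomputable def n55 : Strat := .move 1003 n53 (.cons 962 n54 .nil)
noncomputable def n56 : Strat := .move 1004 n47 (.cons 880 n55 .nil)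
noncomputable def n57 : Strat := .move 839 n46 (.cons 798 n56 .nil)
noncomputable def n58 : Strat := .move 1004 n50 (.cons 964 n55 .nil)
noncomputable def n59 : Strat := .move 839 n46 (.cons 798 n58 .nil)
noncomputable def n60 : Strat := .win 919 0 919
noncomputable def n61 : Strat := .win 965 2 920
noncomputable def n62 : Strat := .move 920 n60 (.cons 919 n61 .nil)
noncomputable def n63 : Strat := .win 960 4 919
noncomputable def n64 : Strat := .win 924 4 920
noncomputable def n65 : Strat := .move 961 n63 (.cons 960 n64 .nil)
noncomputable def n66 : Strat := .win 925 4 921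
noncomputable def n67 : Strat := .win 882 5 879
noncomputable def n68 : Strat := .win 884 5 880
noncomputable def n69 : Strat := .move 883 n67 (.cons 882 n68 .nil)
noncomputable def n70 : Strat := .move 924 n66 (.cons 925 n69 .nil)
noncomputable def n71 : Strat := .win 883 5 879
noncomputable def n72 : Strat := .win 1001 4 960
noncomputable def n73 : Strat := .win 1084 3 920
noncomputable def n74 : Strat := .win 880 3 879
noncomputable def n75 : Strat := .move 1043 n73 (.cons 1084 n74 .nil)
noncomputable def n76 : Strat := .move 1002 n72 (.cons 1001 n75 .nil)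
noncomputable def n77 : Strat := .move 882 n71 (.cons 883 n76 .nil)
noncomputable def n78 : Strat := .move 961 n63 (.cons 960 n77 .nil)
noncomputable def n79 : Strat := .move 923 n65 (.cons 961 n70 (.cons 924 n78 .nil))
noncomputable def n80 : Strat := .move 920 n60 (.cons 919 n79 .nil)
noncomputable def n81 : Strat := .move 920 n61 (.cons 965 n79 .nil)
noncomputable def n82 : Strat := .win 966 2 921
noncomputable def n83 : Strat := .win 925 5 921
noncomputable def n84 : Strat := .win 923 4 920
noncomputable def n85 : Strat := .win 959 5 918
noncomputable def n86 : Strat := .win 1000 4 959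
noncomputable def n87 : Strat := .win 1002 4 960
noncomputable def n88 : Strat := .move 1001 n86 (.cons 1000 n87 .nil)
noncomputable def n89 : Strat := .move 960 n85 (.cons 959 n88 .nil)
noncomputable def n90 : Strat := .move 961 n84 (.cons 923 n89 .nil)
noncomputable def n91 : Strat := .move 924 n83 (.cons 925 n90 .nil)
noncomputable def n92 : Strat := .move 965 n82 (.cons 966 n91 .nil)
noncomputable def n93 : Strat := .move 921 n62 (.cons 965 n80 (.cons 919 n81 (.cons 920 n92 .nil)))
noncomputable def n94 : Strat := .move 964 n10 (.cons 1005 n93 .nil)
noncomputable def n95 : Strat := .move 962 n21 (.cons 1003 n94 .nil)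
noncomputable def n96 : Strat := .move 963 n52 (.cons 964 n57 (.cons 880 n59 (.cons 839 n95 .nil)))
noncomputable def n97 : Strat := .move 799 n20 (.cons 921 n9 .nil)
noncomputable def n98 : Strat := .move 964 n10 (.cons 1005 n97 .nil)
noncomputable def n99 : Strat := .move 962 n21 (.cons 1003 n98 .nil)
noncomputable def n100 : Strat := .move 758 n3 (.cons 716 n27 .nil)
noncomputable def n101 : Strat := .move 757 n2 (.cons 798 n100 .nil)
noncomputable def n102 : Strat := .move 799 n9 (.cons 923 n101 .nil)
noncomputable def n103 : Strat := .move 964 n10 (.cons 1005 n102 .nil)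
noncomputable def n104 : Strat := .move 799 n20 (.cons 921 n101 .nil)
noncomputable def n105 : Strat := .move 962 n21 (.cons 1003 n104 .nil)
noncomputable def n106 : Strat := .move 963 n99 (.cons 799 n95 (.cons 962 n103 (.cons 964 n105 .nil)))
noncomputable def n107 : Strat := .win 838 4 797
noncomputable def n108 : Strat := .win 802 4 798
noncomputable def n109 : Strat := .move 839 n107 (.cons 838 n108 .nil)
noncomputable def n110 : Strat := .win 842 0 798
noncomputable def n111 : Strat := .win 844 0 799
noncomputable def n112 : Strat := .win 762 5 758
noncomputable def n113 : Strat := .win 760 5 757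
noncomputable def n114 : Strat := .move 761 n112 (.cons 762 n113 .nil)
noncomputable def n115 : Strat := .move 802 n111 (.cons 844 n114 .nil)
noncomputable def n116 : Strat := .move 843 n110 (.cons 842 n115 .nil)
noncomputable def n117 : Strat := .win 919 5 878
noncomputable def n118 : Strat := .move 920 n71 (.cons 883 n117 .nil)
noncomputable def n119 : Strat := .win 920 5 879
noncomputable def n120 : Strat := .win 884 2 839
noncomputable def n121 : Strat := .move 883 n119 (.cons 920 n120 .nil)
noncomputable def n122 : Strat := .win 880 1 797
noncomputable def n123 : Strat := .move 961 n122 (.cons 880 n63 .nil)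
noncomputable def n124 : Strat := .move 920 n117 (.cons 919 n123 .nil)
noncomputable def n125 : Strat := .win 842 1 759
noncomputable def n126 : Strat := .win 761 5 757
noncomputable def n127 : Strat := .move 760 n125 (.cons 842 n126 .nil)
noncomputable def n128 : Strat := .move 883 n120 (.cons 884 n127 .nil)
noncomputable def n129 : Strat := .move 882 n118 (.cons 919 n121 (.cons 883 n124 (.cons 920 n128 .nil)))
noncomputable def n130 : Strat := .move 839 n107 (.cons 838 n129 .nil)
noncomputable def n131 : Strat := .move 801 n109 (.cons 839 n116 (.cons 802 n130 .nil))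
noncomputable def n132 : Strat := .move 800 n34 (.cons 759 n131 .nil)
noncomputable def n133 : Strat := .move 798 n7 (.cons 757 n132 .nil)
noncomputable def n134 : Strat := .move 923 n14 (.cons 964 n133 .nil)
noncomputable def n135 : Strat := .move 921 n0 (.cons 962 n134 .nil)
noncomputable def n136 : Strat := .move 799 n6 (.cons 921 n101 (.cons 757 n18 (.cons 758 n135 .nil)))
noncomputable def n137 : Strat := .move 963 n21 (.cons 1003 n11 .nil)
noncomputable def n138 : Strat := .move 962 n20 (.cons 921 n137 .nil)
noncomputable def n139 : Strat := .move 799 n18 (.cons 921 n43 (.cons 923 n29 (.cons 758 n138 .nil)))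
noncomputable def n140 : Strat := .move 922 n19 (.cons 882 n30 (.cons 1005 n41 (.cons 921 n44 (.cons 964 n45 (.cons 799 n96 (.cons 839 n106 (.cons 963 n136 (.cons 798 n139 .nil))))))))

theorem ok : checkS n140 (pairBits 840 881) (pairBits 841 879) ≠ 0 := by decide +kernel

theorem reply : MakerWins {cellOf 881, cellOf 840} {cellOf 841, cellOf 879} :=
  reply2 n140 840 881 841 879 ok

end Vale.Agent.Snaky.Cert2.R879
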