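import Vale.Agent.Snaky.Cert2.Lem

namespace Vale.Agent.Snaky.Cert2.R962

open Vale.Agent.Snaky

noncomputable def n0 : Strat := .win 716 7 716
noncomputable def n1 : Strat := .win 718 3 717
noncomputable def n2 : Strat := .win 922 7 757
noncomputable def n3 : Strat := .win 760 4 756
noncomputable def n4 : Strat := .win 796 5 755
noncomputable def n5 : Strat := .move 797 n3 (.cons 760 n4 .nil)
noncomputable def n6 : Strat := .move 798 n2 (.cons 922 n5 .nil)
noncomputable def n7 : Strat := .move 759 n1 (.cons 718 n6 .nil)
noncomputable def n8 : Strat := .move 757 n0 (.cons 716 n7 .nil)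
noncomputable def n9 : Strat := .win 800 3 758
noncomputable def n10 : Strat := .win 882 6 758
noncomputable def n11 : Strat := .win 964 6 799
noncomputable def n12 : Strat := .move 923 n10 (.cons 882 n11 .nil)
noncomputable def n13 : Strat := .move 922 n9 (.cons 800 n12 .nil)
noncomputable def n14 : Strat := .move 759 n1 (.cons 718 n13 .nil)
noncomputable def n15 : Strat := .win 921 1 757
noncomputable def n16 : Strat := .win 717 1 716
noncomputable def n17 : Strat := .win 715 7 715
noncomputable def n18 : Strat := .win 755 0 755
noncomputable def n19 : Strat := .win 801 2 756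
noncomputable def n20 : Strat := .move 800 n18 (.cons 755 n19 .nil)
noncomputable def n21 : Strat := .move 756 n17 (.cons 715 n20 .nil)
noncomputable def n22 : Strat := .move 839 n16 (.cons 717 n21 .nil)
noncomputable def n23 : Strat := .move 880 n15 (.cons 921 n22 .nil)
noncomputable def n24 : Strat := .move 798 n2 (.cons 922 n23 .nil)
noncomputable def n25 : Strat := .move 757 n0 (.cons 716 n24 .nil)
noncomputable def n26 : Strat := .win 923 6 758
noncomputable def n27 : Strat := .win 837 0 837
noncomputable def n28 : Strat := .win 883 2 838
noncomputable def n29 : Strat := .move 838 n27 (.cons 837 n28 .nil)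
noncomputable def n30 : Strat := .move 882 n26 (.cons 923 n29 .nil)
noncomputable def n31 : Strat := .move 839 n16 (.cons 717 n30 .nil)
noncomputable def n32 : Strat := .move 880 n15 (.cons 921 n31 .nil)
noncomputable def n33 : Strat := .move 759 n1 (.cons 718 n32 .nil)
noncomputable def n34 : Strat := .move 757 n0 (.cons 716 n33 .nil)
noncomputable def n35 : Strat := .move 758 n8 (.cons 716 n14 (.cons 718 n25 (.cons 922 n34 .nil)))
noncomputable def n36 : Strat := .win 839 1 716
noncomputable def n37 : Strat := .win 759 3 717
noncomputable def n38 : Strat := .win 677 3 676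
noncomputable def n39 : Strat := .move 718 n37 (.cons 759 n38 .nil)
noncomputable def n40 : Strat := .move 717 n36 (.cons 839 n39 .nil)
noncomputable def n41 : Strat := .move 880 n15 (.cons 921 n40 .nil)
noncomputable def n42 : Strat := .win 757 7 716
noncomputable def n43 : Strat := .win 675 7 675
noncomputable def n44 : Strat := .move 716 n42 (.cons 757 n43 .nil)
noncomputable def n45 : Strat := .move 717 n36 (.cons 839 n44 .nil)
noncomputable def n46 : Strat := .move 880 n15 (.cons 921 n45 .nil)
noncomputable def n47 : Strat := .win 801 0 756
noncomputable def n48 : Strat := .move 800 n18 (.cons 755 n47 .nil)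
noncomputable def n49 : Strat := .win 800 0 755
noncomputable def n50 : Strat := .win 797 4 755
noncomputable def n51 : Strat := .win 795 4 754
noncomputable def n52 : Strat := .move 796 n50 (.cons 797 n51 .nil)
noncomputable def n53 : Strat := .move 755 n49 (.cons 800 n52 .nil)
noncomputable def n54 : Strat := .win 796 4 755
noncomputable def n55 : Strat := .win 798 4 756
noncomputable def n56 : Strat := .win 715 2 714
noncomputable def n57 : Strat := .win 803 0 758
noncomputable def n58 : Strat := .win 801 0 757
noncomputable def n59 : Strat := .move 802 n57 (.cons 803 n58 .nil)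
noncomputable def n60 : Strat := .win 721 5 717
noncomputable def n61 : Strat := .win 719 5 716
noncomputable def n62 : Strat := .move 720 n60 (.cons 721 n61 .nil)
noncomputable def n63 : Strat := .move 761 n59 (.cons 801 n62 .nil)
noncomputable def n64 : Strat := .move 714 n56 (.cons 715 n63 .nil)
noncomputable def n65 : Strat := .move 760 n55 (.cons 798 n64 .nil)
noncomputable def n66 : Strat := .move 797 n54 (.cons 796 n65 .nil)
noncomputable def n67 : Strat := .move 756 n48 (.cons 801 n53 (.cons 800 n66 .nil))
noncomputable def n68 : Strat := .move 759 n1 (.cons 718 n67 .nil)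
noncomputable def n69 : Strat := .move 757 n0 (.cons 716 n68 .nil)
noncomputable def n70 : Strat := .move 758 n34 (.cons 757 n41 (.cons 759 n46 (.cons 880 n69 .nil)))
noncomputable def n71 : Strat := .win 922 3 758
noncomputable def n72 : Strat := .win 837 5 796
noncomputable def n73 : Strat := .win 802 4 798
noncomputable def n74 : Strat := .win 798 4 797
noncomputable def n75 : Strat := .move 801 n73 (.cons 802 n74 .nil)
noncomputable def n76 : Strat := .move 838 n72 (.cons 837 n75 .nil)
noncomputable def n77 : Strat := .move 839 n16 (.cons 717 n76 .nil)
noncomputable def n78 : Strat := .move 880 n15 (.cons 921 n77 .nil)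
noncomputable def n79 : Strat := .move 800 n71 (.cons 922 n78 .nil)
noncomputable def n80 : Strat := .move 759 n1 (.cons 718 n79 .nil)
noncomputable def n81 : Strat := .move 758 n33 (.cons 923 n80 (.cons 717 n14 (.cons 718 n32 .nil)))
noncomputable def n82 : Strat := .win 756 0 756
noncomputable def n83 : Strat := .win 802 2 757
noncomputable def n84 : Strat := .move 801 n82 (.cons 756 n83 .nil)
noncomputable def n85 : Strat := .move 800 n71 (.cons 922 n84 .nil)
noncomputable def n86 : Strat := .move 757 n0 (.cons 716 n85 .nil)
noncomputable def n87 : Strat := .move 759 n1 (.cons 718 n86 .nil)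
noncomputable def n88 : Strat := .move 800 n71 (.cons 922 n32 .nil)
noncomputable def n89 : Strat := .move 759 n1 (.cons 718 n88 .nil)
noncomputable def n90 : Strat := .move 758 n87 (.cons 759 n46 (.cons 716 n89 .nil))
noncomputable def n91 : Strat := .win 798 7 757
noncomputable def n92 : Strat := .move 922 n91 (.cons 798 n12 .nil)
noncomputable def n93 : Strat := .move 757 n0 (.cons 716 n92 .nil)
noncomputable def n94 : Strat := .move 758 n25 (.cons 716 n32 (.cons 839 n93 .nil))
noncomputable def n95 : Strat := .win 757 2 757
noncomputable def n96 : Strat := .win 803 2 758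
noncomputable def n97 : Strat := .move 802 n95 (.cons 757 n96 .nil)
noncomputable def n98 : Strat := .win 839 4 798
noncomputable def n99 : Strat := .move 802 n96 (.cons 803 n98 .nil)
noncomputable def n100 : Strat := .win 761 4 757
noncomputable def n101 : Strat := .win 797 5 756
noncomputable def n102 : Strat := .move 760 n100 (.cons 761 n101 .nil)
noncomputable def n103 : Strat := .win 760 5 756
noncomputable def n104 : Strat := .move 797 n4 (.cons 796 n103 .nil)
noncomputable def n105 : Strat := .win 838 4 797
noncomputable def n106 : Strat := .move 880 n16 (.cons 717 n15 .nil)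
noncomputable def n107 : Strat := .move 839 n105 (.cons 838 n106 .nil)
noncomputable def n108 : Strat := .move 757 n82 (.cons 756 n107 .nil)
noncomputable def n109 : Strat := .move 760 n100 (.cons 761 n108 .nil)
noncomputable def n110 : Strat := .win 757 0 756
noncomputable def n111 : Strat := .win 755 2 755
noncomputable def n112 : Strat := .move 797 n4 (.cons 796 n111 .nil)
noncomputable def n113 : Strat := .move 756 n110 (.cons 757 n112 .nil)
noncomputable def n114 : Strat := .move 798 n102 (.cons 761 n104 (.cons 797 n109 (.cons 760 n113 .nil)))
noncomputable def n115 : Strat := .move 801 n97 (.cons 757 n99 (.cons 802 n114 .nil))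
noncomputable def n116 : Strat := .move 800 n71 (.cons 922 n115 .nil)
noncomputable def n117 : Strat := .move 759 n1 (.cons 718 n116 .nil)
noncomputable def n118 : Strat := .move 922 n9 (.cons 800 n91 .nil)
noncomputable def n119 : Strat := .move 759 n1 (.cons 718 n118 .nil)
noncomputable def n120 : Strat := .move 757 n0 (.cons 716 n119 .nil)
noncomputable def n121 : Strat := .win 797 4 756
noncomputable def n122 : Strat := .move 760 n121 (.cons 797 n100 .nil)
noncomputable def n123 : Strat := .move 800 n47 (.cons 801 n18 .nil)
noncomputable def n124 : Strat := .move 756 n17 (.cons 715 n123 .nil)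
noncomputable def n125 : Strat := .move 798 n5 (.cons 796 n122 (.cons 797 n124 .nil))
noncomputable def n126 : Strat := .move 839 n16 (.cons 717 n125 .nil)
noncomputable def n127 : Strat := .move 880 n15 (.cons 921 n126 .nil)
noncomputable def n128 : Strat := .move 759 n1 (.cons 718 n127 .nil)
noncomputable def n129 : Strat := .move 757 n0 (.cons 716 n128 .nil)
noncomputable def n130 : Strat := .move 758 n8 (.cons 716 n117 (.cons 797 n120 (.cons 798 n87 (.cons 759 n25 (.cons 757 n80 (.cons 922 n129 .nil))))))
noncomputable def n131 : Strat := .move 759 n1 (.cons 718 n5 .nil)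
noncomputable def n132 : Strat := .move 798 n2 (.cons 922 n131 .nil)
noncomputable def n133 : Strat := .move 757 n0 (.cons 716 n132 .nil)
noncomputable def n134 : Strat := .move 798 n2 (.cons 922 n32 .nil)
noncomputable def n135 : Strat := .move 757 n0 (.cons 716 n134 .nil)
noncomputable def n136 : Strat := .move 758 n133 (.cons 757 n41 (.cons 718 n135 .nil))
noncomputable def n137 : Strat := .move 880 n15 (.cons 921 n120 .nil)
noncomputable def n138 : Strat := .move 758 n137 (.cons 759 n93 (.cons 716 n14 (.cons 922 n69 .nil)))
noncomputable def n139 : Strat := .win 757 7 757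
noncomputable def n140 : Strat := .win 759 3 758
noncomputable def n141 : Strat := .win 963 7 798
noncomputable def n142 : Strat := .win 801 4 797
noncomputable def n143 : Strat := .move 838 n142 (.cons 801 n72 .nil)
noncomputable def n144 : Strat := .move 839 n141 (.cons 963 n143 .nil)
noncomputable def n145 : Strat := .move 800 n140 (.cons 759 n144 .nil)
noncomputable def n146 : Strat := .move 798 n139 (.cons 757 n145 .nil)
noncomputable def n147 : Strat := .move 759 n1 (.cons 718 n9 .nil)
noncomputable def n148 : Strat := .move 758 n10 (.cons 882 n147 .nil)
noncomputable def n149 : Strat := .move 923 n11 (.cons 964 n148 .nil)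
noncomputable def n150 : Strat := .move 757 n0 (.cons 716 n91 .nil)
noncomputable def n151 : Strat := .move 758 n10 (.cons 882 n150 .nil)
noncomputable def n152 : Strat := .move 923 n11 (.cons 964 n151 .nil)
noncomputable def n153 : Strat := .move 922 n146 (.cons 798 n149 (.cons 800 n152 .nil))
noncomputable def n154 : Strat := .move 800 n140 (.cons 759 n143 .nil)
noncomputable def n155 : Strat := .move 839 n141 (.cons 963 n154 .nil)
noncomputable def n156 : Strat := .move 922 n139 (.cons 757 n155 .nil)
noncomputable def n157 : Strat := .win 839 7 798
noncomputable def n158 : Strat := .win 923 6 799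
noncomputable def n159 : Strat := .win 1005 6 840
noncomputable def n160 : Strat := .move 964 n158 (.cons 923 n159 .nil)
noncomputable def n161 : Strat := .move 963 n157 (.cons 839 n160 .nil)
noncomputable def n162 : Strat := .move 922 n139 (.cons 757 n161 .nil)
noncomputable def n163 : Strat := .win 675 6 675
noncomputable def n164 : Strat := .win 839 6 716
noncomputable def n165 : Strat := .move 716 n163 (.cons 675 n164 .nil)
noncomputable def n166 : Strat := .move 757 n2 (.cons 922 n165 .nil)
noncomputable def n167 : Strat := .move 922 n140 (.cons 759 n144 .nil)
noncomputable def n168 : Strat := .move 839 n105 (.cons 838 n73 .nil)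
noncomputable def n169 : Strat := .win 760 5 757
noncomputable def n170 : Strat := .win 762 5 758
noncomputable def n171 : Strat := .move 761 n169 (.cons 760 n170 .nil)
noncomputable def n172 : Strat := .move 802 n98 (.cons 839 n171 .nil)
noncomputable def n173 : Strat := .win 839 4 797
noncomputable def n174 : Strat := .win 837 4 796
noncomputable def n175 : Strat := .win 759 5 756
noncomputable def n176 : Strat := .win 761 5 757
noncomputable def n177 : Strat := .move 760 n175 (.cons 759 n176 .nil)
noncomputable def n178 : Strat := .move 797 n174 (.cons 837 n177 .nil)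
noncomputable def n179 : Strat := .move 838 n173 (.cons 839 n178 .nil)
noncomputable def n180 : Strat := .win 843 0 798
noncomputable def n181 : Strat := .win 677 1 676
noncomputable def n182 : Strat := .win 883 7 718
noncomputable def n183 : Strat := .move 718 n181 (.cons 677 n182 .nil)
noncomputable def n184 : Strat := .move 842 n180 (.cons 843 n183 .nil)
noncomputable def n185 : Strat := .move 759 n101 (.cons 797 n184 .nil)
noncomputable def n186 : Strat := .move 760 n176 (.cons 761 n185 .nil)
noncomputable def n187 : Strat := .move 801 n168 (.cons 838 n172 (.cons 802 n179 (.cons 839 n186 .nil)))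
noncomputable def n188 : Strat := .win 842 0 798
noncomputable def n189 : Strat := .win 844 0 799
noncomputable def n190 : Strat := .move 802 n189 (.cons 844 n171 .nil)
noncomputable def n191 : Strat := .move 843 n188 (.cons 842 n190 .nil)
noncomputable def n192 : Strat := .move 838 n174 (.cons 837 n173 .nil)
noncomputable def n193 : Strat := .win 756 2 755
noncomputable def n194 : Strat := .win 754 2 754
noncomputable def n195 : Strat := .win 795 0 795
noncomputable def n196 : Strat := .move 796 n194 (.cons 754 n195 .nil)
noncomputable def n197 : Strat := .move 755 n193 (.cons 756 n196 .nil)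
noncomputable def n198 : Strat := .move 839 n105 (.cons 838 n197 .nil)
noncomputable def n199 : Strat := .move 755 n194 (.cons 754 n193 .nil)
noncomputable def n200 : Strat := .win 839 0 795
noncomputable def n201 : Strat := .win 753 2 753
noncomputable def n202 : Strat := .win 755 2 754
noncomputable def n203 : Strat := .move 754 n201 (.cons 753 n202 .nil)
noncomputable def n204 : Strat := .move 795 n200 (.cons 839 n203 .nil)
noncomputable def n205 : Strat := .win 835 4 794
noncomputable def n206 : Strat := .win 837 4 795
noncomputable def n207 : Strat := .move 836 n205 (.cons 835 n206 .nil)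
noncomputable def n208 : Strat := .move 795 n200 (.cons 839 n207 .nil)
noncomputable def n209 : Strat := .move 796 n199 (.cons 756 n204 (.cons 754 n208 .nil))
noncomputable def n210 : Strat := .win 836 4 795
noncomputable def n211 : Strat := .win 838 4 796
noncomputable def n212 : Strat := .move 837 n210 (.cons 836 n211 .nil)
noncomputable def n213 : Strat := .move 796 n194 (.cons 754 n212 .nil)
noncomputable def n214 : Strat := .move 755 n193 (.cons 756 n213 .nil)
noncomputable def n215 : Strat := .move 797 n192 (.cons 837 n198 (.cons 838 n209 (.cons 839 n214 .nil)))
noncomputable def n216 : Strat := .move 760 n176 (.cons 761 n215 .nil)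
noncomputable def n217 : Strat := .move 842 n180 (.cons 843 n216 .nil)
noncomputable def n218 : Strat := .move 801 n168 (.cons 839 n191 (.cons 802 n217 .nil))
noncomputable def n219 : Strat := .win 801 5 757
noncomputable def n220 : Strat := .win 762 4 758
noncomputable def n221 : Strat := .move 761 n219 (.cons 801 n220 .nil)
noncomputable def n222 : Strat := .move 760 n101 (.cons 797 n221 .nil)
noncomputable def n223 : Strat := .move 759 n71 (.cons 922 n222 .nil)
noncomputable def n224 : Strat := .win 838 5 796
noncomputable def n225 : Strat := .win 878 0 878
noncomputable def n226 : Strat := .win 882 0 879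
noncomputable def n227 : Strat := .win 925 2 880
noncomputable def n228 : Strat := .move 924 n226 (.cons 882 n227 .nil)
noncomputable def n229 : Strat := .move 879 n225 (.cons 878 n228 .nil)
noncomputable def n230 : Strat := .move 796 n210 (.cons 836 n195 .nil)
noncomputable def n231 : Strat := .win 921 7 756
noncomputable def n232 : Strat := .move 756 n231 (.cons 921 n111 .nil)
noncomputable def n233 : Strat := .move 797 n230 (.cons 795 n232 .nil)
noncomputable def n234 : Strat := .move 880 n229 (.cons 879 n233 .nil)
noncomputable def n235 : Strat := .move 923 n11 (.cons 964 n234 .nil)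
noncomputable def n236 : Strat := .move 837 n224 (.cons 838 n235 .nil)
noncomputable def n237 : Strat := .move 839 n141 (.cons 963 n236 .nil)
noncomputable def n238 : Strat := .move 922 n140 (.cons 759 n237 .nil)
noncomputable def n239 : Strat := .move 800 n167 (.cons 922 n187 (.cons 759 n218 (.cons 839 n223 (.cons 801 n238 .nil))))
noncomputable def n240 : Strat := .win 716 6 716
noncomputable def n241 : Strat := .win 880 6 715
noncomputable def n242 : Strat := .win 674 6 674
noncomputable def n243 : Strat := .move 715 n241 (.cons 880 n242 .nil)
noncomputable def n244 : Strat := .move 756 n111 (.cons 755 n243 .nil)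
noncomputable def n245 : Strat := .move 757 n240 (.cons 716 n244 .nil)
noncomputable def n246 : Strat := .move 839 n142 (.cons 801 n245 .nil)
noncomputable def n247 : Strat := .move 838 n174 (.cons 837 n246 .nil)
noncomputable def n248 : Strat := .win 757 2 756
noncomputable def n249 : Strat := .move 801 n248 (.cons 757 n177 .nil)
noncomputable def n250 : Strat := .move 756 n111 (.cons 755 n249 .nil)
noncomputable def n251 : Strat := .win 675 1 674
noncomputable def n252 : Strat := .move 716 n251 (.cons 675 n164 .nil)
noncomputable def n253 : Strat := .move 839 n241 (.cons 880 n242 .nil)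
noncomputable def n254 : Strat := .win 839 6 715
noncomputable def n255 : Strat := .win 921 6 756
noncomputable def n256 : Strat := .win 920 3 756
noncomputable def n257 : Strat := .move 879 n255 (.cons 921 n256 .nil)
noncomputable def n258 : Strat := .move 880 n254 (.cons 839 n257 .nil)
noncomputable def n259 : Strat := .win 633 6 633
noncomputable def n260 : Strat := .win 839 6 674
noncomputable def n261 : Strat := .move 674 n259 (.cons 633 n260 .nil)
noncomputable def n262 : Strat := .win 632 7 632
noncomputable def n263 : Strat := .win 714 7 673
noncomputable def n264 : Strat := .move 673 n262 (.cons 632 n263 .nil)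
noncomputable def n265 : Strat := .move 674 n259 (.cons 633 n264 .nil)
noncomputable def n266 : Strat := .move 715 n253 (.cons 674 n258 (.cons 880 n261 (.cons 839 n265 .nil)))
noncomputable def n267 : Strat := .win 879 3 715
noncomputable def n268 : Strat := .move 716 n251 (.cons 675 n267 .nil)
noncomputable def n269 : Strat := .move 757 n252 (.cons 716 n266 (.cons 839 n268 .nil))
noncomputable def n270 : Strat := .move 756 n111 (.cons 755 n269 .nil)
noncomputable def n271 : Strat := .move 838 n174 (.cons 837 n270 .nil)
noncomputable def n272 : Strat := .move 715 n242 (.cons 674 n241 .nil)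
noncomputable def n273 : Strat := .move 756 n111 (.cons 755 n272 .nil)
noncomputable def n274 : Strat := .move 839 n142 (.cons 801 n273 .nil)
noncomputable def n275 : Strat := .move 838 n174 (.cons 837 n274 .nil)
noncomputable def n276 : Strat := .move 801 n173 (.cons 839 n177 .nil)
noncomputable def n277 : Strat := .move 838 n174 (.cons 837 n276 .nil)
noncomputable def n278 : Strat := .move 800 n247 (.cons 839 n250 (.cons 801 n271 (.cons 757 n275 (.cons 755 n277 .nil))))
noncomputable def n279 : Strat := .move 754 n202 (.cons 755 n201 .nil)
noncomputable def n280 : Strat := .move 795 n200 (.cons 839 n279 .nil)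
noncomputable def n281 : Strat := .move 836 n206 (.cons 837 n205 .nil)
noncomputable def n282 : Strat := .move 795 n200 (.cons 839 n281 .nil)
noncomputable def n283 : Strat := .win 920 7 755
noncomputable def n284 : Strat := .win 714 6 714
noncomputable def n285 : Strat := .move 879 n283 (.cons 920 n284 .nil)
noncomputable def n286 : Strat := .win 673 6 673
noncomputable def n287 : Strat := .win 879 6 714
noncomputable def n288 : Strat := .move 714 n286 (.cons 673 n287 .nil)
noncomputable def n289 : Strat := .win 919 3 755
noncomputable def n290 : Strat := .win 715 1 714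
noncomputable def n291 : Strat := .move 756 n289 (.cons 919 n290 .nil)
noncomputable def n292 : Strat := .win 960 3 796
noncomputable def n293 : Strat := .win 756 3 755
noncomputable def n294 : Strat := .move 919 n292 (.cons 960 n293 .nil)
noncomputable def n295 : Strat := .win 756 1 714
noncomputable def n296 : Strat := .win 674 3 673
noncomputable def n297 : Strat := .move 714 n296 (.cons 674 n286 .nil)
noncomputable def n298 : Strat := .move 715 n295 (.cons 756 n297 .nil)
noncomputable def n299 : Strat := .win 959 1 795
noncomputable def n300 : Strat := .win 877 1 754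
noncomputable def n301 : Strat := .move 918 n299 (.cons 959 n300 .nil)
noncomputable def n302 : Strat := .move 919 n292 (.cons 960 n301 .nil)
noncomputable def n303 : Strat := .move 878 n291 (.cons 715 n294 (.cons 919 n298 (.cons 756 n302 .nil)))
noncomputable def n304 : Strat := .win 878 1 714
noncomputable def n305 : Strat := .win 674 1 673
noncomputable def n306 : Strat := .move 715 n304 (.cons 878 n305 .nil)
noncomputable def n307 : Strat := .win 919 1 755
noncomputable def n308 : Strat := .move 878 n307 (.cons 919 n290 .nil)
noncomputable def n309 : Strat := .win 882 2 837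
noncomputable def n310 : Strat := .move 880 n255 (.cons 921 n309 .nil)
noncomputable def n311 : Strat := .move 756 n306 (.cons 674 n308 (.cons 878 n310 .nil))
noncomputable def n312 : Strat := .move 879 n283 (.cons 920 n311 .nil)
noncomputable def n313 : Strat := .move 838 n285 (.cons 920 n288 (.cons 879 n303 (.cons 714 n312 .nil)))
noncomputable def n314 : Strat := .move 837 n210 (.cons 836 n313 .nil)
noncomputable def n315 : Strat := .move 755 n194 (.cons 754 n314 .nil)
noncomputable def n316 : Strat := .move 796 n280 (.cons 755 n282 (.cons 839 n315 .nil))
noncomputable def n317 : Strat := .win 800 2 755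
noncomputable def n318 : Strat := .win 878 3 714
noncomputable def n319 : Strat := .move 715 n305 (.cons 674 n318 .nil)
noncomputable def n320 : Strat := .move 756 n317 (.cons 800 n319 .nil)
noncomputable def n321 : Strat := .move 837 n210 (.cons 836 n320 .nil)
noncomputable def n322 : Strat := .move 755 n194 (.cons 754 n321 .nil)
noncomputable def n323 : Strat := .move 796 n280 (.cons 755 n282 (.cons 839 n322 .nil))
noncomputable def n324 : Strat := .move 756 n111 (.cons 755 n248 .nil)
noncomputable def n325 : Strat := .move 801 n173 (.cons 839 n324 .nil)
noncomputable def n326 : Strat := .move 838 n174 (.cons 837 n325 .nil)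
noncomputable def n327 : Strat := .move 796 n210 (.cons 836 n199 .nil)
noncomputable def n328 : Strat := .move 837 n211 (.cons 838 n327 .nil)
noncomputable def n329 : Strat := .move 800 n326 (.cons 755 n277 (.cons 838 n250 (.cons 801 n328 .nil)))
noncomputable def n330 : Strat := .win 800 4 796
noncomputable def n331 : Strat := .win 882 0 837
noncomputable def n332 : Strat := .move 839 n195 (.cons 795 n331 .nil)
noncomputable def n333 : Strat := .move 838 n330 (.cons 800 n332 .nil)
noncomputable def n334 : Strat := .move 837 n210 (.cons 836 n333 .nil)
noncomputable def n335 : Strat := .move 879 n284 (.cons 714 n283 .nil)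
noncomputable def n336 : Strat := .move 838 n330 (.cons 800 n335 .nil)
noncomputable def n337 : Strat := .move 755 n194 (.cons 754 n336 .nil)
noncomputable def n338 : Strat := .move 837 n210 (.cons 836 n337 .nil)
noncomputable def n339 : Strat := .move 796 n334 (.cons 837 n280 (.cons 839 n338 .nil))
noncomputable def n340 : Strat := .move 800 n193 (.cons 756 n211 .nil)
noncomputable def n341 : Strat := .move 837 n210 (.cons 836 n340 .nil)
noncomputable def n342 : Strat := .move 796 n194 (.cons 754 n341 .nil)
noncomputable def n343 : Strat := .move 796 n194 (.cons 754 n314 .nil)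
noncomputable def n344 : Strat := .move 796 n194 (.cons 754 n321 .nil)
noncomputable def n345 : Strat := .win 753 0 753
noncomputable def n346 : Strat := .win 757 0 754
noncomputable def n347 : Strat := .move 754 n345 (.cons 753 n346 .nil)
noncomputable def n348 : Strat := .move 756 n317 (.cons 800 n347 .nil)
noncomputable def n349 : Strat := .move 837 n210 (.cons 836 n336 .nil)
noncomputable def n350 : Strat := .move 796 n194 (.cons 754 n349 .nil)
noncomputable def n351 : Strat := .win 714 7 714
noncomputable def n352 : Strat := .win 716 3 715
noncomputable def n353 : Strat := .move 757 n352 (.cons 716 n256 .nil)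
noncomputable def n354 : Strat := .move 879 n351 (.cons 714 n353 .nil)
noncomputable def n355 : Strat := .win 835 5 794
noncomputable def n356 : Strat := .win 796 4 795
noncomputable def n357 : Strat := .move 836 n355 (.cons 835 n356 .nil)
noncomputable def n358 : Strat := .move 837 n304 (.cons 878 n357 .nil)
noncomputable def n359 : Strat := .move 796 n305 (.cons 674 n210 .nil)
noncomputable def n360 : Strat := .move 837 n304 (.cons 878 n359 .nil)
noncomputable def n361 : Strat := .win 716 3 674
noncomputable def n362 : Strat := .win 634 3 633
noncomputable def n363 : Strat := .move 674 n262 (.cons 632 n362 .nil)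
noncomputable def n364 : Strat := .move 673 n263 (.cons 714 n363 .nil)
noncomputable def n365 : Strat := .move 675 n361 (.cons 716 n364 .nil)
noncomputable def n366 : Strat := .move 715 n358 (.cons 835 n360 (.cons 837 n365 .nil))
noncomputable def n367 : Strat := .win 757 3 756
noncomputable def n368 : Strat := .win 796 7 755
noncomputable def n369 : Strat := .move 920 n367 (.cons 757 n368 .nil)
noncomputable def n370 : Strat := .move 837 n210 (.cons 836 n308 .nil)
noncomputable def n371 : Strat := .move 796 n283 (.cons 920 n370 .nil)
noncomputable def n372 : Strat := .win 757 3 715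
noncomputable def n373 : Strat := .win 675 3 674
noncomputable def n374 : Strat := .win 837 1 714
noncomputable def n375 : Strat := .move 878 n307 (.cons 919 n374 .nil)
noncomputable def n376 : Strat := .move 715 n373 (.cons 675 n375 .nil)
noncomputable def n377 : Strat := .move 716 n372 (.cons 757 n376 .nil)
noncomputable def n378 : Strat := .move 879 n353 (.cons 716 n369 (.cons 757 n371 (.cons 920 n377 .nil)))
noncomputable def n379 : Strat := .move 879 n351 (.cons 714 n369 .nil)
noncomputable def n380 : Strat := .move 838 n354 (.cons 879 n366 (.cons 714 n378 (.cons 716 n379 .nil)))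
noncomputable def n381 : Strat := .move 756 n317 (.cons 800 n380 .nil)
noncomputable def n382 : Strat := .move 755 n342 (.cons 800 n343 (.cons 838 n344 (.cons 796 n348 (.cons 756 n350 (.cons 754 n381 .nil)))))
noncomputable def n383 : Strat := .move 838 n174 (.cons 837 n142 .nil)
noncomputable def n384 : Strat := .win 756 2 756
noncomputable def n385 : Strat := .move 801 n384 (.cons 756 n73 .nil)
noncomputable def n386 : Strat := .move 796 n195 (.cons 795 n210 .nil)
noncomputable def n387 : Strat := .move 837 n211 (.cons 838 n386 .nil)
noncomputable def n388 : Strat := .move 800 n383 (.cons 838 n385 (.cons 801 n387 .nil))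
noncomputable def n389 : Strat := .move 839 n240 (.cons 716 n388 .nil)
noncomputable def n390 : Strat := .move 839 n383 (.cons 838 n385 (.cons 801 n387 .nil))
noncomputable def n391 : Strat := .win 756 5 753
noncomputable def n392 : Strat := .win 752 2 752
noncomputable def n393 : Strat := .win 754 2 753
noncomputable def n394 : Strat := .move 753 n392 (.cons 752 n393 .nil)
noncomputable def n395 : Strat := .move 794 n391 (.cons 756 n394 .nil)
noncomputable def n396 : Strat := .move 795 n200 (.cons 839 n395 .nil)
noncomputable def n397 : Strat := .move 796 n210 (.cons 836 n396 .nil)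
noncomputable def n398 : Strat := .move 837 n211 (.cons 838 n397 .nil)
noncomputable def n399 : Strat := .move 801 n384 (.cons 756 n177 .nil)
noncomputable def n400 : Strat := .move 800 n390 (.cons 801 n398 (.cons 839 n399 (.cons 756 n277 .nil)))
noncomputable def n401 : Strat := .move 800 n174 (.cons 837 n19 .nil)
noncomputable def n402 : Strat := .move 756 n267 (.cons 879 n401 .nil)
noncomputable def n403 : Strat := .win 756 3 715
noncomputable def n404 : Strat := .move 879 n256 (.cons 920 n403 .nil)
noncomputable def n405 : Strat := .move 760 n176 (.cons 761 n175 .nil)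
noncomputable def n406 : Strat := .move 801 n384 (.cons 756 n405 .nil)
noncomputable def n407 : Strat := .move 800 n174 (.cons 837 n406 .nil)
noncomputable def n408 : Strat := .move 836 n356 (.cons 796 n355 .nil)
noncomputable def n409 : Strat := .move 837 n330 (.cons 800 n408 .nil)
noncomputable def n410 : Strat := .move 838 n402 (.cons 837 n404 (.cons 879 n407 (.cons 756 n409 .nil)))
noncomputable def n411 : Strat := .move 716 n163 (.cons 675 n410 .nil)
noncomputable def n412 : Strat := .move 757 n389 (.cons 837 n165 (.cons 716 n400 (.cons 839 n411 .nil)))
noncomputable def n413 : Strat := .move 801 n248 (.cons 757 n168 .nil)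
noncomputable def n414 : Strat := .move 756 n111 (.cons 755 n413 .nil)
noncomputable def n415 : Strat := .move 801 n176 (.cons 761 n168 .nil)
noncomputable def n416 : Strat := .move 760 n175 (.cons 759 n415 .nil)
noncomputable def n417 : Strat := .move 880 n17 (.cons 715 n231 .nil)
noncomputable def n418 : Strat := .move 756 n111 (.cons 755 n417 .nil)
noncomputable def n419 : Strat := .move 757 n240 (.cons 716 n418 .nil)
noncomputable def n420 : Strat := .move 839 n195 (.cons 795 n419 .nil)
noncomputable def n421 : Strat := .win 834 4 793
noncomputable def n422 : Strat := .win 836 4 794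
noncomputable def n423 : Strat := .move 835 n421 (.cons 834 n422 .nil)
noncomputable def n424 : Strat := .move 794 n392 (.cons 752 n423 .nil)
noncomputable def n425 : Strat := .move 753 n393 (.cons 754 n424 .nil)
noncomputable def n426 : Strat := .move 795 n200 (.cons 839 n425 .nil)
noncomputable def n427 : Strat := .move 796 n199 (.cons 754 n420 (.cons 755 n426 .nil))
noncomputable def n428 : Strat := .move 760 n175 (.cons 759 n427 .nil)
noncomputable def n429 : Strat := .move 800 n414 (.cons 756 n416 (.cons 839 n250 (.cons 801 n428 .nil)))
noncomputable def n430 : Strat := .move 797 n278 (.cons 800 n316 (.cons 838 n323 (.cons 715 n329 (.cons 756 n339 (.cons 839 n382 (.cons 755 n412 (.cons 837 n429 .nil)))))))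
noncomputable def n431 : Strat := .move 755 n193 (.cons 756 n194 .nil)
noncomputable def n432 : Strat := .move 796 n210 (.cons 836 n431 .nil)
noncomputable def n433 : Strat := .move 837 n211 (.cons 838 n432 .nil)
noncomputable def n434 : Strat := .move 923 n11 (.cons 964 n433 .nil)
noncomputable def n435 : Strat := .move 800 n140 (.cons 759 n434 .nil)
noncomputable def n436 : Strat := .move 922 n139 (.cons 757 n435 .nil)
noncomputable def n437 : Strat := .move 922 n140 (.cons 759 n434 .nil)
noncomputable def n438 : Strat := .move 759 n71 (.cons 922 n103 .nil)
noncomputable def n439 : Strat := .move 800 n437 (.cons 837 n438 (.cons 759 n328 .nil))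
noncomputable def n440 : Strat := .win 715 3 714
noncomputable def n441 : Strat := .move 756 n289 (.cons 919 n440 .nil)
noncomputable def n442 : Strat := .win 920 6 755
noncomputable def n443 : Strat := .win 880 0 878
noncomputable def n444 : Strat := .move 923 n443 (.cons 880 n11 .nil)
noncomputable def n445 : Strat := .move 879 n442 (.cons 920 n444 .nil)
noncomputable def n446 : Strat := .move 878 n441 (.cons 715 n445 .nil)
noncomputable def n447 : Strat := .move 922 n139 (.cons 757 n446 .nil)
noncomputable def n448 : Strat := .move 837 n210 (.cons 836 n447 .nil)
noncomputable def n449 : Strat := .move 755 n194 (.cons 754 n448 .nil)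
noncomputable def n450 : Strat := .move 795 n205 (.cons 835 n279 .nil)
noncomputable def n451 : Strat := .move 836 n206 (.cons 837 n450 .nil)
noncomputable def n452 : Strat := .move 794 n391 (.cons 756 n423 .nil)
noncomputable def n453 : Strat := .move 716 n163 (.cons 675 n452 .nil)
noncomputable def n454 : Strat := .move 795 n201 (.cons 753 n453 .nil)
noncomputable def n455 : Strat := .move 754 n202 (.cons 755 n454 .nil)
noncomputable def n456 : Strat := .move 757 n2 (.cons 922 n455 .nil)
noncomputable def n457 : Strat := .move 794 n392 (.cons 752 n391 .nil)
noncomputable def n458 : Strat := .move 753 n393 (.cons 754 n457 .nil)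
noncomputable def n459 : Strat := .move 795 n205 (.cons 835 n458 .nil)
noncomputable def n460 : Strat := .move 836 n206 (.cons 837 n459 .nil)
noncomputable def n461 : Strat := .move 716 n163 (.cons 675 n460 .nil)
noncomputable def n462 : Strat := .move 757 n2 (.cons 922 n461 .nil)
noncomputable def n463 : Strat := .win 837 6 714
noncomputable def n464 : Strat := .move 714 n463 (.cons 837 n286 .nil)
noncomputable def n465 : Strat := .move 838 n283 (.cons 920 n464 .nil)
noncomputable def n466 : Strat := .move 880 n225 (.cons 878 n228 .nil)
noncomputable def n467 : Strat := .move 879 n465 (.cons 838 n466 .nil)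
noncomputable def n468 : Strat := .move 923 n11 (.cons 964 n467 .nil)
noncomputable def n469 : Strat := .move 922 n139 (.cons 757 n468 .nil)
noncomputable def n470 : Strat := .move 755 n194 (.cons 754 n469 .nil)
noncomputable def n471 : Strat := .win 838 1 714
noncomputable def n472 : Strat := .move 715 n471 (.cons 838 n305 .nil)
noncomputable def n473 : Strat := .move 756 n289 (.cons 919 n472 .nil)
noncomputable def n474 : Strat := .win 755 6 755
noncomputable def n475 : Strat := .win 921 2 878
noncomputable def n476 : Strat := .move 920 n474 (.cons 755 n475 .nil)
noncomputable def n477 : Strat := .move 879 n443 (.cons 880 n476 .nil)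
noncomputable def n478 : Strat := .move 878 n473 (.cons 756 n477 .nil)
noncomputable def n479 : Strat := .move 923 n11 (.cons 964 n478 .nil)
noncomputable def n480 : Strat := .move 922 n139 (.cons 757 n479 .nil)
noncomputable def n481 : Strat := .move 837 n210 (.cons 836 n480 .nil)
noncomputable def n482 : Strat := .move 796 n449 (.cons 922 n315 (.cons 756 n451 (.cons 837 n456 (.cons 755 n462 (.cons 836 n470 (.cons 754 n481 .nil))))))
noncomputable def n483 : Strat := .move 800 n111 (.cons 755 n174 .nil)
noncomputable def n484 : Strat := .move 756 n267 (.cons 879 n483 .nil)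
noncomputable def n485 : Strat := .win 878 2 836
noncomputable def n486 : Strat := .move 880 n485 (.cons 878 n309 .nil)
noncomputable def n487 : Strat := .move 836 n355 (.cons 835 n486 .nil)
noncomputable def n488 : Strat := .move 879 n256 (.cons 920 n487 .nil)
noncomputable def n489 : Strat := .move 837 n330 (.cons 800 n488 .nil)
noncomputable def n490 : Strat := .win 754 0 754
noncomputable def n491 : Strat := .move 755 n317 (.cons 800 n490 .nil)
noncomputable def n492 : Strat := .move 756 n267 (.cons 879 n491 .nil)
noncomputable def n493 : Strat := .move 756 n111 (.cons 755 n19 .nil)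
noncomputable def n494 : Strat := .move 800 n174 (.cons 837 n493 .nil)
noncomputable def n495 : Strat := .move 838 n484 (.cons 756 n489 (.cons 837 n492 (.cons 800 n404 (.cons 879 n494 .nil))))
noncomputable def n496 : Strat := .move 716 n163 (.cons 675 n495 .nil)
noncomputable def n497 : Strat := .move 757 n2 (.cons 922 n496 .nil)
noncomputable def n498 : Strat := .move 757 n2 (.cons 922 n411 .nil)
noncomputable def n499 : Strat := .move 922 n140 (.cons 759 n139 .nil)
noncomputable def n500 : Strat := .move 757 n2 (.cons 922 n493 .nil)
noncomputable def n501 : Strat := .move 800 n499 (.cons 922 n250 (.cons 757 n438 (.cons 759 n500 .nil)))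
noncomputable def n502 : Strat := .move 924 n227 (.cons 925 n226 .nil)
noncomputable def n503 : Strat := .move 880 n225 (.cons 878 n502 .nil)
noncomputable def n504 : Strat := .win 921 2 879
noncomputable def n505 : Strat := .move 924 n226 (.cons 882 n504 .nil)
noncomputable def n506 : Strat := .move 880 n225 (.cons 878 n505 .nil)
noncomputable def n507 : Strat := .move 924 n227 (.cons 925 n504 .nil)
noncomputable def n508 : Strat := .move 880 n225 (.cons 878 n507 .nil)
noncomputable def n509 : Strat := .move 800 n211 (.cons 838 n140 .nil)
noncomputable def n510 : Strat := .move 796 n474 (.cons 755 n210 .nil)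
noncomputable def n511 : Strat := .move 837 n509 (.cons 759 n510 .nil)
noncomputable def n512 : Strat := .move 920 n475 (.cons 921 n511 .nil)
noncomputable def n513 : Strat := .move 878 n443 (.cons 880 n512 .nil)
noncomputable def n514 : Strat := .move 880 n227 (.cons 925 n226 .nil)
noncomputable def n515 : Strat := .move 880 n226 (.cons 882 n504 .nil)
noncomputable def n516 : Strat := .move 880 n227 (.cons 925 n504 .nil)
noncomputable def n517 : Strat := .win 882 2 881
noncomputable def n518 : Strat := .win 968 0 923
noncomputable def n519 : Strat := .win 966 0 922
noncomputable def n520 : Strat := .move 967 n518 (.cons 968 n519 .nil)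
noncomputable def n521 : Strat := .move 926 n517 (.cons 882 n520 .nil)
noncomputable def n522 : Strat := .win 967 0 922
noncomputable def n523 : Strat := .win 965 0 921
noncomputable def n524 : Strat := .move 966 n522 (.cons 967 n523 .nil)
noncomputable def n525 : Strat := .win 885 5 881
noncomputable def n526 : Strat := .win 883 5 880
noncomputable def n527 : Strat := .move 884 n525 (.cons 885 n526 .nil)
noncomputable def n528 : Strat := .move 921 n524 (.cons 965 n527 .nil)
noncomputable def n529 : Strat := .win 886 5 882
noncomputable def n530 : Strat := .win 884 5 881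
noncomputable def n531 : Strat := .move 885 n529 (.cons 886 n530 .nil)
noncomputable def n532 : Strat := .move 926 n517 (.cons 882 n531 .nil)
noncomputable def n533 : Strat := .move 925 n521 (.cons 926 n528 (.cons 966 n532 .nil))
noncomputable def n534 : Strat := .move 924 n514 (.cons 925 n515 (.cons 882 n516 (.cons 880 n533 .nil)))
noncomputable def n535 : Strat := .win 878 2 878
noncomputable def n536 : Strat := .win 883 5 879
noncomputable def n537 : Strat := .win 919 5 878
noncomputable def n538 : Strat := .move 882 n536 (.cons 883 n537 .nil)
noncomputable def n539 : Strat := .move 921 n535 (.cons 878 n538 .nil)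
noncomputable def n540 : Strat := .win 838 7 755
noncomputable def n541 : Strat := .move 755 n540 (.cons 838 n194 .nil)
noncomputable def n542 : Strat := .move 837 n210 (.cons 836 n509 .nil)
noncomputable def n543 : Strat := .win 878 6 755
noncomputable def n544 : Strat := .move 837 n543 (.cons 878 n210 .nil)
noncomputable def n545 : Strat := .move 755 n194 (.cons 754 n544 .nil)
noncomputable def n546 : Strat := .move 796 n541 (.cons 754 n542 (.cons 838 n545 .nil))
noncomputable def n547 : Strat := .win 755 7 755
noncomputable def n548 : Strat := .move 800 n174 (.cons 837 n140 .nil)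
noncomputable def n549 : Strat := .move 838 n547 (.cons 755 n548 .nil)
noncomputable def n550 : Strat := .move 795 n203 (.cons 755 n207 .nil)
noncomputable def n551 : Strat := .move 837 n211 (.cons 838 n210 .nil)
noncomputable def n552 : Strat := .move 800 n140 (.cons 759 n551 .nil)
noncomputable def n553 : Strat := .move 796 n541 (.cons 754 n549 (.cons 838 n550 (.cons 755 n552 .nil)))
noncomputable def n554 : Strat := .move 920 n539 (.cons 921 n546 (.cons 878 n553 .nil))
noncomputable def n555 : Strat := .move 879 n503 (.cons 925 n506 (.cons 882 n508 (.cons 924 n513 (.cons 878 n534 (.cons 880 n554 .nil)))))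
noncomputable def n556 : Strat := .move 923 n11 (.cons 964 n555 .nil)
noncomputable def n557 : Strat := .move 922 n139 (.cons 757 n556 .nil)
noncomputable def n558 : Strat := .move 797 n436 (.cons 922 n382 (.cons 757 n439 (.cons 800 n482 (.cons 796 n497 (.cons 755 n498 (.cons 837 n501 (.cons 756 n557 .nil)))))))
noncomputable def n559 : Strat := .move 798 n156 (.cons 838 n162 (.cons 963 n166 (.cons 757 n239 (.cons 922 n430 (.cons 839 n558 .nil)))))
noncomputable def n560 : Strat := .move 799 n35 (.cons 922 n70 (.cons 757 n81 (.cons 798 n90 (.cons 759 n94 (.cons 923 n130 (.cons 800 n136 (.cons 839 n138 (.cons 880 n153 (.cons 758 n559 .nil)))))))))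

theorem ok : checkS n560 (pairBits 840 881) (pairBits 841 962) ≠ 0 := by decide +kernel

theorem reply : MakerWins {cellOf 881, cellOf 840} {cellOf 841, cellOf 962} :=
  reply2 n560 840 881 841 962 ok

end Vale.Agent.Snaky.Cert2.R962
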